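import Vale.Agent.P202.MathlibUsed
attribute [-instance] DenselyNormedField.toNontriviallyNormedField DenselyNormedField.toNormedField NontriviallyNormedField.toNormedField RCLike.toDenselyNormedField NormedField.toField KleeneAlgebra.toIdemSemiring SemiRingCat.instSemiringObjForgetRingHomCarrier Pi.preorder LieAlgebra.toModule CommSemiRingCat.instCommSemiringObjForgetRingHomCarrier instCoeT instCoeTOfCoeDep SemimoduleCat.isAddCommMonoid MonCat.monoidObj NormedField.toNormedCommRing LinearOrderedAddCommGroupWithTop.instLinearOrderedAddCommMonoidWithTop NormedCommRing.toNormedRing NormedDivisionRing.toNormedRing LinearOrderedAddCommGroupWithTop.toAddCommMonoid LieRing.toAddCommGroup instCoeTC instCoeTCOfCoe CompleteAtomicBooleanAlgebra.toCompleteBooleanAlgebra instCoeHTC instCoeHTCT Invertible.toNeZero NeZero.of_gt' Nat.AtLeastTwo.toNeZero NormedRing.toSeminormedRing EuclideanDomain.toCommRing NormedCommRing.toCommRing SeminormedCommRing.toCommRing ModuleCat.isModule Pi.nonUnitalNonAssocSemiring RingCat.instRingObjForgetRingHomCarrier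 CompleteAtomicBooleanAlgebra.toCompletelyDistribLattice Ideal.Quotient.instIsPrimeQuotientMapRingHomAlgebraMapMkOfLiesOver AbsoluteValue.funLike NormedCommRing.toNonUnitalNormedCommRing NormedRing.toRing SeminormedRing.toRing NonUnitalNormedCommRing.toNonUnitalNormedRing NormedRing.toNonUnitalNormedRing instCoeLieSubalgebraSubmodule LieSubalgebra.lieRing CompleteBooleanAlgebra.toBooleanAlgebra CompleteBooleanAlgebra.toCompleteDistribLattice CompletelyDistribLattice.toCompleteDistribLattice Nat.instAtLeastTwoHAddOfNat Nat.Prime.one_lt' NonUnitalNormedCommRing.toNonUnitalSeminormedCommRing Pi.instTopForall CompleteBooleanAlgebra.toCompleteLattice Filter.instMembership NonUnitalNormedRing.toNonUnitalSeminormedRing SeminormedRing.toNonUnitalSeminormedRing BooleanAlgebra.toBiheytingAlgebra CompleteDistribLattice.toBiheytingAlgebra CompleteDistribLattice.toCoframe CompleteDistribLattice.toFrame CompleteLinearOrder.toBiheytingAlgebra CompletelyDistribLattice.toBiheytingAlgebra CommRing.toAddCommGroupWithOne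 NonAssocRing.toAddCommGroupWithOne NonUnitalNormedRing.toNormedAddCommGroup NonUnitalNormedCommRing.toNonUnitalCommRing NonUnitalSeminormedCommRing.toNonUnitalCommRing CommSemiring.toNonAssocCommSemiring NonAssocCommRing.toNonAssocCommSemiring NonAssocCommSemiring.toNonAssocSemiring NonAssocRing.toNonAssocSemiring Pi.instFintype Nat.instNontrivial LinearOrderedCommGroupWithZero.toLinearOrderedCommMonoidWithZero NonAssocCommRing.toNonUnitalNonAssocCommRing Fin.completeLinearOrder AddCommGroupWithOne.toAddCommMonoidWithOne NonUnitalCommRing.toNonUnitalRing NonUnitalNormedRing.toNonUnitalRing NonUnitalSeminormedRing.toNonUnitalRing Ring.toNonUnitalRing NonUnitalRing.toNonUnitalNonAssocRing NormedCommGroup.toNormedGroup BiheytingAlgebra.toCoheytingAlgebra BiheytingAlgebra.toHeytingAlgebra BooleanAlgebra.toGeneralizedBooleanAlgebra CompleteLinearOrder.toCompleteLattice Order.Coframe.toCoheytingAlgebra Order.Coframe.toCompleteLattice Order.Frame.toCompleteLattice Order.Frame.toHeytingAlgebra NonUnitalRing.toNonUnitalSemiring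 Semiring.toNonUnitalSemiring NonAssocCommSemiring.toNonUnitalNonAssocCommSemiring NonUnitalNonAssocCommSemiring.toNonUnitalNonAssocSemiring NormedCommGroup.toSeminormedCommGroup Pi.seminormedAddCommGroup LinearOrderedAddCommGroupWithTop.toSubNegMonoid NormedGroup.toSeminormedGroup SeminormedCommGroup.toSeminormedGroup CoheytingAlgebra.toGeneralizedCoheytingAlgebra GeneralizedBooleanAlgebra.toGeneralizedCoheytingAlgebra HeytingAlgebra.toGeneralizedHeytingAlgebra ModuleCat.instAddCommGroupCarrierMkOfSMul' NormedCommGroup.toCommGroup SeminormedCommGroup.toCommGroup GradedMonoid.GradeZero.smul NormedAddCommGroup.toSeminormedAddCommGroup Pi.instZero CommGroup.toGroup NormedGroup.toGroup SeminormedGroup.toGroup Fin.instBiheytingAlgebra AddCommGroupWithOne.toAddGroupWithOne NormedAddCommGroup.toNormedAddGroup Pi.partialOrder OrderDual.instPow_1 Pi.addZeroClass Polynomial.distribMulAction instConditionallyCompletePartialOrderSup CompleteLattice.toCompleteSemilatticeSup ConditionallyCompletePartialOrder.toConditionallyCompletePartialOrderSup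 Std.DTreeMap.Raw.instSingletonSigma MulSemiringAction.toDistribMulAction CompleteLinearOrder.toLinearOrder ConditionallyCompleteLinearOrder.toLinearOrder LinearOrderedAddCommGroupWithTop.toLinearOrder LinearOrderedAddCommMonoidWithTop.toLinearOrder LinearOrderedCommMonoidWithZero.toLinearOrder Pi.instMaxForall_mathlib instSubsingleton IsEmpty.instSubsingleton Unique.instSubsingleton Pi.instSemilatticeSup AddMonCat.addMonoidObj BooleanAlgebra.toDistribLattice ChainCompletePartialOrder.instOfCompleteLattice ChainCompletePartialOrder.instOmegaCompletePartialOrder ChainCompletePartialOrder.toPartialOrder CompleteLattice.toLattice CompletePartialOrder.toOmegaCompletePartialOrder CompleteSemilatticeInf.toPartialOrder CompleteSemilatticeSup.toPartialOrder ConditionallyCompletePartialOrderInf.toPartialOrder ConditionallyCompletePartialOrderSup.toPartialOrder GeneralizedBooleanAlgebra.toDistribLattice GeneralizedCoheytingAlgebra.toDistribLattice GeneralizedCoheytingAlgebra.toLattice GeneralizedHeytingAlgebra.toDistribLattice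 GeneralizedHeytingAlgebra.toLattice OmegaCompletePartialOrder.toPartialOrder Order.Coframe.toDistribLattice Order.Frame.toDistribLattice Fintype.decidablePiFintype Valued.toUniformSpace LinearOrderedCommGroupWithZero.toCommGroupWithZero NumberField.to_charZero NormedAlgebra.toAlgebra ENormedAddCommMonoid.toESeminormedAddCommMonoid NormedAddCommGroup.toENormedAddCommMonoid LinOrd.str AddCommGroupWithOne.toAddCommGroup NormedAddCommGroup.toAddCommGroup NormedAddGroup.toSeminormedAddGroup SeminormedAddCommGroup.toSeminormedAddGroup Fin.instCoheytingAlgebra Fin.instHeytingAlgebra ContinuousAddMonoidHom.instCoeOutOfAddMonoidHomClassOfContinuousMapClass ContinuousMonoidHom.instCoeOutOfMonoidHomClassOfContinuousMapClass HomeomorphClass.instCoeOutHomeomorph IsometryClass.instCoeOutIsometryEquiv instOfNatAtLeastTwo instIsDedekindDomainOfIsDomainOfIsDedekindRing IsDedekindDomainDvr.isDedekindDomain TwoSidedIdeal.instIsTwoSidedCoeOrderHomIdealAsIdeal ENormedCommMonoid.toESeminormedCommMonoid NormedAddGroup.toAddGroup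 NormedCommGroup.toENormedCommMonoid SeminormedAddGroup.toAddGroup Pi.topologicalSpace instIsDomain DivisionRing.isDomain EuclideanDomain.instIsDomain Field.isDomain IsDedekindDomain.toIsDomain IsStrictOrderedRing.isDomain instNonUnitalAlgHomClassOfNonUnitalAlgEquivClass AlgHom.instNonUnitalAlgHomClassOfAlgHomClass boolToProp AddGrpCat.str OrderRingHom.instRingHomClass CompleteLattice.toPartialOrder' LinearOrder.toLattice Part.ofOptionDecidable AddCancelCommMonoid.toAddCommMonoid AddCommGroup.toAddCancelCommMonoid ESeminormedAddCommMonoid.toAddCommMonoid LinearOrderedAddCommGroupWithTop.toSubtractionMonoid instNeZeroNatHAdd Pi.instBotForall AddOpposite.instAddZero AddCancelCommMonoid.toAddCancelMonoid AddCancelMonoid.toAddLeftCancelMonoid AddLeftCancelMonoid.toAddMonoid AddRightCancelMonoid.toAddMonoid ENormedAddCommMonoid.toENormedAddMonoid ENormedAddMonoid.toESeminormedAddMonoid ESeminormedAddCommMonoid.toESeminormedAddMonoid ESeminormedAddMonoid.toAddMonoid NormedAddGroup.toENormedAddMonoid Pi.nonUnitalSemiring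 instNonemptyOfMonad CommGroupWithZero.toCommMonoidWithZero LinearOrderedCommMonoidWithZero.toCommMonoidWithZero Torsor.toMulAction GradedMonoid.GradeZero.mulAction CategoryTheory.instFinCategoryOfFintypeOfIsThin SetLike.instFintype Unique.fintype CategoryTheory.FinCategory.fintypeObj Field.toGrindField CommMonoidWithZero.toMonoidWithZero IsRegularLocalRing.instOfIsLocalRingOfIsDomainOfIsPrincipalIdealRing CommGroup.toDivisionCommMonoid CommRing.toGrindCommRing DivInvOneMonoid.toDivInvMonoid DivisionRing.toDivInvMonoid Group.toDivInvMonoid Group.toDivisionMonoid GroupWithZero.toDivisionMonoid Ring.toGrindRing instSMulZeroClass Field.henselian Field.instIsLocalRing HenselianLocalRing.toIsLocalRing IsDiscreteValuationRing.toIsLocalRing IsRegularLocalRing.toIsLocalRing ValuationRing.isLocalRing OrderAddMonoidHom.instAddMonoidHomClass Pi.mulZeroOneClass AddCommGroup.toGrindIntModule MonoidWithZero.toSemigroupWithZero instDistribSMul CancelCommMonoid.toCancelMonoid CancelCommMonoid.toCommMonoid CancelCommMonoid.toLeftCancelMonoid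 CancelMonoid.toLeftCancelMonoid CancelMonoid.toRightCancelMonoid CommGroup.toCancelCommMonoid CommGroup.toCommMonoid CommMonoidWithZero.toCommMonoid CommSemiring.toGrindCommSemiring DivisionCommMonoid.toCommMonoid ENormedCommMonoid.toENormedMonoid ENormedMonoid.toESeminormedMonoid ESeminormedCommMonoid.toCommMonoid ESeminormedCommMonoid.toESeminormedMonoid ESeminormedMonoid.toMonoid Group.toCancelMonoid LeftCancelMonoid.toMonoid NormedGroup.toENormedMonoid RightCancelMonoid.toMonoid SemigroupWithZero.toMulZeroClass Semiring.toGrindSemiring GradedMonoid.GradeZero.commMonoid GradedMonoid.GradeZero.monoid instInhabitedOfMonad EMetricSpace.toPseudoEMetricSpace MetricSpace.toEMetricSpace MetricSpace.toPseudoMetricSpace NonUnitalNormedRing.toMetricSpace NonUnitalSeminormedRing.toPseudoMetricSpace NormedAddCommGroup.toMetricSpace NormedAddGroup.toMetricSpace NormedCommGroup.toMetricSpace NormedDivisionRing.toMetricSpace NormedField.toMetricSpace NormedGroup.toMetricSpace NormedRing.toMetricSpace PseudoEMetricSpace.toUniformSpace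 PseudoMetricSpace.toPseudoEMetricSpace SeminormedAddCommGroup.toPseudoMetricSpace SeminormedAddGroup.toPseudoMetricSpace SeminormedCommGroup.toPseudoMetricSpace SeminormedGroup.toPseudoMetricSpace SeminormedRing.toPseudoMetricSpace Unique.instInhabited WithIdeal.instTopologicalSpace WithIdeal.instUniformSpace instNontrivialOfCharZero DivisionRing.toNontrivial IsOrderedRing.toIsStrictOrderedRing IsSimpleOrder.toNontrivial LinearOrderedAddCommGroupWithTop.toNontrivial AddCommMonoid.toGrindNatModule Preorder.smallCategory Torsor.nonempty CategoryTheory.Groupoid.toCategory CategoryTheory.IsConnected.is_nonempty CategoryTheory.StrictBicategory.category Std.Time.WallTime.instHAddOffset_1 instInfiniteOfUncountable Denumerable.instInfinite Infinite.instNontrivial IsAlgClosed.instInfinite IsSimpleAddGroup.toNontrivial IsSimpleGroup.toNontrivial IsSimpleRing.instNontrivial IsStrictOrderedRing.toNontrivial bot_nonempty infSet_to_nonempty supSet_to_nonempty top_nonempty ConnectedSpace.toNonempty IrreducibleSpace.toNonempty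 MulZeroClass.negZeroClass One.instNonempty Zero.instNonempty instFiniteProp Pi.mulOneClass CategoryTheory.isConnected_of_nonempty_and_subsingleton Group.instTorsor One.ofOfNat1 Zero.ofOfNat0 OrderDual.instDivisionSemiring IsStrictOrderedRing.toCharZero RCLike.charZero_rclike BooleanAlgebra.toBot BooleanAlgebra.toBoundedOrder BooleanAlgebra.toTop BoundedOrder.toOrderTop CoheytingAlgebra.toBoundedOrder CoheytingAlgebra.toOrderTop CompletePartialOrder.toOrderBot CompletePartialOrder.toSupSet CompleteSemilatticeInf.toInfSet CompleteSemilatticeSup.toSupSet ConditionallyCompleteLattice.toInfSet ConditionallyCompleteLattice.toSupSet ConditionallyCompleteLinearOrderBot.toOrderBot ConditionallyCompletePartialOrderSup.toSupSet GeneralizedBooleanAlgebra.toBot GeneralizedBooleanAlgebra.toOrderBot GeneralizedCoheytingAlgebra.toOrderBot GeneralizedHeytingAlgebra.toOrderTop HeytingAlgebra.toBoundedOrder HeytingAlgebra.toOrderBot IdemSemiring.toOrderBot IrreducibleSpace.connectedSpace LinearOrderedAddCommGroupWithTop.toOrderTop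 LinearOrderedAddCommMonoidWithTop.toOrderTop LinearOrderedCommMonoidWithZero.toOrderBot PathConnectedSpace.connectedSpace MonomialOrder.orderBot AlgEquivClass.toAlgHomClass CommMonCat.str OrderDual.instDivisionRing MulSemiringAction.toMulDistribMulAction Pi.subtractionMonoid MulSemiringActionSemiHomClass.toDistribMulActionSemiHomClass NonUnitalAlgSemiHomClass.toDistribMulActionSemiHomClass AlgHomClass.linearMapClass ContinuousSemilinearEquivClass.continuousSemilinearMapClass ContinuousSemilinearMapClass.toSemilinearMapClass NonUnitalAlgHomClass.instLinearMapClass NonUnitalAlgHomClass.instSemilinearMapClassOfNonUnitalAlgSemiHomClassToMonoidHomRingHom RingHomClass.toLinearMapClassNNRat RingHomClass.toLinearMapClassRat SemilinearEquivClass.instSemilinearMapClass SemilinearIsometryClass.toContinuousSemilinearMapClass SemilinearIsometryClass.toSemilinearMapClass TopologicalSpace.Compacts.instSetLike Pi.commMagma Fin.addCommGroup Fin.addCommMonoid Pi.mulZeroClass SetLike.instFinite instTopologicalSpaceFin Fin.instBoundedOrder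 Fin.instCommMonoid Fin.instNontrivial Fin.instPartialOrder NormedSpace.instPathConnectedSpace Module.toMulActionWithZero MonoidWithZero.toMulActionWithZero Pi.divInvMonoid Pi.semigroup Pi.instCanonicallyOrderedAddForall IdemSemiring.toMulLeftMono IsOrderedCancelMonoid.toIsOrderedMonoid IsOrderedMonoid.toIsOrderedCancelMonoid IsOrderedMonoid.toMulLeftMono LinearOrderedCommMonoidWithZero.toIsOrderedMonoid coePNatNat Nat.Primes.coeNat Nat.Primes.coePNat ValuationClass.toMonoidWithZeroHomClass Set.instAddLeftMono IsRegularRing.toIsNoetherian instIsSemisimpleModuleOfIsSimpleModule instIsSimpleModule NumberField.instFiniteDimensional Array.instDecidableExistsAndMemOfDecidablePred Finset.decidableDExistsFinset Finset.decidableExistsAndFinset Finset.decidableExistsAndFinsetCoe List.decidableBEx Multiset.decidableDexistsMultiset Option.decidableExistsMem Vector.instDecidableExistsAndMemOfDecidablePred Pi.instOrderTop IsStrictOrderedRing.noZeroDivisors NormMulClass.toNoZeroDivisors instIsNoetherianRingOfIsArtinianRing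 IsDedekindDomainDvr.toIsNoetherian IsDedekindRing.toIsNoetherian IsRegularLocalRing.toIsNoetherian IsSimpleModule.instIsNoetherian Ring.HasFiniteQuotients.instIsNoetherianRing instUniqueUnitsOfSubsingleton CanonicallyOrderedCommMonoid.toUniqueUnits isNoetherian_of_finite isNoetherian_of_subsingleton IsSemisimpleModule.instIsNoetherianOfFinite PrincipalIdealRing.isNoetherianRing MulZeroClass.toSMulWithZero exists_prop_decidable SubfieldClass.toSubringClass AddHom.addHomClass MulActionWithZero.toMulAction MulActionWithZero.toSMulWithZero MulDistribMulAction.toMulAction SMulWithZero.toSMulZeroClass Algebra.IsFiniteSplit.instOfIsSepClosedOfEssFiniteTypeOfFormallyEtale LieAlgebra.ofAssociativeAlgebra WithTop.instIsBotZeroClass instCoeOutOfCoeFun AddGroupWithOne.toIntCast DivisionRing.toNNRatCast DivisionRing.toRatCast DivisionSemiring.toNNRatCast Pi.divisionCommMonoid instNontrivialCarrierObjModuleCatOfFullOfFaithful MulOpposite.instMulOne MulCharClass.toMonoidHomClass MulDistribMulActionSemiHomClass.toMonoidHomClass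 instIsCancelMulZero_1 GCDMonoid.toIsCancelMulZero GroupWithZero.noZeroDivisors IsDomain.toIsCancelMulZero IsLeftCancelMulZero.to_noZeroDivisors IsRightCancelMulZero.to_noZeroDivisors NoZeroDivisors.to_isCancelMulZero Subsingleton.to_isCancelMulZero UniqueFactorizationMonoid.toIsCancelMulZero Ideal.Quotient.normedCommRing Ideal.Quotient.semiNormedCommRing instFiniteOfFinitePresentation instFinitePresentation Algebra.instFiniteOfIsQuadraticExtension FiniteDimensional.finiteDimensional_self Module.instFiniteDimensionalOfIsReflexive Algebra.IsFiniteSplit.instFinitePresentation Module.Finite.of_finite Module.Finite.self RingHom.Finite.instFinite of_isDiscreteValuationRing Submodule.instUniqueOfSubsingleton Submodule.unique' ValuationRing.instOfIsLocalRingOfIsBezout ValuationRing.of_field ValuationRing.toPreValuationRing instCoeHTCTOfCoeTailOfCoeHTC instCoeTailIntOfIntCast instCoeTailNatOfNatCast instCoeTailRatOfRatCast LinearMapClass.instCoeToLinearMap NNRatCast.toCoeTail NonUnitalStarRingHomClass.instCoeHeadNonUnitalStarRingHom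 SemilinearMapClass.instCoeToSemilinearMap StarAlgEquivClass.instCoeHead StarRingEquivClass.instCoeHead OrderDual.noTopOrder Vector.instHMul UniformSpace.Completion.instField decidableEq_of_subsingleton RCLike.toDecidableEq ValuationRing.instLinearOrderIdealOfDecidableLE instSMulCommClassOfIsScalarTower Pi.nonAssocRing Finsupp.instHasAntidiagonal instMonadLiftT instMonadLiftTOfMonadLift NonUnitalAlgHomClass.toNonUnitalRingHomClass RingEquivClass.toNonUnitalRingHomClass InnerProductSpace.toNormedSpace NormedField.toNormedSpace Pi.nonUnitalNonAssocRing AbsoluteValue.mulHomClass Monoid.End.instMonoidHomClass Pi.addSemigroup Polynomial.instMulSemiringAction Pi.addGroupWithOne FiniteDimensional.finiteDimensional_quotient IsDedekindDomain.isDedekindDomainDvr IsDedekindDomain.toIsDedekindRing MulEquivClass.toMonoidWithZeroHomClass MulRingSeminormClass.toMonoidWithZeroHomClass SubringClass.toNegMemClass SemilinearIsometryEquivClass.toSemilinearIsometryClass SemilinearMapClass.toAddHomClass NonUnitalAlgSemiHomClass.toMulHomClass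 Pi.instOne isPurelyInseparable_self Algebra.isSeparable_self IsAlgClosed.instIsAlgClosure IsAlgClosure.isAlgebraic IsAlgClosure.separable IsGalois.to_isSeparable IsPurelyInseparable.isIntegral IsSepClosure.isAlgClosure_of_perfectField IsSepClosure.isAlgClosure_of_perfectField_top IsSepClosure.isSeparable Normal.toIsAlgebraic Algebra.IsAlgebraic.isPurelyInseparable_of_isSepClosed Algebra.IsAlgebraic.isSeparable_of_perfectField Algebra.IsSeparable.isAlgebraic Algebra.IsSeparable.of_integral -- iprune

set_option linter.all false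

section

/-!
Flatness lemmas.
-/

namespace Vale.Agent.P202

open Submodule TensorProduct

section functional
variable {A : Type*} [CommRing A] {V : Type*} [AddCommGroup V] [Module A V]

lemma exists_functional (m : Ideal A) [m.IsMaximal] (W : Submodule A V)
    (hmW : m • (⊤ : Submodule A V) ≤ W) {u : V} (hu : u ∉ W) :
    ∃ ψ : V →ₗ[A] A ⧸ m, (∀ w ∈ W, ψ w = 0) ∧ ψ u = 1 := by
  letI : Field (A ⧸ m) := Ideal.Quotient.field m
  have htor : Module.IsTorsionBySet A (V ⧸ W) m := by
    intro x r
    obtain ⟨x, rfl⟩ := Submodule.Quotient.mk_surjective _ x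
    change Submodule.Quotient.mk (r.1 • x) = _
    rw [Submodule.Quotient.mk_eq_zero]
    exact hmW (Submodule.smul_mem_smul r.2 Submodule.mem_top)
  letI : Module (A ⧸ m) (V ⧸ W) := htor.module
  haveI : IsScalarTower A (A ⧸ m) (V ⧸ W) := htor.isScalarTower
  have hne : (Submodule.Quotient.mk u : V ⧸ W) ≠ 0 := by
    rwa [Ne, Submodule.Quotient.mk_eq_zero]
  have hex : ∃ φ : Module.Dual (A ⧸ m) (V ⧸ W), φ (Submodule.Quotient.mk u) ≠ 0 := by
    by_contra hcon
    push Not at hcon
    exact hne ((Module.forall_dual_apply_eq_zero_iff (A ⧸ m) _).mp hcon)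
  obtain ⟨φ, hφ⟩ := hex
  set a := φ (Submodule.Quotient.mk u) with ha
  refine ⟨((a⁻¹ • φ).restrictScalars A).comp W.mkQ, ?_, ?_⟩
  · intro w hw
    have : (Submodule.Quotient.mk w : V ⧸ W) = 0 := (Submodule.Quotient.mk_eq_zero _).mpr hw
    simp [this]
  · simp only [LinearMap.comp_apply, Submodule.mkQ_apply, LinearMap.restrictScalars_apply,
      LinearMap.smul_apply, ← ha, smul_eq_mul]
    exact inv_mul_cancel₀ hφ

/-- key flatness statement. -/
lemma mem_of_smul_mem [Module.Flat A V] (m : Ideal A) [m.IsMaximal] {I I' : Ideal A}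
    (hII : I ≤ I') (hm : m * I' ≤ I) (W : Submodule A V)
    (hmW : m • (⊤ : Submodule A V) ≤ W) {u : V} (hu : u ∉ W) {w : A} (hw : w ∈ I')
    (h : w • u ∈ I' • W ⊔ I • (⊤ : Submodule A V)) : w ∈ I := by
  obtain ⟨ψ, hψ0, hψ1⟩ := exists_functional m W hmW hu
  -- the bilinear map
  let q : I' →ₗ[A] (I' ⧸ (I.submoduleOf I')) := Submodule.mkQ _
  have hker : m ≤ LinearMap.ker (LinearMap.toSpanSingleton A (I' →ₗ[A] (I' ⧸ (I.submoduleOf I'))) q) := by
    intro r hr
    rw [LinearMap.mem_ker, LinearMap.toSpanSingleton_apply]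
    ext z
    simp only [LinearMap.smul_apply, LinearMap.zero_apply]
    change Submodule.Quotient.mk (r • z) = 0
    rw [Submodule.Quotient.mk_eq_zero]
    exact hm (Ideal.mul_mem_mul hr z.2)
  let β : (A ⧸ m) →ₗ[A] (I' →ₗ[A] (I' ⧸ (I.submoduleOf I'))) := m.liftQ _ hker
  have hβ1 : β 1 = q := by
    change β (Submodule.Quotient.mk 1) = q
    rw [Submodule.liftQ_apply, LinearMap.toSpanSingleton_apply, one_smul]
  let g : (I' ⊗[A] V) →ₗ[A] (I' ⧸ (I.submoduleOf I')) := TensorProduct.lift (β ∘ₗ ψ).flip
  have hg : ∀ (z : I') (v : V), g (z ⊗ₜ v) = β (ψ v) z := by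
    intro z v
    simp [g]
  let e : (I' ⊗[A] V) →ₗ[A] V :=
    TensorProduct.lift ((LinearMap.lsmul A V).comp (Submodule.subtype I'))
  have he : ∀ (z : I') (v : V), e (z ⊗ₜ v) = (z : A) • v := by
    intro z v
    simp [e]
  have hinj : Function.Injective e := by
    have h1 := Module.Flat.rTensor_preserves_injective_linearMap (M := V)
      (Submodule.subtype I') (Submodule.subtype_injective I')
    have h2 : e = (TensorProduct.lid A V).toLinearMap ∘ₗ
        (LinearMap.rTensor V (Submodule.subtype I')) := by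
      ext z v
      simp [e]
    rw [h2]
    exact (TensorProduct.lid A V).injective.comp h1
  -- elements of `I' W + I V` come from elements killed by `g`
  have hS : I' • W ⊔ I • (⊤ : Submodule A V) ≤ Submodule.map e (LinearMap.ker g) := by
    rw [sup_le_iff]
    constructor
    · rw [Submodule.smul_le]
      intro r hr n hn
      refine ⟨(⟨r, hr⟩ : I') ⊗ₜ n, ?_, by rw [he]⟩
      rw [SetLike.mem_coe, LinearMap.mem_ker, hg, hψ0 n hn, map_zero, LinearMap.zero_apply]
    · rw [Submodule.smul_le]
      intro r hr n _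
      refine ⟨(⟨r, hII hr⟩ : I') ⊗ₜ n, ?_, by rw [he]⟩
      rw [SetLike.mem_coe, LinearMap.mem_ker, hg]
      obtain ⟨c, hc⟩ := Ideal.Quotient.mk_surjective (ψ n)
      rw [← hc]
      change β (Submodule.Quotient.mk c) _ = 0
      rw [Submodule.liftQ_apply, LinearMap.toSpanSingleton_apply, LinearMap.smul_apply]
      change Submodule.Quotient.mk (c • (⟨r, hII hr⟩ : I')) = 0
      rw [Submodule.Quotient.mk_eq_zero]
      exact I.mul_mem_left c hr
  obtain ⟨z, hz, hze⟩ := hS h
  have hz' : z = (⟨w, hw⟩ : I') ⊗ₜ u := by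
    apply hinj
    rw [hze, he]
  rw [SetLike.mem_coe, LinearMap.mem_ker, hz', hg, hψ1, hβ1] at hz
  have hz2 : (Submodule.Quotient.mk (⟨w, hw⟩ : I') : I' ⧸ (I.submoduleOf I')) = 0 := hz
  rw [Submodule.Quotient.mk_eq_zero] at hz2
  exact hz2

end functional

end Vale.Agent.P202
end

section

/-!
Basic length identities for quotients of a commutative ring.
-/

namespace Vale.Agent.P202

open Ideal

variable {A : Type*} [CommRing A]

/-- `col I x = (I : x)`. -/
def col (I : Ideal A) (x : A) : Ideal A := Submodule.comap (LinearMap.toSpanSingleton A A x) I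

@[simp] lemma mem_col {I : Ideal A} {x a : A} : a ∈ col I x ↔ a * x ∈ I := by
  simp [col, LinearMap.toSpanSingleton_apply]

lemma le_col (I : Ideal A) (x : A) : I ≤ col I x := fun a ha => by
  rw [mem_col]; exact Ideal.mul_mem_right _ _ ha

lemma col_mono {I J : Ideal A} (h : I ≤ J) (x : A) : col I x ≤ col J x := fun a ha => by
  rw [mem_col] at ha ⊢; exact h ha

lemma col_eq_top_iff {I : Ideal A} {x : A} : col I x = ⊤ ↔ x ∈ I := by
  rw [Ideal.eq_top_iff_one, mem_col, one_mul]

/-- length of a cyclic module `A/I`. -/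
noncomputable def ell (I : Ideal A) : ℕ∞ := Module.length A (A ⧸ I)

lemma ell_mono {I J : Ideal A} (h : I ≤ J) : ell J ≤ ell I := by
  refine Module.length_le_of_surjective (Submodule.factor h) (Submodule.factor_surjective h)

lemma ell_top : ell (⊤ : Ideal A) = 0 := by
  have : Subsingleton (A ⧸ (⊤ : Ideal A)) := Ideal.Quotient.subsingleton_iff.mpr rfl
  exact Module.length_eq_zero

lemma ell_eq_zero_iff {I : Ideal A} : ell I = 0 ↔ I = ⊤ := by
  rw [ell, Module.length_eq_zero_iff, Ideal.Quotient.subsingleton_iff]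

lemma one_le_ell {I : Ideal A} (h : I ≠ ⊤) : 1 ≤ ell I :=
  Order.one_le_iff_ne_zero.mpr fun h' => h (ell_eq_zero_iff.mp h')

/-- `ℓ(A/I) = ℓ(A/(I:x)) + ℓ(A/(I + xA))`. -/
lemma ell_eq_add (I : Ideal A) (x : A) : ell I = ell (col I x) + ell (I ⊔ Ideal.span {x}) := by
  let f : (A ⧸ col I x) →ₗ[A] (A ⧸ I) :=
    Submodule.mapQ (col I x) I (LinearMap.toSpanSingleton A A x)
      (fun a ha => by simpa [LinearMap.toSpanSingleton_apply] using ha)
  let g : (A ⧸ I) →ₗ[A] (A ⧸ (I ⊔ Ideal.span {x})) := Submodule.factor le_sup_left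
  refine Module.length_eq_add_of_exact f g ?_ (Submodule.factor_surjective _) ?_
  · rw [injective_iff_map_eq_zero]
    intro z
    obtain ⟨z, rfl⟩ := Submodule.Quotient.mk_surjective _ z
    intro hz
    have hz' : (Submodule.Quotient.mk (z • x) : A ⧸ I) = 0 := hz
    rw [Submodule.Quotient.mk_eq_zero] at hz' ⊢
    simpa using hz'
  · rw [LinearMap.exact_iff]
    ext z
    obtain ⟨z, rfl⟩ := Submodule.Quotient.mk_surjective _ z
    constructor
    · intro hz
      have hz' : z ∈ I ⊔ Ideal.span {x} := by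
        have : Submodule.Quotient.mk z = (0 : A ⧸ (I ⊔ Ideal.span {x})) := hz
        exact (Submodule.Quotient.mk_eq_zero _).mp this
      obtain ⟨a, ha, b, hb, rfl⟩ := Submodule.mem_sup.mp hz'
      obtain ⟨c, rfl⟩ := Ideal.mem_span_singleton'.mp hb
      refine ⟨Submodule.Quotient.mk c, ?_⟩
      change Submodule.Quotient.mk (c • x) = _
      rw [Submodule.Quotient.eq]
      simpa using ha
    · rintro ⟨c, hc⟩
      obtain ⟨c, rfl⟩ := Submodule.Quotient.mk_surjective _ c
      rw [← hc]
      change Submodule.Quotient.mk (c • x) = (0 : A ⧸ (I ⊔ Ideal.span {x}))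
      rw [Submodule.Quotient.mk_eq_zero]
      exact Ideal.mem_sup_right (Ideal.mul_mem_left _ _ (Ideal.mem_span_singleton_self x))

end Vale.Agent.P202
end

section

/-!
Comparison of lengths along surjective ring maps and other elementary facts about `ell`.
-/

namespace Vale.Agent.P202

open Ideal

variable {A B : Type*} [CommRing A] [CommRing B]

lemma ell_comap_of_surjective (f : A →+* B) (hf : Function.Surjective f) (J : Ideal B) :
    ell (J.comap f) = ell J := by
  letI := f.toAlgebra
  have h1 : Module.length A (B ⧸ J) = Module.length B (B ⧸ J) := by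
    refine Module.length_eq_of_surjective ?_
    exact hf
  unfold ell
  rw [← h1]
  let g : A →ₗ[A] (B ⧸ J) := (Submodule.mkQ (J.restrictScalars A)).comp (Algebra.linearMap A B)
  have hg : Function.Surjective g := by
    intro z
    obtain ⟨z, rfl⟩ := Submodule.Quotient.mk_surjective _ z
    obtain ⟨a, ha⟩ := hf z
    exact ⟨a, by subst ha; rfl⟩
  have hk : LinearMap.ker g = J.comap f := by
    ext a
    rw [LinearMap.mem_ker, Ideal.mem_comap]
    change Submodule.Quotient.mk (f a) = (0 : B ⧸ J) ↔ _
    rw [Submodule.Quotient.mk_eq_zero]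
  have e : (A ⧸ (J.comap f)) ≃ₗ[A] (B ⧸ J) :=
    (Submodule.quotEquivOfEq _ _ hk.symm).trans (g.quotKerEquivOfSurjective hg)
  exact e.length_eq

lemma ell_map_of_surjective (f : A →+* B) (hf : Function.Surjective f) (I : Ideal A) :
    ell (I.map f) = ell (I ⊔ RingHom.ker f) := by
  rw [← ell_comap_of_surjective f hf, Ideal.comap_map_of_surjective f hf]
  rfl

lemma ell_map_mk (K I : Ideal A) : ell (I.map (Ideal.Quotient.mk K)) = ell (I ⊔ K) := by
  rw [ell_map_of_surjective _ Ideal.Quotient.mk_surjective, Ideal.mk_ker]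

/-- If `K` has finite length as a module, enlarging an ideal by `K` lowers the colength at most by
that length. -/
lemma ell_le_ell_sup_add (I K : Ideal A) : ell I ≤ ell (I ⊔ K) + Module.length A K := by
  have h1 : ell I = Module.length A (↥(I ⊔ K) ⧸ (Submodule.comap (I ⊔ K).subtype I)) +
      ell (I ⊔ K) := by
    let f : (↥(I ⊔ K) ⧸ (Submodule.comap (I ⊔ K).subtype I)) →ₗ[A] (A ⧸ I) :=
      Submodule.mapQ _ I (I ⊔ K).subtype le_rfl
    let g : (A ⧸ I) →ₗ[A] (A ⧸ (I ⊔ K)) := Submodule.factor le_sup_left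
    refine Module.length_eq_add_of_exact f g ?_ (Submodule.factor_surjective _) ?_
    · rw [injective_iff_map_eq_zero]
      intro z
      obtain ⟨z, rfl⟩ := Submodule.Quotient.mk_surjective _ z
      intro hz
      have hz' : (Submodule.Quotient.mk (z : A) : A ⧸ I) = 0 := hz
      rw [Submodule.Quotient.mk_eq_zero] at hz' ⊢
      exact hz'
    · rw [LinearMap.exact_iff]
      ext z
      obtain ⟨z, rfl⟩ := Submodule.Quotient.mk_surjective _ z
      constructor
      · intro hz
        have hz' : z ∈ I ⊔ K := by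
          have : Submodule.Quotient.mk z = (0 : A ⧸ (I ⊔ K)) := hz
          exact (Submodule.Quotient.mk_eq_zero _).mp this
        exact ⟨Submodule.Quotient.mk ⟨z, hz'⟩, rfl⟩
      · rintro ⟨c, hc⟩
        obtain ⟨c, rfl⟩ := Submodule.Quotient.mk_surjective _ c
        rw [← hc]
        change Submodule.Quotient.mk (c : A) = (0 : A ⧸ (I ⊔ K))
        rw [Submodule.Quotient.mk_eq_zero]
        exact c.2
  rw [h1, add_comm]
  refine add_le_add le_rfl ?_
  let h : K →ₗ[A] (↥(I ⊔ K) ⧸ (Submodule.comap (I ⊔ K).subtype I)) :=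
    (Submodule.mkQ _).comp (Submodule.inclusion le_sup_right)
  refine Module.length_le_of_surjective h ?_
  intro z
  obtain ⟨⟨z, hz⟩, rfl⟩ := Submodule.Quotient.mk_surjective _ z
  obtain ⟨a, ha, b, hb, rfl⟩ := Submodule.mem_sup.mp hz
  refine ⟨⟨b, hb⟩, ?_⟩
  change Submodule.Quotient.mk _ = Submodule.Quotient.mk _
  rw [Submodule.Quotient.eq]
  rw [Submodule.mem_comap]
  simpa using ha

end Vale.Agent.P202
end

section

/-!
Filtration of a commutative ring by monomials in a finite family of elements, ordered by the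
degree-lexicographic order.
-/

set_option linter.unusedSectionVars false

namespace Vale.Agent.P202

open Ideal Finset

variable {A : Type*} [CommRing A] {σ : Type*} [Fintype σ] [LinearOrder σ]

/-- the monomial `y ^ u`. -/
def mon (y : σ → A) (u : σ →₀ ℕ) : A := ∏ i, y i ^ u i

@[simp] lemma mon_zero (y : σ → A) : mon y 0 = 1 := by simp [mon]

lemma mon_add (y : σ → A) (u v : σ →₀ ℕ) : mon y (u + v) = mon y u * mon y v := by
  simp [mon, pow_add, Finset.prod_mul_distrib]

/-- strict degree-lexicographic order on exponents. -/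
def dlt (u w : σ →₀ ℕ) : Prop := toDegLex u < toDegLex w

/-- weak degree-lexicographic order on exponents. -/
def dle (u w : σ →₀ ℕ) : Prop := toDegLex u ≤ toDegLex w

lemma not_dlt {u w : σ →₀ ℕ} : ¬ dlt u w ↔ dle w u := not_lt
lemma dlt_add_left {u w : σ →₀ ℕ} (h : dlt u w) (v : σ →₀ ℕ) : dlt (v + u) (v + w) := by
  unfold dlt at *
  rw [toDegLex_add, toDegLex_add]
  exact add_lt_add_right h _

lemma degree_le_of_dle {u w : σ →₀ ℕ} (h : dle u w) : u.degree ≤ w.degree :=
  Finsupp.DegLex.monotone_degree h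

/-- ideal generated by a set of monomials. -/
def FS (y : σ → A) (P : Set (σ →₀ ℕ)) : Ideal A := Ideal.span (mon y '' P)

lemma mon_mem_FS {y : σ → A} {P : Set (σ →₀ ℕ)} {u : σ →₀ ℕ} (h : u ∈ P) : mon y u ∈ FS y P :=
  Ideal.subset_span ⟨u, h, rfl⟩

lemma FS_union (y : σ → A) (P Q : Set (σ →₀ ℕ)) : FS y (P ∪ Q) = FS y P ⊔ FS y Q := by
  simp only [FS, Set.image_union, Ideal.span_union]

lemma FS_singleton (y : σ → A) (u : σ →₀ ℕ) : FS y {u} = Ideal.span {mon y u} := by
  simp [FS]

lemma mul_mem_FS {y : σ → A} {P Q R : Set (σ →₀ ℕ)} (h : ∀ u ∈ P, ∀ w ∈ Q, u + w ∈ R)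
    {a b : A} (ha : a ∈ FS y P) (hb : b ∈ FS y Q) : a * b ∈ FS y R := by
  have : FS y P * FS y Q ≤ FS y R := by
    unfold FS
    rw [Ideal.span_mul_span', Ideal.span_le]
    rintro _ ⟨_, ⟨u, hu, rfl⟩, _, ⟨w, hw, rfl⟩, rfl⟩
    simp only [SetLike.mem_coe]
    rw [← mon_add]
    exact Ideal.subset_span ⟨_, h u hu w hw, rfl⟩
  exact this (Ideal.mul_mem_mul ha hb)

/-- `Fgt y u` is generated by the monomials bigger than `u`. -/
def Fgt (y : σ → A) (u : σ →₀ ℕ) : Ideal A := FS y {w | dlt u w}

/-- length of the `u`-th piece of `A/I` for the monomial filtration. -/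
noncomputable def piece (y : σ → A) (I : Ideal A) (u : σ →₀ ℕ) : ℕ∞ :=
  ell (col (Fgt y u ⊔ I) (mon y u))

/-- length of the `u`-th graded piece of the monomial filtration of `A`. -/
noncomputable def gp (y : σ → A) (u : σ →₀ ℕ) : ℕ∞ := piece y ⊥ u

lemma piece_mono (y : σ → A) {I J : Ideal A} (h : I ≤ J) (u : σ →₀ ℕ) :
    piece y J u ≤ piece y I u :=
  ell_mono (col_mono (sup_le_sup_left h _) _)

lemma piece_le_gp (y : σ → A) (I : Ideal A) (u : σ →₀ ℕ) : piece y I u ≤ gp y u :=
  piece_mono y bot_le u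

lemma piece_eq_zero_iff {y : σ → A} {I : Ideal A} {u : σ →₀ ℕ} :
    piece y I u = 0 ↔ mon y u ∈ Fgt y u ⊔ I := by
  rw [piece, ell_eq_zero_iff, col_eq_top_iff]

lemma one_le_piece {y : σ → A} {I : Ideal A} {u : σ →₀ ℕ} (h : mon y u ∉ Fgt y u ⊔ I) :
    1 ≤ piece y I u :=
  one_le_ell (fun h' => h (col_eq_top_iff.mp h'))

lemma gp_antitone (y : σ → A) {u w : σ →₀ ℕ} (h : u ≤ w) : gp y w ≤ gp y u := by
  obtain ⟨v, rfl⟩ := exists_add_of_le h
  refine ell_mono ?_
  intro a ha
  rw [mem_col, sup_bot_eq] at ha ⊢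
  rw [mon_add, ← mul_assoc, mul_comm _ (mon y v)]
  have h1 : mon y v ∈ FS y {v} := mon_mem_FS rfl
  refine mul_mem_FS (P := {v}) (Q := {w | dlt u w}) ?_ h1 ha
  rintro _ rfl w hw
  simp only [Set.mem_ofPred_eq] at hw ⊢
  rw [add_comm u]
  exact dlt_add_left hw _

/-- The set `Γ(I)` of exponents which are initial exponents of `I` (with unit coefficient). -/
def Gam (y : σ → A) (I : Ideal A) : Set (σ →₀ ℕ) := {u | mon y u ∈ Fgt y u ⊔ I}

lemma mem_Gam {y : σ → A} {I : Ideal A} {u : σ →₀ ℕ} :
    u ∈ Gam y I ↔ mon y u ∈ Fgt y u ⊔ I := Iff.rfl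

lemma mem_Gam_of_mon_mem {y : σ → A} {I : Ideal A} {u : σ →₀ ℕ} (h : mon y u ∈ I) :
    u ∈ Gam y I := Ideal.mem_sup_right h

lemma Gam_add {y : σ → A} {I : Ideal A} {u : σ →₀ ℕ} (h : u ∈ Gam y I) (v : σ →₀ ℕ) :
    u + v ∈ Gam y I := by
  rw [mem_Gam] at h ⊢
  obtain ⟨a, ha, b, hb, hab⟩ := Submodule.mem_sup.mp h
  rw [mon_add, ← hab, add_mul]
  refine Ideal.add_mem _ (Ideal.mem_sup_left ?_) (Ideal.mem_sup_right (Ideal.mul_mem_right _ _ hb))
  rw [mul_comm]
  refine mul_mem_FS (P := {v}) (Q := {w | dlt u w}) ?_ (mon_mem_FS rfl) ha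
  rintro _ rfl w hw
  simp only [Set.mem_ofPred_eq] at hw ⊢
  rw [add_comm u]
  exact dlt_add_left hw _

lemma Gam_mul {y : σ → A} {I J : Ideal A} {u v : σ →₀ ℕ} (hu : u ∈ Gam y I) (hv : v ∈ Gam y J) :
    u + v ∈ Gam y (I * J) := by
  rw [mem_Gam] at hu hv ⊢
  obtain ⟨a, ha, b, hb, hab⟩ := Submodule.mem_sup.mp hu
  obtain ⟨a', ha', b', hb', hab'⟩ := Submodule.mem_sup.mp hv
  have key : mon y (u + v) = mon y v * a + mon y u * a' - a * a' + b * b' := by
    rw [mon_add, ← hab, ← hab']; ring
  have h1 : mon y v * a ∈ Fgt y (u + v) := by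
    refine mul_mem_FS (P := {v}) (Q := {w | dlt u w}) ?_ (mon_mem_FS rfl) ha
    rintro _ rfl w hw
    simp only [Set.mem_ofPred_eq] at hw ⊢
    rw [add_comm u]
    exact dlt_add_left hw _
  have h2 : mon y u * a' ∈ Fgt y (u + v) := by
    refine mul_mem_FS (P := {u}) (Q := {w | dlt v w}) ?_ (mon_mem_FS rfl) ha'
    rintro _ rfl w hw
    exact dlt_add_left hw _
  have h3 : a * a' ∈ Fgt y (u + v) := by
    refine mul_mem_FS (P := {w | dlt u w}) (Q := {w | dlt v w}) ?_ ha ha'
    intro w hw w' hw'
    simp only [Set.mem_ofPred_eq] at hw hw' ⊢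
    have e1 : dlt (u + v) (u + w') := dlt_add_left hw' _
    have e2 : dlt (w' + u) (w' + w) := dlt_add_left hw _
    rw [add_comm w', add_comm w'] at e2
    exact lt_trans e1 e2
  rw [key]
  refine Ideal.add_mem _ (Ideal.mem_sup_left ?_) (Ideal.mem_sup_right (Ideal.mul_mem_mul hb hb'))
  exact Ideal.sub_mem _ (Ideal.add_mem _ h1 h2) h3

lemma Gam_pow {y : σ → A} {I : Ideal A} {u : σ →₀ ℕ} (hu : u ∈ Gam y I) (t : ℕ) :
    t • u ∈ Gam y (I ^ t) := by
  induction t with
  | zero => simp only [zero_smul, pow_zero]; exact mem_Gam_of_mon_mem (by simp)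
  | succ t ih => rw [succ_nsmul, pow_succ]; exact Gam_mul ih hu

/-- Additivity of length along the monomial filtration. -/
lemma ell_eq_sum (y : σ → A) (I : Ideal A) (s : Finset (σ →₀ ℕ))
    (hs : ∀ u ∈ s, ∀ w, dle w u → w ∈ s) :
    ell (FS y {w | w ∉ s} ⊔ I) = ∑ u ∈ s, piece y I u := by
  classical
  induction h : s.card generalizing s with
  | zero =>
    rw [Finset.card_eq_zero] at h
    subst h
    have h1 : FS y {w : σ →₀ ℕ | w ∉ (∅ : Finset (σ →₀ ℕ))} ⊔ I = ⊤ := by
      rw [Ideal.eq_top_iff_one, ← mon_zero y]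
      exact Ideal.mem_sup_left (mon_mem_FS (by simp))
    rw [h1, ell_top, Finset.sum_empty]
  | succ n ih =>
    have hne : s.Nonempty := by rw [← Finset.card_pos, h]; omega
    obtain ⟨a, ha, hamax⟩ := Finset.exists_max_image s (fun u => toDegLex u) hne
    have hcompl : {w : σ →₀ ℕ | w ∉ s} = {w | dlt a w} := by
      ext w
      simp only [Set.mem_ofPred_eq]
      constructor
      · intro hw
        by_contra h'
        exact hw (hs a ha w (not_dlt.mp h'))
      · intro hw hws
        exact absurd (hamax w hws) (not_le.mpr hw)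
    have hcompl' : {w : σ →₀ ℕ | w ∉ s.erase a} = {w | dlt a w} ∪ {a} := by
      rw [← hcompl]
      ext w
      simp only [Finset.mem_erase, Set.mem_ofPred_eq, Set.mem_union, Set.mem_singleton_iff]
      tauto
    have hs' : ∀ u ∈ s.erase a, ∀ w, dle w u → w ∈ s.erase a := by
      intro u hu w hw
      rw [Finset.mem_erase] at hu ⊢
      refine ⟨?_, hs u hu.2 w hw⟩
      rintro rfl
      apply hu.1
      have h1 : toDegLex u ≤ toDegLex w := hamax u hu.2
      have h2 : toDegLex w ≤ toDegLex u := hw
      exact toDegLex_injective (le_antisymm h1 h2)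
    have ih' := ih (s.erase a) hs' (by rw [Finset.card_erase_of_mem ha, h]; omega)
    rw [← Finset.add_sum_erase s _ ha, ← ih', hcompl', hcompl, FS_union, FS_singleton,
      ell_eq_add _ (mon y a)]
    have e1 : piece y I a = ell (col (FS y {w | dlt a w} ⊔ I) (mon y a)) := rfl
    rw [e1, sup_right_comm]

end Vale.Agent.P202
end

section

/-!
Counting estimates for the monomial filtration.
-/

set_option linter.unusedSectionVars false

namespace Vale.Agent.P202

open Ideal Finset

variable {A : Type*} [CommRing A] {σ : Type*} [Fintype σ] [LinearOrder σ]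

/-- exponents with all coordinates less than `t`. -/
noncomputable def box (σ : Type*) [Fintype σ] [LinearOrder σ] (t : ℕ) : Finset (σ →₀ ℕ) :=
  (Fintype.piFinset (fun _ : σ => Finset.range t)).map
    (Finsupp.equivFunOnFinite : (σ →₀ ℕ) ≃ (σ → ℕ)).symm.toEmbedding

lemma mem_box {t : ℕ} {u : σ →₀ ℕ} : u ∈ box σ t ↔ ∀ i, u i < t := by
  simp only [box, Finset.mem_map_equiv, Equiv.symm_symm, Fintype.mem_piFinset, Finset.mem_range]
  rfl

lemma card_box (t : ℕ) : (box σ t).card = t ^ Fintype.card σ := by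
  simp [box, Fintype.card_piFinset]

/-- exponents of degree less than `n`. -/
noncomputable def tri (σ : Type*) [Fintype σ] [LinearOrder σ] (n : ℕ) : Finset (σ →₀ ℕ) :=
  (Finsupp.finite_of_degree_lt (σ := σ) n).toFinset

lemma mem_tri {n : ℕ} {u : σ →₀ ℕ} : u ∈ tri σ n ↔ u.degree < n := by
  simp [tri]

lemma tri_initial (n : ℕ) : ∀ u ∈ tri σ n, ∀ w, dle w u → w ∈ tri σ n := by
  intro u hu w hw
  rw [mem_tri] at hu ⊢
  exact lt_of_le_of_lt (degree_le_of_dle hw) hu

lemma card_tri_succ (n : ℕ) : (tri σ (n + 1)).card = (Fintype.card σ + 1).multichoose n := by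
  induction n with
  | zero =>
    rw [Nat.multichoose_zero_right, Finset.card_eq_one]
    refine ⟨0, ?_⟩
    ext u
    rw [mem_tri, Finset.mem_singleton, Nat.lt_one_iff, Finsupp.degree_eq_zero_iff]
  | succ n ih =>
    have h1 : tri σ (n + 1 + 1) = tri σ (n + 1) ∪ (Finset.univ : Finset σ).finsuppAntidiag (n + 1) := by
      ext u
      rw [mem_tri, Finset.mem_union, mem_tri, Finset.mem_finsuppAntidiag]
      have : (Finset.univ : Finset σ).sum u = u.degree := (Finsupp.degree_eq_sum u).symm
      rw [this]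
      simp only [Finset.subset_univ, and_true]
      omega
    have h2 : Disjoint (tri σ (n + 1)) ((Finset.univ : Finset σ).finsuppAntidiag (n + 1)) := by
      rw [Finset.disjoint_left]
      intro u hu hu'
      rw [mem_tri] at hu
      rw [Finset.mem_finsuppAntidiag] at hu'
      have : (Finset.univ : Finset σ).sum u = u.degree := (Finsupp.degree_eq_sum u).symm
      omega
    rw [h1, Finset.card_union_of_disjoint h2, ih, Finset.card_finsuppAntidiag_nat_eq_multichoose,
      Finset.card_univ, Nat.multichoose_succ_succ, add_comm]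

lemma factorial_mul_card_tri (n : ℕ) :
    (Fintype.card σ).factorial * (tri σ (n + 1)).card = (n + 1).ascFactorial (Fintype.card σ) := by
  rw [card_tri_succ, Nat.multichoose_eq, Nat.ascFactorial_eq_factorial_mul_choose]
  have : Fintype.card σ + 1 + n - 1 = n + Fintype.card σ := by omega
  rw [this, Nat.choose_symm_add]

lemma pow_le_factorial_mul_card_tri (n : ℕ) (hn : 0 < n) :
    n ^ Fintype.card σ ≤ (Fintype.card σ).factorial * (tri σ n).card := by
  obtain ⟨n, rfl⟩ : ∃ m, n = m + 1 := ⟨n - 1, by omega⟩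
  rw [factorial_mul_card_tri]
  exact Nat.pow_succ_le_ascFactorial (n + 1) _

lemma factorial_mul_card_tri_le (n : ℕ) :
    (Fintype.card σ).factorial * (tri σ n).card ≤ (n + Fintype.card σ) ^ Fintype.card σ := by
  rcases n with _ | n
  · have : tri σ 0 = ∅ := by ext u; simp [mem_tri]
    rw [this]; simp
  · rw [factorial_mul_card_tri]
    refine (Nat.ascFactorial_le_pow_add n _).trans ?_
    exact Nat.pow_le_pow_left (by omega) _

end Vale.Agent.P202
end

section

/-!
Asymptotic length estimates for the monomial filtration.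
-/

set_option linter.unusedSectionVars false

namespace Vale.Agent.P202

open Ideal Finset

variable {A : Type*} [CommRing A] {σ : Type*} [Fintype σ] [LinearOrder σ]

/-- The minimal length of a graded piece of the monomial filtration. -/
noncomputable def emin (y : σ → A) : ℕ∞ := ⨅ u, gp y u

lemma emin_le (y : σ → A) (u : σ →₀ ℕ) : emin y ≤ gp y u := iInf_le _ u

lemma exists_gp_eq_emin (y : σ → A) : ∃ u, gp y u = emin y := by
  obtain ⟨a, ⟨u, rfl⟩, hu⟩ := (wellFounded_lt (α := ℕ∞)).has_min (Set.range (gp y)) ⟨_, 0, rfl⟩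
  refine ⟨u, le_antisymm (le_iInf fun w => ?_) (emin_le y u)⟩
  exact not_lt.mp (hu _ ⟨w, rfl⟩)

lemma card_box_filter_lt (t a : ℕ) (i : σ) :
    ((box σ t).filter (fun u => u i < a)).card ≤ a * t ^ (Fintype.card σ - 1) := by
  classical
  have h1 : ((box σ t).filter (fun u => u i < a)) ⊆
      (Fintype.piFinset (Function.update (fun _ : σ => Finset.range t) i (Finset.range a))).map
        (Finsupp.equivFunOnFinite : (σ →₀ ℕ) ≃ (σ → ℕ)).symm.toEmbedding := by
    intro u hu
    rw [Finset.mem_filter, mem_box] at hu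
    simp only [Finset.mem_map_equiv, Equiv.symm_symm, Fintype.mem_piFinset]
    intro j
    by_cases hj : j = i
    · subst hj
      simpa using hu.2
    · simp only [Function.update_of_ne hj, Finset.mem_range]
      exact hu.1 j
  refine (Finset.card_le_card h1).trans ?_
  rw [Finset.card_map, Fintype.card_piFinset, ← Finset.mul_prod_erase _ _ (Finset.mem_univ i)]
  simp only [Function.update_self, Finset.card_range]
  refine Nat.mul_le_mul_left _ (le_of_eq ?_)
  rw [Finset.prod_congr rfl (g := fun _ => t)]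
  · rw [Finset.prod_const, Finset.card_erase_of_mem (Finset.mem_univ i), Finset.card_univ]
  · intro j hj
    rw [Function.update_of_ne (Finset.ne_of_mem_erase hj), Finset.card_range]

/-- general counting estimate. -/
lemma sum_le_of_bounds (g : (σ →₀ ℕ) → ℕ∞) (G m : ℕ∞) (v : σ →₀ ℕ) (hG : ∀ u, g u ≤ G)
    (hm : ∀ u, v ≤ u → g u ≤ m) (t : ℕ) (s : Finset (σ →₀ ℕ)) (hs : s ⊆ box σ t) :
    ∑ u ∈ s, g u ≤ s.card * m + G * ((∑ i, v i : ℕ) : ℕ∞) * (t ^ (Fintype.card σ - 1) : ℕ) := by
  classical
  have h1 : ∀ u ∈ s, g u ≤ m + (if v ≤ u then 0 else G) := by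
    intro u _
    split_ifs with h
    · rw [add_zero]
      exact hm u h
    · exact le_add_left (hG u)
  refine (Finset.sum_le_sum h1).trans ?_
  rw [Finset.sum_add_distrib, Finset.sum_const, nsmul_eq_mul]
  refine add_le_add le_rfl ?_
  rw [Finset.sum_ite, Finset.sum_const_zero, zero_add, Finset.sum_const, nsmul_eq_mul]
  have h2 : (s.filter (fun u => ¬ v ≤ u)).card ≤
      (∑ i, v i) * t ^ (Fintype.card σ - 1) := by
    have h3 : s.filter (fun u => ¬ v ≤ u) ⊆
        Finset.univ.biUnion (fun i => (box σ t).filter (fun u => u i < v i)) := by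
      intro u hu
      rw [Finset.mem_filter] at hu
      obtain ⟨hus, hu⟩ := hu
      rw [Finsupp.le_def] at hu
      push Not at hu
      obtain ⟨i, hi⟩ := hu
      rw [Finset.mem_biUnion]
      exact ⟨i, Finset.mem_univ _, Finset.mem_filter.mpr ⟨hs hus, hi⟩⟩
    refine (Finset.card_le_card h3).trans (Finset.card_biUnion_le.trans ?_)
    rw [Finset.sum_mul]
    exact Finset.sum_le_sum fun i _ => card_box_filter_lt t (v i) i
  have h2' : ((s.filter (fun u => ¬ v ≤ u)).card : ℕ∞) ≤
      ((∑ i, v i : ℕ) : ℕ∞) * ((t ^ (Fintype.card σ - 1) : ℕ) : ℕ∞) := by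
    exact_mod_cast h2
  calc ((s.filter (fun u => ¬ v ≤ u)).card : ℕ∞) * G
      ≤ (((∑ i, v i : ℕ) : ℕ∞) * ((t ^ (Fintype.card σ - 1) : ℕ) : ℕ∞)) * G := by gcongr
    _ = G * ((∑ i, v i : ℕ) : ℕ∞) * (t ^ (Fintype.card σ - 1) : ℕ) := by ring

/-- an exponent where the minimum is attained. -/
noncomputable def umin (y : σ → A) : σ →₀ ℕ := Classical.choose (exists_gp_eq_emin y)

lemma gp_umin (y : σ → A) : gp y (umin y) = emin y := Classical.choose_spec (exists_gp_eq_emin y)

lemma gp_le_emin {y : σ → A} {u : σ →₀ ℕ} (h : umin y ≤ u) : gp y u ≤ emin y := by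
  rw [← gp_umin]; exact gp_antitone y h

lemma gp_le_zero (y : σ → A) (u : σ →₀ ℕ) : gp y u ≤ gp y 0 := gp_antitone y (zero_le : 0 ≤ u)

/-- the constant in the error terms. -/
noncomputable def errB (y : σ → A) : ℕ∞ := gp y 0 * ((∑ i, umin y i : ℕ) : ℕ∞)

lemma sum_gp_le (y : σ → A) (t : ℕ) (s : Finset (σ →₀ ℕ)) (hs : s ⊆ box σ t) :
    ∑ u ∈ s, gp y u ≤ s.card * emin y + errB y * (t ^ (Fintype.card σ - 1) : ℕ) :=
  sum_le_of_bounds (gp y) (gp y 0) (emin y) (umin y) (gp_le_zero y) (fun _ h => gp_le_emin h) t s hs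

lemma tri_subset_box (n : ℕ) : tri σ n ⊆ box σ n := by
  intro u hu
  rw [mem_tri] at hu
  rw [mem_box]
  intro i
  exact lt_of_le_of_lt (Finsupp.le_degree i u) hu

/-- monomials of degree `n` generate a subideal of the `n`-th power. -/
lemma mon_mem_pow (y : σ → A) (u : σ →₀ ℕ) : mon y u ∈ Ideal.span (Set.range y) ^ u.degree := by
  classical
  rw [mon, Finsupp.degree_eq_sum]
  induction (Finset.univ : Finset σ) using Finset.induction_on with
  | empty => simp
  | insert a s ha ih =>
    rw [Finset.prod_insert ha, Finset.sum_insert ha, pow_add]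
    exact Ideal.mul_mem_mul (Ideal.pow_mem_pow
      (Ideal.subset_span (Set.mem_range_self a) : y a ∈ Ideal.span (Set.range y)) _) ih

lemma FS_tri_le (y : σ → A) (n : ℕ) :
    FS y {w | w ∉ tri σ n} ≤ Ideal.span (Set.range y) ^ n := by
  rw [FS, Ideal.span_le]
  rintro _ ⟨u, hu, rfl⟩
  rw [Set.mem_ofPred_eq, mem_tri, not_lt] at hu
  exact Ideal.pow_le_pow_right hu (mon_mem_pow y u)

lemma pow_le_FS_tri (y : σ → A) (n : ℕ) :
    Ideal.span (Set.range y) ^ n ≤ FS y {w | w ∉ tri σ n} := by
  induction n with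
  | zero =>
    have : mon y (0 : σ →₀ ℕ) ∈ FS y {w | w ∉ tri σ 0} := mon_mem_FS (by simp [mem_tri])
    rw [mon_zero] at this
    rw [(Ideal.eq_top_iff_one _).mpr this]
    exact le_top
  | succ n ih =>
    rw [pow_succ]
    refine (Ideal.mul_mono ih le_rfl).trans ?_
    rw [FS, Ideal.span_mul_span', Ideal.span_le]
    rintro _ ⟨_, ⟨u, hu, rfl⟩, _, ⟨i, rfl⟩, rfl⟩
    rw [Set.mem_ofPred_eq, mem_tri, not_lt] at hu
    have h : mon y u * y i = mon y (u + Finsupp.single i 1) := by
      rw [mon_add]
      congr 1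
      rw [mon, Finset.prod_eq_single i]
      · simp
      · intro j _ hj; simp [Finsupp.single_eq_of_ne hj]
      · simp
    simp only [SetLike.mem_coe]
    rw [h]
    refine mon_mem_FS ?_
    rw [Set.mem_ofPred_eq, mem_tri, not_lt, map_add, Finsupp.degree_single]
    omega

lemma FS_tri_eq (y : σ → A) (n : ℕ) :
    FS y {w | w ∉ tri σ n} = Ideal.span (Set.range y) ^ n :=
  le_antisymm (FS_tri_le y n) (pow_le_FS_tri y n)

lemma ell_pow_eq (y : σ → A) (n : ℕ) :
    ell (Ideal.span (Set.range y) ^ n) = ∑ u ∈ tri σ n, gp y u := by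
  have := ell_eq_sum y ⊥ (tri σ n) (tri_initial n)
  rw [sup_bot_eq, FS_tri_eq] at this
  exact this

/-- (P2) -/
lemma emin_mul_card_le (y : σ → A) (n : ℕ) :
    emin y * (tri σ n).card ≤ ell (Ideal.span (Set.range y) ^ n) := by
  rw [ell_pow_eq, mul_comm, ← nsmul_eq_mul, ← Finset.sum_const]
  exact Finset.sum_le_sum fun u _ => emin_le y u

lemma ell_pow_le (y : σ → A) (n : ℕ) :
    ell (Ideal.span (Set.range y) ^ n) ≤
      (tri σ n).card * emin y + errB y * (n ^ (Fintype.card σ - 1) : ℕ) := by
  rw [ell_pow_eq]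
  exact sum_gp_le y n _ (tri_subset_box n)

lemma card_le_ell (y : σ → A) (I : Ideal A) (s : Finset (σ →₀ ℕ)) (hs : ∀ u ∈ s, u ∉ Gam y I) :
    (s.card : ℕ∞) ≤ ell I := by
  classical
  obtain ⟨n, hn⟩ : ∃ n, s ⊆ tri σ n := by
    refine ⟨(s.sup fun u => u.degree) + 1, fun u hu => ?_⟩
    rw [mem_tri, Nat.lt_succ_iff]
    exact Finset.le_sup (f := fun u => Finsupp.degree u) hu
  calc (s.card : ℕ∞) = ∑ u ∈ s, 1 := by simp
    _ ≤ ∑ u ∈ s, piece y I u := Finset.sum_le_sum fun u hu => one_le_piece (hs u hu)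
    _ ≤ ∑ u ∈ tri σ n, piece y I u :=
        Finset.sum_le_sum_of_subset_of_nonneg hn fun _ _ _ => zero_le
    _ = ell (FS y {w | w ∉ tri σ n} ⊔ I) := (ell_eq_sum y I _ (tri_initial n)).symm
    _ ≤ ell I := ell_mono le_sup_right

/-- the integral part of `u / t`. -/
noncomputable def fdiv (t : ℕ) (u : σ →₀ ℕ) : σ →₀ ℕ :=
  u.mapRange (fun a => a / t) (Nat.zero_div t)

/-- the remainder of `u / t`. -/
noncomputable def fmod (t : ℕ) (u : σ →₀ ℕ) : σ →₀ ℕ :=
  u.mapRange (fun a => a % t) (Nat.zero_mod t)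

lemma fdiv_fmod (t : ℕ) (u : σ →₀ ℕ) : t • fdiv t u + fmod t u = u := by
  ext i
  simp only [fdiv, fmod, Finsupp.coe_add, Finsupp.coe_smul, Pi.add_apply, Pi.smul_apply,
    Finsupp.mapRange_apply, smul_eq_mul]
  exact Nat.div_add_mod _ _

lemma fmod_mem_box {t : ℕ} (ht : 0 < t) (u : σ →₀ ℕ) : fmod t u ∈ box σ t := by
  rw [mem_box]
  intro i
  simp only [fmod, Finsupp.mapRange_apply]
  exact Nat.mod_lt _ ht

lemma degree_fdiv_lt {t D : ℕ} {u : σ →₀ ℕ} (hu : u.degree < D * t) :
    (fdiv t u).degree < D := by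
  have h1 : t * (fdiv t u).degree ≤ u.degree := by
    conv_rhs => rw [← fdiv_fmod t u]
    rw [map_add, map_nsmul, smul_eq_mul]
    exact Nat.le_add_right _ _
  by_contra h
  push Not at h
  have : D * t ≤ t * (fdiv t u).degree := by
    rw [mul_comm]; exact Nat.mul_le_mul_left _ h
  omega

/-- (P1), first form. -/
lemma ell_pow_le_mul_sum (y : σ → A) (I : Ideal A) (D : ℕ) (hD : Ideal.span (Set.range y) ^ D ≤ I)
    (t : ℕ) (ht : 0 < t) : ell (I ^ t) ≤ ell I * ∑ r ∈ box σ t, gp y r := by
  classical
  have h0 : FS y {w | w ∉ tri σ (D * t)} ⊔ I ^ t = I ^ t := by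
    rw [sup_eq_right, FS_tri_eq, pow_mul]
    exact Ideal.pow_right_mono hD t
  have h1 : ell (I ^ t) = ∑ u ∈ tri σ (D * t), piece y (I ^ t) u := by
    rw [← ell_eq_sum y (I ^ t) _ (tri_initial _), h0]
  set T0 := (tri σ D).filter (fun v => v ∉ Gam y I) with hT0
  have hT0c : (T0.card : ℕ∞) ≤ ell I :=
    card_le_ell y I T0 (fun u hu => (Finset.mem_filter.mp hu).2)
  set S0 := (tri σ (D * t)).filter (fun u => fdiv t u ∉ Gam y I) with hS0
  have h2 : ∑ u ∈ tri σ (D * t), piece y (I ^ t) u ≤ ∑ u ∈ S0, gp y u := by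
    rw [hS0, Finset.sum_filter]
    refine Finset.sum_le_sum fun u _ => ?_
    by_cases h : fdiv t u ∈ Gam y I
    · have h' : u ∈ Gam y (I ^ t) := by
        have := Gam_add (Gam_pow h t) (fmod t u)
        rwa [fdiv_fmod] at this
      rw [piece_eq_zero_iff.mpr h']
      exact zero_le
    · rw [ite_not, if_neg h]
      exact piece_le_gp y _ u
  have h3 : S0 ⊆ (T0 ×ˢ box σ t).image (fun p => t • p.1 + p.2) := by
    intro u hu
    rw [hS0, Finset.mem_filter, mem_tri] at hu
    rw [Finset.mem_image]
    refine ⟨(fdiv t u, fmod t u), ?_, fdiv_fmod t u⟩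
    rw [Finset.mem_product]
    refine ⟨Finset.mem_filter.mpr ⟨?_, hu.2⟩, fmod_mem_box ht u⟩
    rw [mem_tri]
    exact degree_fdiv_lt hu.1
  have hinj : Set.InjOn (fun p : (σ →₀ ℕ) × (σ →₀ ℕ) => t • p.1 + p.2)
      (T0 ×ˢ box σ t : Finset _) := by
    rintro ⟨v, r⟩ hp ⟨v', r'⟩ hp' h
    rw [Finset.mem_coe, Finset.mem_product, mem_box] at hp hp'
    have h' : ∀ i, t * v i + r i = t * v' i + r' i := by
      intro i
      have := DFunLike.congr_fun h i
      simpa using this
    have hr : ∀ i, r i = r' i := by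
      intro i
      have := congrArg (· % t) (h' i)
      simpa [Nat.mul_add_mod, Nat.mod_eq_of_lt (hp.2 i), Nat.mod_eq_of_lt (hp'.2 i)] using this
    have hv : ∀ i, v i = v' i := by
      intro i
      have h1 := h' i
      rw [hr i] at h1
      exact Nat.eq_of_mul_eq_mul_left ht (Nat.add_right_cancel h1)
    rw [Prod.mk.injEq]
    exact ⟨Finsupp.ext hv, Finsupp.ext hr⟩
  calc ell (I ^ t) ≤ ∑ u ∈ S0, gp y u := h1 ▸ h2
    _ ≤ ∑ u ∈ (T0 ×ˢ box σ t).image (fun p => t • p.1 + p.2), gp y u :=
        Finset.sum_le_sum_of_subset_of_nonneg h3 fun _ _ _ => zero_le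
    _ = ∑ p ∈ T0 ×ˢ box σ t, gp y (t • p.1 + p.2) := Finset.sum_image hinj
    _ ≤ ∑ p ∈ T0 ×ˢ box σ t, gp y p.2 :=
        Finset.sum_le_sum fun p _ => gp_antitone y le_add_self
    _ = T0.card * ∑ r ∈ box σ t, gp y r := by
        rw [Finset.sum_product]
        simp only [Finset.sum_const, nsmul_eq_mul]
    _ ≤ ell I * ∑ r ∈ box σ t, gp y r := by gcongr

/-- (P1) -/
lemma ell_pow_le_main (y : σ → A) (I : Ideal A) (D : ℕ) (hD : Ideal.span (Set.range y) ^ D ≤ I)
    (t : ℕ) (ht : 0 < t) : ell (I ^ t) ≤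
      ell I * ((t ^ Fintype.card σ : ℕ) * emin y + errB y * (t ^ (Fintype.card σ - 1) : ℕ)) := by
  refine (ell_pow_le_mul_sum y I D hD t ht).trans ?_
  gcongr
  have := sum_gp_le y t (box σ t) subset_rfl
  rwa [card_box] at this

end Vale.Agent.P202
end

section

/-!
Finiteness of colengths in Noetherian local rings.
-/

set_option linter.unusedSectionVars false

namespace Vale.Agent.P202

open Ideal IsLocalRing

variable {A : Type*} [CommRing A]

lemma ell_eq_length_self (I : Ideal A) : ell I = Module.length (A ⧸ I) (A ⧸ I) := by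
  refine Module.length_eq_of_surjective ?_
  exact Ideal.Quotient.mk_surjective

section

variable [IsLocalRing A] [IsNoetherianRing A]

lemma isArtinianRing_quot {I : Ideal A} {s : ℕ} (h : maximalIdeal A ^ s ≤ I) :
    IsArtinianRing (A ⧸ I) := by
  by_cases hI : I = ⊤
  · subst hI
    have : Subsingleton (A ⧸ (⊤ : Ideal A)) := Ideal.Quotient.subsingleton_iff.mpr rfl
    infer_instance
  · refine IsLocalRing.quotient_artinian_of_mem_minimalPrimes_of_isLocalRing I ?_
    refine ⟨⟨inferInstance, le_maximalIdeal hI⟩, ?_⟩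
    rintro P ⟨hP, hIP⟩ _
    exact hP.le_of_pow_le (h.trans hIP)

lemma ell_ne_top_of_pow_le {I : Ideal A} {s : ℕ} (h : maximalIdeal A ^ s ≤ I) : ell I ≠ ⊤ := by
  have := isArtinianRing_quot h
  rw [ell_eq_length_self]
  exact Module.length_ne_top

lemma exists_pow_le_of_ell_ne_top {I : Ideal A} (h : ell I ≠ ⊤) :
    ∃ s, maximalIdeal A ^ s ≤ I := by
  rw [ell_eq_length_self] at h
  have h1 := (Module.length_ne_top_iff.mp h)
  have h2 : IsArtinianRing (A ⧸ I) := (isFiniteLength_iff_isNoetherian_isArtinian.mp h1).2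
  exact exists_maximalIdeal_pow_le_of_isArtinianRing_quotient I

lemma ell_maximalIdeal : ell (maximalIdeal A) = 1 := by
  rw [ell, Module.length_eq_one_iff]
  exact isSimpleModule_iff_isCoatom.mpr (Ideal.isMaximal_def.mp inferInstance)

/-- A Noetherian local ring of dimension `d` has a `d`-generated primary ideal. -/
lemma exists_parameters {d : ℕ} (hd : ringKrullDim A = d) :
    ∃ w : Fin d → A, (∀ i, w i ∈ maximalIdeal A) ∧
      ∃ s, maximalIdeal A ^ s ≤ Ideal.span (Set.range w) := by
  obtain ⟨s, hs, hcard⟩ := (maximalIdeal A).exists_finset_card_eq_height_of_isNoetherianRing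
  rw [← IsLocalRing.maximalIdeal_height_eq_ringKrullDim] at hd
  have hcard' : s.card = d := by
    have : ((maximalIdeal A).height : WithBot ℕ∞) = ((d : ℕ∞) : WithBot ℕ∞) := hd
    rw [WithBot.coe_inj] at this
    rw [this] at hcard
    exact_mod_cast hcard
  let e := s.equivFinOfCardEq hcard'
  have hrange : Set.range (fun i => ((e.symm i : s) : A)) = (s : Set A) := by
    ext x
    constructor
    · rintro ⟨i, rfl⟩; exact (e.symm i).2
    · intro hx; exact ⟨e ⟨x, hx⟩, by simp⟩
  refine ⟨fun i => (e.symm i : s), fun i => hs.1.2 (Ideal.subset_span (e.symm i).2), ?_⟩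
  rw [hrange]
  have := IsLocalRing.quotient_artinian_of_mem_minimalPrimes_of_isLocalRing _ hs
  exact exists_maximalIdeal_pow_le_of_isArtinianRing_quotient _

end

end Vale.Agent.P202
end

section

/-!
The inequality obtained by comparing kernel and cokernel of multiplication by one element.
-/

set_option linter.unusedSectionVars false

namespace Vale.Agent.P202

open Ideal IsLocalRing

variable {R S : Type*} [CommRing R] [IsLocalRing R] [IsNoetherianRing R] [CommRing S]
  [Algebra R S] [Module.Flat R S]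

end Vale.Agent.P202
end

section

/-!
Passing to the quotient by one element of a system of generators.
-/

set_option linter.unusedSectionVars false

namespace Vale.Agent.P202

open Ideal Finset

variable {A : Type*} [CommRing A]

lemma mon_cons {δ : ℕ} (z : A) (y : Fin δ → A) (j : ℕ) (v : Fin δ →₀ ℕ) :
    mon (Fin.cons z y : Fin (δ + 1) → A) (Finsupp.cons j v) = z ^ j * mon y v := by
  rw [mon, mon, Fin.prod_univ_succ]
  simp

lemma cons_mono {δ : ℕ} {j j' : ℕ} {v v' : Fin δ →₀ ℕ} (h : j ≤ j') (hv : v ≤ v') :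
    Finsupp.cons j v ≤ Finsupp.cons j' v' := by
  intro i
  refine Fin.cases ?_ (fun i => ?_) i
  · simpa using h
  · simpa using hv i

lemma degree_cons {δ : ℕ} (u : Fin (δ + 1) →₀ ℕ) :
    u.degree = u 0 + (Finsupp.tail u).degree := by
  rw [Finsupp.degree_eq_sum, Finsupp.degree_eq_sum, Fin.sum_univ_succ]
  rfl

/-- (P4) -/
lemma ell_span_pow_sup_le {δ : ℕ} (z : A) (y : Fin δ → A) (a n : ℕ) :
    ell (Ideal.span {z ^ a} ⊔ Ideal.span (Set.range y) ^ n) ≤
      ∑ j ∈ Finset.range a, ∑ v ∈ tri (Fin δ) n,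
        gp (Fin.cons z y : Fin (δ + 1) → A) (Finsupp.cons j v) := by
  classical
  set Y : Fin (δ + 1) → A := Fin.cons z y with hY
  set I := Ideal.span {z ^ a} ⊔ Ideal.span (Set.range y) ^ n with hI
  have hmem : ∀ u : Fin (δ + 1) →₀ ℕ, (a ≤ u 0 ∨ n ≤ (Finsupp.tail u).degree) → mon Y u ∈ I := by
    intro u hu
    rw [← Finsupp.cons_tail u, hY, mon_cons, hI]
    rcases hu with hu | hu
    · refine Ideal.mem_sup_left (Ideal.mul_mem_right _ _ ?_)
      exact Ideal.mem_span_singleton.mpr (pow_dvd_pow z hu)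
    · exact Ideal.mem_sup_right (Ideal.mul_mem_left _ _
        (Ideal.pow_le_pow_right hu (mon_mem_pow y _)))
  have h0 : FS Y {w | w ∉ tri (Fin (δ + 1)) (a + n)} ⊔ I = I := by
    rw [sup_eq_right, FS, Ideal.span_le]
    rintro _ ⟨u, hu, rfl⟩
    rw [Set.mem_ofPred_eq, mem_tri, degree_cons] at hu
    exact hmem u (by omega)
  have h1 : ell I = ∑ u ∈ tri (Fin (δ + 1)) (a + n), piece Y I u := by
    rw [← ell_eq_sum Y I _ (tri_initial _), h0]
  set S0 := (tri (Fin (δ + 1)) (a + n)).filter (fun u => u 0 < a ∧ (Finsupp.tail u).degree < n)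
    with hS0
  have h2 : ∑ u ∈ tri (Fin (δ + 1)) (a + n), piece Y I u ≤ ∑ u ∈ S0, gp Y u := by
    rw [hS0, Finset.sum_filter]
    refine Finset.sum_le_sum fun u _ => ?_
    by_cases h : u 0 < a ∧ (Finsupp.tail u).degree < n
    · rw [if_pos h]; exact piece_le_gp Y _ u
    · rw [if_neg h, piece_eq_zero_iff.mpr]
      refine Ideal.mem_sup_right (hmem u ?_)
      by_contra hc
      push Not at hc
      exact h hc
  have h3 : S0 ⊆ (Finset.range a ×ˢ tri (Fin δ) n).image (fun p => Finsupp.cons p.1 p.2) := by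
    intro u hu
    rw [hS0, Finset.mem_filter] at hu
    rw [Finset.mem_image]
    refine ⟨(u 0, Finsupp.tail u), ?_, Finsupp.cons_tail u⟩
    rw [Finset.mem_product, Finset.mem_range, mem_tri]
    exact hu.2
  have hinj : Set.InjOn (fun p : ℕ × (Fin δ →₀ ℕ) => Finsupp.cons p.1 p.2)
      (Finset.range a ×ˢ tri (Fin δ) n : Finset _) := by
    rintro ⟨j, v⟩ _ ⟨j', v'⟩ _ h
    have := Finsupp.cons_injective2 h
    rw [Prod.mk.injEq]
    exact this
  calc ell I ≤ ∑ u ∈ S0, gp Y u := h1 ▸ h2
    _ ≤ ∑ u ∈ (Finset.range a ×ˢ tri (Fin δ) n).image (fun p => Finsupp.cons p.1 p.2), gp Y u :=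
        Finset.sum_le_sum_of_subset_of_nonneg h3 fun _ _ _ => zero_le
    _ = ∑ p ∈ Finset.range a ×ˢ tri (Fin δ) n, gp Y (Finsupp.cons p.1 p.2) :=
        Finset.sum_image hinj
    _ = _ := Finset.sum_product _ _ _

lemma ell_span_pow_sup_le' {δ : ℕ} (z : A) (y : Fin δ → A) (a n : ℕ) :
    ell (Ideal.span {z ^ a} ⊔ Ideal.span (Set.range y) ^ n) ≤
      (tri (Fin δ) n).card * (a * emin (Fin.cons z y : Fin (δ + 1) → A) +
        umin (Fin.cons z y : Fin (δ + 1) → A) 0 * gp (Fin.cons z y : Fin (δ + 1) → A) 0) +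
      a * (errB (Fin.cons z y : Fin (δ + 1) → A) * (n ^ (δ - 1) : ℕ)) := by
  classical
  refine (ell_span_pow_sup_le z y a n).trans ?_
  set Y : Fin (δ + 1) → A := Fin.cons z y with hY
  have hc : ∀ j ∈ Finset.range a, ∑ v ∈ tri (Fin δ) n, gp Y (Finsupp.cons j v) ≤
      ((tri (Fin δ) n).card * emin Y + errB Y * (n ^ (δ - 1) : ℕ)) +
        (if j < umin Y 0 then (tri (Fin δ) n).card * gp Y 0 else 0) := by
    intro j _
    split_ifs with h
    · refine le_add_left ?_
      rw [← nsmul_eq_mul, ← Finset.sum_const]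
      exact Finset.sum_le_sum fun v _ => gp_le_zero Y _
    · rw [add_zero]
      refine (sum_le_of_bounds (fun v => gp Y (Finsupp.cons j v)) (gp Y 0) (emin Y)
        (Finsupp.tail (umin Y)) (fun v => gp_le_zero Y _) (fun v hv => ?_) n (tri (Fin δ) n)
        (tri_subset_box n)).trans ?_
      · refine gp_le_emin ?_
        rw [← Finsupp.cons_tail (umin Y)]
        exact cons_mono (not_lt.mp h) hv
      · rw [Fintype.card_fin, errB]
        gcongr
        rw [Fin.sum_univ_succ]
        exact Nat.le_add_left _ _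
  refine (Finset.sum_le_sum hc).trans ?_
  rw [Finset.sum_add_distrib, Finset.sum_const, Finset.card_range, nsmul_eq_mul, mul_add,
    Finset.sum_ite, Finset.sum_const_zero, add_zero, Finset.sum_const, nsmul_eq_mul]
  have hcard : (((Finset.range a).filter (fun j => j < umin Y 0)).card : ℕ∞) ≤ (umin Y 0 : ℕ) := by
    have : ((Finset.range a).filter (fun j => j < umin Y 0)).card ≤ umin Y 0 := by
      refine (Finset.card_le_card (t := Finset.range (umin Y 0)) ?_).trans (by simp)
      intro j hj
      rw [Finset.mem_filter] at hj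
      exact Finset.mem_range.mpr hj.2
    exact_mod_cast this
  calc _ ≤ (a * ((tri (Fin δ) n).card * emin Y) + a * (errB Y * (n ^ (δ - 1) : ℕ))) +
        (umin Y 0 : ℕ) * ((tri (Fin δ) n).card * gp Y 0) := by gcongr
    _ = _ := by ring

end Vale.Agent.P202
end

section

/-!
Comparison of leading coefficients.
-/

set_option linter.unusedSectionVars false

namespace Vale.Agent.P202

open Filter Topology

lemma tendsto_shift_ratio (k : ℕ) : Tendsto (fun n : ℕ => ((n + k : ℕ) : ℝ) / n) atTop (𝓝 1) := by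
  have h1 : Tendsto (fun n : ℕ => 1 + (k : ℝ) / n) atTop (𝓝 (1 + 0)) :=
    tendsto_const_nhds.add (tendsto_const_div_atTop_nhds_zero_nat (k : ℝ))
  rw [add_zero] at h1
  refine h1.congr' ?_
  filter_upwards [eventually_gt_atTop 0] with n hn
  have : (n : ℝ) ≠ 0 := by positivity
  push_cast
  field_simp

lemma tendsto_shift_pow_ratio (k d : ℕ) :
    Tendsto (fun n : ℕ => ((n + k : ℕ) : ℝ) ^ d / (n : ℝ) ^ d) atTop (𝓝 1) := by
  have := (tendsto_shift_ratio k).pow d
  rw [one_pow] at this
  refine this.congr fun n => ?_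
  rw [div_pow]

lemma tendsto_lower_ratio (k d : ℕ) (hd : 0 < d) :
    Tendsto (fun n : ℕ => ((n + k : ℕ) : ℝ) ^ (d - 1) / (n : ℝ) ^ d) atTop (𝓝 0) := by
  have h1 := (tendsto_shift_pow_ratio k (d - 1)).mul
    (tendsto_const_div_atTop_nhds_zero_nat (1 : ℝ))
  rw [mul_zero] at h1
  refine h1.congr' ?_
  filter_upwards [eventually_gt_atTop 0] with n hn
  have : (n : ℝ) ≠ 0 := by positivity
  obtain ⟨e, rfl⟩ : ∃ e, d = e + 1 := ⟨d - 1, by omega⟩
  rw [Nat.add_sub_cancel, pow_succ]
  field_simp

/-- comparison of leading coefficients, power form. -/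
lemma le_of_forall_pow_le {d : ℕ} (hd : 0 < d) (α β C k : ℕ)
    (h : ∀ n, 0 < n → α * n ^ d ≤ β * (n + k) ^ d + C * (n + k) ^ (d - 1)) : α ≤ β := by
  have h1 : Tendsto (fun n : ℕ => (β : ℝ) * (((n + k : ℕ) : ℝ) ^ d / (n : ℝ) ^ d) +
      C * (((n + k : ℕ) : ℝ) ^ (d - 1) / (n : ℝ) ^ d)) atTop (𝓝 (β * 1 + C * 0)) :=
    ((tendsto_shift_pow_ratio k d).const_mul _).add ((tendsto_lower_ratio k d hd).const_mul _)
  have h2 : (α : ℝ) ≤ β * 1 + C * 0 := by
    refine ge_of_tendsto h1 ?_
    filter_upwards [eventually_gt_atTop 0] with n hn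
    have h3 : (α : ℝ) * (n : ℝ) ^ d ≤ β * ((n + k : ℕ) : ℝ) ^ d + C * ((n + k : ℕ) : ℝ) ^ (d - 1) := by
      exact_mod_cast h n hn
    have hn' : (0 : ℝ) < (n : ℝ) ^ d := by positivity
    rw [← mul_div_assoc, ← mul_div_assoc, ← add_div, le_div_iff₀ hn']
    exact h3
  rw [mul_one, mul_zero, add_zero] at h2
  exact_mod_cast h2

/-- comparison of leading coefficients. -/
lemma le_of_forall_tri_le {σ : Type*} [Fintype σ] [LinearOrder σ] (hd : 0 < Fintype.card σ)
    (α β C k : ℕ)
    (h : ∀ n, 0 < n → α * (tri σ n).card ≤ β * (tri σ (n + k)).card +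
      C * (n + k) ^ (Fintype.card σ - 1)) : α ≤ β := by
  set d := Fintype.card σ with hdd
  refine le_of_forall_pow_le hd α β (C * d.factorial) (k + d) fun n hn => ?_
  have h1 := pow_le_factorial_mul_card_tri (σ := σ) n hn
  have h2 := factorial_mul_card_tri_le (σ := σ) (n + k)
  have h3 := h n hn
  calc α * n ^ d ≤ α * (d.factorial * (tri σ n).card) := Nat.mul_le_mul_left _ h1
    _ = d.factorial * (α * (tri σ n).card) := by ring
    _ ≤ d.factorial * (β * (tri σ (n + k)).card + C * (n + k) ^ (d - 1)) :=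
        Nat.mul_le_mul_left _ h3
    _ = β * (d.factorial * (tri σ (n + k)).card) + C * d.factorial * (n + k) ^ (d - 1) := by ring
    _ ≤ β * (n + k + d) ^ d + C * d.factorial * (n + k) ^ (d - 1) :=
        Nat.add_le_add_right (Nat.mul_le_mul_left _ h2) _
    _ ≤ β * (n + (k + d)) ^ d + C * d.factorial * (n + (k + d)) ^ (d - 1) := by
        rw [add_assoc n k d]
        refine Nat.add_le_add_left (Nat.mul_le_mul_left _ (Nat.pow_le_pow_left (by omega) _)) _

end Vale.Agent.P202
end

section

/-!
Multiplicity inequality for the quotient by a filter-regular element.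
-/

set_option linter.unusedSectionVars false

namespace Vale.Agent.P202

open Ideal Finset

variable {A : Type*} [CommRing A]

lemma artin_rees_col [IsNoetherianRing A] (J : Ideal A) (x : A) :
    ∃ k : ℕ, ∀ n ≥ k, col (J ^ n) x ≤ J ^ (n - k) ⊔ col ⊥ x := by
  obtain ⟨k, hk⟩ := Ideal.exists_pow_inf_eq_pow_smul (M := A) J (Ideal.span {x})
  refine ⟨k, fun n hn a ha => ?_⟩
  rw [mem_col] at ha
  have h1 : a * x ∈ J ^ (n - k) • (J ^ k • (⊤ : Ideal A) ⊓ Ideal.span {x}) := by
    rw [← hk n hn]
    refine ⟨?_, Ideal.mul_mem_left _ _ (Ideal.mem_span_singleton_self x)⟩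
    simpa using ha
  have h2 : a * x ∈ J ^ (n - k) * Ideal.span {x} := by
    refine Submodule.smul_mono le_rfl inf_le_right h1
  rw [Ideal.mem_mul_span_singleton] at h2
  obtain ⟨b, hb, hbx⟩ := h2
  have h3 : a - b ∈ col (⊥ : Ideal A) x := by
    rw [mem_col, sub_mul, hbx, sub_self]; exact Submodule.zero_mem _
  have : a = b + (a - b) := by ring
  rw [this]
  exact Ideal.add_mem _ (Ideal.mem_sup_left hb) (Ideal.mem_sup_right h3)

lemma col_sup_span_pow_le (J' : Ideal A) (z : A) (i : ℕ) :
    col (Ideal.span {z ^ (i + 1)} ⊔ J') (z ^ i) ≤ Ideal.span {z} ⊔ col J' (z ^ i) := by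
  intro f hf
  rw [mem_col] at hf
  obtain ⟨a, ha, b, hb, hab⟩ := Submodule.mem_sup.mp hf
  obtain ⟨g, rfl⟩ := Ideal.mem_span_singleton'.mp ha
  have h1 : f - g * z ∈ col J' (z ^ i) := by
    rw [mem_col]
    have : (f - g * z) * z ^ i = b := by
      rw [sub_mul, ← hab]; ring
    rwa [this]
  have : f = g * z + (f - g * z) := by ring
  rw [this]
  exact Ideal.add_mem _ (Ideal.mem_sup_left (Ideal.mul_mem_left _ _
    (Ideal.mem_span_singleton_self z))) (Ideal.mem_sup_right h1)

/-- (P3), Artin-Rees part. -/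
lemma mul_ell_le [IsNoetherianRing A] (J : Ideal A) (z : A)
    (hfr : ∀ i, Module.length A (col (⊥ : Ideal A) (z ^ i)) ≠ ⊤) (a : ℕ) :
    ∃ c C : ℕ, ∀ n, a * ell (Ideal.span {z} ⊔ J ^ n) ≤
      ell (Ideal.span {z ^ a} ⊔ J ^ (n + c)) + C := by
  induction a with
  | zero => exact ⟨0, 0, fun n => by simp⟩
  | succ a ih =>
    obtain ⟨c, C, hc⟩ := ih
    obtain ⟨k, hk⟩ := artin_rees_col J (z ^ a)
    obtain ⟨L, hL⟩ := ENat.ne_top_iff_exists.mp (hfr a)
    refine ⟨c + k, C + L, fun n => ?_⟩
    have h1 := ell_eq_add (Ideal.span {z ^ (a + 1)} ⊔ J ^ (n + (c + k))) (z ^ a)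
    have h2 : Ideal.span {z ^ (a + 1)} ⊔ J ^ (n + (c + k)) ⊔ Ideal.span {z ^ a} =
        Ideal.span {z ^ a} ⊔ J ^ (n + (c + k)) := by
      rw [sup_right_comm]
      congr 1
      rw [sup_eq_right, Ideal.span_singleton_le_span_singleton]
      exact pow_dvd_pow z (Nat.le_succ a)
    rw [h2] at h1
    have h3 : ell (Ideal.span {z} ⊔ J ^ n) ≤
        ell (col (Ideal.span {z ^ (a + 1)} ⊔ J ^ (n + (c + k))) (z ^ a)) + L := by
      have h4 : col (Ideal.span {z ^ (a + 1)} ⊔ J ^ (n + (c + k))) (z ^ a) ≤
          Ideal.span {z} ⊔ J ^ n ⊔ col ⊥ (z ^ a) := by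
        refine (col_sup_span_pow_le _ z a).trans ?_
        refine sup_le (le_sup_left.trans le_sup_left) ?_
        refine (hk (n + (c + k)) (by omega)).trans (sup_le ?_ le_sup_right)
        refine (Ideal.pow_le_pow_right (by omega)).trans (le_sup_right.trans le_sup_left)
      calc ell (Ideal.span {z} ⊔ J ^ n)
          ≤ ell (Ideal.span {z} ⊔ J ^ n ⊔ col ⊥ (z ^ a)) +
            Module.length A (col (⊥ : Ideal A) (z ^ a)) := ell_le_ell_sup_add _ _
        _ ≤ _ := by rw [← hL]; exact add_le_add (ell_mono h4) le_rfl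
    have h5 : a * ell (Ideal.span {z} ⊔ J ^ n) ≤
        ell (Ideal.span {z ^ a} ⊔ J ^ (n + (c + k))) + C := by
      refine (hc n).trans (add_le_add (ell_mono ?_) le_rfl)
      exact sup_le_sup_left (Ideal.pow_le_pow_right (by omega)) _
    rw [h1]
    push_cast
    calc ((a : ℕ∞) + 1) * ell (Ideal.span {z} ⊔ J ^ n)
        = a * ell (Ideal.span {z} ⊔ J ^ n) + ell (Ideal.span {z} ⊔ J ^ n) := by ring
      _ ≤ (ell (Ideal.span {z ^ a} ⊔ J ^ (n + (c + k))) + C) +
          (ell (col (Ideal.span {z ^ (a + 1)} ⊔ J ^ (n + (c + k))) (z ^ a)) + L) := by gcongr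
      _ = _ := by ring

lemma gp_zero_eq {σ : Type*} [Fintype σ] [LinearOrder σ] (y : σ → A) :
    gp y 0 = ell (Ideal.span (Set.range y)) := by
  have h1 := ell_pow_eq y 1
  have h2 : tri σ 1 = {0} := by
    ext u
    rw [mem_tri, Finset.mem_singleton, Nat.lt_one_iff, Finsupp.degree_eq_zero_iff]
  rw [h2, Finset.sum_singleton, pow_one] at h1
  exact h1.symm

/-- the multiplicity symbol does not grow when killing a filter-regular element. -/
lemma emin_quot_le [IsNoetherianRing A] {δ : ℕ} (hδ : 0 < δ) (z : A) (y : Fin δ → A)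
    (hfin : ell (Ideal.span (Set.range (Fin.cons z y : Fin (δ + 1) → A))) ≠ ⊤)
    (hfr : ∀ i, Module.length A (col (⊥ : Ideal A) (z ^ i)) ≠ ⊤) :
    emin (fun i => Ideal.Quotient.mk (Ideal.span {z}) (y i)) ≤
      emin (Fin.cons z y : Fin (δ + 1) → A) := by
  set Y : Fin (δ + 1) → A := Fin.cons z y with hY
  set π := Ideal.Quotient.mk (Ideal.span {z})
  set J := Ideal.span (Set.range y) with hJ
  rw [← gp_zero_eq] at hfin
  obtain ⟨G, hG⟩ := ENat.ne_top_iff_exists.mp hfin
  have hem : emin Y ≤ gp Y 0 := emin_le Y 0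
  obtain ⟨e, he⟩ := ENat.ne_top_iff_exists.mp (ne_top_of_le_ne_top hfin hem)
  have hJmap : Ideal.span (Set.range fun i => π (y i)) = J.map π := by
    rw [hJ, Ideal.map_span]
    congr 1
    ext w
    simp
  have hlen : ∀ n, ell (Ideal.span (Set.range fun i => π (y i)) ^ n) =
      ell (Ideal.span {z} ⊔ J ^ n) := by
    intro n
    rw [hJmap, ← Ideal.map_pow, ell_map_mk, sup_comm]
  set e1 := emin (fun i => π (y i)) with he1def
  -- `e1` is finite
  have he1fin : e1 ≠ ⊤ := by
    have h1 : e1 ≤ gp (fun i => π (y i)) 0 := emin_le _ 0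
    refine ne_top_of_le_ne_top ?_ h1
    have h2 := hlen 1
    rw [pow_one, pow_one] at h2
    rw [gp_zero_eq, h2]
    have : Ideal.span {z} ⊔ J = Ideal.span (Set.range Y) := by
      rw [hY, Fin.range_cons, Ideal.span_insert]
    rw [this, ← gp_zero_eq]
    exact hfin
  obtain ⟨f, hf⟩ := ENat.ne_top_iff_exists.mp he1fin
  rw [← hf, ← he]
  -- key inequality for each `a`
  have key : ∀ a : ℕ, a * f ≤ a * e + umin Y 0 * G := by
    intro a
    obtain ⟨c, C, hc⟩ := mul_ell_le J z hfr a
    obtain ⟨B, hB⟩ : ∃ B : ℕ, errB Y = B := by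
      refine ⟨G * (∑ i, umin Y i), ?_⟩
      rw [errB, ← hG]
      push_cast
      ring
    have hcard : Fintype.card (Fin δ) = δ := Fintype.card_fin δ
    refine le_of_forall_tri_le (σ := Fin δ) (by rw [hcard]; exact hδ) (a * f)
      (a * e + umin Y 0 * G) (a * B + C) c fun n hn => ?_
    rw [hcard]
    have h1 : (f : ℕ∞) * (tri (Fin δ) n).card ≤ ell (Ideal.span {z} ⊔ J ^ n) := by
      have := emin_mul_card_le (fun i => π (y i)) n
      rw [hlen n] at this
      rw [hf]
      exact this
    have h2 : (a : ℕ∞) * ((f : ℕ∞) * (tri (Fin δ) n).card) ≤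
        ((tri (Fin δ) (n + c)).card * (a * e + umin Y 0 * G) +
          a * (B * ((n + c) ^ (δ - 1) : ℕ))) + C := by
      calc (a : ℕ∞) * ((f : ℕ∞) * (tri (Fin δ) n).card)
          ≤ a * ell (Ideal.span {z} ⊔ J ^ n) := by gcongr
        _ ≤ ell (Ideal.span {z ^ a} ⊔ J ^ (n + c)) + C := hc n
        _ ≤ _ := by
          have := ell_span_pow_sup_le' z y a (n + c)
          rw [← hY, ← he, ← hG, hB] at this
          gcongr
    have h3 : a * (f * (tri (Fin δ) n).card) ≤
        ((tri (Fin δ) (n + c)).card * (a * e + umin Y 0 * G) +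
          a * (B * (n + c) ^ (δ - 1))) + C := by exact_mod_cast h2
    have h4 : C ≤ C * (n + c) ^ (δ - 1) := Nat.le_mul_of_pos_right _ (pow_pos (by omega) _)
    calc a * f * (tri (Fin δ) n).card = a * (f * (tri (Fin δ) n).card) := by ring
      _ ≤ _ := h3
      _ ≤ ((tri (Fin δ) (n + c)).card * (a * e + umin Y 0 * G) +
          a * (B * (n + c) ^ (δ - 1))) + C * (n + c) ^ (δ - 1) := Nat.add_le_add_left h4 _
      _ = _ := by ring
  -- conclude
  have hfe : f ≤ e := by
    by_contra hlt
    push Not at hlt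
    have h1 := key (umin Y 0 * G + 1)
    have h2 : (umin Y 0 * G + 1) * (e + 1) ≤ (umin Y 0 * G + 1) * f :=
      Nat.mul_le_mul_left _ hlt
    have h3 : (umin Y 0 * G + 1) * (e + 1) = (umin Y 0 * G + 1) * e + (umin Y 0 * G + 1) := by ring
    omega
  exact_mod_cast hfe

end Vale.Agent.P202
end

section

/-!
Existence of reductions with few generators.
-/

set_option linter.unusedSectionVars false

namespace Vale.Agent.P202

open Ideal IsLocalRing Finset

section rel

variable {A : Type*} [CommRing A]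

lemma mon_single {σ : Type*} [Fintype σ] [LinearOrder σ] (y : σ → A) (i : σ) :
    mon y (Finsupp.single i 1) = y i := by
  rw [mon, Finset.prod_eq_single i]
  · simp
  · intro j _ hj; simp [Finsupp.single_eq_of_ne hj]
  · simp

lemma mon_sub_mem {σ : Type*} [Fintype σ] [LinearOrder σ] (x a : σ → A) (w : A) (J I : Ideal A)
    (hxI : ∀ i, x i ∈ I) (hwI : w ∈ I) (h : ∀ i, x i - a i * w ∈ J) (D : ℕ) :
    ∀ v : σ →₀ ℕ, v.degree = D + 1 → mon x v - mon a v * w ^ (D + 1) ∈ J * I ^ D := by
  classical
  induction D with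
  | zero =>
    intro v hv
    have hv0 : v ≠ 0 := by
      rintro rfl
      simp at hv
    obtain ⟨i, hi⟩ : ∃ i, v i ≠ 0 := by
      by_contra hc
      push Not at hc
      exact hv0 (Finsupp.ext hc)
    have hle : Finsupp.single i 1 ≤ v := by
      rw [Finsupp.single_le_iff]; omega
    obtain ⟨v', rfl⟩ := exists_add_of_le hle
    rw [map_add, Finsupp.degree_single] at hv
    have hv' : v' = 0 := by
      rw [← Finsupp.degree_eq_zero_iff]; omega
    subst hv'
    rw [add_zero, mon_single, mon_single, pow_zero, Ideal.one_eq_top, Ideal.mul_top, pow_one]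
    exact h i
  | succ D ih =>
    intro v hv
    have hv0 : v ≠ 0 := by
      rintro rfl
      simp at hv
    obtain ⟨i, hi⟩ : ∃ i, v i ≠ 0 := by
      by_contra hc
      push Not at hc
      exact hv0 (Finsupp.ext hc)
    have hle : Finsupp.single i 1 ≤ v := by
      rw [Finsupp.single_le_iff]; omega
    obtain ⟨v', rfl⟩ := exists_add_of_le hle
    rw [map_add, Finsupp.degree_single] at hv
    have hv' : v'.degree = D + 1 := by omega
    rw [mon_add, mon_add, mon_single, mon_single]
    have e : x i * mon x v' - a i * mon a v' * w ^ (D + 1 + 1) =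
        (mon x v' - mon a v' * w ^ (D + 1)) * x i +
          (x i - a i * w) * (mon a v' * w ^ (D + 1)) := by ring
    rw [e]
    refine Ideal.add_mem _ ?_ ?_
    · rw [pow_succ, ← mul_assoc]
      exact Ideal.mul_mem_mul (ih v' hv') (hxI i)
    · exact Ideal.mul_mem_mul (h i) (Ideal.mul_mem_left _ _ (Ideal.pow_mem_pow hwI _))

lemma sup_pow_le (J W : Ideal A) (D : ℕ) :
    (J ⊔ W) ^ (D + 1) ≤ J * (J ⊔ W) ^ D ⊔ W ^ (D + 1) := by
  induction D with
  | zero => simp
  | succ D ih =>
    calc (J ⊔ W) ^ (D + 1 + 1) = (J ⊔ W) ^ (D + 1) * J ⊔ (J ⊔ W) ^ (D + 1) * W := by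
          rw [pow_succ _ (D + 1), Ideal.mul_sup]
      _ ≤ J * (J ⊔ W) ^ (D + 1) ⊔ (J * (J ⊔ W) ^ D ⊔ W ^ (D + 1)) * W := by
          refine sup_le_sup (by rw [mul_comm]) (Ideal.mul_mono_left ih)
      _ = J * (J ⊔ W) ^ (D + 1) ⊔ (J * (J ⊔ W) ^ D * W ⊔ W ^ (D + 1 + 1)) := by
          rw [Ideal.sup_mul, pow_succ W (D + 1)]
      _ ≤ J * (J ⊔ W) ^ (D + 1) ⊔ W ^ (D + 1 + 1) := by
          refine sup_le le_sup_left (sup_le ?_ le_sup_right)
          refine le_trans ?_ le_sup_left
          rw [mul_assoc, pow_succ]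
          exact Ideal.mul_mono_right (Ideal.mul_mono_right le_sup_right)

/-- a vanishing graded piece gives a homogeneous relation with a unit coefficient. -/
lemma exists_relation {σ : Type*} [Fintype σ] [LinearOrder σ] (x : σ → A) (u : σ →₀ ℕ)
    (hu : gp x u = 0) : ∃ (T : Finset (σ →₀ ℕ)) (c : (σ →₀ ℕ) → A),
      (∀ w ∈ T, w.degree = u.degree) ∧ u ∈ T ∧ c u = 1 ∧
      ∑ w ∈ T, c w * mon x w ∈ Ideal.span (Set.range x) ^ (u.degree + 1) := by
  classical
  have h1 := piece_eq_zero_iff.mp hu
  rw [sup_bot_eq] at h1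
  set T' := (tri σ (u.degree + 1)).filter (fun w => w.degree = u.degree ∧ dlt u w) with hT'
  have h2 : Fgt x u ≤ FS x (T' : Set (σ →₀ ℕ)) ⊔ Ideal.span (Set.range x) ^ (u.degree + 1) := by
    rw [Fgt, FS, Ideal.span_le]
    rintro _ ⟨w, hw, rfl⟩
    rw [Set.mem_ofPred_eq] at hw
    have h3 : u.degree ≤ w.degree := by
      refine degree_le_of_dle ?_
      exact le_of_lt hw
    rcases h3.eq_or_lt with h4 | h4
    · refine Ideal.mem_sup_left (mon_mem_FS ?_)
      rw [Finset.mem_coe, hT', Finset.mem_filter, mem_tri]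
      exact ⟨by omega, h4.symm, hw⟩
    · exact Ideal.mem_sup_right (Ideal.pow_le_pow_right h4 (mon_mem_pow x w))
  obtain ⟨b', hb', b, hb, hbb⟩ := Submodule.mem_sup.mp (h2 h1)
  have hb'' : b' ∈ Submodule.span A (mon x '' (T' : Set (σ →₀ ℕ))) := hb'
  rw [Submodule.mem_span_image_finset_iff_exists_fun'] at hb''
  obtain ⟨c, hc⟩ := hb''
  have huT' : u ∉ T' := by
    intro hmem
    rw [hT', Finset.mem_filter] at hmem
    exact lt_irrefl _ hmem.2.2
  refine ⟨insert u T', fun w => if w = u then 1 else - c w, ?_, Finset.mem_insert_self _ _,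
    if_pos rfl, ?_⟩
  · intro w hw
    rw [Finset.mem_insert] at hw
    rcases hw with rfl | hw
    · rfl
    · rw [hT', Finset.mem_filter] at hw; exact hw.2.1
  · rw [Finset.sum_insert huT']
    simp only [if_true, one_mul]
    have h5 : ∑ w ∈ T', (if w = u then 1 else - c w) * mon x w = - b' := by
      rw [← hc, ← Finset.sum_neg_distrib]
      refine Finset.sum_congr rfl fun w hw => ?_
      have : w ≠ u := by rintro rfl; exact huT' hw
      rw [if_neg this, smul_eq_mul, neg_mul]
    rw [h5, ← hbb]
    have : b' + b + -b' = b := by ring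
    rw [this]
    exact hb

end rel

variable {R A : Type*} [CommRing R] [IsLocalRing R] [Infinite (ResidueField R)] [CommRing A]
  [IsLocalRing A] [Algebra R A] [IsLocalHom (algebraMap R A)]

lemma infinite_residue_range :
    (Set.range (fun a : R => residue A (algebraMap R A a))).Infinite := by
  have h1 : Set.range (fun a : R => residue A (algebraMap R A a)) =
      Set.range (ResidueField.map (algebraMap R A)) := by
    ext z
    constructor
    · rintro ⟨a, rfl⟩
      exact ⟨residue R a, rfl⟩
    · rintro ⟨b, rfl⟩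
      obtain ⟨a, rfl⟩ := residue_surjective b
      exact ⟨a, rfl⟩
  rw [h1]
  exact Set.infinite_range_of_injective (RingHom.injective _)

/-- A form with a unit coefficient takes a unit value at some point with coordinates in `R`. -/
lemma exists_point {r : ℕ} (T : Finset (Fin (r + 1) →₀ ℕ)) (c : (Fin (r + 1) →₀ ℕ) → A)
    (u : Fin (r + 1) →₀ ℕ) (huT : u ∈ T) (hcu : c u = 1) :
    ∃ l : Fin (r + 1) → R, IsUnit (∑ w ∈ T, c w * mon (fun i => algebraMap R A (l i)) w) ∧
      IsUnit (l 0) := by
  classical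
  let φ : MvPolynomial (Fin (r + 1)) (ResidueField A) :=
    ∑ w ∈ T, MvPolynomial.monomial w (residue A (c w))
  have hφ : φ ≠ 0 := by
    intro h0
    have : MvPolynomial.coeff u φ = 1 := by
      simp only [φ, MvPolynomial.coeff_sum, MvPolynomial.coeff_monomial]
      rw [Finset.sum_eq_single u]
      · simp [hcu]
      · intro w _ hw; rw [if_neg hw]
      · intro h; exact absurd huT h
    rw [h0, MvPolynomial.coeff_zero] at this
    exact zero_ne_one this
  have hφ' : MvPolynomial.X 0 * φ ≠ 0 := mul_ne_zero (MvPolynomial.X_ne_zero 0) hφ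
  have hex : ∃ x ∈ Set.pi Set.univ
      (fun _ : Fin (r + 1) => Set.range (fun a : R => residue A (algebraMap R A a))),
      MvPolynomial.eval x (MvPolynomial.X 0 * φ) ≠ 0 := by
    by_contra hcon
    push Not at hcon
    refine hφ' (MvPolynomial.funext_set _ (fun _ => infinite_residue_range (R := R) (A := A)) ?_)
    intro x hx
    rw [hcon x hx, map_zero]
  obtain ⟨x, hx, hne⟩ := hex
  have hx' : ∀ i, ∃ a : R, residue A (algebraMap R A a) = x i := fun i => hx i (Set.mem_univ _)
  choose l hl using hx'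
  rw [map_mul, MvPolynomial.eval_X] at hne
  refine ⟨l, ?_, ?_⟩
  · rw [← IsLocalRing.residue_ne_zero_iff_isUnit]
    have : residue A (∑ w ∈ T, c w * mon (fun i => algebraMap R A (l i)) w) =
        MvPolynomial.eval x φ := by
      rw [map_sum, map_sum]
      refine Finset.sum_congr rfl fun w _ => ?_
      rw [MvPolynomial.eval_monomial, map_mul, mon, map_prod,
        Finsupp.prod_fintype _ _ (fun i => pow_zero _)]
      congr 1
      refine Finset.prod_congr rfl fun i _ => ?_
      rw [map_pow, hl]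
    rw [this]
    exact right_ne_zero_of_mul hne
  · have h1 : x 0 ≠ 0 := left_ne_zero_of_mul hne
    rw [← hl 0, IsLocalRing.residue_ne_zero_iff_isUnit] at h1
    exact isUnit_of_map_unit (algebraMap R A) _ h1

lemma mon_mul_const {σ : Type*} [Fintype σ] [LinearOrder σ] (a : σ → A) (s : A) (w : σ →₀ ℕ) :
    mon (fun i => a i * s) w = mon a w * s ^ w.degree := by
  simp only [mon, mul_pow, Finset.prod_mul_distrib, Finsupp.degree_eq_sum]
  rw [Finset.prod_pow_eq_pow_sum]

lemma reduction_step [IsNoetherianRing A] {r : ℕ} (x : Fin (r + 1) → A)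
    (hx : ∀ i, x i ∈ maximalIdeal A) (u : Fin (r + 1) →₀ ℕ) (hu : gp x u = 0) :
    ∃ l : Fin r → R, ∃ D : ℕ,
      Ideal.span (Set.range x) ^ (D + 1) ≤
        Ideal.span (Set.range fun i => x i.succ - algebraMap R A (l i) * x 0) *
          Ideal.span (Set.range x) ^ D := by
  classical
  set I := Ideal.span (Set.range x) with hI
  have hIn : I ≤ maximalIdeal A := by
    rw [hI, Ideal.span_le]
    rintro _ ⟨i, rfl⟩
    exact hx i
  have hxI : ∀ i, x i ∈ I := fun i => Ideal.subset_span ⟨i, rfl⟩
  obtain ⟨T, c, hT, huT, hcu, hrel⟩ := exists_relation x u hu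
  rw [← hI] at hrel
  have hu0 : u.degree ≠ 0 := by
    intro h0
    rw [Finsupp.degree_eq_zero_iff] at h0
    subst h0
    rw [gp_zero_eq, ell_eq_zero_iff] at hu
    rw [hI, hu] at hIn
    exact (IsLocalRing.maximalIdeal.isMaximal A).ne_top (top_le_iff.mp hIn)
  obtain ⟨D, hD⟩ : ∃ D, u.degree = D + 1 := ⟨u.degree - 1, by omega⟩
  rw [hD] at hrel
  obtain ⟨l, hl, hl0⟩ := exists_point (R := R) T c u huT hcu
  obtain ⟨m0, hm0⟩ := hl0
  set s : R := ((m0⁻¹ : Rˣ) : R) with hs
  have hls : l 0 * s = 1 := by rw [← hm0, hs]; exact m0.mul_inv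
  let a : Fin (r + 1) → A := fun i => algebraMap R A (l i) * algebraMap R A s
  have ha0 : a 0 = 1 := by
    change algebraMap R A (l 0) * algebraMap R A s = 1
    rw [← map_mul, hls, map_one]
  have hasum : IsUnit (∑ w ∈ T, c w * mon a w) := by
    have : ∑ w ∈ T, c w * mon a w =
        (∑ w ∈ T, c w * mon (fun i => algebraMap R A (l i)) w) * (algebraMap R A s) ^ (D + 1) := by
      rw [Finset.sum_mul]
      refine Finset.sum_congr rfl fun w hw => ?_
      rw [mon_mul_const, hT w hw, hD, mul_assoc]
    rw [this]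
    refine hl.mul (IsUnit.pow _ ?_)
    rw [hs]
    exact (Units.isUnit _).map (algebraMap R A)
  refine ⟨fun i => l i.succ * s, D, ?_⟩
  set J := Ideal.span (Set.range fun i : Fin r => x i.succ - algebraMap R A (l i.succ * s) * x 0)
    with hJ
  have hJI : J ≤ I := by
    rw [hJ, Ideal.span_le]
    rintro _ ⟨i, rfl⟩
    exact Ideal.sub_mem _ (hxI _) (Ideal.mul_mem_left _ _ (hxI _))
  have hxa : ∀ i, x i - a i * x 0 ∈ J := by
    intro i
    refine Fin.cases ?_ (fun i => ?_) i
    · rw [ha0, one_mul, sub_self]; exact Submodule.zero_mem _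
    · refine Ideal.subset_span ⟨i, ?_⟩
      simp only [a, map_mul]
  have hIJ : I = J ⊔ Ideal.span {x 0} := by
    refine le_antisymm ?_ (sup_le hJI ?_)
    · rw [hI, Ideal.span_le]
      rintro _ ⟨i, rfl⟩
      have : x i = (x i - a i * x 0) + a i * x 0 := by ring
      rw [this]
      exact Ideal.add_mem _ (Ideal.mem_sup_left (hxa i)) (Ideal.mem_sup_right
        (Ideal.mul_mem_left _ _ (Ideal.mem_span_singleton_self _)))
    · rw [Ideal.span_singleton_le_iff_mem]; exact hxI 0
  have key : x 0 ^ (D + 1) ∈ J * I ^ D ⊔ I ^ (D + 1 + 1) := by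
    have h1 : ∑ w ∈ T, c w * (mon x w - mon a w * x 0 ^ (D + 1)) ∈ J * I ^ D := by
      refine Ideal.sum_mem _ fun w hw => Ideal.mul_mem_left _ _ ?_
      exact mon_sub_mem x a (x 0) J I hxI (hxI 0) hxa D w (by rw [hT w hw, hD])
    have h2 : (∑ w ∈ T, c w * mon a w) * x 0 ^ (D + 1) =
        ∑ w ∈ T, c w * mon x w - ∑ w ∈ T, c w * (mon x w - mon a w * x 0 ^ (D + 1)) := by
      rw [Finset.sum_mul, ← Finset.sum_sub_distrib]
      refine Finset.sum_congr rfl fun w _ => ?_
      ring
    rw [← Ideal.unit_mul_mem_iff_mem _ hasum, h2]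
    exact Ideal.sub_mem _ (Ideal.mem_sup_right hrel) (Ideal.mem_sup_left h1)
  have h3 : I ^ (D + 1) ≤ J * I ^ D ⊔ maximalIdeal A • I ^ (D + 1) := by
    calc I ^ (D + 1) ≤ J * I ^ D ⊔ Ideal.span {x 0} ^ (D + 1) := by
          conv_lhs => rw [hIJ]
          refine (sup_pow_le J _ D).trans ?_
          rw [← hIJ]
      _ ≤ J * I ^ D ⊔ (J * I ^ D ⊔ I ^ (D + 1 + 1)) := by
          refine sup_le_sup_left ?_ _
          rw [Ideal.span_singleton_pow, Ideal.span_singleton_le_iff_mem]
          exact key
      _ ≤ J * I ^ D ⊔ maximalIdeal A • I ^ (D + 1) := by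
          refine sup_le le_sup_left (sup_le le_sup_left (le_trans ?_ le_sup_right))
          rw [pow_succ, mul_comm, smul_eq_mul]
          exact Ideal.mul_mono_left hIn
  exact Submodule.le_of_le_smul_of_le_jacobson_bot (IsNoetherian.noetherian _)
    (IsLocalRing.maximalIdeal_le_jacobson _) h3

/-- `J` is a reduction of `H`. -/
def IsRed (J H : Ideal A) : Prop := J ≤ H ∧ ∃ c, H ^ (c + 1) ≤ J * H ^ c

lemma IsRed.refl (H : Ideal A) : IsRed H H := ⟨le_rfl, 0, by simp⟩

lemma IsRed.trans {K J H : Ideal A} (h1 : IsRed K J) (h2 : IsRed J H) : IsRed K H := by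
  obtain ⟨h1, b, hb⟩ := h1
  obtain ⟨h2, c, hc⟩ := h2
  refine ⟨h1.trans h2, c + b, ?_⟩
  have h3 : ∀ n, H ^ (c + n) ≤ J ^ n * H ^ c := by
    intro n
    induction n with
    | zero => simp
    | succ n ih =>
      calc H ^ (c + (n + 1)) = H ^ (c + n) * H := by rw [← pow_succ, add_assoc]
        _ ≤ (J ^ n * H ^ c) * H := Ideal.mul_mono_left ih
        _ = J ^ n * H ^ (c + 1) := by rw [mul_assoc, pow_succ]
        _ ≤ J ^ n * (J * H ^ c) := Ideal.mul_mono_right hc
        _ = J ^ (n + 1) * H ^ c := by rw [← mul_assoc, pow_succ]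
  calc H ^ (c + b + 1) = H ^ (c + (b + 1)) := by rw [add_assoc]
    _ ≤ J ^ (b + 1) * H ^ c := h3 _
    _ ≤ (K * J ^ b) * H ^ c := Ideal.mul_mono_left hb
    _ = K * (J ^ b * H ^ c) := mul_assoc _ _ _
    _ ≤ K * (H ^ b * H ^ c) := Ideal.mul_mono_right (Ideal.mul_mono_left (Ideal.pow_right_mono h2 b))
    _ = K * H ^ (c + b) := by rw [← pow_add, add_comm b c]

lemma IsRed.exists_pow_le {J H : Ideal A} (h : IsRed J H) :
    ∃ c, ∀ n, H ^ (n + c) ≤ J ^ n := by
  obtain ⟨h2, c, hc⟩ := h
  refine ⟨c, fun n => ?_⟩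
  have h3 : H ^ (n + c) ≤ J ^ n * H ^ c := by
    induction n with
    | zero => simp
    | succ n ih =>
      calc H ^ (n + 1 + c) = H ^ (n + c) * H := by rw [← pow_succ]; congr 1; omega
        _ ≤ (J ^ n * H ^ c) * H := Ideal.mul_mono_left ih
        _ = J ^ n * H ^ (c + 1) := by rw [mul_assoc, pow_succ]
        _ ≤ J ^ n * (J * H ^ c) := Ideal.mul_mono_right hc
        _ = J ^ (n + 1) * H ^ c := by rw [← mul_assoc, pow_succ]
  exact h3.trans Ideal.mul_le_left

end Vale.Agent.P202
end

section

/-!
Existence of reductions with few generators (main statement).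
-/

set_option linter.unusedSectionVars false

namespace Vale.Agent.P202

open Ideal IsLocalRing Finset

variable {R A : Type*} [CommRing R] [IsLocalRing R] [Infinite (ResidueField R)] [CommRing A]
  [IsLocalRing A] [Algebra R A] [IsLocalHom (algebraMap R A)]

lemma span_range_pad {r d : ℕ} (h : r ≤ d) (x : Fin r → A) :
    Ideal.span (Set.range fun i : Fin d => if h : (i : ℕ) < r then x ⟨i, h⟩ else 0) =
      Ideal.span (Set.range x) := by
  refine le_antisymm ?_ ?_
  · rw [Ideal.span_le]
    rintro _ ⟨i, rfl⟩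
    by_cases hi : (i : ℕ) < r
    · simp only [hi, dif_pos, SetLike.mem_coe]
      exact Ideal.subset_span ⟨_, rfl⟩
    · simp [hi]
  · refine Ideal.span_mono ?_
    rintro _ ⟨i, rfl⟩
    exact ⟨⟨i, i.2.trans_le h⟩, by simp⟩

lemma span_R_le (x0 : Set A) (h : ∀ a ∈ x0, a ∈ maximalIdeal A) {a : A}
    (ha : a ∈ Submodule.span R x0) : a ∈ maximalIdeal A := by
  have : Submodule.span R x0 ≤ (maximalIdeal A).restrictScalars R := by
    rw [Submodule.span_le]
    intro a ha
    exact h a ha
  exact this ha

variable (R) in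
theorem exists_reduction [IsNoetherianRing A] {s : ℕ} (x0 : Fin s → A)
    (hx0 : ∀ i, x0 i ∈ maximalIdeal A) (d B : ℕ)
    (hB : ∀ n, 0 < n → ell (Ideal.span (Set.range x0) ^ n) ≤ (B * n ^ d : ℕ)) :
    ∃ x : Fin d → A, (∀ i, x i ∈ Submodule.span R (Set.range x0)) ∧
      IsRed (Ideal.span (Set.range x)) (Ideal.span (Set.range x0)) := by
  classical
  set H := Ideal.span (Set.range x0) with hH
  let P : ℕ → Prop := fun r => ∃ x : Fin r → A, (∀ i, x i ∈ Submodule.span R (Set.range x0)) ∧
      IsRed (Ideal.span (Set.range x)) H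
  have hPs : ∃ r, P r := ⟨s, x0, fun i => Submodule.subset_span ⟨i, rfl⟩, IsRed.refl _⟩
  obtain ⟨r, hr, hmin⟩ : ∃ r, P r ∧ ∀ r' < r, ¬ P r' :=
    ⟨Nat.find hPs, Nat.find_spec hPs, fun r' h => Nat.find_min hPs h⟩
  obtain ⟨x, hx, hred⟩ := hr
  have hx0' : ∀ a ∈ Set.range x0, a ∈ maximalIdeal A := by
    rintro _ ⟨i, rfl⟩; exact hx0 i
  have hxn : ∀ i, x i ∈ maximalIdeal A := fun i => span_R_le (R := R) _ hx0' (hx i)
  have hne : ∀ u, gp x u ≠ 0 := by
    intro u hu
    rcases r with _ | r
    · have hu0 : u = 0 := by ext i; exact i.elim0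
      subst hu0
      rw [gp_zero_eq, ell_eq_zero_iff] at hu
      have : Ideal.span (Set.range x) = ⊥ := by
        rw [Ideal.span_eq_bot]
        rintro _ ⟨i, rfl⟩
        exact i.elim0
      rw [this] at hu
      exact bot_ne_top hu
    · obtain ⟨l, D, hD⟩ := reduction_step (R := R) x hxn u hu
      refine hmin r (Nat.lt_succ_self r)
        ⟨fun i => x i.succ - algebraMap R A (l i) * x 0, fun i => ?_, ?_⟩
      · refine Submodule.sub_mem _ (hx _) ?_
        rw [← Algebra.smul_def]
        exact Submodule.smul_mem _ _ (hx 0)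
      · refine IsRed.trans ⟨?_, D, hD⟩ hred
        rw [Ideal.span_le]
        rintro _ ⟨i, rfl⟩
        exact Ideal.sub_mem _ (Ideal.subset_span ⟨_, rfl⟩)
          (Ideal.mul_mem_left _ _ (Ideal.subset_span ⟨_, rfl⟩))
  obtain ⟨c, hc⟩ := hred.exists_pow_le
  have hem : 1 ≤ emin x := by
    obtain ⟨u, hu⟩ := exists_gp_eq_emin x
    rw [← hu]
    exact Order.one_le_iff_ne_zero.mpr (hne u)
  have hcount : ∀ n, 0 < n → (tri (Fin r) n).card ≤ B * (n + c) ^ d := by
    intro n hn
    have h1 : ((tri (Fin r) n).card : ℕ∞) ≤ (B * (n + c) ^ d : ℕ) := by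
      calc ((tri (Fin r) n).card : ℕ∞) ≤ emin x * (tri (Fin r) n).card := by
            conv_lhs => rw [← one_mul ((tri (Fin r) n).card : ℕ∞)]
            gcongr
        _ ≤ ell (Ideal.span (Set.range x) ^ n) := emin_mul_card_le x n
        _ ≤ ell (H ^ (n + c)) := ell_mono (hc n)
        _ ≤ _ := hB (n + c) (by omega)
    exact_mod_cast h1
  have hrd : r ≤ d := by
    by_contra hlt
    push Not at hlt
    have := le_of_forall_pow_le (d := r) (by omega) 1 0 (r.factorial * B) c fun n hn => by
      have h1 := pow_le_factorial_mul_card_tri (σ := Fin r) n hn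
      rw [Fintype.card_fin] at h1
      rw [one_mul, zero_mul, zero_add]
      calc n ^ r ≤ r.factorial * (tri (Fin r) n).card := h1
        _ ≤ r.factorial * (B * (n + c) ^ d) := Nat.mul_le_mul_left _ (hcount n hn)
        _ ≤ r.factorial * (B * (n + c) ^ (r - 1)) := by
            refine Nat.mul_le_mul_left _ (Nat.mul_le_mul_left _ (Nat.pow_le_pow_right ?_ ?_)) <;>
              omega
        _ = _ := by ring
    omega
  refine ⟨fun i : Fin d => if h : (i : ℕ) < r then x ⟨i, h⟩ else 0, fun i => ?_, ?_⟩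
  · by_cases hi : (i : ℕ) < r
    · simp only [hi, dif_pos]; exact hx _
    · simp only [hi, dif_neg, not_false_eq_true]; exact Submodule.zero_mem _
  · rw [span_range_pad hrd]
    exact hred

/-- polynomial growth of the colengths of the powers of an ideal contained in a `d`-generated
primary situation. -/
lemma exists_growth [IsNoetherianRing A] {d : ℕ} (w : Fin d → A)
    (hw : ∃ s, maximalIdeal A ^ s ≤ Ideal.span (Set.range w)) (I : Ideal A) (D : ℕ)
    (hD : Ideal.span (Set.range w) ^ D ≤ I) (hI : ell I ≠ ⊤) :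
    ∃ B : ℕ, ∀ n, 0 < n → ell (I ^ n) ≤ (B * n ^ d : ℕ) := by
  obtain ⟨s, hs⟩ := hw
  have h0 : gp w 0 ≠ ⊤ := by
    rw [gp_zero_eq]; exact ell_ne_top_of_pow_le hs
  obtain ⟨G, hG⟩ := ENat.ne_top_iff_exists.mp h0
  obtain ⟨e, he⟩ := ENat.ne_top_iff_exists.mp (ne_top_of_le_ne_top h0 (emin_le w 0))
  obtain ⟨L, hL⟩ := ENat.ne_top_iff_exists.mp hI
  refine ⟨L * (e + G * (∑ i, umin w i)), fun n hn => ?_⟩
  refine (ell_pow_le_main w I D hD n hn).trans ?_
  rw [errB, ← hG, ← he, ← hL, Fintype.card_fin]
  have h1 : n ^ (d - 1) ≤ n ^ d := Nat.pow_le_pow_right hn (Nat.sub_le _ _)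
  have h2 : L * (n ^ d * e + G * (∑ i, umin w i) * n ^ (d - 1)) ≤
      L * (e + G * (∑ i, umin w i)) * n ^ d := by
    calc L * (n ^ d * e + G * (∑ i, umin w i) * n ^ (d - 1))
        ≤ L * (n ^ d * e + G * (∑ i, umin w i) * n ^ d) := by gcongr
      _ = _ := by ring
  exact_mod_cast h2

end Vale.Agent.P202
end

section

/-!
Avoidance over local rings with infinite residue field, and filter-regular elements.
-/

set_option linter.unusedSectionVars false

namespace Vale.Agent.P202

open Ideal IsLocalRing Finset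

lemma avoid {R M : Type*} [CommRing R] [IsLocalRing R] [Infinite (ResidueField R)]
    [AddCommGroup M] [Module R M] (s : Finset (Submodule R M)) (hs : ∀ U ∈ s, U ≠ ⊤) :
    ∃ c : M, ∀ U ∈ s, c ∉ U := by
  by_contra hcon
  push Not at hcon
  have hcov : ⋃ U ∈ s, ((id U : Submodule R M) : Set M) = Set.univ := by
    ext c
    simp only [id, Set.mem_iUnion, SetLike.mem_coe, Set.mem_univ, iff_true]
    obtain ⟨U, hU, hc⟩ := hcon c
    exact ⟨U, hU, hc⟩
  obtain ⟨U, hU, hfi⟩ := Submodule.exists_finiteIndex_of_cover hcov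
  have hfi' : U.toAddSubgroup.FiniteIndex := hfi
  have hfin : Finite (M ⧸ U) := AddSubgroup.finite_quotient_of_finiteIndex (H := U.toAddSubgroup)
  obtain ⟨v, hv⟩ : ∃ v, v ∉ U := by
    by_contra h
    push Not at h
    exact hs U hU (eq_top_iff.mpr fun x _ => h x)
  -- the cyclic module generated by `v` in the quotient
  let f : R →ₗ[R] (M ⧸ U) := LinearMap.toSpanSingleton R (M ⧸ U) (U.mkQ v)
  have hker : LinearMap.ker f ≤ maximalIdeal R := by
    refine le_maximalIdeal ?_
    intro htop
    have : (1 : R) ∈ LinearMap.ker f := by rw [htop]; exact Submodule.mem_top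
    rw [LinearMap.mem_ker, LinearMap.toSpanSingleton_apply, one_smul, Submodule.mkQ_apply,
      Submodule.Quotient.mk_eq_zero] at this
    exact hv this
  have hf1 : Finite (R ⧸ LinearMap.ker f) :=
    Finite.of_injective _ (LinearMap.ker_eq_bot.mp (Submodule.ker_liftQ_eq_bot' _ f rfl))
  have hf2 : Finite (ResidueField R) :=
    Finite.of_surjective (Submodule.factor hker) (Submodule.factor_surjective hker)
  exact not_finite (ResidueField R)

/-- a finitely generated module killed by a power of the maximal ideal has finite length. -/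
lemma length_ne_top_of_pow_smul {A X : Type*} [CommRing A] [IsLocalRing A] [IsNoetherianRing A]
    [AddCommGroup X] [Module A X] [Module.Finite A X] (s : ℕ)
    (h : ∀ a ∈ maximalIdeal A ^ s, ∀ x : X, a • x = 0) : Module.length A X ≠ ⊤ := by
  have ht : Module.IsTorsionBySet A X (maximalIdeal A ^ s : Ideal A) := fun x a => h a a.2 x
  let _ : Module (A ⧸ maximalIdeal A ^ s) X := ht.module
  have : IsScalarTower A (A ⧸ maximalIdeal A ^ s) X := ht.isScalarTower
  have hart : IsArtinianRing (A ⧸ maximalIdeal A ^ s) := isArtinianRing_quot (s := s) le_rfl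
  have hfin : Module.Finite (A ⧸ maximalIdeal A ^ s) X :=
    Module.Finite.of_restrictScalars_finite A _ _
  rw [Module.length_eq_of_surjective (R := A ⧸ maximalIdeal A ^ s)
    (by exact Ideal.Quotient.mk_surjective)]
  exact Module.length_ne_top

section

variable {A : Type*} [CommRing A] [IsLocalRing A] [IsNoetherianRing A]

/-- an element outside all non-maximal associated primes is filter-regular. -/
lemma length_col_ne_top {z : A} (hz : ∀ P ∈ associatedPrimes A A, z ∈ P → P = maximalIdeal A)
    (i : ℕ) : Module.length A (col (⊥ : Ideal A) (z ^ i)) ≠ ⊤ := by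
  set K := col (⊥ : Ideal A) (z ^ i) with hK
  have hmin : ∀ P ∈ (Module.annihilator A K).minimalPrimes, P = maximalIdeal A := by
    intro P hP
    have h1 : P ∈ associatedPrimes A K :=
      Module.associatedPrimes.minimalPrimes_annihilator_subset_associatedPrimes A K hP
    have h2 : P ∈ associatedPrimes A A :=
      associatedPrimes.subset_of_injective (f := K.subtype) (Submodule.subtype_injective K) h1
    refine hz P h2 ?_
    have h3 : z ^ i ∈ Module.annihilator A K := by
      rw [Module.mem_annihilator]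
      rintro ⟨a, ha⟩
      rw [hK, mem_col] at ha
      ext
      simp only [SetLike.mk_smul_mk, smul_eq_mul, ZeroMemClass.coe_zero]
      rw [mul_comm]
      simpa using ha
    have := hP.isPrime
    exact this.mem_of_pow_mem i (hP.1.2 h3)
  have hrad : maximalIdeal A ≤ (Module.annihilator A K).radical := by
    rw [← Ideal.sInf_minimalPrimes]
    exact le_sInf fun P hP => (hmin P hP).ge
  obtain ⟨s, hs⟩ := Ideal.exists_pow_le_of_le_radical_of_fg hrad (IsNoetherian.noetherian _)
  refine length_ne_top_of_pow_smul s fun a ha x => ?_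
  exact Module.mem_annihilator.mp (hs ha) x

end

end Vale.Agent.P202
end

section

/-!
Cutting a Noetherian local ring by generic elements of a primary ideal.
-/

set_option linter.unusedSectionVars false

namespace Vale.Agent.P202

open Ideal IsLocalRing Finset

universe v

lemma emin_ne_top {A σ : Type*} [CommRing A] [Fintype σ] [LinearOrder σ] {y : σ → A}
    (h : ell (Ideal.span (Set.range y)) ≠ ⊤) : emin y ≠ ⊤ := by
  rw [← gp_zero_eq] at h
  exact ne_top_of_le_ne_top h (emin_le y 0)

lemma errB_ne_top {A σ : Type*} [CommRing A] [Fintype σ] [LinearOrder σ] {y : σ → A}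
    (h : ell (Ideal.span (Set.range y)) ≠ ⊤) : errB y ≠ ⊤ := by
  rw [← gp_zero_eq] at h
  obtain ⟨G, hG⟩ := ENat.ne_top_iff_exists.mp h
  rw [errB, ← hG]
  exact_mod_cast ENat.natCast_ne_top _

lemma emin_le_of_span_eq {A σ : Type*} [CommRing A] [Fintype σ] [LinearOrder σ]
    (hσ : 0 < Fintype.card σ) (y y' : σ → A)
    (h : Ideal.span (Set.range y) = Ideal.span (Set.range y'))
    (hfin : ell (Ideal.span (Set.range y)) ≠ ⊤) : emin y ≤ emin y' := by
  have hfin' : ell (Ideal.span (Set.range y')) ≠ ⊤ := by rwa [← h]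
  obtain ⟨e, he⟩ := ENat.ne_top_iff_exists.mp (emin_ne_top hfin)
  obtain ⟨e', he'⟩ := ENat.ne_top_iff_exists.mp (emin_ne_top hfin')
  obtain ⟨B, hB⟩ := ENat.ne_top_iff_exists.mp (errB_ne_top hfin')
  have := le_of_forall_tri_le hσ e e' B 0 fun n _ => by
    have h1 := emin_mul_card_le y n
    have h2 := ell_pow_le y' n
    rw [← h] at h2
    have h3 := h1.trans h2
    rw [← he, ← he', ← hB] at h3
    rw [add_zero, mul_comm e']
    exact_mod_cast h3
  rw [← he, ← he']
  exact_mod_cast this

section

variable {A : Type*} [CommRing A] [IsLocalRing A] [IsNoetherianRing A] [Infinite (ResidueField A)]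

/-- choice of a filter-regular element in a primary ideal. -/
theorem exists_filter_regular {δ : ℕ} (y : Fin (δ + 1) → A) (hyn : ∀ i, y i ∈ maximalIdeal A)
    (hy : ell (Ideal.span (Set.range y)) ≠ ⊤) :
    ∃ (z : A) (y' : Fin δ → A), z ∈ maximalIdeal A ∧ (∀ i, y' i ∈ maximalIdeal A) ∧
      Ideal.span (Set.range (Fin.cons z y' : Fin (δ + 1) → A)) = Ideal.span (Set.range y) ∧
      ∀ i, Module.length A (col (⊥ : Ideal A) (z ^ i)) ≠ ⊤ := by
  classical
  obtain ⟨s, hs⟩ := exists_pow_le_of_ell_ne_top hy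
  let φ : (Fin (δ + 1) → A) →ₗ[A] A := Fintype.linearCombination A y
  have hφ : ∀ c, φ c = ∑ i, c i * y i := by
    intro c
    simp [φ, Fintype.linearCombination_apply]
  have hass : (associatedPrimes A A).Finite := associatedPrimes.finite A A
  let S0 : Finset (Submodule A (Fin (δ + 1) → A)) :=
    insert (Submodule.comap (LinearMap.proj 0) (maximalIdeal A))
      ((hass.toFinset.erase (maximalIdeal A)).image fun P => Submodule.comap φ P)
  have hS0 : ∀ U ∈ S0, U ≠ ⊤ := by
    intro U hU
    rw [Finset.mem_insert, Finset.mem_image] at hU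
    rcases hU with rfl | ⟨P, hP, rfl⟩
    · intro htop
      have h1 : (fun _ => 1 : Fin (δ + 1) → A) ∈
          Submodule.comap (LinearMap.proj 0) (maximalIdeal A) := by rw [htop]; trivial
      have h2 : (1 : A) ∈ maximalIdeal A := h1
      exact (IsLocalRing.maximalIdeal.isMaximal A).ne_top ((Ideal.eq_top_iff_one _).mpr h2)
    · rw [Finset.mem_erase, Set.Finite.mem_toFinset] at hP
      intro htop
      have hPp : Ideal.IsPrime (P : Ideal A) := IsAssociatedPrime.isPrime hP.2
      have h1 : Ideal.span (Set.range y) ≤ P := by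
        rw [Ideal.span_le]
        rintro _ ⟨i, rfl⟩
        have : Pi.single i 1 ∈ Submodule.comap φ P := by rw [htop]; trivial
        rw [Submodule.mem_comap, hφ] at this
        simpa [Pi.single_apply] using this
      have h2 : maximalIdeal A ≤ P := hPp.le_of_pow_le (hs.trans h1)
      exact hP.1 (((IsLocalRing.maximalIdeal.isMaximal A).eq_of_le hPp.ne_top h2).symm)
  obtain ⟨c, hc⟩ := avoid S0 hS0
  have hc0 : IsUnit (c 0) := by
    have := hc _ (Finset.mem_insert_self _ _)
    rw [Submodule.mem_comap, LinearMap.proj_apply] at this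
    by_contra h
    exact this h
  have hcP : ∀ P ∈ associatedPrimes A A, φ c ∈ P → P = maximalIdeal A := by
    intro P hP hmem
    by_contra hne
    refine hc (Submodule.comap φ P) ?_ hmem
    refine Finset.mem_insert_of_mem (Finset.mem_image.mpr ⟨P, ?_, rfl⟩)
    rw [Finset.mem_erase, Set.Finite.mem_toFinset]
    exact ⟨hne, hP⟩
  have hzmem : φ c ∈ Ideal.span (Set.range y) := by
    rw [hφ]
    exact Ideal.sum_mem _ fun i _ => Ideal.mul_mem_left _ _ (Ideal.subset_span ⟨i, rfl⟩)
  have hspan_n : Ideal.span (Set.range y) ≤ maximalIdeal A := by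
    rw [Ideal.span_le]
    rintro _ ⟨i, rfl⟩
    exact hyn i
  refine ⟨φ c, fun i => y i.succ, hspan_n hzmem, fun i => hyn _, ?_, length_col_ne_top hcP⟩
  refine le_antisymm ?_ ?_
  · rw [Ideal.span_le]
    rintro _ ⟨i, rfl⟩
    refine Fin.cases ?_ (fun i => ?_) i
    · simpa using hzmem
    · simpa using (Ideal.subset_span ⟨i.succ, rfl⟩ : y i.succ ∈ Ideal.span (Set.range y))
  · have hsucc : ∀ i : Fin δ, y i.succ ∈
        Ideal.span (Set.range (Fin.cons (φ c) (fun i => y i.succ) : Fin (δ + 1) → A)) := by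
      intro i
      exact Ideal.subset_span ⟨i.succ, by simp⟩
    rw [Ideal.span_le]
    rintro _ ⟨i, rfl⟩
    refine Fin.cases ?_ (fun i => ?_) i
    · have h1 : c 0 * y 0 = φ c - ∑ i : Fin δ, c i.succ * y i.succ := by
        rw [hφ, Fin.sum_univ_succ]; ring
      have h2 : c 0 * y 0 ∈
          Ideal.span (Set.range (Fin.cons (φ c) (fun i => y i.succ) : Fin (δ + 1) → A)) := by
        rw [h1]
        refine Ideal.sub_mem _ (Ideal.subset_span ⟨0, by simp⟩) ?_
        exact Ideal.sum_mem _ fun i _ => Ideal.mul_mem_left _ _ (hsucc i)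
      exact (Ideal.unit_mul_mem_iff_mem _ hc0).mp h2
    · exact hsucc i

end

/-- The bound on lengths after cutting by `j` generic elements. -/
theorem exists_cut (j : ℕ) : ∀ (A : Type v) [CommRing A] [IsLocalRing A] [IsNoetherianRing A]
    [Infinite (ResidueField A)] (δ : ℕ) (_ : 0 < δ) (y : Fin (δ + j) → A)
    (_ : ∀ i, y i ∈ maximalIdeal A) (_ : ell (Ideal.span (Set.range y)) ≠ ⊤),
    ∃ (l : Fin j → A) (B : ℕ), (∀ i, l i ∈ maximalIdeal A) ∧
      ∀ (I : Ideal A) (D : ℕ), Ideal.span (Set.range y) ^ D ≤ I → ∀ t : ℕ, 0 < t →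
        ell (Ideal.span (Set.range l) ⊔ I ^ t) ≤
          ell (Ideal.span (Set.range l) ⊔ I) * (t ^ δ * emin y + B * t ^ (δ - 1)) := by
  induction j with
  | zero =>
    intro A _ _ _ _ δ hδ y hyn hy
    obtain ⟨B, hB⟩ := ENat.ne_top_iff_exists.mp (errB_ne_top hy)
    refine ⟨Fin.elim0, B, fun i => i.elim0, fun I D hD t ht => ?_⟩
    have h1 : Ideal.span (Set.range (Fin.elim0 : Fin 0 → A)) = ⊥ := by
      rw [Ideal.span_eq_bot]
      rintro _ ⟨i, rfl⟩
      exact i.elim0
    rw [h1, bot_sup_eq, bot_sup_eq]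
    have := ell_pow_le_main y I D hD t ht
    rw [← hB, Fintype.card_fin] at this
    push_cast at this
    exact this
  | succ j ih =>
    intro A _ _ _ _ δ hδ y hyn hy
    obtain ⟨z, y', hz, hy'n, hspan, hfr⟩ := exists_filter_regular (δ := δ + j) y hyn hy
    set π := Ideal.Quotient.mk (Ideal.span {z}) with hπ
    have hπs : Function.Surjective π := Ideal.Quotient.mk_surjective
    have hznt : Ideal.span {z} ≠ ⊤ := by
      intro h
      rw [Ideal.span_singleton_eq_top] at h
      exact hz h
    have : Nontrivial (A ⧸ Ideal.span {z}) := Ideal.Quotient.nontrivial_iff.mpr hznt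
    have : IsLocalRing (A ⧸ Ideal.span {z}) := IsLocalRing.of_surjective' π hπs
    have : IsLocalHom π := IsLocalHom.of_surjective π hπs
    have : Infinite (ResidueField (A ⧸ Ideal.span {z})) :=
      Infinite.of_injective (ResidueField.map π) (RingHom.injective _)
    have hfinY : ell (Ideal.span (Set.range (Fin.cons z y' : Fin (δ + j + 1) → A))) ≠ ⊤ := by
      rw [hspan]; exact hy
    have hmap : ∀ a ∈ maximalIdeal A, π a ∈ maximalIdeal (A ⧸ Ideal.span {z}) := fun a ha =>
      (mem_maximalIdeal _).mpr fun h => (mem_maximalIdeal _).mp ha (isUnit_of_map_unit π a h)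
    have hJmap : Ideal.span (Set.range fun i => π (y' i)) = (Ideal.span (Set.range y')).map π := by
      rw [Ideal.map_span]
      congr 1
      ext w
      simp
    have hfin1 : ell (Ideal.span (Set.range fun i => π (y' i))) ≠ ⊤ := by
      rw [hJmap, ell_map_mk]
      have : Ideal.span (Set.range y') ⊔ Ideal.span {z} =
          Ideal.span (Set.range (Fin.cons z y' : Fin (δ + j + 1) → A)) := by
        rw [Fin.range_cons, Ideal.span_insert, sup_comm]
      rw [this]
      exact hfinY
    obtain ⟨l', B, hl', hB⟩ := ih (A ⧸ Ideal.span {z}) δ hδ (fun i => π (y' i))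
      (fun i => hmap _ (hy'n i)) hfin1
    have hle : emin (fun i => π (y' i)) ≤ emin y := by
      refine (emin_quot_le (by omega) z y' hfinY hfr).trans ?_
      exact emin_le_of_span_eq (by simp) _ _ hspan hfinY
    have hlift : ∀ i, ∃ a, π a = l' i := fun i => hπs (l' i)
    choose l0 hl0 using hlift
    have hl0n : ∀ i, l0 i ∈ maximalIdeal A := by
      intro i
      by_contra h
      have h1 : IsUnit (l0 i) := by
        by_contra h2
        exact h h2
      have h2 : IsUnit (l' i) := by
        rw [← hl0]; exact h1.map π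
      exact hl' i h2
    refine ⟨Fin.cons z l0, B, fun i => ?_, fun I D hD t ht => ?_⟩
    · refine Fin.cases ?_ (fun i => ?_) i
      · simpa using hz
      · simpa using hl0n i
    · have hspl : Ideal.span (Set.range (Fin.cons z l0 : Fin (j + 1) → A)) =
          Ideal.span (Set.range l0) ⊔ Ideal.span {z} := by
        rw [Fin.range_cons, Ideal.span_insert, sup_comm]
      have hmapl : Ideal.span (Set.range l') = (Ideal.span (Set.range l0)).map π := by
        rw [Ideal.map_span]
        congr 1
        ext w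
        constructor
        · rintro ⟨i, rfl⟩; exact ⟨l0 i, ⟨i, rfl⟩, hl0 i⟩
        · rintro ⟨_, ⟨i, rfl⟩, rfl⟩; exact ⟨i, (hl0 i).symm⟩
      have hlen : ∀ K : Ideal A, ell (Ideal.span (Set.range (Fin.cons z l0 : Fin (j + 1) → A)) ⊔ K)
          = ell (Ideal.span (Set.range l') ⊔ K.map π) := by
        intro K
        rw [hspl, hmapl, ← Ideal.map_sup, ell_map_mk]
        congr 1
        rw [sup_right_comm]
      have hD' : Ideal.span (Set.range fun i => π (y' i)) ^ D ≤ I.map π := by
        rw [hJmap, ← Ideal.map_pow]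
        refine Ideal.map_mono (le_trans (Ideal.pow_right_mono ?_ D) hD)
        rw [← hspan, Fin.range_cons, Ideal.span_insert]
        exact le_sup_right
      have h1 := hB (I.map π) D hD' t ht
      rw [hlen, hlen, Ideal.map_pow]
      refine h1.trans ?_
      gcongr

end Vale.Agent.P202
end

section

/-!
Reductions of the maximal ideal generated by `dim` elements.
-/

namespace Vale.Agent.P202

open IsLocalRing

/-- Over a Noetherian local ring of dimension `d` with infinite residue field, the maximal ideal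
has a reduction generated by `d` elements. -/
theorem exists_reduction_max {A : Type*} [CommRing A] [IsLocalRing A] [IsNoetherianRing A]
    [Infinite (ResidueField A)] (d : ℕ) (hd : ringKrullDim A = d) :
    ∃ z : Fin d → A, (∀ i, z i ∈ maximalIdeal A) ∧ ∃ r : ℕ,
      maximalIdeal A ^ (r + 1) ≤ Ideal.span (Set.range z) * maximalIdeal A ^ r := by
  classical
  obtain ⟨w, hw, hws⟩ := exists_parameters hd
  obtain ⟨s, hs⟩ := (IsNoetherian.noetherian (maximalIdeal A) : (maximalIdeal A).FG)
  have hrange : Set.range (fun i : Fin s.card => ((s.equivFin.symm i : s) : A)) = (s : Set A) := by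
    ext x
    constructor
    · rintro ⟨i, rfl⟩; exact (s.equivFin.symm i).2
    · intro hx; exact ⟨s.equivFin ⟨x, hx⟩, by simp⟩
  have hspan : Ideal.span (Set.range (fun i : Fin s.card => ((s.equivFin.symm i : s) : A))) =
      maximalIdeal A := by rw [hrange]; exact hs
  have hmem : ∀ i : Fin s.card, ((s.equivFin.symm i : s) : A) ∈ maximalIdeal A := by
    intro i
    rw [← hspan]
    exact Ideal.subset_span ⟨i, rfl⟩
  obtain ⟨B, hB⟩ := exists_growth w hws (maximalIdeal A) 1
    (by rw [pow_one, Ideal.span_le]; rintro _ ⟨i, rfl⟩; exact hw i)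
    (by rw [ell_maximalIdeal]; exact ENat.one_ne_top)
  obtain ⟨x, hx, hle, r, hr⟩ := exists_reduction (R := A)
    (fun i : Fin s.card => ((s.equivFin.symm i : s) : A)) hmem d B
    (fun n hn => by rw [hspan]; exact hB n hn)
  rw [hspan] at hle hr
  exact ⟨x, fun i => hle (Ideal.subset_span ⟨i, rfl⟩), r, hr⟩

end Vale.Agent.P202
end

section

/-!
Comparison of the growth of the colengths of the powers of the maximal ideals.
-/

set_option linter.unusedSectionVars false

namespace Vale.Agent.P202

open Ideal IsLocalRing Finset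

universe v

/-- Reductions of the maximal ideal and the bounds attached to them. -/
theorem exists_max_reduction {S : Type v} [CommRing S] [IsLocalRing S] [IsNoetherianRing S]
    [Infinite (ResidueField S)] {d : ℕ} (hdim : ringKrullDim S = d) :
    ∃ (x : Fin d → S) (c : ℕ), (∀ i, x i ∈ maximalIdeal S) ∧
      ell (Ideal.span (Set.range x)) ≠ ⊤ ∧
      ∀ N, emin x * (tri (Fin d) N).card ≤ ell (maximalIdeal S ^ (N + c)) := by
  obtain ⟨x, hx, r, hr⟩ := exists_reduction_max (A := S) d hdim
  have hle : Ideal.span (Set.range x) ≤ maximalIdeal S := by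
    rw [Ideal.span_le]
    rintro _ ⟨i, rfl⟩
    exact hx i
  have hred : IsRed (Ideal.span (Set.range x)) (maximalIdeal S) := ⟨hle, r, hr⟩
  obtain ⟨c, hc⟩ := hred.exists_pow_le
  refine ⟨x, c, hx, ?_, fun N => ?_⟩
  · have h1 := hc 1
    rw [pow_one] at h1
    exact ell_ne_top_of_pow_le h1
  · exact (emin_mul_card_le x N).trans (ell_mono (hc N))

end Vale.Agent.P202
end

section

/-!
Enlarging the residue field: the local ring `R(X)`, the localization of `R[X]` at the extension of
the maximal ideal.
-/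

namespace Vale.Agent.P202

open IsLocalRing Polynomial TensorProduct

universe u

section One

variable (R : Type u) [CommRing R] [IsLocalRing R]

/-- The extension of the maximal ideal to the polynomial ring. -/
noncomputable abbrev mX : Ideal R[X] := (maximalIdeal R).map C

/-- The localization of `R[X]` at the extension of the maximal ideal. -/
abbrev Nag : Type u := Localization.AtPrime (mX R)

theorem map_maximalIdeal_nag :
    (maximalIdeal R).map (algebraMap R (Nag R)) = maximalIdeal (Nag R) := by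
  rw [← Localization.AtPrime.map_eq_maximalIdeal, IsScalarTower.algebraMap_eq R R[X] (Nag R),
    ← Ideal.map_map]
  rfl

instance isLocalHom_nag : IsLocalHom (algebraMap R (Nag R)) :=
  ((local_hom_TFAE (algebraMap R (Nag R))).out 0 2).2 (map_maximalIdeal_nag R).le

instance flat_nag : Module.Flat R (Nag R) := Module.Flat.trans R R[X] (Nag R)

theorem length_nag_one : Module.length (Nag R) (Nag R ⧸ maximalIdeal (Nag R)) = 1 := by
  rw [Module.length_eq_one_iff]
  exact isSimpleModule_iff_isCoatom.2 (maximalIdeal.isMaximal _).out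

/-- Base change to `R(X)` preserves lengths. -/
theorem length_nag (I : Ideal R) :
    Module.length (Nag R) (Nag R ⧸ I.map (algebraMap R (Nag R))) = Module.length R (R ⧸ I) := by
  rw [(Algebra.TensorProduct.quotIdealMapEquivTensorQuot (Nag R) I).toLinearEquiv.length_eq,
    IsLocalRing.length_baseChange R (Nag R) (R ⧸ I), map_maximalIdeal_nag, length_nag_one, mul_one]

theorem length_nag_pow (j : ℕ) :
    Module.length (Nag R) (Nag R ⧸ maximalIdeal (Nag R) ^ j) =
      Module.length R (R ⧸ maximalIdeal R ^ j) := by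
  rw [← map_maximalIdeal_nag, ← Ideal.map_pow, length_nag]

theorem ringKrullDim_nag [IsNoetherianRing R] : ringKrullDim (Nag R) = ringKrullDim R := by
  rw [IsLocalization.AtPrime.ringKrullDim_eq_height (mX R) (Nag R), height_map_C,
    maximalIdeal_height_eq_ringKrullDim]

theorem infinite_nag : Infinite (ResidueField (Nag R)) := by
  refine Infinite.of_injective (fun n : ℕ => residue (Nag R) (algebraMap R[X] (Nag R) (X ^ n))) ?_
  intro a b hab
  by_contra hne
  dsimp only at hab
  rw [← sub_eq_zero, ← map_sub, ← map_sub, residue_eq_zero_iff,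
    IsLocalization.AtPrime.to_map_mem_maximal_iff (Nag R) (mX R), Ideal.mem_map_C_iff] at hab
  have := hab a
  rw [coeff_sub, coeff_X_pow, coeff_X_pow, if_pos rfl, if_neg hne, sub_zero] at this
  exact (Ideal.ne_top_iff_one _).1 (maximalIdeal.isMaximal R).ne_top this

end One

section Two

attribute [local instance] Polynomial.algebra

variable (R S : Type u) [CommRing R] [IsLocalRing R] [CommRing S] [IsLocalRing S] [Algebra R S]
  [IsLocalHom (algebraMap R S)]

instance liesOver_mX : (mX S).LiesOver (mX R) := by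
  constructor
  ext f
  rw [Ideal.under, Ideal.mem_comap, Ideal.mem_map_C_iff, Ideal.mem_map_C_iff]
  refine forall_congr' fun n => ?_
  rw [Polynomial.algebraMap_def, Polynomial.coe_mapRingHom, Polynomial.coeff_map]
  exact (map_mem_nonunits_iff (algebraMap R S) _).symm

omit [IsLocalRing R] [IsLocalRing S] [IsLocalHom (algebraMap R S)] in
theorem flat_polynomial [Module.Flat R S] : Module.Flat R[X] S[X] := by
  have h : Algebra.IsPushout R R[X] S S[X] := inferInstance
  exact Module.Flat.isBaseChange R R[X] S S[X] h.out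

omit [IsLocalHom (algebraMap R S)] [Algebra R S] [IsLocalRing S] [CommRing S] in
/-- The polynomial ring over the residue field maps to the residue field of `R(X)`. -/
theorem exists_fraction : ∃ φ : (ResidueField R)[X] →+* ResidueField (Nag R),
    (∀ f : R[X], φ (f.map (residue R)) = algebraMap R[X] (ResidueField (Nag R)) f) ∧
    (letI := φ.toAlgebra; IsFractionRing (ResidueField R)[X] (ResidueField (Nag R))) := by
  let e : (ResidueField R)[X] ≃+* (R[X] ⧸ mX R) :=
    Ideal.polynomialQuotientEquivQuotientPolynomial (maximalIdeal R)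
  have hfr : IsFractionRing (R[X] ⧸ mX R) (mX R).ResidueField := inferInstance
  refine ⟨(algebraMap (R[X] ⧸ mX R) (mX R).ResidueField).comp e.toRingHom, ?_, ?_⟩
  · intro f
    have h := Ideal.polynomialQuotientEquivQuotientPolynomial_map_mk (maximalIdeal R) f
    have h2 : e (f.map (residue R)) = Ideal.Quotient.mk (mX R) f := h
    change algebraMap (R[X] ⧸ mX R) (mX R).ResidueField (e (f.map (residue R))) = _
    rw [h2]
    rfl
  · let _ := ((algebraMap (R[X] ⧸ mX R) (mX R).ResidueField).comp e.toRingHom).toAlgebra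
    exact IsFractionRing.of_ringEquiv_left e (fun x => rfl)

/-- The degree of the residue field extension does not change. -/
theorem length_residue_nag [Algebra (Nag R) (Nag S)] [IsLocalHom (algebraMap (Nag R) (Nag S))]
    (hcomp : ∀ f : R[X], algebraMap (Nag R) (Nag S) (algebraMap R[X] (Nag R) f) =
      algebraMap S[X] (Nag S) (f.map (algebraMap R S)))
    (hfin : Module.length (ResidueField R) (ResidueField S) ≠ ⊤) :
    Module.length (ResidueField (Nag R)) (ResidueField (Nag S)) =
      Module.length (ResidueField R) (ResidueField S) := by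
  obtain ⟨φ, hφ, hφ'⟩ := exists_fraction R
  obtain ⟨ψ, hψ, hψ'⟩ := exists_fraction S
  let a1 : Algebra (ResidueField R)[X] (ResidueField (Nag R)) := φ.toAlgebra
  let a2 : Algebra (ResidueField S)[X] (ResidueField (Nag S)) := ψ.toAlgebra
  let a3 : Algebra (ResidueField R)[X] (ResidueField (Nag S)) :=
    (ψ.comp (mapRingHom (algebraMap (ResidueField R) (ResidueField S)))).toAlgebra
  have : Module.Finite (ResidueField R) (ResidueField S) := by
    rw [Module.length_eq_rank, Ne, Cardinal.toENat_eq_top, not_le] at hfin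
    exact Module.rank_lt_aleph0_iff.1 hfin
  have : IsScalarTower (ResidueField R)[X] (ResidueField S)[X] (ResidueField (Nag S)) :=
    IsScalarTower.of_algebraMap_eq (fun x => rfl)
  have : IsScalarTower (ResidueField R)[X] (ResidueField (Nag R)) (ResidueField (Nag S)) := by
    refine IsScalarTower.of_algebraMap_eq (fun x => ?_)
    obtain ⟨f, rfl⟩ := Polynomial.map_surjective _ residue_surjective x
    change ψ ((f.map (residue R)).map (algebraMap (ResidueField R) (ResidueField S))) =
      algebraMap (ResidueField (Nag R)) (ResidueField (Nag S)) (φ (f.map (residue R)))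
    rw [hφ]
    have h1 : (f.map (residue R)).map (algebraMap (ResidueField R) (ResidueField S)) =
        (f.map (algebraMap R S)).map (residue S) := by
      rw [Polynomial.map_map, Polynomial.map_map]
      rfl
    rw [h1, hψ]
    change residue (Nag S) (algebraMap S[X] (Nag S) (f.map (algebraMap R S))) =
      residue (Nag S) (algebraMap (Nag R) (Nag S) (algebraMap R[X] (Nag R) f))
    rw [hcomp]
  rw [Module.length_eq_rank, Module.length_eq_rank,
    Algebra.IsAlgebraic.rank_of_isFractionRing (ResidueField R)[X] (ResidueField (Nag R))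
      (ResidueField S)[X] (ResidueField (Nag S)), rank_polynomial_polynomial]

end Two

/-- Enlarging the residue field. -/
theorem exists_infinite_residue {R S : Type u} [CommRing R] [IsLocalRing R] [IsNoetherianRing R]
    [CommRing S] [IsLocalRing S] [IsNoetherianRing S] [Algebra R S]
    [IsLocalHom (algebraMap R S)] [Module.Flat R S] :
    ∃ (R' S' : Type u) (_ : CommRing R') (_ : IsLocalRing R') (_ : IsNoetherianRing R')
      (_ : CommRing S') (_ : IsLocalRing S') (_ : IsNoetherianRing S') (_ : Algebra R' S')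
      (_ : IsLocalHom (algebraMap R' S')) (_ : Module.Flat R' S')
      (_ : Infinite (ResidueField R')),
      (∀ j, Module.length R' (R' ⧸ maximalIdeal R' ^ j) =
        Module.length R (R ⧸ maximalIdeal R ^ j)) ∧
      (∀ j, Module.length S' (S' ⧸ maximalIdeal S' ^ j) =
        Module.length S (S ⧸ maximalIdeal S ^ j)) ∧
      ringKrullDim R' = ringKrullDim R ∧ ringKrullDim S' = ringKrullDim S ∧
      Module.length S' (S' ⧸ (maximalIdeal R').map (algebraMap R' S')) =
        Module.length S (S ⧸ (maximalIdeal R).map (algebraMap R S)) ∧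
      (Module.length (ResidueField R) (ResidueField S) ≠ ⊤ →
        Module.length (ResidueField R') (ResidueField S') =
        Module.length (ResidueField R) (ResidueField S)) := by
  let a0 : Algebra R[X] S[X] := Polynomial.algebra R S
  have : (mX S).LiesOver (mX R) := liesOver_mX R S
  have : Module.Flat R[X] S[X] := flat_polynomial R S
  let a1 : Algebra (Nag R) (Nag S) := Localization.AtPrime.algebraOfLiesOver (mX R) (mX S)
  have h1 : Localization.AtPrime.IsLiesOverAlgebra (mX R) (mX S) := ⟨rfl⟩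
  have hcomp : ∀ f : R[X], algebraMap (Nag R) (Nag S) (algebraMap R[X] (Nag R) f) =
      algebraMap S[X] (Nag S) (f.map (algebraMap R S)) := by
    intro f
    rw [h1.algebraMap_eq, Localization.localRingHom_to_map]
    rfl
  have hcomp' : (algebraMap (Nag R) (Nag S)).comp (algebraMap R (Nag R)) =
      (algebraMap S (Nag S)).comp (algebraMap R S) := by
    ext x
    have := hcomp (C x)
    rw [Polynomial.map_C] at this
    exact this
  refine ⟨Nag R, Nag S, inferInstance, inferInstance, inferInstance, inferInstance, inferInstance,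
    inferInstance, a1, inferInstance, inferInstance, infinite_nag R, length_nag_pow R,
    length_nag_pow S, ringKrullDim_nag R, ringKrullDim_nag S, ?_, ?_⟩
  · rw [← map_maximalIdeal_nag, Ideal.map_map, hcomp', ← Ideal.map_map, length_nag]
  · exact length_residue_nag R S hcomp

end Vale.Agent.P202
end

section

/-!
The inequality `e(R) ≤ (d-1)! e(S)`.
-/

set_option linter.unusedSectionVars false

namespace Vale.Agent.P202

open Ideal IsLocalRing Finset Filter Topology

universe u

lemma pow_succ_add_le (d n : ℕ) : (d + 1) * n ^ d + n ^ (d + 1) ≤ (n + 1) ^ (d + 1) := by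
  induction d with
  | zero => simp; omega
  | succ d ih =>
    calc (d + 1 + 1) * n ^ (d + 1) + n ^ (d + 1 + 1)
        = ((d + 1) * n ^ d + n ^ (d + 1)) * n + n ^ (d + 1) := by ring
      _ ≤ (n + 1) ^ (d + 1) * n + (n + 1) ^ (d + 1) := by
          gcongr
          omega
      _ = (n + 1) ^ (d + 1 + 1) := by ring

/-- lower bound for a limit. -/
lemma limit_lower {d E c : ℕ} (b : ℕ → ℕ)
    (hb : ∀ N, E * (tri (Fin d) N).card ≤ b (N + c)) (e : ℝ)
    (he : Tendsto (fun N : ℕ => (d.factorial : ℝ) * (b N : ℝ) / (N : ℝ) ^ d) atTop (𝓝 e)) :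
    (E : ℝ) ≤ e := by
  have h0 : Tendsto (fun N : ℕ => (d.factorial : ℝ) * (b (N + c) : ℝ) / ((N + c : ℕ) : ℝ) ^ d)
      atTop (𝓝 e) := he.comp (tendsto_add_atTop_nat c)
  have h1 := h0.mul (tendsto_shift_pow_ratio c d)
  rw [mul_one] at h1
  refine ge_of_tendsto h1 ?_
  filter_upwards [eventually_gt_atTop 0] with n hn
  have hnd : (0 : ℝ) < (n : ℝ) ^ d := by positivity
  have hnd' : (0 : ℝ) < ((n + c : ℕ) : ℝ) ^ d := by positivity
  rw [div_mul_div_comm, mul_comm (((n + c : ℕ) : ℝ) ^ d), mul_div_mul_right _ _ hnd'.ne',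
    le_div_iff₀ hnd]
  have h2 := pow_le_factorial_mul_card_tri (σ := Fin d) n hn
  rw [Fintype.card_fin] at h2
  have h3 : E * n ^ d ≤ d.factorial * b (n + c) := by
    calc E * n ^ d ≤ E * (d.factorial * (tri (Fin d) n).card) := Nat.mul_le_mul_left _ h2
      _ = d.factorial * (E * (tri (Fin d) n).card) := by ring
      _ ≤ _ := Nat.mul_le_mul_left _ (hb n)
  exact_mod_cast h3

/-- The closed fibre has finite length when the dimensions agree. -/
theorem ell_fibre_ne_top {R S : Type*} [CommRing R] [IsLocalRing R] [IsNoetherianRing R]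
    [CommRing S] [IsLocalRing S] [IsNoetherianRing S] [Algebra R S]
    [IsLocalHom (algebraMap R S)] [Module.Flat R S] (h : ringKrullDim S = ringKrullDim R) :
    ell ((maximalIdeal R).map (algebraMap R S)) ≠ ⊤ := by
  set I := (maximalIdeal R).map (algebraMap R S) with hI
  have hIn : I ≤ maximalIdeal S := by
    rw [hI, Ideal.map_le_iff_le_comap]
    intro a ha
    exact (IsLocalRing.mem_maximalIdeal _).mpr fun h =>
      (IsLocalRing.mem_maximalIdeal _).mp ha (isUnit_of_map_unit (algebraMap R S) a h)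
  have h1 := Ideal.height_eq_height_add_of_liesOver_of_hasGoingDown (maximalIdeal R)
    (maximalIdeal S)
  have h2 : (maximalIdeal S).height = (maximalIdeal R).height := by
    rw [← IsLocalRing.maximalIdeal_height_eq_ringKrullDim,
      ← IsLocalRing.maximalIdeal_height_eq_ringKrullDim] at h
    exact_mod_cast h
  rw [h2, ← hI] at h1
  have h4 : (maximalIdeal R).height ≠ ⊤ := Ideal.height_ne_top_of_isPrime
  have h3 : ((maximalIdeal S).map (Ideal.Quotient.mk I)).height = 0 := by
    have h5 : (maximalIdeal R).height + 0 =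
        (maximalIdeal R).height + ((maximalIdeal S).map (Ideal.Quotient.mk I)).height := by
      rw [add_zero]; exact h1
    exact le_antisymm ((ENat.add_le_add_iff_left h4).mp h5.ge) ((ENat.add_le_add_iff_left h4).mp h5.le)
  have hcomap : ((maximalIdeal S).map (Ideal.Quotient.mk I)).comap (Ideal.Quotient.mk I) =
      maximalIdeal S := by
    rw [Ideal.comap_map_of_surjective _ Ideal.Quotient.mk_surjective, ← RingHom.ker_eq_comap_bot,
      Ideal.mk_ker]
    exact sup_eq_left.mpr hIn
  have hprime : ((maximalIdeal S).map (Ideal.Quotient.mk I)).IsPrime := by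
    refine Ideal.map_isPrime_of_surjective Ideal.Quotient.mk_surjective ?_
    rw [Ideal.mk_ker]
    exact hIn
  rw [Ideal.height_eq_zero_iff] at h3
  have h6 : maximalIdeal S ∈ I.minimalPrimes := by
    rw [Ideal.minimalPrimes_eq_comap]
    exact ⟨_, h3, hcomap⟩
  have h7 : IsArtinianRing (S ⧸ I) :=
    IsLocalRing.quotient_artinian_of_mem_minimalPrimes_of_isLocalRing I h6
  rw [ell_eq_length_self]
  exact Module.length_ne_top

end Vale.Agent.P202
end

section

/-!
Existence of the Hilbert-Samuel multiplicity.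
-/

set_option linter.unusedSectionVars false

namespace Vale.Agent.P202

open Ideal IsLocalRing Finset Filter Topology

universe u

lemma tendsto_shift_down (c d : ℕ) :
    Tendsto (fun n : ℕ => ((n - c : ℕ) : ℝ) ^ d / (n : ℝ) ^ d) atTop (𝓝 1) := by
  have h1 : Tendsto (fun n : ℕ => 1 - (c : ℝ) / n) atTop (𝓝 (1 - 0)) :=
    tendsto_const_nhds.sub (tendsto_const_div_atTop_nhds_zero_nat (c : ℝ))
  rw [sub_zero] at h1
  have h2 := h1.pow d
  rw [one_pow] at h2
  refine h2.congr' ?_
  filter_upwards [eventually_gt_atTop 0, eventually_ge_atTop c] with n hn hc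
  have : (n : ℝ) ≠ 0 := by positivity
  rw [← div_pow, Nat.cast_sub hc]
  congr 1
  field_simp

lemma tendsto_of_bounds {d E B c : ℕ} (hd : 0 < d) (b : ℕ → ℕ)
    (hlow : ∀ N, E * (tri (Fin d) N).card ≤ b (N + c))
    (hup : ∀ N, b N ≤ (tri (Fin d) N).card * E + B * N ^ (d - 1)) :
    Tendsto (fun N : ℕ => (d.factorial : ℝ) * (b N : ℝ) / (N : ℝ) ^ d) atTop (𝓝 (E : ℝ)) := by
  have h1 : Tendsto (fun n : ℕ => (E : ℝ) * (((n - c : ℕ) : ℝ) ^ d / (n : ℝ) ^ d)) atTop
      (𝓝 ((E : ℝ) * 1)) := (tendsto_shift_down c d).const_mul _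
  have h2 : Tendsto (fun n : ℕ => (E : ℝ) * (((n + d : ℕ) : ℝ) ^ d / (n : ℝ) ^ d) +
      (d.factorial * B : ℝ) * (((n + 0 : ℕ) : ℝ) ^ (d - 1) / (n : ℝ) ^ d)) atTop
      (𝓝 ((E : ℝ) * 1 + (d.factorial * B : ℝ) * 0)) :=
    ((tendsto_shift_pow_ratio d d).const_mul _).add ((tendsto_lower_ratio 0 d hd).const_mul _)
  rw [mul_one] at h1
  rw [mul_one, mul_zero, add_zero] at h2
  refine tendsto_of_tendsto_of_tendsto_of_le_of_le' h1 h2 ?_ ?_
  · filter_upwards [eventually_gt_atTop c] with n hn
    have hnd : (0 : ℝ) < (n : ℝ) ^ d := by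
      have : 0 < n := by omega
      positivity
    rw [mul_div_assoc']
    refine (div_le_div_iff_of_pos_right hnd).mpr ?_
    have h3 := pow_le_factorial_mul_card_tri (σ := Fin d) (n - c) (by omega)
    rw [Fintype.card_fin] at h3
    have h4 := hlow (n - c)
    rw [Nat.sub_add_cancel hn.le] at h4
    have h5 : E * (n - c) ^ d ≤ d.factorial * b n := by
      calc E * (n - c) ^ d ≤ E * (d.factorial * (tri (Fin d) (n - c)).card) :=
            Nat.mul_le_mul_left _ h3
        _ = d.factorial * (E * (tri (Fin d) (n - c)).card) := by ring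
        _ ≤ _ := Nat.mul_le_mul_left _ h4
    exact_mod_cast h5
  · filter_upwards [eventually_gt_atTop 0] with n hn
    have hnd : (0 : ℝ) < (n : ℝ) ^ d := by positivity
    rw [mul_div_assoc', mul_div_assoc', ← add_div]
    refine (div_le_div_iff_of_pos_right hnd).mpr ?_
    have h3 := factorial_mul_card_tri_le (σ := Fin d) n
    rw [Fintype.card_fin] at h3
    have h4 := hup n
    have h5 : d.factorial * b n ≤ E * (n + d) ^ d + d.factorial * B * (n + 0) ^ (d - 1) := by
      calc d.factorial * b n ≤ d.factorial * ((tri (Fin d) n).card * E + B * n ^ (d - 1)) :=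
            Nat.mul_le_mul_left _ h4
        _ = E * (d.factorial * (tri (Fin d) n).card) + d.factorial * B * (n + 0) ^ (d - 1) := by
            rw [add_zero]; ring
        _ ≤ _ := by gcongr
    exact_mod_cast h5

/-- The multiplicity exists and is a natural number. -/
theorem exists_mult {A : Type u} [CommRing A] [IsLocalRing A] [IsNoetherianRing A] {d : ℕ}
    (hd : 0 < d) (hdim : ringKrullDim A = d) :
    ∃ e : ℕ, Tendsto (fun N : ℕ => (d.factorial : ℝ) *
      ((Module.length A (A ⧸ maximalIdeal A ^ N)).toNat : ℝ) / (N : ℝ) ^ d) atTop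
      (𝓝 (e : ℝ)) := by
  obtain ⟨A', -, _, _, _, -, -, -, -, -, -, hinf, hlA, -, hdA, -⟩ :=
    exists_infinite_residue (R := A) (S := A)
  obtain ⟨x, c, hx, hfin, hlow⟩ := exists_max_reduction (S := A') (hdA.trans hdim)
  obtain ⟨E, hE⟩ := ENat.ne_top_iff_exists.mp (emin_ne_top hfin)
  obtain ⟨B, hB⟩ := ENat.ne_top_iff_exists.mp (errB_ne_top hfin)
  have hSt : ∀ s, ell (maximalIdeal A' ^ s) ≠ ⊤ := fun s => ell_ne_top_of_pow_le le_rfl
  refine ⟨E, ?_⟩
  have key := tendsto_of_bounds (d := d) (E := E) (B := B) (c := c) hd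
    (fun N => (ell (maximalIdeal A' ^ N)).toNat) ?_ ?_
  · simp only [ell, hlA] at key
    exact key
  · intro N
    have h3 := hlow N
    obtain ⟨b, hb⟩ := ENat.ne_top_iff_exists.mp (hSt (N + c))
    simp only [← hb, ← hE] at h3 ⊢
    rw [ENat.toNat_natCast]
    exact_mod_cast h3
  · intro N
    have hle : Ideal.span (Set.range x) ≤ maximalIdeal A' := by
      rw [Ideal.span_le]
      rintro _ ⟨i, rfl⟩
      exact hx i
    have h3 := (ell_mono (Ideal.pow_right_mono hle N)).trans (ell_pow_le x N)
    rw [Fintype.card_fin] at h3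
    obtain ⟨b, hb⟩ := ENat.ne_top_iff_exists.mp (hSt N)
    simp only [← hb, ← hE, ← hB] at h3 ⊢
    rw [ENat.toNat_natCast]
    exact_mod_cast h3

end Vale.Agent.P202
end

section

/-!
Completion of a flat local homomorphism of Noetherian local rings (P202-COMP).
-/

namespace Vale.Agent.P202

open IsLocalRing MvPolynomial

section Noeth

variable {R : Type*} [CommRing R]

theorem compl_sum_mem {P R : Type*} [CommRing P] [CommRing R] (J : Ideal P) (I : Ideal R)
    (φ : P →+* R) (hφ : Function.Surjective φ) (hJ : J.map φ = I) (k : ℕ) (y : R)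
    (hy : y ∈ I ^ k) : ∃ q ∈ J ^ k, φ q = y := by
  rw [← hJ, ← Ideal.map_pow] at hy
  exact (Ideal.mem_map_iff_of_surjective φ hφ).1 hy

/-- Functoriality of adic completion for a surjection of rings mapping `J` onto `I`. -/
theorem exists_surjection_adicCompletion {P R : Type*} [CommRing P] [CommRing R] (J : Ideal P)
    (I : Ideal R) (φ : P →+* R) (hφ : Function.Surjective φ) (hJ : J.map φ = I) :
    ∃ Φ : AdicCompletion J P →+* AdicCompletion I R, Function.Surjective Φ := by
  have hle : ∀ n, J ^ n ≤ (I ^ n).comap φ := fun n => by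
    rw [← hJ, ← Ideal.map_pow]; exact Ideal.le_comap_map
  let f : (n : ℕ) → AdicCompletion J P →+* R ⧸ I ^ n := fun n =>
    (Ideal.quotientMap (I ^ n) φ (hle n)).comp (AdicCompletion.evalₐ J n).toRingHom
  have hf : ∀ {m n : ℕ} (hle : m ≤ n), (Ideal.Quotient.factorPow I hle).comp (f n) = f m := by
    intro m n hmn
    ext x
    obtain ⟨x, rfl⟩ := AdicCompletion.mk_surjective J P x
    simp only [f, RingHom.comp_apply, AlgHom.toRingHom_eq_coe, RingHom.coe_coe,
      AdicCompletion.evalₐ_mk, Ideal.quotientMap_mk]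
    rw [Ideal.Quotient.factor_mk]
    rw [← sub_eq_zero, ← map_sub, ← map_sub, Ideal.Quotient.eq_zero_iff_mem]
    apply hle m
    have := AdicCompletion.Ideal.mk_eq_mk J hmn x
    rw [← sub_eq_zero, ← map_sub, Ideal.Quotient.eq_zero_iff_mem] at this
    exact this
  refine ⟨AdicCompletion.liftRingHom I f hf, ?_⟩
  intro y
  obtain ⟨y, rfl⟩ := AdicCompletion.mk_surjective I R y
  have hstep : ∀ k : ℕ, ∃ q ∈ J ^ k, φ q = y (k + 1) - y k := by
    intro k
    apply compl_sum_mem J I φ hφ hJ
    have := AdicCompletion.Ideal.mk_eq_mk I (Nat.le_succ k) y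
    rw [← sub_eq_zero, ← map_sub, Ideal.Quotient.eq_zero_iff_mem] at this
    exact this
  choose q hqJ hq using hstep
  obtain ⟨p0, hp0⟩ := hφ (y 0)
  let p : ℕ → P := fun k => p0 + ∑ i ∈ Finset.range k, q i
  have hp : ∀ k, φ (p k) = y k := by
    intro k
    induction k with
    | zero => simp [p, hp0]
    | succ k ih =>
      have : p (k + 1) = p k + q k := by simp [p, Finset.sum_range_succ, add_assoc]
      rw [this, map_add, ih, hq]; ring
  let s : AdicCompletion.AdicCauchySequence J P := AdicCompletion.AdicCauchySequence.mk J P p (by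
    intro n
    rw [SModEq.sub_mem]
    have : p n - p (n + 1) = - q n := by simp [p, Finset.sum_range_succ]
    rw [this]
    simpa using hqJ n)
  refine ⟨AdicCompletion.mk J P s, ?_⟩
  apply AdicCompletion.ext_evalₐ
  intro n
  rw [AdicCompletion.evalₐ_liftRingHom]
  simp only [f, RingHom.comp_apply, AlgHom.toRingHom_eq_coe, RingHom.coe_coe,
      AdicCompletion.evalₐ_mk, Ideal.quotientMap_mk]
  congr 1
  exact hp n

theorem isNoetherianRing_adicCompletion [IsNoetherianRing R] (I : Ideal R) :
    IsNoetherianRing (AdicCompletion I R) := by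
  obtain ⟨n, a, ha⟩ := Submodule.fg_iff_exists_fin_generating_family.1
    (IsNoetherian.noetherian I)
  let φ : MvPolynomial (Fin n) R →+* R := (MvPolynomial.aeval (R := R) a).toRingHom
  have hφ : Function.Surjective φ := fun r => ⟨C r, by simp [φ]⟩
  have hJ : (MvPolynomial.idealOfVars (Fin n) R).map φ = I := by
    rw [MvPolynomial.idealOfVars, Ideal.map_span, ← Set.range_comp]
    rw [← ha]
    congr 1
    ext x
    simp [φ]
  obtain ⟨Φ, hΦ⟩ := exists_surjection_adicCompletion _ I φ hφ hJ
  have h1 : IsNoetherianRing (AdicCompletion (MvPolynomial.idealOfVars (Fin n) R)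
      (MvPolynomial (Fin n) R)) :=
    isNoetherianRing_of_ringEquiv (MvPowerSeries (Fin n) R)
      (MvPowerSeries.toAdicCompletionAlgEquiv (Fin n) R).toRingEquiv
  exact isNoetherianRing_of_surjective _ _ Φ hΦ

end Noeth


section Flatness

/-- Vectors with all coordinates in an ideal `J` lie in `J • ⊤`. -/
theorem pi_mem_smul_top {A : Type*} [CommRing A] (J : Ideal A) {l : ℕ} (v : Fin l → A)
    (hv : ∀ i, v i ∈ J) : v ∈ (J • ⊤ : Submodule A (Fin l → A)) := by
  have : v = ∑ i, v i • (Pi.single i (1 : A) : Fin l → A) := by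
    ext j
    simp [Finset.sum_apply, Pi.single_apply]
  rw [this]
  exact Submodule.sum_mem _ fun i _ => Submodule.smul_mem_smul (hv i) trivial

/-- Elements of an extended ideal are finite sums. -/
theorem mem_map_exists_sum {A B : Type*} [CommRing A] [CommRing B] [Algebra A B] (I : Ideal A)
    (z : B) (hz : z ∈ I.map (algebraMap A B)) :
    ∃ (m : ℕ) (a : Fin m → A) (y : Fin m → B), (∀ i, a i ∈ I) ∧ z = ∑ i, a i • y i := by
  rw [Ideal.map] at hz
  refine Submodule.span_induction (p := fun z _ => ∃ (m : ℕ) (a : Fin m → A) (y : Fin m → B),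
    (∀ i, a i ∈ I) ∧ z = ∑ i, a i • y i) ?_ ?_ ?_ ?_ hz
  · rintro _ ⟨a, ha, rfl⟩
    exact ⟨1, fun _ => a, fun _ => 1, fun _ => ha, by simp [Algebra.smul_def]⟩
  · exact ⟨0, Fin.elim0, Fin.elim0, fun i => i.elim0, by simp⟩
  · rintro x y - - ⟨m, a, u, ha, rfl⟩ ⟨n, b, v, hb, rfl⟩
    refine ⟨m + n, Fin.append a b, Fin.append u v, ?_, ?_⟩
    · intro i
      refine Fin.addCases (fun i => ?_) (fun i => ?_) i
      · simpa using ha i
      · simpa using hb i
    · simp [Fin.sum_univ_add]
  · rintro c x - ⟨m, a, u, ha, rfl⟩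
    exact ⟨m, a, fun i => c * u i, ha, by simp [Finset.mul_sum]⟩

theorem flat_of_dense {R R' S' : Type*} [CommRing R] [CommRing R'] [CommRing S']
    [IsNoetherianRing R'] [IsNoetherianRing S'] [IsLocalRing S']
    [Algebra R R'] [Algebra R' S'] [Algebra R S'] [IsScalarTower R R' S'] [Module.Flat R S']
    (I : Ideal R) (hI : I.map (algebraMap R S') ≤ maximalIdeal S')
    (hdense : ∀ (j : ℕ) (y : R'), ∃ x : R,
      y - algebraMap R R' x ∈ (I.map (algebraMap R R')) ^ j) : Module.Flat R' S' := by
  classical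
  apply Module.Flat.of_forall_isTrivialRelation
  intro l f x hfx
  set 𝔞 : Ideal R' := I.map (algebraMap R R') with h𝔞
  have h𝔞n : 𝔞.map (algebraMap R' S') ≤ maximalIdeal S' := by
    rw [h𝔞, Ideal.map_map, ← IsScalarTower.algebraMap_eq]; exact hI
  have h𝔞k : ∀ k, ∀ a ∈ 𝔞 ^ k, algebraMap R' S' a ∈ maximalIdeal S' ^ k := by
    intro k a ha
    have : algebraMap R' S' a ∈ (𝔞 ^ k).map (algebraMap R' S') := Ideal.mem_map_of_mem _ ha
    rw [Ideal.map_pow] at this
    exact Ideal.pow_right_mono h𝔞n k this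
  let K : Submodule R' (Fin l → R') :=
    { carrier := {b | ∑ i, f i * b i = 0}
      add_mem' := by
        intro a b ha hb
        simp only [Set.mem_ofPred_eq] at ha hb ⊢
        simp [mul_add, Finset.sum_add_distrib, ha, hb]
      zero_mem' := by simp
      smul_mem' := by
        intro c b hb
        simp only [Set.mem_ofPred_eq] at hb ⊢
        have : ∑ i, f i * (c • b) i = c * ∑ i, f i * b i := by
          rw [Finset.mul_sum]
          refine Finset.sum_congr rfl fun i _ => ?_
          simp only [Pi.smul_apply, smul_eq_mul]; ring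
        rw [this, hb, mul_zero] }
  let ι : (Fin l → R') → (Fin l → S') := fun b i => algebraMap R' S' (b i)
  let T : Submodule S' (Fin l → S') := Submodule.span S' (ι '' (K : Set (Fin l → R')))
  obtain ⟨c, hc⟩ := Ideal.exists_pow_inf_eq_pow_smul 𝔞 (Ideal.span (Set.range f))
  have key : ∀ k : ℕ, ∃ t ∈ T, ∃ e ∈ (maximalIdeal S' ^ k • ⊤ : Submodule S' (Fin l → S')),
      x = t + e := by
    intro k
    choose g hg using fun i => hdense (k + c) (f i)
    -- the relation
    have h1 : (∑ i, g i • x i) ∈ (I ^ (k + c)).map (algebraMap R S') := by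
      have e1 : ∑ i, g i • x i = - ∑ i, (f i - algebraMap R R' (g i)) • x i := by
        simp only [sub_smul, Finset.sum_sub_distrib, hfx, algebraMap_smul]
        ring
      rw [e1, IsScalarTower.algebraMap_eq R R' S', ← Ideal.map_map, Ideal.map_pow, ← h𝔞]
      refine neg_mem (Ideal.sum_mem _ fun i _ => ?_)
      rw [Algebra.smul_def]
      exact Ideal.mul_mem_right _ _ (Ideal.mem_map_of_mem _ (hg i))
    obtain ⟨m, a, y, ha, hsum⟩ := mem_map_exists_sum _ _ h1
    have hrel : ∑ s : Fin l ⊕ Fin m, (Sum.elim g (fun j => - a j) s) • (Sum.elim x y s) = 0 := by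
      rw [Fintype.sum_sum_type]
      simp only [Sum.elim_inl, Sum.elim_inr, neg_smul, Finset.sum_neg_distrib, hsum]
      ring
    obtain ⟨κ, b, z, hxz, hb⟩ := Module.Flat.isTrivialRelation_of_sum_smul_eq_zero
      (R := R) (M := S') (f := Sum.elim g (fun j => - a j)) (x := Sum.elim x y) hrel
    -- for each t find the correction
    have hcor : ∀ t : Fin κ, ∃ e : Fin l → R', (∀ i, e i ∈ 𝔞 ^ k) ∧
        ∑ i, f i * (algebraMap R R' (b (Sum.inl i) t)) = ∑ i, f i * e i := by
      intro t
      have hbt := hb t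
      rw [Fintype.sum_sum_type] at hbt
      simp only [Sum.elim_inl, Sum.elim_inr] at hbt
      have m1 : ∑ i, f i * (algebraMap R R' (b (Sum.inl i) t)) ∈ 𝔞 ^ (k + c) := by
        have e2 : ∑ i, f i * (algebraMap R R' (b (Sum.inl i) t)) =
            ∑ i, (f i - algebraMap R R' (g i)) * (algebraMap R R' (b (Sum.inl i) t)) +
            algebraMap R R' (∑ i, a i * b (Sum.inr i) t) := by
          have : ∑ i, a i * b (Sum.inr i) t = ∑ i, g i * b (Sum.inl i) t := by
            have : ∑ x, -a x * b (Sum.inr x) t = - ∑ x, a x * b (Sum.inr x) t := by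
              simp
            rw [this] at hbt
            linear_combination -hbt
          rw [this]
          simp only [map_sum, map_mul, sub_mul, Finset.sum_sub_distrib]
          ring
        rw [e2]
        refine add_mem (Ideal.sum_mem _ fun i _ => Ideal.mul_mem_right _ _ (hg i)) ?_
        rw [h𝔞, ← Ideal.map_pow]
        exact Ideal.mem_map_of_mem _ (Ideal.sum_mem _ fun i _ => Ideal.mul_mem_right _ _ (ha i))
      have m2 : ∑ i, f i * (algebraMap R R' (b (Sum.inl i) t)) ∈ Ideal.span (Set.range f) :=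
        Ideal.sum_mem _ fun i _ => Ideal.mul_mem_right _ _ (Ideal.subset_span ⟨i, rfl⟩)
      have m3 : ∑ i, f i * (algebraMap R R' (b (Sum.inl i) t)) ∈
          𝔞 ^ k • Submodule.span R' (Set.range f) := by
        have h3 := hc (k + c) (Nat.le_add_left _ _)
        have : ∑ i, f i * (algebraMap R R' (b (Sum.inl i) t)) ∈
            𝔞 ^ (k + c) • ⊤ ⊓ Ideal.span (Set.range f) := by
          refine ⟨?_, m2⟩
          simpa using m1
        rw [h3, Nat.add_sub_cancel] at this
        exact Submodule.smul_mono le_rfl inf_le_right this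
      rw [Submodule.mem_ideal_smul_span_iff_exists_sum] at m3
      obtain ⟨e, he, hes⟩ := m3
      refine ⟨e, he, ?_⟩
      rw [← hes, Finsupp.sum_fintype _ _ (by simp)]
      refine Finset.sum_congr rfl fun i _ => ?_
      rw [smul_eq_mul, mul_comm]
    choose e he hesum using hcor
    refine ⟨∑ t, z t • ι (fun i => algebraMap R R' (b (Sum.inl i) t) - e t i), ?_,
      ∑ t, z t • ι (e t), ?_, ?_⟩
    · refine Submodule.sum_mem _ fun t _ => Submodule.smul_mem _ _ (Submodule.subset_span
        ⟨_, ?_, rfl⟩)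
      change ∑ i, f i * _ = 0
      simp only [mul_sub, Finset.sum_sub_distrib, hesum t, sub_self]
    · refine Submodule.sum_mem _ fun t _ => Submodule.smul_mem _ _ (pi_mem_smul_top _ _ fun i => ?_)
      exact h𝔞k k _ (he t i)
    · ext i
      have := hxz (Sum.inl i)
      simp only [Sum.elim_inl] at this
      rw [this, ← Finset.sum_add_distrib, Finset.sum_apply]
      refine Finset.sum_congr rfl fun t _ => ?_
      simp only [ι, Pi.add_apply, Pi.smul_apply, smul_eq_mul, map_sub,
        ← IsScalarTower.algebraMap_apply R R' S']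
      rw [Algebra.smul_def]
      ring
  -- Krull
  have hxT : x ∈ T := by
    have hh : (⨅ k : ℕ, maximalIdeal S' ^ k • (⊤ : Submodule S' ((Fin l → S') ⧸ T))) = ⊥ :=
      Ideal.iInf_pow_smul_eq_bot_of_isLocalRing _ (Ideal.IsPrime.ne_top inferInstance)
    rw [← Submodule.Quotient.mk_eq_zero, ← Submodule.mem_bot S', ← hh, Submodule.mem_iInf]
    intro k
    obtain ⟨t, ht, e, he, hx⟩ := key k
    rw [hx, Submodule.Quotient.mk_add, (Submodule.Quotient.mk_eq_zero T).2 ht, zero_add]
    have : Submodule.map T.mkQ (maximalIdeal S' ^ k • ⊤) ≤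
        maximalIdeal S' ^ k • (⊤ : Submodule S' ((Fin l → S') ⧸ T)) := by
      rw [Submodule.map_smul'']
      exact Submodule.smul_mono le_rfl le_top
    exact this ⟨e, he, rfl⟩
  -- conclude
  have hspan : ∀ v ∈ T, ∃ (k : ℕ) (a : Fin l → Fin k → R') (y : Fin k → S'),
      (∀ i, v i = ∑ j, a i j • y j) ∧ ∀ j, ∑ i, f i * a i j = 0 := by
    intro v hv
    refine Submodule.span_induction (p := fun v _ => ∃ (k : ℕ) (a : Fin l → Fin k → R')
      (y : Fin k → S'), (∀ i, v i = ∑ j, a i j • y j) ∧ ∀ j, ∑ i, f i * a i j = 0)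
      ?_ ?_ ?_ ?_ hv
    · rintro _ ⟨b, hb, rfl⟩
      refine ⟨1, fun i _ => b i, fun _ => 1, fun i => ?_, fun _ => hb⟩
      simp [ι, Algebra.smul_def]
    · exact ⟨0, fun _ => Fin.elim0, Fin.elim0, fun i => by simp, fun j => j.elim0⟩
    · rintro u v - - ⟨m, a, y, h1, h2⟩ ⟨n, b, w, h3, h4⟩
      refine ⟨m + n, fun i => Fin.append (a i) (b i), Fin.append y w, fun i => ?_, fun j => ?_⟩
      · simp [Fin.sum_univ_add, h1, h3]
      · refine Fin.addCases (fun j => ?_) (fun j => ?_) j
        · simpa using h2 j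
        · simpa using h4 j
    · rintro c u - ⟨m, a, y, h1, h2⟩
      refine ⟨m, a, fun j => c * y j, fun i => ?_, h2⟩
      simp [h1, Finset.mul_sum]
  exact hspan x hxT

end Flatness


section Unram

variable {A B : Type*} [CommRing A] [CommRing B] [IsLocalRing A] [IsLocalRing B] [Algebra A B]
  [IsLocalHom (algebraMap A B)] [Module.Flat A B]

theorem length_quot_map_of_unram (hm : maximalIdeal B = (maximalIdeal A).map (algebraMap A B))
    (I : Ideal A) :
    Module.length B (B ⧸ I.map (algebraMap A B)) = Module.length A (A ⧸ I) := by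
  have h := IsLocalRing.length_baseChange A B (A ⧸ I)
  rw [← hm] at h
  have h1 : Module.length B (B ⧸ maximalIdeal B) = 1 := by
    rw [Module.length_eq_one_iff]
    exact isSimpleModule_iff_quot_maximal.2 ⟨maximalIdeal B, inferInstance, ⟨LinearEquiv.refl _ _⟩⟩
  rw [h1, mul_one] at h
  rw [← h]
  exact (Algebra.TensorProduct.quotIdealMapEquivTensorQuot B I).toLinearEquiv.length_eq

theorem length_quot_pow_of_unram (hm : maximalIdeal B = (maximalIdeal A).map (algebraMap A B))
    (j : ℕ) :
    Module.length B (B ⧸ maximalIdeal B ^ j) = Module.length A (A ⧸ maximalIdeal A ^ j) := by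
  rw [hm, ← Ideal.map_pow]
  exact length_quot_map_of_unram hm _

theorem ringKrullDim_of_unram [IsNoetherianRing A] [IsNoetherianRing B]
    (hm : maximalIdeal B = (maximalIdeal A).map (algebraMap A B)) :
    ringKrullDim B = ringKrullDim A := by
  rw [← IsLocalRing.maximalIdeal_height_eq_ringKrullDim,
    ← IsLocalRing.maximalIdeal_height_eq_ringKrullDim]
  have : (maximalIdeal B).LiesOver (maximalIdeal A) :=
    ⟨(IsLocalRing.maximalIdeal_comap (algebraMap A B)).symm⟩
  rw [Ideal.height_eq_height_add_of_liesOver_of_hasGoingDown (maximalIdeal A) (maximalIdeal B)]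
  rw [← hm, Ideal.map_quotient_self]
  have : (⊥ : Ideal (B ⧸ maximalIdeal B)).height = 0 := by
    have : IsField (B ⧸ maximalIdeal B) :=
      (Ideal.Quotient.maximal_ideal_iff_isField_quotient _).1 inferInstance
    rw [Ideal.height_bot]
  rw [this, add_zero]

end Unram


section Assembly

/-- Invariance of the residue extension length under completion-like maps. -/
theorem length_residue_of_bij {R S R' S' : Type*} [CommRing R] [IsLocalRing R] [CommRing S]
    [IsLocalRing S] [CommRing R'] [IsLocalRing R'] [CommRing S'] [IsLocalRing S']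
    [Algebra R S] [Algebra R R'] [Algebra S S'] [Algebra R' S'] [Algebra R S']
    [IsScalarTower R R' S'] [IsScalarTower R S S']
    [IsLocalHom (algebraMap R S)] [IsLocalHom (algebraMap R R')] [IsLocalHom (algebraMap S S')]
    [IsLocalHom (algebraMap R' S')]
    (h1 : Function.Surjective (ResidueField.map (algebraMap R R')))
    (h2 : Function.Bijective (ResidueField.map (algebraMap S S'))) :
    Module.length (ResidueField R') (ResidueField S') =
      Module.length (ResidueField R) (ResidueField S) := by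
  have e1 : Module.length R (ResidueField S) = Module.length (ResidueField R) (ResidueField S) :=
    Module.length_eq_of_surjective (S := R) (R := ResidueField R) residue_surjective
  have hs : Function.Surjective (algebraMap R (ResidueField R')) := by
    intro y
    obtain ⟨x, rfl⟩ := h1 y
    obtain ⟨x, rfl⟩ := residue_surjective x
    exact ⟨x, rfl⟩
  have e2 : Module.length R (ResidueField S') =
      Module.length (ResidueField R') (ResidueField S') :=
    Module.length_eq_of_surjective (S := R) (R := ResidueField R') hs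
  have e3 : Module.length R (ResidueField S) = Module.length R (ResidueField S') := by
    let f : ResidueField S →ₗ[R] ResidueField S' :=
      (IsScalarTower.toAlgHom R (ResidueField S) (ResidueField S')).toLinearMap
    have hf : Function.Bijective f := h2
    exact (LinearEquiv.ofBijective f hf).length_eq
  rw [← e1, ← e2, e3]

theorem adicCompletion_dense {R : Type*} [CommRing R] [IsLocalRing R] [IsNoetherianRing R]
    (j : ℕ) (y : AdicCompletion (maximalIdeal R) R) : ∃ x : R,
      y - algebraMap R (AdicCompletion (maximalIdeal R) R) x ∈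
        ((maximalIdeal R).map (algebraMap R (AdicCompletion (maximalIdeal R) R))) ^ j := by
  obtain ⟨x, hx⟩ := Ideal.Quotient.mk_surjective (AdicCompletion.evalₐ (maximalIdeal R) j y)
  refine ⟨x, ?_⟩
  rw [← Ideal.map_pow]
  have h := AdicCompletion.pow_smul_top_eq_ker_eval (M := R) (n := j)
    (maximalIdeal R).fg_of_isNoetherianRing
  have h2 : y - algebraMap R (AdicCompletion (maximalIdeal R) R) x ∈
      (AdicCompletion.eval (maximalIdeal R) R j).ker := by
    rw [LinearMap.mem_ker, map_sub, sub_eq_zero, AdicCompletion.algebraMap_apply]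
    have h3 : maximalIdeal R ^ j • (⊤ : Submodule R R) ≤ maximalIdeal R ^ j := by simp
    have h4 : maximalIdeal R ^ j ≤ maximalIdeal R ^ j • (⊤ : Submodule R R) := by simp
    have h5 := AdicCompletion.factor_evalₐ_eq_eval (maximalIdeal R) y h4
    rw [← h5, ← hx]
    rfl
  rw [← h] at h2
  rw [← Submodule.restrictScalars_mem R, ← Ideal.smul_top_eq_map]
  exact h2


/-- Functoriality of the completion for local homomorphisms. -/
theorem exists_complHom {R S : Type*} [CommRing R] [IsLocalRing R] [CommRing S] [IsLocalRing S]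
    (φ : R →+* S) (h : (maximalIdeal R).map φ ≤ maximalIdeal S) :
    ∃ Φ : AdicCompletion (maximalIdeal R) R →+* AdicCompletion (maximalIdeal S) S,
      ∀ x : R, Φ (algebraMap R _ x) = algebraMap S _ (φ x) := by
  have hle : ∀ n, maximalIdeal R ^ n ≤ (maximalIdeal S ^ n).comap φ := fun n => by
    rw [← Ideal.map_le_iff_le_comap, Ideal.map_pow]
    exact Ideal.pow_right_mono h n
  let f : (n : ℕ) → AdicCompletion (maximalIdeal R) R →+* S ⧸ maximalIdeal S ^ n := fun n =>
    (Ideal.quotientMap (maximalIdeal S ^ n) φ (hle n)).comp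
      (AdicCompletion.evalₐ (maximalIdeal R) n).toRingHom
  have hf : ∀ {m n : ℕ} (hle : m ≤ n),
      (Ideal.Quotient.factorPow (maximalIdeal S) hle).comp (f n) = f m := by
    intro m n hmn
    ext x
    obtain ⟨x, rfl⟩ := AdicCompletion.mk_surjective (maximalIdeal R) R x
    simp only [f, RingHom.comp_apply, AlgHom.toRingHom_eq_coe, RingHom.coe_coe,
      AdicCompletion.evalₐ_mk, Ideal.quotientMap_mk]
    rw [Ideal.Quotient.factor_mk]
    rw [← sub_eq_zero, ← map_sub, ← map_sub, Ideal.Quotient.eq_zero_iff_mem]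
    apply hle m
    have := AdicCompletion.Ideal.mk_eq_mk (maximalIdeal R) hmn x
    rw [← sub_eq_zero, ← map_sub, Ideal.Quotient.eq_zero_iff_mem] at this
    exact this
  refine ⟨AdicCompletion.liftRingHom (maximalIdeal S) f hf, ?_⟩
  intro x
  apply AdicCompletion.ext_evalₐ
  intro n
  rw [AdicCompletion.evalₐ_liftRingHom]
  simp only [f, RingHom.comp_apply, AlgHom.toRingHom_eq_coe, RingHom.coe_coe]
  rw [AlgHom.commutes, AlgHom.commutes]
  rfl

universe u

/-- Abstract package: completion-like extensions `R → R'`, `S → S'` of a flat local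
homomorphism. -/
theorem completion_package {R S R' S' : Type u} [CommRing R] [IsLocalRing R] [IsNoetherianRing R]
    [CommRing S] [IsLocalRing S] [IsNoetherianRing S] [Algebra R S]
    [IsLocalHom (algebraMap R S)] [Module.Flat R S]
    [CommRing R'] [IsLocalRing R'] [IsNoetherianRing R']
    [CommRing S'] [IsLocalRing S'] [IsNoetherianRing S']
    [Algebra R R'] [Algebra S S'] [Algebra R' S'] [Algebra R S']
    [IsScalarTower R R' S'] [IsScalarTower R S S']
    [IsLocalHom (algebraMap R R')] [IsLocalHom (algebraMap S S')]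
    [Module.Flat R R'] [Module.Flat S S']
    (mR : maximalIdeal R' = (maximalIdeal R).map (algebraMap R R'))
    (mS : maximalIdeal S' = (maximalIdeal S).map (algebraMap S S'))
    (hdense : ∀ (j : ℕ) (y : R'), ∃ x : R,
      y - algebraMap R R' x ∈ ((maximalIdeal R).map (algebraMap R R')) ^ j)
    (bR : Function.Bijective (ResidueField.map (algebraMap R R')))
    (bS : Function.Bijective (ResidueField.map (algebraMap S S'))) :
    ∃ (_ : IsLocalHom (algebraMap R' S')) (_ : Module.Flat R' S'),
      (∀ j, Module.length R' (R' ⧸ maximalIdeal R' ^ j) =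
        Module.length R (R ⧸ maximalIdeal R ^ j)) ∧
      (∀ j, Module.length S' (S' ⧸ maximalIdeal S' ^ j) =
        Module.length S (S ⧸ maximalIdeal S ^ j)) ∧
      ringKrullDim R' = ringKrullDim R ∧ ringKrullDim S' = ringKrullDim S ∧
      Module.length S' (S' ⧸ (maximalIdeal R').map (algebraMap R' S')) =
        Module.length S (S ⧸ (maximalIdeal R).map (algebraMap R S)) ∧
      (Infinite (ResidueField R) → Infinite (ResidueField R')) ∧
      Module.length (ResidueField R') (ResidueField S') =
        Module.length (ResidueField R) (ResidueField S) := by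
  have hmap : (maximalIdeal R').map (algebraMap R' S') =
      ((maximalIdeal R).map (algebraMap R S)).map (algebraMap S S') := by
    rw [mR, Ideal.map_map, Ideal.map_map, ← IsScalarTower.algebraMap_eq R R' S',
      ← IsScalarTower.algebraMap_eq R S S']
  have hRS : (maximalIdeal R).map (algebraMap R S) ≤ maximalIdeal S :=
    (((IsLocalRing.local_hom_TFAE (algebraMap R S)).out 0 2) :
      IsLocalHom (algebraMap R S) ↔ _).mp inferInstance
  have loc : IsLocalHom (algebraMap R' S') := by
    apply ((IsLocalRing.local_hom_TFAE _).out 0 2).mpr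
    rw [hmap, mS]
    exact Ideal.map_mono hRS
  have flRS' : Module.Flat R S' := Module.Flat.trans R S S'
  have fl : Module.Flat R' S' := by
    refine flat_of_dense (R := R) (maximalIdeal R) ?_ hdense
    rw [IsScalarTower.algebraMap_eq R S S', ← Ideal.map_map, mS]
    exact Ideal.map_mono hRS
  refine ⟨loc, fl, ?_, ?_, ?_, ?_, ?_, ?_, ?_⟩
  · exact fun j => length_quot_pow_of_unram mR j
  · exact fun j => length_quot_pow_of_unram mS j
  · exact ringKrullDim_of_unram mR
  · exact ringKrullDim_of_unram mS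
  · rw [hmap]
    exact length_quot_map_of_unram mS _
  · intro h
    exact Infinite.of_injective _ bR.1
  · exact length_residue_of_bij bR.2 bS

/-- Completion of a flat local homomorphism. -/
theorem exists_completion {R S : Type u} [CommRing R] [IsLocalRing R] [IsNoetherianRing R]
    [CommRing S] [IsLocalRing S] [IsNoetherianRing S] [Algebra R S]
    [IsLocalHom (algebraMap R S)] [Module.Flat R S] :
    ∃ (R' S' : Type u) (_ : CommRing R') (_ : IsLocalRing R') (_ : IsNoetherianRing R')
      (_ : CommRing S') (_ : IsLocalRing S') (_ : IsNoetherianRing S') (_ : Algebra R' S')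
      (_ : IsLocalHom (algebraMap R' S')) (_ : Module.Flat R' S')
      (_ : IsAdicComplete (maximalIdeal R') R') (_ : IsAdicComplete (maximalIdeal S') S'),
      (∀ j, Module.length R' (R' ⧸ maximalIdeal R' ^ j) =
        Module.length R (R ⧸ maximalIdeal R ^ j)) ∧
      (∀ j, Module.length S' (S' ⧸ maximalIdeal S' ^ j) =
        Module.length S (S ⧸ maximalIdeal S ^ j)) ∧
      ringKrullDim R' = ringKrullDim R ∧ ringKrullDim S' = ringKrullDim S ∧
      Module.length S' (S' ⧸ (maximalIdeal R').map (algebraMap R' S')) =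
        Module.length S (S ⧸ (maximalIdeal R).map (algebraMap R S)) ∧
      (Infinite (ResidueField R) → Infinite (ResidueField R')) ∧
      Module.length (ResidueField R') (ResidueField S') =
        Module.length (ResidueField R) (ResidueField S) := by
  have nR : IsNoetherianRing (AdicCompletion (maximalIdeal R) R) :=
    isNoetherianRing_adicCompletion _
  have nS : IsNoetherianRing (AdicCompletion (maximalIdeal S) S) :=
    isNoetherianRing_adicCompletion _
  have hRS : (maximalIdeal R).map (algebraMap R S) ≤ maximalIdeal S :=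
    (((IsLocalRing.local_hom_TFAE (algebraMap R S)).out 0 2) :
      IsLocalHom (algebraMap R S) ↔ _).mp inferInstance
  obtain ⟨Φ, hΦ⟩ := exists_complHom (algebraMap R S) hRS
  let algR'S' : Algebra (AdicCompletion (maximalIdeal R) R) (AdicCompletion (maximalIdeal S) S) :=
    Φ.toAlgebra
  have st1 : IsScalarTower R (AdicCompletion (maximalIdeal R) R)
      (AdicCompletion (maximalIdeal S) S) := IsScalarTower.of_algebraMap_eq fun x => by
    rw [IsScalarTower.algebraMap_apply R S (AdicCompletion (maximalIdeal S) S)]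
    exact (hΦ x).symm
  obtain ⟨loc, fl, hpack⟩ := completion_package (R := R) (S := S)
    (R' := AdicCompletion (maximalIdeal R) R) (S' := AdicCompletion (maximalIdeal S) S)
    AdicCompletion.maximalIdeal_eq_map AdicCompletion.maximalIdeal_eq_map adicCompletion_dense
    (AdicCompletion.residueField_map_bijective R) (AdicCompletion.residueField_map_bijective S)
  exact ⟨_, _, inferInstance, inferInstance, nR, inferInstance, inferInstance, nS, algR'S',
    loc, fl, inferInstance, inferInstance, hpack⟩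

end Assembly

end Vale.Agent.P202
end

section

/-!
Assembly: from the inequality for complete rings of the same dimension to all flat local maps.
-/

set_option linter.unusedSectionVars false

namespace Vale.Agent.P202

open Ideal IsLocalRing Finset Filter Topology

universe u

/-- The sequence whose limit is the multiplicity. -/
noncomputable def hsSeq (A : Type u) [CommRing A] [IsLocalRing A] (d : ℕ) : ℕ → ℝ := fun N =>
  (d.factorial : ℝ) * ((Module.length A (A ⧸ maximalIdeal A ^ N)).toNat : ℝ) / (N : ℝ) ^ d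

lemma le_of_growth {d : ℕ} (hd : 0 < d) (κ c K : ℕ) (a b : ℕ → ℕ)
    (h : ∀ N, d.factorial * a N ≤ κ * (d.factorial * b (N + c)) + K * (N + 1) ^ (d - 1))
    (eR eS : ℝ)
    (hR : Tendsto (fun N : ℕ => (d.factorial : ℝ) * (a N : ℝ) / (N : ℝ) ^ d) atTop (𝓝 eR))
    (hS : Tendsto (fun N : ℕ => (d.factorial : ℝ) * (b N : ℝ) / (N : ℝ) ^ d) atTop (𝓝 eS)) :
    eR ≤ κ * eS := by
  have h0 : Tendsto (fun N : ℕ => (d.factorial : ℝ) * (b (N + c) : ℝ) / ((N + c : ℕ) : ℝ) ^ d)
      atTop (𝓝 eS) := hS.comp (tendsto_add_atTop_nat c)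
  have h1 := h0.mul (tendsto_shift_pow_ratio c d)
  have h2 := (h1.const_mul (κ : ℝ)).add
    ((tendsto_lower_ratio 1 d hd).const_mul (K : ℝ))
  rw [mul_one, mul_zero, add_zero] at h2
  refine le_of_tendsto_of_tendsto hR h2 ?_
  filter_upwards [eventually_gt_atTop 0] with n hn
  have hnd : (0 : ℝ) < (n : ℝ) ^ d := by positivity
  have hnd' : (0 : ℝ) < ((n + c : ℕ) : ℝ) ^ d := by positivity
  rw [div_mul_div_comm, mul_comm (((n + c : ℕ) : ℝ) ^ d), mul_div_mul_right _ _ hnd'.ne',
    mul_div_assoc', mul_div_assoc', ← add_div]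
  refine (div_le_div_iff_of_pos_right hnd).mpr ?_
  exact_mod_cast h n

/-- conversion to natural numbers of a growth inequality. -/
lemma growth_toNat {A B : Type*} [CommRing A] [IsLocalRing A] [IsNoetherianRing A]
    [CommRing B] [IsLocalRing B] [IsNoetherianRing B] (d κ c K N : ℕ)
    (h : (d.factorial : ℕ∞) * ell (maximalIdeal A ^ N) ≤
      (κ : ℕ∞) * ((d.factorial : ℕ∞) * ell (maximalIdeal B ^ (N + c))) +
        (K : ℕ∞) * ((N : ℕ∞) + 1) ^ (d - 1)) :
    d.factorial * (Module.length A (A ⧸ maximalIdeal A ^ N)).toNat ≤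
      κ * (d.factorial * (Module.length B (B ⧸ maximalIdeal B ^ (N + c))).toNat) +
        K * (N + 1) ^ (d - 1) := by
  have hA : ell (maximalIdeal A ^ N) ≠ ⊤ := ell_ne_top_of_pow_le le_rfl
  have hB : ell (maximalIdeal B ^ (N + c)) ≠ ⊤ := ell_ne_top_of_pow_le le_rfl
  obtain ⟨a, ha⟩ := ENat.ne_top_iff_exists.mp hA
  obtain ⟨b, hb⟩ := ENat.ne_top_iff_exists.mp hB
  rw [← ha, ← hb] at h
  have h1 : Module.length A (A ⧸ maximalIdeal A ^ N) = (a : ℕ∞) := ha.symm
  have h2 : Module.length B (B ⧸ maximalIdeal B ^ (N + c)) = (b : ℕ∞) := hb.symm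
  rw [h1, h2, ENat.toNat_natCast, ENat.toNat_natCast]
  exact_mod_cast h

/-- The statement for complete rings of the same dimension. -/
def CompleteCase (d κ : ℕ) : Prop :=
  ∀ (R S : Type u) [CommRing R] [IsLocalRing R] [IsNoetherianRing R]
    [IsAdicComplete (maximalIdeal R) R] [Infinite (ResidueField R)]
    [CommRing S] [IsLocalRing S] [IsNoetherianRing S] [Algebra R S]
    [IsLocalHom (algebraMap R S)] [Module.Flat R S],
    ringKrullDim R = d → ringKrullDim S = d →
    ∃ c K : ℕ, ∀ N : ℕ, (d.factorial : ℕ∞) * ell (maximalIdeal R ^ N) ≤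
      (κ : ℕ∞) * ((d.factorial : ℕ∞) * ell (maximalIdeal S ^ (N + c))) +
        (K : ℕ∞) * ((N : ℕ∞) + 1) ^ (d - 1)

/-- The localization inequality. -/
def LocCase : Prop :=
  ∀ (S : Type u) [CommRing S] [IsLocalRing S] [IsNoetherianRing S]
    [IsAdicComplete (maximalIdeal S) S] (Q : Ideal S) [Q.IsPrime] (s : ℕ),
    ringKrullDim (S ⧸ Q) = 1 → ringKrullDim (Localization.AtPrime Q) = s →
    ringKrullDim S = s + 1 → ∀ eQ eS : ℕ,
    Tendsto (hsSeq (Localization.AtPrime Q) s) atTop (𝓝 (eQ : ℝ)) →
    Tendsto (hsSeq S (s + 1)) atTop (𝓝 (eS : ℝ)) → eQ ≤ eS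

/-- The choice of the prime ideal. -/
def DimCase : Prop :=
  ∀ (R S : Type u) [CommRing R] [IsLocalRing R] [IsNoetherianRing R]
    [CommRing S] [IsLocalRing S] [IsNoetherianRing S] [Algebra R S]
    [IsLocalHom (algebraMap R S)] [Module.Flat R S] (s : ℕ), ringKrullDim S = s + 1 →
    ringKrullDim R < ringKrullDim S →
    ∃ Q : Ideal S, ∃ _ : Q.IsPrime, (maximalIdeal R).map (algebraMap R S) ≤ Q ∧
      ringKrullDim (S ⧸ Q) = 1 ∧ ringKrullDim (Localization.AtPrime Q) = s

/-- Equal dimensions. -/
theorem lech_equal_dim {d κ : ℕ} (hd : 0 < d) (H : CompleteCase.{u} d κ) {R S : Type u}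
    [CommRing R] [IsLocalRing R] [IsNoetherianRing R]
    [CommRing S] [IsLocalRing S] [IsNoetherianRing S] [Algebra R S]
    [IsLocalHom (algebraMap R S)] [Module.Flat R S]
    (hR : ringKrullDim R = d) (hS : ringKrullDim S = d) (eR eS : ℝ)
    (heR : Tendsto (hsSeq R d) atTop (𝓝 eR)) (heS : Tendsto (hsSeq S d) atTop (𝓝 eS)) :
    eR ≤ κ * eS := by
  obtain ⟨R1, S1, _, _, _, _, _, _, _, _, _, hinf, hlR, hlS, hdR, hdS, -⟩ :=
    exists_infinite_residue (R := R) (S := S)
  obtain ⟨R2, S2, _, _, _, _, _, _, _, _, _, _, _, hlR2, hlS2, hdR2, hdS2, -, hinf2, -⟩ :=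
    exists_completion (R := R1) (S := S1)
  have := hinf2 hinf
  obtain ⟨c, K, hN⟩ := H R2 S2 (hdR2.trans (hdR.trans hR)) (hdS2.trans (hdS.trans hS))
  refine le_of_growth hd κ c K (fun N => (Module.length R2 (R2 ⧸ maximalIdeal R2 ^ N)).toNat)
    (fun N => (Module.length S2 (S2 ⧸ maximalIdeal S2 ^ N)).toNat)
    (fun N => growth_toNat d κ c K N (hN N)) eR eS ?_ ?_
  · simp only [hlR2, hlR]
    exact heR
  · simp only [hlS2, hlS]
    exact heS

/-- All flat local homomorphisms. -/
theorem lech_all {d κ : ℕ} (hd : 0 < d) (H : CompleteCase.{u} d κ) (HL : LocCase.{u})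
    (HD : DimCase.{u}) (n : ℕ) : ∀ {R S : Type u}
    [CommRing R] [IsLocalRing R] [IsNoetherianRing R]
    [CommRing S] [IsLocalRing S] [IsNoetherianRing S] [Algebra R S]
    [IsLocalHom (algebraMap R S)] [Module.Flat R S]
    (_ : ringKrullDim R = d) (_ : ringKrullDim S = (d + n : ℕ)) (eR eS : ℕ)
    (_ : Tendsto (hsSeq R d) atTop (𝓝 (eR : ℝ)))
    (_ : Tendsto (hsSeq S (d + n)) atTop (𝓝 (eS : ℝ))),
    eR ≤ κ * eS := by
  induction n with
  | zero =>
    intro R S _ _ _ _ _ _ _ _ _ hR hS eR eS heR heS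
    have := lech_equal_dim hd H hR (by simpa using hS) eR eS heR (by simpa using heS)
    exact_mod_cast this
  | succ n ih =>
    intro R S _ _ _ _ _ _ _ _ _ hR hS eR eS heR heS
    obtain ⟨R2, S2, _, _, _, _, _, _, _, _, _, _, _, hlR2, hlS2, hdR2, hdS2, -⟩ :=
      exists_completion (R := R) (S := S)
    have hR2 : ringKrullDim R2 = d := hdR2.trans hR
    have hS2 : ringKrullDim S2 = (d + n : ℕ) + 1 := by
      rw [hdS2, hS]
      push_cast
      rw [add_assoc]
    obtain ⟨Q, _, hmQ, hQ1, hQs⟩ := HD R2 S2 (d + n) hS2 (by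
      rw [hR2, hS2]
      have : (d : WithBot ℕ∞) < ((d + n + 1 : ℕ) : WithBot ℕ∞) := by
        exact_mod_cast (by omega : d < d + n + 1)
      refine this.trans_le (le_of_eq ?_)
      push_cast
      rfl)
    have heR2 : Tendsto (hsSeq R2 d) atTop (𝓝 (eR : ℝ)) := by
      have : hsSeq R2 d = hsSeq R d := by
        funext N
        simp only [hsSeq, hlR2]
      rw [this]; exact heR
    have heS2 : Tendsto (hsSeq S2 (d + n + 1)) atTop (𝓝 (eS : ℝ)) := by
      have : hsSeq S2 (d + n + 1) = hsSeq S (d + (n + 1)) := by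
        funext N
        simp only [hsSeq, hlS2, add_assoc]
      rw [this]; exact heS
    have hflat : Module.Flat R2 (Localization.AtPrime Q) := Module.Flat.trans R2 S2 _
    have hloc : IsLocalHom (algebraMap R2 (Localization.AtPrime Q)) := by
      refine ⟨fun a ha => ?_⟩
      by_contra hna
      have h1 : algebraMap R2 S2 a ∈ Q :=
        hmQ (Ideal.mem_map_of_mem _ ((IsLocalRing.mem_maximalIdeal _).mpr hna))
      rw [IsScalarTower.algebraMap_apply R2 S2 (Localization.AtPrime Q),
        IsLocalization.AtPrime.isUnit_to_map_iff (Localization.AtPrime Q) Q] at ha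
      exact ha h1
    obtain ⟨eQ, heQ⟩ := exists_mult (A := Localization.AtPrime Q) (d := d + n) (by omega) hQs
    have h1 : eR ≤ κ * eQ := ih (R := R2) (S := Localization.AtPrime Q) hR2 hQs eR eQ heR2 heQ
    have h2 : eQ ≤ eS := HL S2 Q (d + n) hQ1 hQs hS2 eQ eS heQ heS2
    exact h1.trans (Nat.mul_le_mul_left _ h2)

/-- The final form: everything exists, and the inequality holds. -/
theorem lech_final {d κ : ℕ} (hd : 0 < d) (H : CompleteCase.{u} d κ) (HL : LocCase.{u})
    (HD : DimCase.{u}) {R S : Type u}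
    [CommRing R] [IsLocalRing R] [IsNoetherianRing R]
    [CommRing S] [IsLocalRing S] [IsNoetherianRing S] [Algebra R S]
    [IsLocalHom (algebraMap R S)] [Module.Flat R S] (hR : ringKrullDim R = d) :
    ∃ s eR eS : ℕ, ringKrullDim S = s ∧ Tendsto (hsSeq R d) atTop (𝓝 (eR : ℝ)) ∧
      Tendsto (hsSeq S s) atTop (𝓝 (eS : ℝ)) ∧ eR ≤ κ * eS := by
  obtain ⟨s, hs⟩ : ∃ s : ℕ, ringKrullDim S = s := by
    have h1 := IsLocalRing.maximalIdeal_height_eq_ringKrullDim (R := S)
    have h2 : (maximalIdeal S).height ≠ ⊤ := Ideal.height_ne_top_of_isPrime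
    obtain ⟨s, hs⟩ := ENat.ne_top_iff_exists.mp h2
    exact ⟨s, by rw [← h1, ← hs]; rfl⟩
  have hle : d ≤ s := by
    have h1 := Ideal.height_eq_height_add_of_liesOver_of_hasGoingDown (maximalIdeal R)
      (maximalIdeal S)
    have h2 : (maximalIdeal R).height ≤ (maximalIdeal S).height := by
      rw [h1]; exact le_self_add
    rw [← IsLocalRing.maximalIdeal_height_eq_ringKrullDim] at hR hs
    have h3 : (maximalIdeal R).height = d := by exact_mod_cast hR
    have h4 : (maximalIdeal S).height = s := by exact_mod_cast hs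
    rw [h3, h4] at h2
    exact_mod_cast h2
  obtain ⟨n, rfl⟩ := Nat.exists_eq_add_of_le hle
  obtain ⟨eR, heR⟩ := exists_mult (A := R) hd hR
  obtain ⟨eS, heS⟩ := exists_mult (A := S) (d := d + n) (by omega) hs
  exact ⟨d + n, eR, eS, hs, heR, heS, lech_all hd H HL HD n hR hs eR eS heR heS⟩

end Vale.Agent.P202
end

section

/-!
P202-CHARP, definitions: base change to `A'` followed by restriction of scalars to `A`, and the
Frobenius copy of a ring.
-/

namespace Vale.Agent.P202.CharP

open Submodule TensorProduct IsLocalRing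

section

variable {B : Type*} [CommRing B] {Λ : Type*} [AddCommGroup Λ] [Module B Λ]

end

/-- the ring `A`, to be seen as an `A`-algebra through the `e`-th power of the Frobenius. -/
def Fr (p : ℕ) (A : Type*) (e : ℕ) : Type _ := (fun _ _ => A) p e

section

variable (p : ℕ) [Fact p.Prime] (A : Type*) [CommRing A] (e : ℕ)

instance : CommRing (Fr p A e) := inferInstanceAs (CommRing A)

instance [CharP A p] : CharP (Fr p A e) p := inferInstanceAs (CharP A p)

instance [IsLocalRing A] : IsLocalRing (Fr p A e) := inferInstanceAs (IsLocalRing A)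

instance [IsNoetherianRing A] : IsNoetherianRing (Fr p A e) :=
  inferInstanceAs (IsNoetherianRing A)

instance [CharP A p] : Algebra A (Fr p A e) := (iterateFrobenius A p e).toAlgebra

/-- the identity `A ≃ Fr p A e`. -/
def toFr : A ≃+* Fr p A e := RingEquiv.refl A

end

lemma algebraMap_Fr (p : ℕ) [Fact p.Prime] (A : Type*) [CommRing A] [CharP A p] (e : ℕ) (a : A) :
    algebraMap A (Fr p A e) a = toFr p A e (a ^ p ^ e) := rfl

/-- degree of the `p^e`-th power Frobenius of a field. -/
noncomputable def fdeg (p : ℕ) [Fact p.Prime] (k : Type*) [Field k] [CharP k p] (e : ℕ) : ℕ∞ :=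
  Module.length k (Fr p k e)

end Vale.Agent.P202.CharP
end

section

/-!
P202-CHARP, tasks R1, R2, R3: lengths along local homomorphisms, the degree of Frobenius,
`F`-finiteness of complete local rings.
-/

namespace Vale.Agent.P202.CharP

open Submodule TensorProduct IsLocalRing

section R1

variable {A A' : Type*} [CommRing A] [IsLocalRing A] [CommRing A'] [IsLocalRing A']
    [Algebra A A'] [IsLocalHom (algebraMap A A')]

lemma length_residueField :
    Module.length A (ResidueField A') = Module.length (ResidueField A) (ResidueField A') :=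
  Module.length_eq_of_surjective (residue_surjective (R := A))

lemma length_of_simple (M : Type*) [AddCommGroup M] [Module A' M] [IsSimpleModule A' M]
    [Module A M] [IsScalarTower A A' M] :
    Module.length A M = Module.length (ResidueField A) (ResidueField A') := by
  obtain ⟨I, hI, ⟨e⟩⟩ := isSimpleModule_iff_quot_maximal.1 (inferInstance : IsSimpleModule A' M)
  have hIm : I = maximalIdeal A' := IsLocalRing.eq_maximalIdeal hI
  subst hIm
  have e' : M ≃ₗ[A] (A' ⧸ maximalIdeal A') := e.restrictScalars A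
  rw [e'.length_eq]
  exact length_residueField

lemma length_restrict_aux (N : Type*) [AddCommGroup N] [Module A' N] (h : IsFiniteLength A' N) :
    ∀ [Module A N] [IsScalarTower A A' N], Module.length A N =
      Module.length A' N * Module.length (ResidueField A) (ResidueField A') := by
  induction h with
  | of_subsingleton =>
    intro _ _
    rw [Module.length_eq_zero, Module.length_eq_zero, zero_mul]
  | @of_simple_quotient M _ _ P _ _ ih =>
    intro _ _
    have h1 : Module.length A M = Module.length A P + Module.length A (M ⧸ P) :=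
      Module.length_eq_add_of_exact (P.subtype.restrictScalars A) (P.mkQ.restrictScalars A)
        (Submodule.subtype_injective P) (Submodule.mkQ_surjective P)
        (LinearMap.exact_subtype_mkQ P)
    have h2 : Module.length A' M = Module.length A' P + Module.length A' (M ⧸ P) :=
      Module.length_eq_add_of_exact P.subtype P.mkQ
        (Submodule.subtype_injective P) (Submodule.mkQ_surjective P)
        (LinearMap.exact_subtype_mkQ P)
    rw [h1, h2, ih, Module.length_eq_one A' (M ⧸ P), length_of_simple (A' := A') (M ⧸ P),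
      add_mul, one_mul]

/-- TASK R1: lengths along a local homomorphism. -/
theorem length_restrict (N : Type*) [AddCommGroup N] [Module A N]
    [Module A' N] [IsScalarTower A A' N] :
    Module.length A N =
      Module.length A' N * Module.length (ResidueField A) (ResidueField A') := by
  by_cases h : Module.length A' N = ⊤
  · have h1 : Module.length A' N ≤ Module.length A N := by
      have h2 := Submodule.length_le_length_restrictScalars A (⊤ : Submodule A' N)
      rw [Submodule.restrictScalars_top, Module.length_top, Module.length_top] at h2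
      exact h2
    rw [h] at h1
    rw [h, top_le_iff.1 h1, ENat.top_mul]
    exact (Module.length_pos (R := ResidueField A) (M := ResidueField A')).ne'
  · exact length_restrict_aux N (Module.length_ne_top_iff.1 h)

end R1

section Frob

variable (p : ℕ) [Fact p.Prime]

noncomputable instance instFieldFr (k : Type*) [Field k] (e : ℕ) : Field (Fr p k e) :=
  inferInstanceAs (Field k)

end Frob

end Vale.Agent.P202.CharP
end

section

/-!
Superficial elements, avoidance, and generic elements of the maximal ideal.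
-/

set_option linter.unusedSectionVars false

namespace Vale.Agent.P202

open IsLocalRing Polynomial Ideal

section Generic

end Generic

section Sup

variable {B : Type*} [CommRing B]

variable {N : Type*} [AddCommGroup N] [Module B N]

end Sup

set_option linter.unusedVariables false in
/-- avoidance over a local ring with infinite residue field. -/
theorem avoid_ideals {R : Type*} [CommRing R] [IsLocalRing R] [Infinite (ResidueField R)]
    (I : Ideal R) (hI : I.FG) (U : Finset (Ideal R)) (hU : ∀ J ∈ U, ¬ I ≤ J) :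
    ∃ x ∈ I, ∀ J ∈ U, x ∉ J := by
  classical
  obtain ⟨c, hc⟩ := avoid (R := R) (M := I)
    (U.image fun J => Submodule.comap (Submodule.subtype I) J) (by
      intro W hW htop
      obtain ⟨J, hJ, rfl⟩ := Finset.mem_image.mp hW
      refine hU J hJ fun x hx => ?_
      have : (⟨x, hx⟩ : I) ∈ Submodule.comap (Submodule.subtype I) J := by
        rw [htop]; exact Submodule.mem_top
      exact this)
  exact ⟨c.1, c.2, fun J hJ hcJ => hc _ (Finset.mem_image_of_mem _ hJ) hcJ⟩

end Vale.Agent.P202
end

section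

/-!
Quotients of flat local homomorphisms by an ideal of the base; filter-regular elements.
-/

set_option linter.unusedSectionVars false

namespace Vale.Agent.P202

open Ideal IsLocalRing TensorProduct

section

variable {R S : Type*} [CommRing R] [CommRing S] [Algebra R S]

theorem flat_quot [Module.Flat R S] (I : Ideal R) :
    Module.Flat (R ⧸ I) (S ⧸ I.map (algebraMap R S)) := by
  let e1 : (R ⧸ I) ⊗[R] S ≃ₗ[R] S ⧸ (I • (⊤ : Submodule R S)) :=
    TensorProduct.quotTensorEquivQuotSMul S I
  have h : (I • (⊤ : Submodule R S)) = (I.map (algebraMap R S)).restrictScalars R :=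
    Ideal.smul_top_eq_map I
  let e2 : (S ⧸ (I • (⊤ : Submodule R S))) ≃ₗ[R]
      (S ⧸ (I.map (algebraMap R S)).restrictScalars R) := Submodule.quotEquivOfEq _ _ h
  let e3 : (S ⧸ (I.map (algebraMap R S)).restrictScalars R) ≃ₗ[R]
      (S ⧸ I.map (algebraMap R S)) := Submodule.Quotient.restrictScalarsEquiv R _
  let e : (R ⧸ I) ⊗[R] S ≃ₗ[R ⧸ I] (S ⧸ I.map (algebraMap R S)) :=
    LinearEquiv.extendScalarsOfSurjective (Ideal.Quotient.mk_surjective) ((e1.trans e2).trans e3)
  exact Module.Flat.of_linearEquiv e.symm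

/-- annihilators and flat base change. -/
lemma col_bot_le_map [Module.Flat R S] (x : R) :
    col (⊥ : Ideal S) (algebraMap R S x) ≤ (col (⊥ : Ideal R) x).map (algebraMap R S) := by
  intro s hs
  rw [mem_col, Ideal.mem_bot] at hs
  have h0 : ∑ _i : Unit, x • s = 0 := by
    rw [Finset.sum_const, Finset.card_univ, Fintype.card_unit, one_smul, Algebra.smul_def,
      mul_comm, hs]
  obtain ⟨κ, a, y, hy, ha⟩ := Module.Flat.isTrivialRelation_of_sum_smul_eq_zero
    (f := fun _ : Unit => x) (x := fun _ : Unit => s) h0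
  have hs' : s = ∑ j, a () j • y j := hy ()
  rw [hs']
  refine Ideal.sum_mem _ fun j _ => ?_
  rw [Algebra.smul_def]
  refine Ideal.mul_mem_right _ _ (Ideal.mem_map_of_mem _ ?_)
  rw [mem_col, Ideal.mem_bot, mul_comm]
  have := ha j
  simpa using this

end

section

variable {R S : Type*} [CommRing R] [IsLocalRing R] [IsNoetherianRing R]
  [CommRing S] [IsLocalRing S] [IsNoetherianRing S] [Algebra R S]

/-- a module of finite length over a Noetherian local ring is killed by a power of the maximal
ideal (for ideals). -/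
lemma exists_pow_mul_eq_bot {K : Ideal R} (hK : Module.length R K ≠ ⊤) :
    ∃ s, maximalIdeal R ^ s * K = ⊥ := by
  have hart : IsArtinian R K :=
    ((isFiniteLength_iff_isNoetherian_isArtinian).mp (Module.length_ne_top_iff.mp hK)).2
  -- the decreasing sequence `m ^ s K` stabilizes
  have hanti : Antitone fun s : ℕ => (maximalIdeal R ^ s • (⊤ : Submodule R K)) := by
    intro a b hab
    exact Submodule.smul_mono_left (Ideal.pow_le_pow_right hab)
  obtain ⟨n, hn⟩ := IsArtinian.monotone_stabilizes
    (⟨fun s => OrderDual.toDual (maximalIdeal R ^ s • (⊤ : Submodule R K)), fun a b hab =>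
      hanti hab⟩ : ℕ →o (Submodule R K)ᵒᵈ)
  have h1 : maximalIdeal R ^ n • (⊤ : Submodule R K) =
      maximalIdeal R • (maximalIdeal R ^ n • (⊤ : Submodule R K)) := by
    have h2 : maximalIdeal R ^ n • (⊤ : Submodule R K) =
        maximalIdeal R ^ (n + 1) • (⊤ : Submodule R K) := hn (n + 1) (Nat.le_succ n)
    rw [← Submodule.mul_smul, ← pow_succ']
    exact h2
  have h3 : maximalIdeal R ^ n • (⊤ : Submodule R K) = ⊥ := by
    refine Submodule.eq_bot_of_le_smul_of_le_jacobson_bot (maximalIdeal R) _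
      (IsNoetherian.noetherian _) h1.le ?_
    rw [IsLocalRing.jacobson_eq_maximalIdeal _ bot_ne_top]
  refine ⟨n, ?_⟩
  rw [eq_bot_iff, Ideal.mul_le]
  intro r hr a ha
  have h4 : r • (⟨a, ha⟩ : K) ∈ maximalIdeal R ^ n • (⊤ : Submodule R K) :=
    Submodule.smul_mem_smul hr Submodule.mem_top
  rw [h3, Submodule.mem_bot] at h4
  have := congrArg Subtype.val h4
  simpa using this

/-- filter regularity and flat base change. -/
theorem filter_regular_map [Module.Flat R S]
    (hfib : ell ((maximalIdeal R).map (algebraMap R S)) ≠ ⊤) (x : R)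
    (hx : ∀ i, Module.length R (col (⊥ : Ideal R) (x ^ i)) ≠ ⊤) (i : ℕ) :
    Module.length S (col (⊥ : Ideal S) (algebraMap R S x ^ i)) ≠ ⊤ := by
  obtain ⟨s, hs⟩ := exists_pow_mul_eq_bot (hx i)
  obtain ⟨t, ht⟩ := exists_pow_le_of_ell_ne_top hfib
  rw [← map_pow]
  refine length_ne_top_of_pow_smul (t * s) fun a ha v => ?_
  have h1 : (v : S) ∈ (col (⊥ : Ideal R) (x ^ i)).map (algebraMap R S) :=
    col_bot_le_map _ v.2
  have h2 : a ∈ (maximalIdeal R ^ s).map (algebraMap R S) := by
    rw [Ideal.map_pow]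
    rw [pow_mul] at ha
    exact Ideal.pow_right_mono ht s ha
  have h3 := Ideal.mul_mem_mul h2 h1
  rw [← Ideal.map_mul, hs, Ideal.map_bot, Ideal.mem_bot] at h3
  exact Subtype.ext h3

end

section

variable {R : Type*} [CommRing R] [IsLocalRing R] [IsNoetherianRing R] [Infinite (ResidueField R)]

/-- perturbation of an element by the square of the maximal ideal so that it becomes
filter-regular. -/
theorem exists_perturb (x : R) : ∃ w ∈ maximalIdeal R ^ 2,
    ∀ i, Module.length R (col (⊥ : Ideal R) ((x + w) ^ i)) ≠ ⊤ := by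
  classical
  have hass : (associatedPrimes R R).Finite := associatedPrimes.finite R R
  let U : Finset (Ideal R) := hass.toFinset.erase (maximalIdeal R)
  have hUprime : ∀ P ∈ U, P.IsPrime := by
    intro P hP
    rw [Finset.mem_erase, Set.Finite.mem_toFinset] at hP
    exact IsAssociatedPrime.isPrime hP.2
  obtain ⟨v, hv, hvU⟩ := avoid_ideals (maximalIdeal R ^ 2) (IsNoetherian.noetherian _) U (by
    intro P hP hle
    have hp := hUprime P hP
    rw [Finset.mem_erase] at hP
    have h2 : maximalIdeal R ≤ P := hp.le_of_pow_le hle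
    exact hP.1 (((IsLocalRing.maximalIdeal.isMaximal R).eq_of_le hp.ne_top h2).symm))
  -- choose representatives of the residue classes
  obtain ⟨r, hr⟩ : ∃ r : ResidueField R → R, ∀ a, residue R (r a) = a :=
    ⟨Function.surjInv residue_surjective, Function.surjInv_eq residue_surjective⟩
  have key : ∃ a : ResidueField R, ∀ P ∈ U, x + r a * v ∉ P := by
    by_contra hcon
    push Not at hcon
    choose P hP hmem using hcon
    obtain ⟨a, b, hab, hPab⟩ := Finite.exists_ne_map_eq_of_infinite
      (fun a : ResidueField R => (⟨P a, hP a⟩ : U))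
    have hPab' : P a = P b := congrArg Subtype.val hPab
    have h1 : (r a - r b) * v ∈ P a := by
      have h2 := hmem a
      have h3 := hmem b
      rw [← hPab'] at h3
      have := (P a).sub_mem h2 h3
      rw [sub_mul]
      simpa using this
    have hunit : IsUnit (r a - r b) := by
      by_contra hnu
      have h4 : r a - r b ∈ maximalIdeal R := (mem_maximalIdeal _).mpr hnu
      rw [← residue_eq_zero_iff, map_sub, hr, hr, sub_eq_zero] at h4
      exact hab h4
    exact hvU _ (hP a) ((Ideal.unit_mul_mem_iff_mem _ hunit).mp h1)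
  obtain ⟨a, ha⟩ := key
  refine ⟨r a * v, Ideal.mul_mem_left _ _ hv, length_col_ne_top fun P hP hmem => ?_⟩
  by_contra hne
  exact ha P (Finset.mem_erase.mpr ⟨hne, hass.mem_toFinset.mpr hP⟩) hmem

end

end Vale.Agent.P202
end

section

/-!
P202 MIX, task M17-A, M17-B: Hilbert-Samuel bound modulo a nonzerodivisor; lengths and flat local
homomorphisms.
-/

namespace Vale.Agent.P202.Mix

open Polynomial TensorProduct IsLocalRing
open scoped ENNReal

universe u

/-- TASK M17-A: Hilbert-Samuel bound modulo a nonzerodivisor (`dim R/g ≤ r`). -/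
theorem hs_bound {R : Type u} [CommRing R] [IsLocalRing R] [IsNoetherianRing R] {r : ℕ}
    (hdim : ringKrullDim R = (r + 1 : ℕ)) (I : Ideal R) (hI : I ≤ maximalIdeal R)
    (hfin : Module.length R (R ⧸ I) ≠ ⊤) (g : R) (hg : g ∈ nonZeroDivisors R) :
    ∃ C : ℕ, ∀ j : ℕ, 1 ≤ j →
      Module.length R (R ⧸ (I ^ j ⊔ Ideal.span {g})) ≤ ((C * j ^ r : ℕ) : ℕ∞) := by
  by_cases hgu : Ideal.span {g} = (⊤ : Ideal R)
  · refine ⟨0, fun j _ => ?_⟩
    have h1 : ell (I ^ j ⊔ Ideal.span {g}) = 0 := by
      rw [ell_eq_zero_iff, hgu, sup_top_eq]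
    exact h1.le.trans zero_le
  have : Nontrivial (R ⧸ Ideal.span {g}) := Ideal.Quotient.nontrivial_iff.mpr hgu
  have : IsLocalRing (R ⧸ Ideal.span {g}) :=
    IsLocalRing.of_surjective' (Ideal.Quotient.mk _) Ideal.Quotient.mk_surjective
  -- the dimension of the quotient
  have hd1 := ringKrullDim_quotient_succ_le_of_nonZeroDivisor hg
  rw [hdim] at hd1
  obtain ⟨d, hd⟩ : ∃ d : ℕ, ringKrullDim (R ⧸ Ideal.span {g}) = d := by
    rw [← IsLocalRing.maximalIdeal_height_eq_ringKrullDim]
    obtain ⟨d, hd⟩ := ENat.ne_top_iff_exists.mp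
      (Ideal.height_ne_top (I := maximalIdeal (R ⧸ Ideal.span {g})) (Ideal.IsPrime.ne_top'))
    exact ⟨d, by rw [← hd]; rfl⟩
  have hdr : d ≤ r := by
    rw [hd] at hd1
    have : ((d + 1 : ℕ) : WithBot ℕ∞) ≤ ((r + 1 : ℕ) : WithBot ℕ∞) := by
      exact_mod_cast hd1
    have h2 : d + 1 ≤ r + 1 := by exact_mod_cast this
    omega
  obtain ⟨w, hw, s, hs⟩ := exists_parameters hd
  have hell : ell (I.map (Ideal.Quotient.mk (Ideal.span {g}))) ≠ ⊤ := by
    rw [ell_map_mk]
    exact ne_top_of_le_ne_top hfin (ell_mono le_sup_left)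
  obtain ⟨D, hD⟩ := exists_pow_le_of_ell_ne_top hell
  have hwm : Ideal.span (Set.range w) ≤ maximalIdeal (R ⧸ Ideal.span {g}) := by
    rw [Ideal.span_le]
    rintro _ ⟨i, rfl⟩
    exact hw i
  obtain ⟨B, hB⟩ := exists_growth w ⟨s, hs⟩ (I.map (Ideal.Quotient.mk (Ideal.span {g}))) D
    ((Ideal.pow_right_mono hwm D).trans hD) hell
  refine ⟨B, fun j hj => ?_⟩
  have h1 := hB j hj
  rw [← Ideal.map_pow, ell_map_mk] at h1
  refine h1.trans ?_
  exact_mod_cast Nat.mul_le_mul_left B (Nat.pow_le_pow_right hj hdr)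

/-- TASK M17-B: lengths and flat local homomorphisms. -/
theorem length_flat_quot {A S : Type u} [CommRing A] [CommRing S] [IsLocalRing A] [IsLocalRing S]
    [IsNoetherianRing A] [IsNoetherianRing S] [Algebra A S] [IsLocalHom (algebraMap A S)]
    [Module.Flat A S] (𝔞 : Ideal A) (hfin : Module.length A (A ⧸ 𝔞) ≠ ⊤) :
    Module.length S (S ⧸ 𝔞.map (algebraMap A S)) =
      Module.length S (S ⧸ (maximalIdeal A).map (algebraMap A S)) * Module.length A (A ⧸ 𝔞) := by
  rw [← (Algebra.TensorProduct.quotIdealMapEquivTensorQuot S 𝔞).toLinearEquiv.length_eq.symm,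
    IsLocalRing.length_baseChange, mul_comm]

end Vale.Agent.P202.Mix
end
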