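import Vale.Agent.P202.MathlibUsed
attribute [-instance] DenselyNormedField.toNontriviallyNormedField DenselyNormedField.toNormedField NontriviallyNormedField.toNormedField RCLike.toDenselyNormedField NormedField.toField NormedField.toNormedDivisionRing NormedDivisionRing.toDivisionRing IdemCommSemiring.toCommSemiring IdemCommSemiring.toIdemSemiring KleeneAlgebra.toIdemSemiring IdemSemiring.toSemiring NormedField.toNormedCommRing NormedCommRing.toSeminormedCommRing NormedCommRing.toNormedRing NormedDivisionRing.toNormedRing EuclideanDomain.toCommRing NormedCommRing.toCommRing SeminormedCommRing.toCommRing NormedRing.toSeminormedRing SeminormedCommRing.toSeminormedRing SemiRingCat.instSemiringObjForgetRingHomCarrier NormedRing.toRing SeminormedRing.toRing Ring.toNonAssocRing CommRing.toAddCommGroupWithOne CommSemiring.toNonAssocCommSemiring NonAssocCommRing.toNonAssocCommSemiring NonAssocCommSemiring.toNonAssocSemiring NonAssocRing.toNonAssocSemiring AddCommGroupWithOne.toAddCommMonoidWithOne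 LinearOrderedAddCommGroupWithTop.instLinearOrderedAddCommMonoidWithTop NonUnitalNormedCommRing.toNonUnitalNormedRing NormedCommRing.toNonUnitalNormedCommRing NormedRing.toNonUnitalNormedRing LinearOrderedAddCommGroupWithTop.toAddCommMonoid NonUnitalNormedCommRing.toNonUnitalSeminormedCommRing NonUnitalNormedRing.toNonUnitalSeminormedRing NonUnitalSeminormedCommRing.toNonUnitalSeminormedRing SeminormedCommRing.toNonUnitalSeminormedCommRing SeminormedRing.toNonUnitalSeminormedRing NonUnitalNormedCommRing.toNonUnitalCommRing NonUnitalNormedRing.toNonUnitalRing NonUnitalSeminormedCommRing.toNonUnitalCommRing NonUnitalSeminormedRing.toNonUnitalRing Ring.toNonUnitalRing NonAssocCommRing.toNonUnitalNonAssocCommRing NonAssocRing.toNonUnitalNonAssocRing NonUnitalRing.toNonUnitalNonAssocRing NonUnitalRing.toNonUnitalSemiring Semiring.toNonUnitalSemiring NonAssocCommSemiring.toNonUnitalNonAssocCommSemiring NonUnitalCommSemiring.toNonUnitalNonAssocCommSemiring NonUnitalNonAssocCommSemiring.toNonUnitalNonAssocSemiring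 NonUnitalSemiring.toNonUnitalNonAssocSemiring AddCommMonoidWithOne.toAddCommMonoid SemimoduleCat.isAddCommMonoid Pi.preorder RingCat.instRingObjForgetRingHomCarrier CommSemiRingCat.instCommSemiringObjForgetRingHomCarrier instCoeT instCoeTOfCoeDep Pi.nonUnitalNonAssocSemiring MulSemiringAction.toDistribMulAction IdemSemiring.toSemilatticeSup CompleteAtomicBooleanAlgebra.toCompleteBooleanAlgebra LinearOrderedAddCommGroupWithTop.toSubNegMonoid Submodule.idemSemiring CompleteAtomicBooleanAlgebra.toCompletelyDistribLattice CompleteBooleanAlgebra.toCompleteDistribLattice CompletelyDistribLattice.toCompleteDistribLattice NormedCommGroup.toNormedGroup CompleteLinearOrder.toConditionallyCompleteLinearOrderBot NormedCommGroup.toSeminormedCommGroup NormedGroup.toSeminormedGroup SeminormedCommGroup.toSeminormedGroup Filter.instMembership CompleteDistribLattice.toCoframe CompleteDistribLattice.toFrame NormedCommGroup.toCommGroup SeminormedCommGroup.toCommGroup CompleteBooleanAlgebra.toCompleteLattice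 CommGroup.toGroup NormedGroup.toGroup SeminormedGroup.toGroup ConditionallyCompleteLinearOrderBot.toConditionallyCompleteLinearOrder Pi.addMonoidWithOne LinearOrderedCommGroupWithZero.toLinearOrderedCommMonoidWithZero CompleteLinearOrder.toCompleteLattice Order.Coframe.toCompleteLattice Order.Frame.toCompleteLattice instDistribSMul NonUnitalNonAssocSemiring.toDistribSMul LieRing.toAddCommGroup instRingHomSurjectiveForallEvalRingHom CompleteBooleanAlgebra.toBooleanAlgebra CommGroupWithZero.toGroupWithZero LinearOrderedCommGroupWithZero.toCommGroupWithZero Semifield.toCommGroupWithZero Pi.nonAssocSemiring ChainCompletePartialOrder.instOfCompleteLattice ChainCompletePartialOrder.instOmegaCompletePartialOrder ChainCompletePartialOrder.toPartialOrder CompletePartialOrder.toOmegaCompletePartialOrder OmegaCompletePartialOrder.toPartialOrder Pi.partialOrder NormedAlgebra.toAlgebra CommGroupWithZero.toCommMonoidWithZero CommMonoidWithZero.toMonoidWithZero LinearOrderedCommMonoidWithZero.toCommMonoidWithZero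 instSMulZeroClass instCoeTC NonUnitalNormedRing.toNormedAddCommGroup Torsor.toMulAction GradedMonoid.GradeZero.mulAction MonoidWithZero.toSemigroupWithZero NonUnitalNonAssocSemiring.toMulZeroClass SemigroupWithZero.toMulZeroClass BooleanAlgebra.toBiheytingAlgebra CompleteDistribLattice.toBiheytingAlgebra CompleteLinearOrder.toBiheytingAlgebra CompletelyDistribLattice.toBiheytingAlgebra instCoeHTC instCoeTCOfCoe instCoeHTCT Ideal.instIdemCommSemiring Submodule.instIdemCommSemiring instSubsingleton MonCat.monoidObj IsEmpty.instSubsingleton NormedAlgebra.id Pi.instTopForall TopologicalSpace.Compacts.instSetLike Pi.instSemilatticeSup Pi.addZeroClass LieAlgebra.toModule NormedSpace.toModule ContinuousAddMonoidHom.instCoeOutOfAddMonoidHomClassOfContinuousMapClass ContinuousMonoidHom.instCoeOutOfMonoidHomClassOfContinuousMapClass HomeomorphClass.instCoeOutHomeomorph IsometryClass.instCoeOutIsometryEquiv Pi.instMaxForall_mathlib AbsoluteValue.funLike Nat.instAtLeastTwoHAddOfNat BiheytingAlgebra.toCoheytingAlgebra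 BiheytingAlgebra.toHeytingAlgebra BooleanAlgebra.toGeneralizedBooleanAlgebra Order.Coframe.toCoheytingAlgebra Order.Frame.toHeytingAlgebra CompleteLinearOrder.toLinearOrder ConditionallyCompleteLinearOrder.toLinearOrder LinearOrderedAddCommGroupWithTop.toLinearOrder LinearOrderedCommMonoidWithZero.toLinearOrder NonUnitalSeminormedRing.toSeminormedAddCommGroup NormedAddCommGroup.toSeminormedAddCommGroup NormedAddCommGroup.toNormedAddGroup MonomialOrder.orderBot AddOpposite.instAddZero CoheytingAlgebra.toGeneralizedCoheytingAlgebra GeneralizedBooleanAlgebra.toGeneralizedCoheytingAlgebra HeytingAlgebra.toGeneralizedHeytingAlgebra Pi.instBotForall LinOrd.str AddGrpCat.str instCoeOutOfCoeFun AddCommGroupWithOne.toAddCommGroup NonUnitalNonAssocRing.toAddCommGroup NormedAddCommGroup.toAddCommGroup SeminormedAddCommGroup.toAddCommGroup instNonemptyOfMonad NormedAddGroup.toSeminormedAddGroup SeminormedAddCommGroup.toSeminormedAddGroup Ideal.instHasQuotient IsRegularRing.toIsNoetherian instOfNatAtLeastTwo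 Invertible.toNeZero NeZero.of_gt' Nat.AtLeastTwo.toNeZero instIsNoetherianRingOfIsArtinianRing IsDedekindDomainDvr.toIsNoetherian IsDedekindRing.toIsNoetherian IsRegularLocalRing.toIsNoetherian IsSimpleModule.instIsNoetherian Ring.HasFiniteQuotients.instIsNoetherianRing ZMod.instField instIsDedekindDomainOfIsDomainOfIsDedekindRing IsDedekindDomainDvr.isDedekindDomain IsPrincipalIdealRing.isDedekindDomain Pi.instMinForall_mathlib NumberField.instFiniteDimensional NormedAddGroup.toAddGroup SeminormedAddGroup.toAddGroup Field.henselian Field.instIsLocalRing HenselianLocalRing.toIsLocalRing IsDiscreteValuationRing.toIsLocalRing IsRegularLocalRing.instOfIsLocalRingOfIsDomainOfIsPrincipalIdealRing IsRegularLocalRing.toIsLocalRing ValuationRing.isLocalRing isNoetherian_of_finite isNoetherian_of_subsingleton IsSemisimpleModule.instIsNoetherianOfFinite PrincipalIdealRing.isNoetherianRing Nat.instNontrivial Nat.Prime.one_lt' instFiniteOfFinitePresentation instFinitePresentation Algebra.instFiniteOfIsQuadraticExtension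 FiniteDimensional.finiteDimensional_self Algebra.IsFiniteSplit.instFinitePresentation Module.Finite.self RingHom.Finite.instFinite instConditionallyCompletePartialOrderSup CompleteLattice.toCompleteSemilatticeInf CompleteLattice.toCompleteSemilatticeSup ConditionallyCompletePartialOrder.toConditionallyCompletePartialOrderInf EMetricSpace.toPseudoEMetricSpace MetricSpace.toEMetricSpace MetricSpace.toPseudoMetricSpace NonUnitalNormedRing.toMetricSpace NonUnitalSeminormedRing.toPseudoMetricSpace NormedAddCommGroup.toMetricSpace NormedAddGroup.toMetricSpace NormedCommGroup.toMetricSpace NormedDivisionRing.toMetricSpace NormedField.toMetricSpace NormedGroup.toMetricSpace NormedRing.toMetricSpace PseudoEMetricSpace.toUniformSpace PseudoMetricSpace.toPseudoEMetricSpace PseudoMetricSpace.toUniformSpace SeminormedAddCommGroup.toPseudoMetricSpace SeminormedAddGroup.toPseudoMetricSpace SeminormedCommGroup.toPseudoMetricSpace SeminormedGroup.toPseudoMetricSpace SeminormedRing.toPseudoMetricSpace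 UniformSpace.toTopologicalSpace Valued.toUniformSpace WithIdeal.instTopologicalSpace WithIdeal.instUniformSpace BooleanAlgebra.toDistribLattice CompleteLattice.toLattice CompleteLattice.toPartialOrder' CompleteSemilatticeInf.toPartialOrder CompleteSemilatticeSup.toPartialOrder ConditionallyCompletePartialOrderInf.toPartialOrder GeneralizedBooleanAlgebra.toDistribLattice GeneralizedCoheytingAlgebra.toDistribLattice GeneralizedCoheytingAlgebra.toLattice GeneralizedHeytingAlgebra.toDistribLattice GeneralizedHeytingAlgebra.toLattice LinearOrder.toLattice Order.Coframe.toDistribLattice Order.Frame.toDistribLattice Module.instFiniteDimensionalOfIsReflexive Module.Finite.of_finite instNonUnitalAlgHomClassOfNonUnitalAlgEquivClass AlgHom.instNonUnitalAlgHomClassOfAlgHomClass MulSemiringActionSemiHomClass.toDistribMulActionSemiHomClass NonUnitalAlgSemiHomClass.toDistribMulActionSemiHomClass instIsDomain DivisionRing.isDomain EuclideanDomain.instIsDomain Field.isDomain IsDedekindDomain.toIsDomain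 IsStrictOrderedRing.isDomain instInhabitedOfMonad Nontrivial.to_nonempty Torsor.nonempty Unique.instInhabited CategoryTheory.IsConnected.is_nonempty boolToProp Pi.distribSMul' instNontrivialOfCharZero DivisionRing.toNontrivial IsLocalRing.toNontrivial IsSimpleOrder.toNontrivial LinearOrderedAddCommGroupWithTop.toNontrivial bot_nonempty infSet_to_nonempty supSet_to_nonempty top_nonempty ConnectedSpace.toNonempty IrreducibleSpace.toNonempty One.instNonempty Zero.instNonempty MonoidWithZero.toMulActionWithZero MulSemiringAction.toMulDistribMulAction ModuleCat.isModule LinearOrderedAddCommGroupWithTop.toSubtractionMonoid SubNegZeroMonoid.toSubNegMonoid instInfiniteOfUncountable CharZero.infinite Denumerable.instInfinite GroupWithZero.toNontrivial Infinite.instNontrivial IsAlgClosed.instInfinite IsOrderedRing.toIsStrictOrderedRing IsSimpleAddGroup.toNontrivial IsSimpleGroup.toNontrivial IsSimpleRing.instNontrivial IsStrictOrderedRing.toNontrivial NoMaxOrder.infinite NoMinOrder.infinite NontriviallyNormedField.infinite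 AddCancelCommMonoid.toAddCommMonoid ENormedAddCommMonoid.toESeminormedAddCommMonoid ESeminormedAddCommMonoid.toAddCommMonoid NormedAddCommGroup.toENormedAddCommMonoid MulZeroClass.toSMulWithZero Pi.addGroupWithOne AddCancelCommMonoid.toAddCancelMonoid AddCancelMonoid.toAddLeftCancelMonoid AddLeftCancelMonoid.toAddMonoid AddRightCancelMonoid.toAddMonoid CommRing.toGrindCommRing CommSemiring.toGrindCommSemiring ENormedAddCommMonoid.toENormedAddMonoid ENormedAddMonoid.toESeminormedAddMonoid ENormedCommMonoid.toESeminormedCommMonoid ESeminormedAddCommMonoid.toESeminormedAddMonoid ESeminormedAddMonoid.toAddMonoid Field.toGrindField NormedAddGroup.toENormedAddMonoid NormedCommGroup.toENormedCommMonoid Ring.toGrindRing Semiring.toGrindSemiring AbsoluteValue.zeroHomClass Pi.instSemilatticeInf Std.DTreeMap.Raw.instSingletonSigma CategoryTheory.isConnected_of_nonempty_and_subsingleton Group.instTorsor Preorder.smallCategory CategoryTheory.Groupoid.toCategory CategoryTheory.StrictBicategory.category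 AddCommGroup.toGrindIntModule AddCommMonoid.toGrindNatModule CancelCommMonoid.toCancelMonoid CancelCommMonoid.toCommMonoid CancelCommMonoid.toLeftCancelMonoid CancelMonoid.toLeftCancelMonoid CancelMonoid.toRightCancelMonoid CommGroup.toCancelCommMonoid CommGroup.toCommMonoid CommGroup.toDivisionCommMonoid CommGroupWithZero.toDivisionCommMonoid CommMonoidWithZero.toCommMonoid DivInvMonoid.toMonoid DivInvOneMonoid.toDivInvMonoid DivInvOneMonoid.toInvOneClass DivisionCommMonoid.toCommMonoid DivisionCommMonoid.toDivisionMonoid DivisionMonoid.toDivInvMonoid DivisionMonoid.toDivInvOneMonoid DivisionRing.toDivInvMonoid ENormedCommMonoid.toENormedMonoid ENormedMonoid.toESeminormedMonoid ESeminormedCommMonoid.toCommMonoid ESeminormedCommMonoid.toESeminormedMonoid ESeminormedMonoid.toMonoid Group.toCancelMonoid Group.toDivInvMonoid Group.toDivisionMonoid GroupWithZero.toDivInvMonoid GroupWithZero.toDivisionMonoid InvOneClass.toOne LeftCancelMonoid.toMonoid MonoidWithZero.toMonoid MulZeroClass.negZeroClass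 NormedGroup.toENormedMonoid One.ofOfNat1 RightCancelMonoid.toMonoid GradedMonoid.GradeZero.commMonoid GradedMonoid.GradeZero.monoid BooleanAlgebra.toBot BooleanAlgebra.toBoundedOrder BooleanAlgebra.toTop BoundedOrder.toOrderBot BoundedOrder.toOrderTop CoheytingAlgebra.toBoundedOrder CoheytingAlgebra.toOrderTop CompleteLattice.toBoundedOrder CompletePartialOrder.toOrderBot CompletePartialOrder.toSupSet CompleteSemilatticeInf.toInfSet CompleteSemilatticeSup.toSupSet ConditionallyCompleteLattice.toInfSet ConditionallyCompleteLattice.toSupSet ConditionallyCompleteLinearOrderBot.toOrderBot ConditionallyCompletePartialOrderInf.toInfSet ConditionallyCompletePartialOrderSup.toSupSet GeneralizedBooleanAlgebra.toBot GeneralizedBooleanAlgebra.toOrderBot GeneralizedCoheytingAlgebra.toOrderBot GeneralizedHeytingAlgebra.toOrderTop HeytingAlgebra.toBoundedOrder HeytingAlgebra.toOrderBot IdemSemiring.toOrderBot IrreducibleSpace.connectedSpace LinearOrderedAddCommGroupWithTop.toOrderTop LinearOrderedCommMonoidWithZero.toOrderBot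 PathConnectedSpace.connectedSpace ValuationClass.toMonoidWithZeroHomClass ValuationRing.instLinearOrderIdealOfDecidableLE instFiniteProp Algebra.TensorProduct.instCommRing Submodule.instUniqueOfSubsingleton Submodule.unique' RCLike.toDecidableEq Std.DTreeMap.Raw.instInsertSigma MulEquivClass.toMonoidWithZeroHomClass MulRingSeminormClass.toMonoidWithZeroHomClass OrderAddMonoidHom.instAddMonoidHomClass CategoryTheory.instFinCategoryOfFintypeOfIsThin SetLike.instFintype Unique.fintype CategoryTheory.FinCategory.fintypeObj AlgHom.instRingHomCompTripleComp AddMonCat.addMonoidObj instIsSemisimpleRingOfSubsingleton Algebra.TensorProduct.instRing SetLike.instFinite instSMulCommClassOfIsScalarTower Std.Time.WallTime.instHAddOffset_1 Fin.completeLinearOrder MulOpposite.instMulOne Pi.mulZeroOneClass instCoeHTCTOfCoeTailOfCoeHTC instCoeTailIntOfIntCast instCoeTailNatOfNatCast instCoeTailRatOfRatCast DivisionRing.toNNRatCast DivisionRing.toRatCast DivisionSemiring.toNNRatCast LinearMapClass.instCoeToLinearMap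 Matrix.instIntCastOfZero Matrix.instNatCastOfZero NNRatCast.toCoeTail NonUnitalStarRingHomClass.instCoeHeadNonUnitalStarRingHom SemilinearMapClass.instCoeToSemilinearMap StarAlgEquivClass.instCoeHead StarRingEquivClass.instCoeHead Matrix.SpecialLinearGroup.hasCoeToMatrix Part.ofOptionDecidable Pi.instFintype IsPurelyInseparable.isIntegral Algebra.TensorProduct.instCommSemiring Pi.instSubtractionCommMonoid AddHom.addHomClass isPurelyInseparable_self Algebra.IsAlgebraic.isIntegral Algebra.IsAlgebraic.isPurelyInseparable_of_isSepClosed Module.instIsReflexiveOfFiniteOfProjective Module.IsReflexive.of_finite_of_free Pi.distribMulAction' Pi.mulOneClass Algebra.TensorProduct.instNonAssocRing Algebra.Extension.commRing Matrix.instAddCommGroupWithOne Matrix.instAddCommMonoidWithOne Matrix.instAddGroupWithOne Matrix.instAddMonoidWithOne Matrix.instNonAssocRing Matrix.instRing Matrix.nonAssocSemiring instIsEmptySubtype instSubsingletonSubtype_mathlib decidableEq_of_subsingleton SubfieldClass.toField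 SubfieldClass.toNormedField SubringClass.toCommRing SubringClass.toNormedCommRing SubringClass.toSeminormedCommRing SetLike.GradeZero.instCommRing exists_prop_decidable Array.instDecidableExistsAndMemOfDecidablePred Finset.decidableDExistsFinset Finset.decidableExistsAndFinset Finset.decidableExistsAndFinsetCoe Fintype.decidableExistsFintype List.decidableBEx Multiset.decidableDexistsMultiset Option.decidableExistsMem Vector.instDecidableExistsAndMemOfDecidablePred Std.LinearOrderPackage.toLinearPreorderPackage Std.LinearPreorderPackage.toPreorderPackage Pi.instOrderTop AlgHomClass.linearMapClass ContinuousSemilinearEquivClass.continuousSemilinearMapClass ContinuousSemilinearMapClass.toSemilinearMapClass NonUnitalAlgHomClass.instLinearMapClass NonUnitalAlgHomClass.instSemilinearMapClassOfNonUnitalAlgSemiHomClassToMonoidHomRingHom RingHomClass.toLinearMapClassNNRat RingHomClass.toLinearMapClassRat SemilinearIsometryClass.toContinuousSemilinearMapClass SemilinearIsometryClass.toSemilinearMapClass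 Pi.commRing Pi.normedCommutativeRing Pi.seminormedCommRing Algebra.IsFiniteSplit.instFree CommRing.Pic.instFreeOfSubsingleton IsDedekindDomain.isDedekindDomainDvr IsDedekindDomain.toIsDedekindRing Fin.instBiheytingAlgebra LocalizedModule.instSMulCommClass -- iprune

set_option linter.all false

section

/-!
Relative lengths of submodules.
-/

namespace Vale.Agent.P202

open Submodule

section
variable {A : Type*} [CommRing A] {M M' : Type*} [AddCommGroup M] [Module A M]
  [AddCommGroup M'] [Module A M']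

/-- relative length: the length of `N / (K ∩ N)`. -/
noncomputable def rl (K N : Submodule A M) : ℕ∞ := Module.length A (↥N ⧸ K.submoduleOf N)

lemma rl_eq_zero_iff {K N : Submodule A M} : rl K N = 0 ↔ N ≤ K := by
  rw [rl, Module.length_eq_zero_iff, Submodule.Quotient.subsingleton_iff,
    Submodule.submoduleOf_eq_top]

@[simp] lemma rl_self (K : Submodule A M) : rl K K = 0 := rl_eq_zero_iff.mpr le_rfl

lemma rl_top (K : Submodule A M) : rl K ⊤ = Module.length A (M ⧸ K) := by
  refine LinearEquiv.length_eq (Submodule.Quotient.equiv _ _ Submodule.topEquiv ?_)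
  ext x
  simp [Submodule.submoduleOf]

lemma rl_bot (N : Submodule A M) : rl ⊥ N = Module.length A N := by
  refine LinearEquiv.length_eq (Submodule.quotEquivOfEqBot _ ?_)
  simp [Submodule.submoduleOf]

/-- the length of a quotient computed by a linear map out of `N`. -/
lemma rl_eq_length_of_surjective {Q : Type*} [AddCommGroup Q] [Module A Q]
    {K N : Submodule A M} (f : N →ₗ[A] Q)
    (hf : Function.Surjective f) (hk : LinearMap.ker f = K.submoduleOf N) :
    rl K N = Module.length A Q := by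
  rw [rl, ← hk]
  exact LinearEquiv.length_eq (f.quotKerEquivOfSurjective hf)

lemma rl_inf_left (K N : Submodule A M) : rl (K ⊓ N) N = rl K N := by
  have : (K ⊓ N).submoduleOf N = K.submoduleOf N := by
    ext x; simp [Submodule.submoduleOf]
  rw [rl, rl, this]

lemma rl_sup_right (K N : Submodule A M) : rl K (K ⊔ N) = rl K N := by
  have h := LinearMap.quotientInfEquivSupQuotient N K
  have e1 : (Submodule.comap N.subtype N ⊓ Submodule.comap N.subtype K) = K.submoduleOf N := by
    ext x; simp [Submodule.submoduleOf]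
  rw [sup_comm, rl, rl]
  have := LinearEquiv.length_eq h
  rw [e1] at this
  exact this.symm

lemma rl_add {K L N : Submodule A M} (h1 : K ≤ L) (h2 : L ≤ N) :
    rl K N = rl K L + rl L N := by
  let f : (↥L ⧸ K.submoduleOf L) →ₗ[A] (↥N ⧸ K.submoduleOf N) :=
    Submodule.mapQ _ _ (Submodule.inclusion h2) (by intro x hx; exact hx)
  let g : (↥N ⧸ K.submoduleOf N) →ₗ[A] (↥N ⧸ L.submoduleOf N) :=
    Submodule.factor (by intro x hx; exact h1 hx)
  refine Module.length_eq_add_of_exact f g ?_ (Submodule.factor_surjective _) ?_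
  · rw [injective_iff_map_eq_zero]
    intro z
    obtain ⟨z, rfl⟩ := Submodule.Quotient.mk_surjective _ z
    intro hz
    have hz' : (Submodule.Quotient.mk (Submodule.inclusion h2 z) : ↥N ⧸ K.submoduleOf N) = 0 := hz
    rw [Submodule.Quotient.mk_eq_zero] at hz' ⊢
    exact hz'
  · rw [LinearMap.exact_iff]
    ext z
    obtain ⟨z, rfl⟩ := Submodule.Quotient.mk_surjective _ z
    constructor
    · intro hz
      have hz' : z ∈ L.submoduleOf N := by
        have : (Submodule.Quotient.mk z : ↥N ⧸ L.submoduleOf N) = 0 := hz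
        exact (Submodule.Quotient.mk_eq_zero _).mp this
      exact ⟨Submodule.Quotient.mk ⟨z.1, hz'⟩, rfl⟩
    · rintro ⟨c, hc⟩
      obtain ⟨c, rfl⟩ := Submodule.Quotient.mk_surjective _ c
      rw [← hc]
      change (Submodule.Quotient.mk (Submodule.inclusion h2 c) : ↥N ⧸ L.submoduleOf N) = 0
      rw [Submodule.Quotient.mk_eq_zero]
      exact c.2

/-- modularity. -/
lemma rl_sup_inf (K N : Submodule A M) : rl (K ⊓ N) N = rl K (K ⊔ N) := by
  rw [rl_inf_left, rl_sup_right]

lemma rl_mono_right {K N N' : Submodule A M} (h : N ≤ N') : rl K N ≤ rl K N' := by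
  rw [← rl_sup_right K N, ← rl_sup_right K N', rl_add (le_sup_left) (sup_le_sup_left h K)]
  exact le_self_add

lemma rl_anti_left {K K' N : Submodule A M} (h : K ≤ K') : rl K' N ≤ rl K N := by
  rw [← rl_inf_left K N, ← rl_inf_left K' N,
    rl_add (inf_le_inf_right N h) (inf_le_right : K' ⊓ N ≤ N)]
  exact le_add_self

/-- behaviour under a linear map. -/
lemma rl_map (f : M →ₗ[A] M') (K N : Submodule A M) :
    rl (K.map f) (N.map f) = rl (K ⊔ LinearMap.ker f) N := by
  symm
  let g : N →ₗ[A] (↥(N.map f) ⧸ (K.map f).submoduleOf (N.map f)) :=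
    (Submodule.mkQ _).comp (f.submoduleMap N)
  refine rl_eq_length_of_surjective g ?_ ?_
  · exact (Submodule.mkQ_surjective _).comp (f.submoduleMap_surjective N)
  · ext x
    have h1 : x ∈ LinearMap.ker g ↔ f x ∈ K.map f := by
      rw [LinearMap.mem_ker]
      change Submodule.Quotient.mk (f.submoduleMap N x) = _ ↔ _
      rw [Submodule.Quotient.mk_eq_zero]
      exact Iff.rfl
    have h2 : x ∈ (K ⊔ LinearMap.ker f).submoduleOf N ↔ x.1 ∈ K ⊔ LinearMap.ker f := Iff.rfl
    rw [h1, h2, ← Submodule.comap_map_eq, Submodule.mem_comap]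

lemma rl_map_le (f : M →ₗ[A] M') (K N : Submodule A M) : rl (K.map f) (N.map f) ≤ rl K N := by
  rw [rl_map]; exact rl_anti_left le_sup_left

lemma rl_map_of_injective (f : M →ₗ[A] M') (hf : Function.Injective f) (K N : Submodule A M) :
    rl (K.map f) (N.map f) = rl K N := by
  rw [rl_map, LinearMap.ker_eq_bot.mpr hf, sup_bot_eq]

lemma rl_comap (f : M →ₗ[A] M') (K N : Submodule A M') :
    rl (K.comap f) (N.comap f) = rl K (N ⊓ LinearMap.range f) := by
  have hk : LinearMap.ker f ≤ K.comap f := fun x hx => by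
    rw [Submodule.mem_comap, LinearMap.mem_ker.mp hx]; exact K.zero_mem
  have h := rl_map f (K.comap f) (N.comap f)
  rw [Submodule.map_comap_eq, Submodule.map_comap_eq, inf_comm _ K, inf_comm _ N,
    sup_of_le_left hk] at h
  rw [← h, ← rl_inf_left (K ⊓ _), ← rl_inf_left K]
  congr 1
  ext x
  simp only [Submodule.mem_inf]
  tauto

end

end Vale.Agent.P202
end

section

/-!
Filtrations, eventually linear functions, and the slope property.
-/

namespace Vale.Agent.P202

/-- `f j = a * j + x` for all large `j`. -/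
def EvLin (f : ℕ → ℕ∞) (a x : ℤ) : Prop :=
  ∃ j₀ : ℕ, ∀ j : ℕ, j₀ ≤ j → ∃ n : ℕ, f j = (n : ℕ∞) ∧ (n : ℤ) = a * j + x

section
variable {A : Type*} [CommRing A] {M : Type*} [AddCommGroup M] [Module A M]

/-- a decreasing `m`-filtration with quotients of finite length. -/
structure Fil (m : Ideal A) (F : ℕ → Submodule A M) : Prop where
  anti : ∀ j, F (j + 1) ≤ F j
  smul : ∀ j, m • F j ≤ F (j + 1)
  fin : ∀ j, rl (F (j + 1)) (F j) ≠ ⊤

/-- `P` is an `m`-filtration between `F (· + 1)` and `F`. -/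
structure SubFil (m : Ideal A) (F P : ℕ → Submodule A M) : Prop where
  le : ∀ j, P j ≤ F j
  ge : ∀ j, F (j + 1) ≤ P j
  smul : ∀ j, m • P j ≤ P (j + 1)

/-- slope bounds: quotients of the associated graded module have slope at least `lo`,
submodules have slope at most `hi`. -/
def Pr (m : Ideal A) (F : ℕ → Submodule A M) (lo hi : ℤ) : Prop :=
  ∀ P : ℕ → Submodule A M, SubFil m F P → ∃ a x b y : ℤ,
    EvLin (fun j => rl (P j) (F j)) a x ∧ EvLin (fun j => rl (F (j + 1)) (P j)) b y ∧
    lo * a ≤ x ∧ y ≤ hi * b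

end

end Vale.Agent.P202
end

section

/-!
Calculus of eventually linear functions.
-/

namespace Vale.Agent.P202

open Filter

lemma evLin_iff {f : ℕ → ℕ∞} {a x : ℤ} :
    EvLin f a x ↔ ∀ᶠ j : ℕ in atTop, ∃ n : ℕ, f j = (n : ℕ∞) ∧ (n : ℤ) = a * j + x := by
  rw [EvLin, eventually_atTop]

lemma EvLin.congr {f g : ℕ → ℕ∞} {a x : ℤ} (h : EvLin f a x)
    (h' : ∀ᶠ j : ℕ in atTop, f j = g j) : EvLin g a x := by
  rw [evLin_iff] at h ⊢
  filter_upwards [h, h'] with j h1 h2
  rw [← h2]; exact h1

lemma EvLin.shift {f : ℕ → ℕ∞} {a x : ℤ} (h : EvLin f a x) (i : ℕ) :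
    EvLin (fun j => f (j + i)) a (x + a * i) := by
  obtain ⟨j₀, hj⟩ := h
  refine ⟨j₀, fun j hj' => ?_⟩
  obtain ⟨n, h1, h2⟩ := hj (j + i) (by omega)
  exact ⟨n, h1, by rw [h2]; push_cast; ring⟩

lemma EvLin.add {f g : ℕ → ℕ∞} {a x b y : ℤ} (h : EvLin f a x) (h' : EvLin g b y) :
    EvLin (fun j => f j + g j) (a + b) (x + y) := by
  rw [evLin_iff] at *
  filter_upwards [h, h'] with j h1 h2
  obtain ⟨n, h3, h4⟩ := h1
  obtain ⟨k, h5, h6⟩ := h2
  refine ⟨n + k, by rw [h3, h5]; push_cast; rfl, ?_⟩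
  push_cast
  rw [h4, h6]; ring

lemma evLin_zero : EvLin (fun _ => 0) 0 0 := ⟨0, fun j _ => ⟨0, by simp, by simp⟩⟩

lemma evLin_const (n : ℕ) : EvLin (fun _ => (n : ℕ∞)) 0 n :=
  ⟨0, fun j _ => ⟨n, rfl, by simp⟩⟩

lemma EvLin.sum {ι : Type*} (s : Finset ι) {f : ι → ℕ → ℕ∞} {a x : ι → ℤ}
    (h : ∀ i ∈ s, EvLin (f i) (a i) (x i)) :
    EvLin (fun j => ∑ i ∈ s, f i j) (∑ i ∈ s, a i) (∑ i ∈ s, x i) := by
  classical
  induction s using Finset.induction_on with
  | empty => simpa using evLin_zero
  | insert i s hi ih =>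
    simp only [Finset.sum_insert hi]
    exact (h i (Finset.mem_insert_self i s)).add
      (ih fun k hk => h k (Finset.mem_insert_of_mem hk))

lemma EvLin.const_mul {f : ℕ → ℕ∞} {a x : ℤ} (n : ℕ) (h : EvLin f a x) :
    EvLin (fun j => (n : ℕ∞) * f j) (n * a) (n * x) := by
  rw [evLin_iff] at *
  filter_upwards [h] with j h1
  obtain ⟨k, h3, h4⟩ := h1
  refine ⟨n * k, by rw [h3]; push_cast; rfl, ?_⟩
  push_cast
  rw [h4]; ring

lemma EvLin.unique {f : ℕ → ℕ∞} {a x b y : ℤ} (h : EvLin f a x) (h' : EvLin f b y) :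
    a = b ∧ x = y := by
  obtain ⟨j₀, hj⟩ := h
  obtain ⟨k₀, hk⟩ := h'
  have key : ∀ j, max j₀ k₀ ≤ j → a * j + x = b * j + y := by
    intro j hj'
    obtain ⟨n, h1, h2⟩ := hj j (le_trans (le_max_left _ _) hj')
    obtain ⟨n', h1', h2'⟩ := hk j (le_trans (le_max_right _ _) hj')
    rw [h1] at h1'
    have : n = n' := by exact_mod_cast h1'
    rw [← h2, ← h2', this]
  have e1 := key _ le_rfl
  have e2 := key (max j₀ k₀ + 1) (by omega)
  push_cast at e1 e2
  constructor
  · linarith
  · have : a = b := by linarith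
    subst this
    linarith

lemma EvLin.slope_nonneg {f : ℕ → ℕ∞} {a x : ℤ} (h : EvLin f a x) : 0 ≤ a := by
  obtain ⟨j₀, hj⟩ := h
  by_contra hneg
  push Not at hneg
  obtain ⟨n, -, h2⟩ := hj (max j₀ (x.natAbs + 1)) (le_max_left _ _)
  have h3 : ((x.natAbs : ℤ) + 1) ≤ ((max j₀ (x.natAbs + 1) : ℕ) : ℤ) := by
    have := le_max_right j₀ (x.natAbs + 1)
    exact_mod_cast this
  have h4 : x ≤ x.natAbs := by omega
  have h5 : (0 : ℤ) ≤ n := by positivity
  nlinarith

end Vale.Agent.P202
end

section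

/-!
The base filtration has slope bounds.
-/

namespace Vale.Agent.P202

open IsLocalRing

/-! ### relative length and scalar multiplication -/

namespace BaseAux

section
variable {A : Type*} [CommRing A] {M M' : Type*} [AddCommGroup M] [Module A M]
  [AddCommGroup M'] [Module A M']

/-- the length of the image is computed upstairs. -/
lemma rl_map_left (f : M →ₗ[A] M') (K : Submodule A M') (N : Submodule A M) :
    rl K (N.map f) = rl (K.comap f) N := by
  symm
  let g : N →ₗ[A] (↥(N.map f) ⧸ K.submoduleOf (N.map f)) :=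
    (Submodule.mkQ _).comp (f.submoduleMap N)
  refine rl_eq_length_of_surjective g ?_ ?_
  · exact (Submodule.mkQ_surjective _).comp (f.submoduleMap_surjective N)
  · ext x
    have h1 : x ∈ LinearMap.ker g ↔ f x ∈ K := by
      rw [LinearMap.mem_ker]
      change Submodule.Quotient.mk (f.submoduleMap N x) = _ ↔ _
      rw [Submodule.Quotient.mk_eq_zero]
      exact Iff.rfl
    exact h1

/-- multiplication by an element. -/
noncomputable def mu (M : Type*) [AddCommGroup M] [Module A M] (x : A) : M →ₗ[A] M :=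
  LinearMap.lsmul A M x

@[simp] lemma mu_apply (x : A) (v : M) : mu M x v = x • v := rfl

lemma pair_smul (x1 x2 : A) (P : Submodule A M) :
    Ideal.span {x1, x2} • P = P.map (mu M x1) ⊔ P.map (mu M x2) := by
  apply le_antisymm
  · rw [Submodule.smul_le]
    intro r hr v hv
    obtain ⟨a, b, rfl⟩ := Ideal.mem_span_pair.mp hr
    rw [add_smul]
    refine Submodule.add_mem_sup ?_ ?_
    · exact ⟨a • v, P.smul_mem a hv, by rw [mu_apply, smul_smul, mul_comm]⟩
    · exact ⟨b • v, P.smul_mem b hv, by rw [mu_apply, smul_smul, mul_comm]⟩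
  · refine sup_le ?_ ?_
    · rintro _ ⟨v, hv, rfl⟩
      exact Submodule.smul_mem_smul (Ideal.subset_span (by simp)) hv
    · rintro _ ⟨v, hv, rfl⟩
      exact Submodule.smul_mem_smul (Ideal.subset_span (by simp)) hv

end

section
variable {A : Type*} [CommRing A] [IsLocalRing A] [IsNoetherianRing A]
  {M : Type*} [AddCommGroup M] [Module A M]

/-- a finite module killed by the maximal ideal has finite length. -/
lemma length_ne_top_of_smul_eq_zero {Q : Type*} [AddCommGroup Q] [Module A Q]
    [Module.Finite A Q] (h : ∀ a ∈ maximalIdeal A, ∀ v : Q, a • v = 0) :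
    Module.length A Q ≠ ⊤ := by
  have ht : Module.IsTorsionBySet A Q (maximalIdeal A : Set A) := by
    intro v a
    exact h a.1 a.2 v
  let _ : Module (A ⧸ maximalIdeal A) Q := ht.module
  have : IsScalarTower A (A ⧸ maximalIdeal A) Q := ht.isScalarTower
  have : IsArtinianRing (A ⧸ maximalIdeal A) := by
    let _ := Ideal.Quotient.field (maximalIdeal A)
    infer_instance
  have : Module.Finite (A ⧸ maximalIdeal A) Q := Module.Finite.of_restrictScalars_finite A _ _
  have : IsArtinian (A ⧸ maximalIdeal A) Q := inferInstance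
  have : IsArtinian A Q :=
    isArtinian_of_surjective_algebraMap (R := A ⧸ maximalIdeal A) (S := A)
      (Ideal.Quotient.mk_surjective)
  have : IsNoetherian A Q := inferInstance
  exact Module.length_ne_top

lemma rl_ne_top_of_smul_le [Module.Finite A M] {K N : Submodule A M}
    (h : maximalIdeal A • N ≤ K) : rl K N ≠ ⊤ := by
  have : IsNoetherian A M := inferInstance
  refine length_ne_top_of_smul_eq_zero ?_
  intro a ha v
  obtain ⟨v, rfl⟩ := Submodule.Quotient.mk_surjective _ v
  rw [← Submodule.Quotient.mk_smul, Submodule.Quotient.mk_eq_zero]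
  exact h (Submodule.smul_mem_smul ha v.2)

end

end BaseAux

/-! ### eventually linear functions -/

section EvLinSection

lemma EvLin.congrB {f g : ℕ → ℕ∞} {a x : ℤ} (hf : EvLin f a x) (j₀ : ℕ)
    (h : ∀ j, j₀ ≤ j → f j = g j) : EvLin g a x := by
  obtain ⟨j1, h1⟩ := hf
  refine ⟨max j₀ j1, fun j hj => ?_⟩
  rw [← h j (le_trans (le_max_left _ _) hj)]
  exact h1 j (le_trans (le_max_right _ _) hj)

lemma EvLin.shiftB {f : ℕ → ℕ∞} {a x : ℤ} (hf : EvLin f a x) (s : ℕ) :
    EvLin (fun j => f (j + s)) a (x + a * s) := by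
  obtain ⟨j1, h1⟩ := hf
  refine ⟨j1, fun j hj => ?_⟩
  obtain ⟨n, hn, hn'⟩ := h1 (j + s) (by omega)
  refine ⟨n, hn, ?_⟩
  rw [hn']; push_cast; ring

/-- comparison of eventually linear functions. -/
lemma EvLin.leB {f g : ℕ → ℕ∞} {a x b y : ℤ} (hf : EvLin f a x) (hg : EvLin g b y) (j₀ : ℕ)
    (h : ∀ j, j₀ ≤ j → f j ≤ g j) : a ≤ b := by
  obtain ⟨j1, h1⟩ := hf
  obtain ⟨j2, h2⟩ := hg
  by_contra hab
  push Not at hab
  obtain ⟨j, hj⟩ : ∃ j : ℕ, j = max j₀ (max j1 j2) + (y - x).natAbs + 1 := ⟨_, rfl⟩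
  obtain ⟨n, hn, hn'⟩ := h1 j (by omega)
  obtain ⟨k, hk, hk'⟩ := h2 j (by omega)
  have h3 := h j (by omega)
  rw [hn, hk] at h3
  have h4 : n ≤ k := by exact_mod_cast h3
  have h5 : (n : ℤ) ≤ k := by exact_mod_cast h4
  rw [hn', hk'] at h5
  have h6 : (j : ℤ) ≤ (a - b) * j := by
    have : (1 : ℤ) ≤ a - b := by omega
    nlinarith [Int.natCast_nonneg j]
  have h7 : (a - b) * j ≤ y - x := by linarith
  have h8 : (j : ℤ) > y - x := by
    have : (y - x).natAbs + 1 ≤ j := by omega
    omega
  linarith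

lemma EvLin.le2B {f g : ℕ → ℕ∞} {a x y : ℤ} (hf : EvLin f a x) (hg : EvLin g a y) (j₀ : ℕ)
    (h : ∀ j, j₀ ≤ j → f j ≤ g j) : x ≤ y := by
  obtain ⟨j1, h1⟩ := hf
  obtain ⟨j2, h2⟩ := hg
  obtain ⟨n, hn, hn'⟩ := h1 (max j₀ (max j1 j2)) (by omega)
  obtain ⟨k, hk, hk'⟩ := h2 (max j₀ (max j1 j2)) (by omega)
  have h3 := h (max j₀ (max j1 j2)) (by omega)
  rw [hn, hk] at h3
  have h4 : n ≤ k := by exact_mod_cast h3
  have h5 : (n : ℤ) ≤ k := by exact_mod_cast h4
  rw [hn', hk'] at h5
  linarith

lemma EvLin.uniqueB {f : ℕ → ℕ∞} {a x b y : ℤ} (hf : EvLin f a x) (hg : EvLin f b y) :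
    a = b ∧ x = y := by
  have h1 : a = b := le_antisymm (hf.leB hg 0 fun _ _ => le_rfl) (hg.leB hf 0 fun _ _ => le_rfl)
  subst h1
  exact ⟨rfl, le_antisymm (hf.le2B hg 0 fun _ _ => le_rfl) (hg.le2B hf 0 fun _ _ => le_rfl)⟩

lemma EvLin.subB {f g h : ℕ → ℕ∞} {a x b y : ℤ} (hf : EvLin f a x) (hg : EvLin g b y)
    (j₀ : ℕ) (hfg : ∀ j, j₀ ≤ j → f j = g j + h j) : EvLin h (a - b) (x - y) := by
  obtain ⟨j1, h1⟩ := hf
  obtain ⟨j2, h2⟩ := hg
  refine ⟨max j₀ (max j1 j2), fun j hj => ?_⟩
  obtain ⟨n, hn, hn'⟩ := h1 j (by omega)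
  obtain ⟨k, hk, hk'⟩ := h2 j (by omega)
  have h3 := hfg j (by omega)
  rw [hn, hk] at h3
  have h4 : h j ≠ ⊤ := by
    intro h5
    rw [h5] at h3
    simp at h3
  obtain ⟨l, hl⟩ := ENat.ne_top_iff_exists.mp h4
  rw [← hl] at h3
  have h6 : n = k + l := by exact_mod_cast h3
  refine ⟨l, hl.symm, ?_⟩
  have h7 : (n : ℤ) = k + l := by exact_mod_cast h6
  rw [hn', hk'] at h7
  linear_combination -h7

/-- the slope of an eventually linear function is nonnegative. -/
lemma EvLin.nonnegB {f : ℕ → ℕ∞} {a x : ℤ} (hf : EvLin f a x) : 0 ≤ a := by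
  have h0 : EvLin (fun _ => (0 : ℕ∞)) 0 0 := ⟨0, fun j _ => ⟨0, by simp, by simp⟩⟩
  exact h0.leB hf 0 (fun j _ => by simp)

/-- a function with eventually nonincreasing increments is eventually linear. -/
lemma evLin_of_incrementsB {n d : ℕ → ℕ∞} (j₀ : ℕ) (h0 : n j₀ ≠ ⊤)
    (hd0 : ∀ j, j₀ ≤ j → d j ≠ ⊤)
    (h1 : ∀ j, j₀ ≤ j → n (j + 1) = n j + d j) (h2 : ∀ j, j₀ ≤ j → d (j + 1) ≤ d j) :
    ∃ b : ℕ, (∃ y : ℤ, EvLin n b y) ∧ ∀ j, j₀ ≤ j → (b : ℕ∞) ≤ d j := by
  classical
  -- choose natural valued versions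
  have hd : ∀ j, ∃ k : ℕ, j₀ ≤ j → d j = k := by
    intro j
    by_cases h : j₀ ≤ j
    · obtain ⟨k, hk⟩ := ENat.ne_top_iff_exists.mp (hd0 j h)
      exact ⟨k, fun _ => hk.symm⟩
    · exact ⟨0, fun h' => absurd h' h⟩
  choose D hD using hd
  -- the minimum of D
  have hex : ∃ b : ℕ, ∃ j, j₀ ≤ j ∧ D j = b := ⟨D j₀, j₀, le_rfl, rfl⟩
  obtain ⟨j1, hj1, hb⟩ := Nat.find_spec hex
  set b := Nat.find hex with hbdef
  have hmin : ∀ j, j₀ ≤ j → b ≤ D j := fun j hj => Nat.find_min' hex ⟨j, hj, rfl⟩
  have hconst : ∀ k, D (j1 + k) = b := by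
    intro k
    induction k with
    | zero => exact hb
    | succ k ih =>
      refine le_antisymm ?_ (hmin _ (by omega))
      have := h2 (j1 + k) (by omega)
      rw [hD _ (by omega), hD _ (by omega), ih] at this
      exact_mod_cast this
  refine ⟨b, ?_, ?_⟩
  · have hfin : ∀ k, n (j₀ + k) ≠ ⊤ := by
      intro k
      induction k with
      | zero => exact h0
      | succ k ih =>
        rw [← add_assoc, h1 _ (by omega), hD _ (by omega)]
        obtain ⟨l, hl⟩ := ENat.ne_top_iff_exists.mp ih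
        rw [← hl]
        exact_mod_cast ENat.natCast_ne_top _
    obtain ⟨N, hN⟩ := ENat.ne_top_iff_exists.mp (hfin (j1 - j₀))
    rw [show j₀ + (j1 - j₀) = j1 by omega] at hN
    have hlin : ∀ k : ℕ, n (j1 + k) = ((N + b * k : ℕ) : ℕ∞) := by
      intro k
      induction k with
      | zero => simp [hN]
      | succ k ih =>
        rw [← add_assoc, h1 _ (by omega), hD _ (by omega), ih, hconst k]
        push_cast; ring
    refine ⟨(N : ℤ) - b * j1, j1, fun j hj => ⟨N + b * (j - j1), ?_, ?_⟩⟩
    · rw [← hlin (j - j1), show j1 + (j - j1) = j by omega]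
    · rw [Nat.cast_add, Nat.cast_mul, Nat.cast_sub hj]; ring
  · intro j hj
    rw [hD j hj]
    exact_mod_cast hmin j hj

end EvLinSection

/-! ### increments -/

namespace BaseAux

section
variable {A : Type*} [CommRing A] {M : Type*} [AddCommGroup M] [Module A M]

/-- the key computation: the lengths `rl (K j) (N j)` have nonincreasing increments. -/
lemma increments (x1 x2 : A) (K N : ℕ → Submodule A M) (b0 : ℕ)
    (hKN : ∀ j, K j ≤ N j)
    (hN1 : ∀ j, (N j).map (mu M x1) ≤ N (j + 1)) (hN2 : ∀ j, (N j).map (mu M x2) ≤ N (j + 1))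
    (hK2 : ∀ j, (K j).map (mu M x2) ≤ K (j + 1))
    (hK1 : ∀ j, (K j).map (mu M x1) ≤ K (j + 1))
    (hcan : ∀ j, ∀ v : M, x1 • v ∈ K (j + 1) → v ∈ K j)
    (hgen : ∀ j, b0 ≤ j → N (j + 1) ≤ (N j).map (mu M x1) ⊔ (N j).map (mu M x2))
    (hfin : ∀ j, rl (K j) (N j) ≠ ⊤) :
    ∃ b : ℕ, (∃ y : ℤ, EvLin (fun j => rl (K j) (N j)) b y) ∧
      ∀ j, b0 ≤ j → rl (K j) (N j) + b ≤ rl (K (j + 1)) (N (j + 1)) := by
  have hstep : ∀ j, rl (K (j + 1)) (N (j + 1)) =
      rl (K j) (N j) + rl (K (j + 1) ⊔ (N j).map (mu M x1)) (N (j + 1)) := by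
    intro j
    rw [rl_add (le_sup_left : K (j + 1) ≤ K (j + 1) ⊔ (N j).map (mu M x1))
      (sup_le (hKN _) (hN1 _)), rl_sup_right, rl_map_left]
    congr 2
    apply le_antisymm
    · intro v hv
      exact hcan j v hv
    · intro v hv
      exact hK1 j ⟨v, hv, rfl⟩
  have hdec : ∀ j, b0 ≤ j → rl (K (j + 1 + 1) ⊔ (N (j + 1)).map (mu M x1)) (N (j + 1 + 1)) ≤
      rl (K (j + 1) ⊔ (N j).map (mu M x1)) (N (j + 1)) := by
    intro j hj
    set K' := K (j + 1 + 1) ⊔ (N (j + 1)).map (mu M x1) with hK'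
    have e1 : rl K' (N (j + 1 + 1)) ≤ rl K' ((N (j + 1)).map (mu M x2)) := by
      rw [← rl_sup_right K' ((N (j + 1)).map (mu M x2))]
      refine rl_mono_right ((hgen (j + 1) (by omega)).trans ?_)
      exact sup_le_sup_right (le_sup_right) _
    refine e1.trans ?_
    rw [rl_map_left]
    refine rl_anti_left (sup_le ?_ ?_)
    · intro v hv
      exact le_sup_left (a := K (j + 1 + 1)) (hK2 (j + 1) ⟨v, hv, rfl⟩)
    · rintro _ ⟨v, hv, rfl⟩
      refine le_sup_right (a := K (j + 1 + 1)) ?_
      refine ⟨x2 • v, hN2 j ⟨v, hv, rfl⟩, ?_⟩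
      simp only [mu_apply]
      rw [smul_comm]
  obtain ⟨b, ⟨y, hy⟩, hb⟩ := evLin_of_incrementsB
    (n := fun j => rl (K j) (N j))
    (d := fun j => rl (K (j + 1) ⊔ (N j).map (mu M x1)) (N (j + 1))) b0 (hfin b0)
    (fun j _ => fun h => hfin (j + 1) (by rw [hstep, h]; simp)) (fun j _ => hstep j) hdec
  refine ⟨b, ⟨y, hy⟩, fun j hj => ?_⟩
  rw [hstep]
  gcongr
  exact hb j hj

end

section
variable {A : Type*} [CommRing A] [IsNoetherianRing A]
    {M : Type*} [AddCommGroup M] [Module A M] [Module.Finite A M]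

/-- filtrations below a stable filtration are stable. -/
lemma stable_of_le (q : Ideal A) (F P : ℕ → Submodule A M)
    (F1 : ∀ j, F (j + 1) ≤ F j) (F2 : ∀ j, q • F j ≤ F (j + 1))
    (F3 : ∃ b, ∀ j, b ≤ j → F (j + 1) ≤ q • F j)
    (P1 : ∀ j, P (j + 1) ≤ P j) (P2 : ∀ j, q • P j ≤ P (j + 1))
    (hPF : ∀ j, P j ≤ F j) :
    ∃ b, ∀ j, b ≤ j → P (j + 1) ≤ q • P j := by
  let FF : q.Filtration M := ⟨F, F1, F2⟩
  let PP : q.Filtration M := ⟨P, P1, P2⟩
  have hF : FF.Stable := by
    obtain ⟨b, hb⟩ := F3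
    exact ⟨b, fun j hj => le_antisymm (F2 j) (hb j hj)⟩
  have hP : PP.Stable := hF.of_le (fun j => hPF j)
  obtain ⟨b, hb⟩ := hP
  exact ⟨b, fun j hj => (hb j hj).ge⟩

end

/-! ### saturation -/

section
variable {A : Type*} [CommRing A] {M : Type*} [AddCommGroup M] [Module A M]

/-- the saturation of `P` in `F` with respect to `x`. -/
def satur (x : A) (F P : ℕ → Submodule A M) (hP : ∀ j, ∀ v ∈ P j, x • v ∈ P (j + 1)) (j : ℕ) :
    Submodule A M where
  carrier := {v | v ∈ F j ∧ ∃ s : ℕ, x ^ s • v ∈ P (j + s)}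
  zero_mem' := ⟨(F j).zero_mem, 0, by simp⟩
  add_mem' := by
    have key : ∀ (k s : ℕ) (v : M), x ^ s • v ∈ P (j + s) → x ^ (s + k) • v ∈ P (j + (s + k)) := by
      intro k s v hv
      induction k with
      | zero => exact hv
      | succ k ih =>
        have := hP _ _ ih
        rw [smul_smul, ← pow_succ'] at this
        exact this
    rintro v w ⟨hv, s, hs⟩ ⟨hw, t, ht⟩
    refine ⟨(F j).add_mem hv hw, s + t, ?_⟩
    rw [smul_add]
    refine (P _).add_mem (key t s v hs) ?_
    have := key s t w ht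
    rwa [add_comm t s] at this
  smul_mem' := by
    rintro c v ⟨hv, s, hs⟩
    refine ⟨(F j).smul_mem c hv, s, ?_⟩
    rw [smul_comm]
    exact (P _).smul_mem c hs

end

/-! ### chains -/

section
variable {A : Type*} [CommRing A] {M : Type*} [AddCommGroup M] [Module A M]

/-- a strictly increasing chain of length `k` forces length at least `k`. -/
lemma le_rl_of_chain (C : ℕ → Submodule A M) (k : ℕ)
    (h : ∀ i, i < k → C i < C (i + 1)) : (k : ℕ∞) ≤ rl (C 0) (C k) := by
  induction k with
  | zero => simp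
  | succ k ih =>
    have h1 := ih (fun i hi => h i (by omega))
    have hmono : ∀ i, i ≤ k → C 0 ≤ C i := by
      intro i
      induction i with
      | zero => intro _; exact le_rfl
      | succ i ih2 => intro hi; exact (ih2 (by omega)).trans (h i (by omega)).le
    rw [rl_add (hmono k le_rfl) (h k (by omega)).le]
    push_cast
    refine add_le_add h1 ?_
    rw [Order.one_le_iff_ne_zero]
    intro h0
    exact absurd (rl_eq_zero_iff.mp h0) (not_le_of_gt (h k (by omega)))

/-- purity: a submodule with constant lengths vanishes. -/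
lemma purity (x1 x2 : A) (F P : ℕ → Submodule A M)
    (P1 : ∀ j, ∀ v ∈ P j, x1 • v ∈ P (j + 1)) (P2 : ∀ j, ∀ v ∈ P j, x2 • v ∈ P (j + 1))
    (hle : ∀ j, P j ≤ F j) (hge : ∀ j, F (j + 1) ≤ P j)
    (B1 : ∀ (j : ℕ) (v : M), x1 • v ∈ F (j + 1) → v ∈ F j)
    (B3 : ∀ (t : ℕ) (c : ℕ → A) (j : ℕ) (v : M), v ∈ F j →
      (x2 ^ t + ∑ i ∈ Finset.range t, c i * x1 ^ (t - i) * x2 ^ i) • v ∈ F (j + t + 1) →
      v ∈ F (j + 1))
    (t j : ℕ) (ht : rl (F (j + t + 1)) (P (j + t)) ≤ (t : ℕ∞)) : P j ≤ F (j + 1) := by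
  intro v hv
  -- powers
  have hp1 : ∀ (k : ℕ) (i : ℕ) (w : M), w ∈ P i → x1 ^ k • w ∈ P (i + k) := by
    intro k
    induction k with
    | zero => intro i w hw; simpa using hw
    | succ k ih =>
      intro i w hw
      have := P1 _ _ (ih i w hw)
      rwa [smul_smul, ← pow_succ'] at this
  have hp2 : ∀ (k : ℕ) (i : ℕ) (w : M), w ∈ P i → x2 ^ k • w ∈ P (i + k) := by
    intro k
    induction k with
    | zero => intro i w hw; simpa using hw
    | succ k ih =>
      intro i w hw
      have := P2 _ _ (ih i w hw)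
      rwa [smul_smul, ← pow_succ'] at this
  have hc1 : ∀ (k : ℕ) (i : ℕ) (w : M), x1 ^ k • w ∈ F (i + k) → w ∈ F i := by
    intro k
    induction k with
    | zero => intro i w hw; simpa using hw
    | succ k ih =>
      intro i w hw
      rw [pow_succ', ← smul_smul] at hw
      exact ih i w (B1 _ _ hw)
  -- the elements
  let w : ℕ → M := fun i => (x1 ^ (t - i) * x2 ^ i) • v
  have hw : ∀ i, i ≤ t → w i ∈ P (j + t) := by
    intro i hi
    have h1 := hp1 (t - i) _ _ (hp2 i j v hv)
    rw [smul_smul, show j + i + (t - i) = j + t by omega] at h1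
    exact h1
  let C : ℕ → Submodule A M := fun i =>
    F (j + t + 1) ⊔ Submodule.span A (w '' (Set.Iio i))
  have hC0 : C 0 = F (j + t + 1) := by simp [C]
  have hCt : C (t + 1) ≤ P (j + t) := by
    refine sup_le (hge _) ?_
    rw [Submodule.span_le]
    rintro _ ⟨i, hi, rfl⟩
    exact hw i (by simpa [Nat.lt_succ_iff] using hi)
  have hCmono : ∀ i, C i ≤ C (i + 1) := by
    intro i
    refine sup_le_sup_left (Submodule.span_mono (Set.image_mono ?_)) _
    intro l hl
    simp only [Set.mem_Iio] at hl ⊢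
    omega
  obtain ⟨i, hi, hCi⟩ : ∃ i, i < t + 1 ∧ C (i + 1) ≤ C i := by
    by_contra hcon
    push Not at hcon
    have h1 := le_rl_of_chain C (t + 1) (fun i hi => lt_of_le_not_ge (hCmono i) (hcon i hi))
    rw [hC0] at h1
    have h2 := (h1.trans (rl_mono_right hCt)).trans ht
    have h3 : t + 1 ≤ t := by exact_mod_cast h2
    omega
  have hwi : w i ∈ C i := by
    apply hCi
    refine le_sup_right (a := F (j + t + 1)) (Submodule.subset_span ⟨i, by simp, rfl⟩)
  obtain ⟨f, hf, g, hg, hfg⟩ := Submodule.mem_sup.mp hwi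
  -- write g as a combination
  have hcomb : ∀ k : ℕ, ∀ g ∈ Submodule.span A (w '' (Set.Iio k)),
      ∃ c : ℕ → A, g = ∑ l ∈ Finset.range k, c l • w l := by
    intro k g hg
    rw [← Finset.coe_range] at hg
    · obtain ⟨c, hc⟩ := Submodule.mem_span_image_finset_iff_exists_fun A |>.mp hg
      refine ⟨fun l => if h : l ∈ Finset.range k then c ⟨l, h⟩ else 0, ?_⟩
      rw [← hc, ← Finset.sum_coe_sort (Finset.range k)]
      refine Finset.sum_congr rfl fun l _ => ?_
      beta_reduce
      rw [dif_pos l.2]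
  obtain ⟨c, hc⟩ := hcomb i g hg
  have hkey : x1 ^ (t - i) •
      ((x2 ^ i + ∑ l ∈ Finset.range i, (- c l) * x1 ^ (i - l) * x2 ^ l) • v) = f := by
    have h1 : f = w i - g := by rw [← hfg]; abel
    rw [h1, hc, add_smul, smul_add, smul_smul, sub_eq_add_neg]
    congr 1
    rw [Finset.sum_smul, Finset.smul_sum, ← Finset.sum_neg_distrib]
    refine Finset.sum_congr rfl fun l hl => ?_
    simp only [w]
    rw [Finset.mem_range] at hl
    rw [smul_smul, smul_smul, ← neg_smul]
    congr 1
    rw [show t - l = (t - i) + (i - l) by omega, pow_add]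
    ring
  refine B3 i (fun l => - c l) j v (hle j hv) ?_
  refine hc1 (t - i) _ _ ?_
  rw [hkey, show j + i + 1 + (t - i) = j + t + 1 by omega]
  exact hf

end

/-! ### the theorem -/

section
variable {A : Type*} [CommRing A] [IsLocalRing A] [IsNoetherianRing A]
    {M : Type*} [AddCommGroup M] [Module A M] [Module.Finite A M]

/-- lengths of sub-filtrations of a cancellative stable filtration are eventually linear. -/
lemma evLin_sub (F : ℕ → Submodule A M) (x1 x2 : A) (hx1 : x1 ∈ maximalIdeal A)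
    (hx2 : x2 ∈ maximalIdeal A)
    (anti : ∀ j, F (j + 1) ≤ F j) (smul : ∀ j, maximalIdeal A • F j ≤ F (j + 1))
    (B1 : ∀ (j : ℕ) (v : M), x1 • v ∈ F (j + 1) → v ∈ F j)
    (B2 : ∃ b : ℕ, ∀ j, b ≤ j → F (j + 1) ≤ Ideal.span {x1, x2} • F j)
    (P : ℕ → Submodule A M) (hP : SubFil (maximalIdeal A) F P) :
    ∃ (b : ℕ) (y : ℤ), EvLin (fun j => rl (F (j + 1)) (P j)) b y := by
  have hq : Ideal.span {x1, x2} ≤ maximalIdeal A := by
    rw [Ideal.span_le]
    rintro x (rfl | hx)
    · exact hx1
    · rw [Set.mem_singleton_iff] at hx; rw [hx]; exact hx2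
  have hPm : ∀ x ∈ maximalIdeal A, ∀ j, (P j).map (mu M x) ≤ P (j + 1) := by
    rintro x hx j _ ⟨v, hv, rfl⟩
    exact hP.smul j (Submodule.smul_mem_smul hx hv)
  have hFm : ∀ x ∈ maximalIdeal A, ∀ j, (F j).map (mu M x) ≤ F (j + 1) := by
    rintro x hx j _ ⟨v, hv, rfl⟩
    exact smul j (Submodule.smul_mem_smul hx hv)
  obtain ⟨b0, hb0⟩ := stable_of_le (Ideal.span {x1, x2}) F P anti
    (fun j => (Submodule.smul_mono_left hq).trans (smul j)) B2
    (fun j => (hP.le (j + 1)).trans (hP.ge j))
    (fun j => (Submodule.smul_mono_left hq).trans (hP.smul j)) hP.le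
  obtain ⟨b, ⟨y, hy⟩, -⟩ := increments x1 x2 (fun j => F (j + 1)) P b0 hP.ge
    (hPm x1 hx1) (hPm x2 hx2) (fun j => hFm x2 hx2 (j + 1)) (fun j => hFm x1 hx1 (j + 1))
    (fun j v hv => B1 (j + 1) v hv)
    (fun j hj => by rw [← pair_smul]; exact hb0 j hj)
    (fun j => rl_ne_top_of_smul_le ((smul_mono_right _ (hP.le j)).trans (smul j)))
  exact ⟨b, y, hy⟩

end

end BaseAux

open BaseAux

theorem base_pr {A : Type*} [CommRing A] [IsLocalRing A] [IsNoetherianRing A]
    {M : Type*} [AddCommGroup M] [Module A M] [Module.Finite A M]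
    (F : ℕ → Submodule A M) (x1 x2 : A) (hx1 : x1 ∈ maximalIdeal A) (hx2 : x2 ∈ maximalIdeal A)
    (anti : ∀ j, F (j + 1) ≤ F j) (smul : ∀ j, maximalIdeal A • F j ≤ F (j + 1))
    (B1 : ∀ (j : ℕ) (v : M), x1 • v ∈ F (j + 1) → v ∈ F j)
    (B2 : ∃ b : ℕ, ∀ j, b ≤ j → F (j + 1) ≤ Ideal.span {x1, x2} • F j)
    (B3 : ∀ (t : ℕ) (c : ℕ → A) (j : ℕ) (v : M), v ∈ F j →
      (x2 ^ t + ∑ i ∈ Finset.range t, c i * x1 ^ (t - i) * x2 ^ i) • v ∈ F (j + t + 1) →
      v ∈ F (j + 1)) :
    Fil (maximalIdeal A) F ∧ (∃ lo hi : ℤ, Pr (maximalIdeal A) F lo hi) ∧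
      ∃ e c : ℤ, EvLin (fun j => rl (F (j + 1)) (F j)) e c := by
  have hFil : Fil (maximalIdeal A) F :=
    ⟨anti, smul, fun j => rl_ne_top_of_smul_le (smul j)⟩
  have hFF : SubFil (maximalIdeal A) F F := ⟨fun _ => le_rfl, anti, smul⟩
  obtain ⟨e, c, he⟩ := evLin_sub F x1 x2 hx1 hx2 anti smul B1 B2 F hFF
  refine ⟨hFil, ?_, e, c, he⟩
  obtain ⟨b0, hb0⟩ := B2
  refine ⟨-b0, max 0 (c + b0 * e), ?_⟩
  intro P hP
  obtain ⟨b, y, hb⟩ := evLin_sub F x1 x2 hx1 hx2 anti smul B1 ⟨b0, hb0⟩ P hP
  have hsplit : ∀ Q : ℕ → Submodule A M, SubFil (maximalIdeal A) F Q → ∀ j,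
      rl (F (j + 1)) (F j) = rl (F (j + 1)) (Q j) + rl (Q j) (F j) :=
    fun Q hQ j => rl_add (hQ.ge j) (hQ.le j)
  have ha : EvLin (fun j => rl (P j) (F j)) (e - b) (c - y) :=
    he.subB hb 0 (fun j _ => hsplit P hP j)
  have hP1 : ∀ x ∈ maximalIdeal A, ∀ j, ∀ v ∈ P j, x • v ∈ P (j + 1) :=
    fun x hx j v hv => hP.smul j (Submodule.smul_mem_smul hx hv)
  -- the lower bound for the quotient
  have hlow : -(b0 : ℤ) * (e - b) ≤ c - y := by
    let S : ℕ → Submodule A M := satur x1 F P (hP1 x1 hx1)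
    have hPS : ∀ j, P j ≤ S j := fun j v hv => ⟨hP.le j hv, 0, by simpa using hv⟩
    have hS : SubFil (maximalIdeal A) F S := by
      refine ⟨fun j v hv => hv.1, fun j => (hP.ge j).trans (hPS j), fun j => ?_⟩
      rw [Submodule.smul_le]
      rintro a ha v ⟨hv, s, hs⟩
      refine ⟨smul j (Submodule.smul_mem_smul ha hv), s, ?_⟩
      rw [smul_comm, show j + 1 + s = j + s + 1 by omega]
      exact hP1 a ha _ _ hs
    obtain ⟨b', y', hb'⟩ := evLin_sub F x1 x2 hx1 hx2 anti smul B1 ⟨b0, hb0⟩ S hS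
    have ha' : EvLin (fun j => rl (S j) (F j)) (e - b') (c - y') :=
      he.subB hb' 0 (fun j _ => hsplit S hS j)
    -- uniform s
    have hq : Ideal.span {x1, x2} ≤ maximalIdeal A := by
      rw [Ideal.span_le]
      rintro x (rfl | hx)
      · exact hx1
      · rw [Set.mem_singleton_iff] at hx; rw [hx]; exact hx2
    obtain ⟨j1, hj1⟩ := stable_of_le (Ideal.span {x1, x2}) F S anti
      (fun j => (Submodule.smul_mono_left hq).trans (smul j)) ⟨b0, hb0⟩
      (fun j => (hS.le (j + 1)).trans (hS.ge j))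
      (fun j => (Submodule.smul_mono_left hq).trans (hS.smul j)) hS.le
    obtain ⟨s, hs⟩ : ∃ s : ℕ, ∀ v ∈ S j1, x1 ^ s • v ∈ P (j1 + s) := by
      have hfg : (S j1).FG := IsNoetherian.noetherian _
      have hup : ∀ (k s : ℕ) (v : M), x1 ^ s • v ∈ P (j1 + s) →
          x1 ^ (s + k) • v ∈ P (j1 + (s + k)) := by
        intro k s v hv
        induction k with
        | zero => exact hv
        | succ k ih =>
          have := hP1 x1 hx1 _ _ ih
          rw [smul_smul, ← pow_succ'] at this
          exact this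
      obtain ⟨T, hT⟩ := hfg
      have hTS : ∀ v ∈ T, ∃ s : ℕ, x1 ^ s • v ∈ P (j1 + s) := by
        intro v hv
        have : v ∈ S j1 := by rw [← hT]; exact Submodule.subset_span hv
        exact this.2
      choose! σ hσ using hTS
      refine ⟨T.sup σ, fun v hv => ?_⟩
      rw [← hT] at hv
      induction hv using Submodule.span_induction with
      | mem v hv =>
        have h1 := hup (T.sup σ - σ v) (σ v) v (hσ v hv)
        rwa [Nat.add_sub_cancel' (Finset.le_sup (f := σ) hv)] at h1
      | zero => simp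
      | add v w _ _ h1 h2 => rw [smul_add]; exact (P _).add_mem h1 h2
      | smul a v _ h1 => rw [smul_comm]; exact (P _).smul_mem a h1
    have hs2 : ∀ k : ℕ, ∀ v ∈ S (j1 + k), x1 ^ s • v ∈ P (j1 + k + s) := by
      intro k
      induction k with
      | zero => exact hs
      | succ k ih =>
        intro v hv
        have h1 := hj1 (j1 + k) (by omega) hv
        rw [pair_smul, Submodule.mem_sup] at h1
        obtain ⟨_, ⟨a, ha1, rfl⟩, _, ⟨d, hd1, rfl⟩, rfl⟩ := h1
        simp only [mu_apply]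
        rw [smul_add, smul_comm _ x1, smul_comm _ x2,
          show j1 + (k + 1) + s = j1 + k + s + 1 by omega]
        exact (P _).add_mem (hP1 x1 hx1 _ _ (ih a ha1)) (hP1 x2 hx2 _ _ (ih d hd1))
    have hcan : ∀ (k : ℕ) (j : ℕ) (v : M), v ∈ F j → x1 ^ k • v ∈ F (j + k) := by
      intro k
      induction k with
      | zero => intro j v hv; simpa using hv
      | succ k ih =>
        intro j v hv
        have := smul _ (Submodule.smul_mem_smul hx1 (ih j v hv))
        rwa [smul_smul, ← pow_succ'] at this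
    have hbb : (b' : ℤ) = b := by
      apply le_antisymm
      · refine hb'.leB (hb.shiftB s) j1 ?_
        intro j hj
        obtain ⟨k, rfl⟩ := Nat.exists_eq_add_of_le hj
        -- compare via the power of x1
        have h1 : (S (j1 + k)).map (mu M (x1 ^ s)) ≤ P (j1 + k + s) := by
          rintro _ ⟨v, hv, rfl⟩
          exact hs2 k v hv
        refine le_trans ?_ (rl_mono_right h1)
        rw [rl_map_left]
        refine rl_anti_left ?_
        intro v hv
        have h2 : x1 ^ s • v ∈ F (j1 + k + s + 1) := hv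
        have hc1 : ∀ (m : ℕ) (i : ℕ) (w : M), x1 ^ m • w ∈ F (i + m) → w ∈ F i := by
          intro m
          induction m with
          | zero => intro i w hw; simpa using hw
          | succ m ih =>
            intro i w hw
            rw [pow_succ', ← smul_smul] at hw
            exact ih i w (B1 _ _ hw)
        refine hc1 s _ _ ?_
        rwa [show j1 + k + 1 + s = j1 + k + s + 1 by omega]
      · exact hb.leB hb' 0 (fun j _ => rl_mono_right (hPS j))
    -- increments of the quotient by the saturation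
    obtain ⟨a, ⟨x, hax⟩, hinc⟩ := increments x1 x2 S F b0 hS.le
      (fun j => by
        rintro _ ⟨v, hv, rfl⟩
        exact smul j (Submodule.smul_mem_smul hx1 hv))
      (fun j => by
        rintro _ ⟨v, hv, rfl⟩
        exact smul j (Submodule.smul_mem_smul hx2 hv))
      (fun j => by
        rintro _ ⟨v, hv, rfl⟩
        exact hS.smul j (Submodule.smul_mem_smul hx2 hv))
      (fun j => by
        rintro _ ⟨v, hv, rfl⟩
        exact hS.smul j (Submodule.smul_mem_smul hx1 hv))
      (fun j v hv => by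
        obtain ⟨h1, t, ht⟩ := hv
        refine ⟨B1 j v h1, t + 1, ?_⟩
        rw [pow_succ, ← smul_smul, show j + (t + 1) = j + 1 + t by omega]
        exact ht)
      (fun j hj => by rw [← pair_smul]; exact hb0 j hj)
      (fun j => rl_ne_top_of_smul_le ((smul j).trans (hS.ge j)))
    have hae : (a : ℤ) = e - b := by
      rw [← hbb]; exact (hax.uniqueB ha').1
    have hgrow : ∀ k : ℕ, ((a * k : ℕ) : ℕ∞) ≤ rl (S (b0 + k)) (F (b0 + k)) := by
      intro k
      induction k with
      | zero => simp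
      | succ k ih =>
        refine le_trans ?_ (hinc (b0 + k) (by omega))
        rw [Nat.mul_succ, Nat.cast_add]
        gcongr
    obtain ⟨j2, hj2⟩ := ha
    obtain ⟨n, hn, hn'⟩ := hj2 (b0 + j2) (by omega)
    have h1 := (hgrow j2).trans (rl_anti_left (hPS (b0 + j2)))
    have h2 : ((a * j2 : ℕ) : ℕ∞) ≤ (n : ℕ∞) := by rw [← hn]; exact h1
    have h3 : a * j2 ≤ n := by exact_mod_cast h2
    have h4 : (a : ℤ) * j2 ≤ n := by exact_mod_cast h3
    rw [hn', ← hae] at h4
    push_cast at h4
    rw [← hae]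
    linarith
  refine ⟨e - b, c - y, b, y, ha, hb, hlow, ?_⟩
  -- the upper bound
  have hanonneg : (0 : ℤ) ≤ e - b := ha.nonnegB
  rcases Nat.eq_zero_or_pos b with hb00 | hbpos
  · subst hb00
    simp only [Nat.cast_zero, mul_zero]
    obtain ⟨j2, hj2⟩ := hb
    obtain ⟨n, hn, hn'⟩ := hj2 j2 le_rfl
    simp only [Nat.cast_zero, zero_mul, zero_add] at hn'
    have hn0 : n = 0 := by
      obtain ⟨n1, hn1, hn1'⟩ := hj2 (j2 + n) (by omega)
      simp only [Nat.cast_zero, zero_mul, zero_add] at hn1'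
      have e1 : n1 = n := by
        have : (n1 : ℤ) = n := by rw [hn', hn1']
        exact_mod_cast this
      have h1 := purity x1 x2 F P (hP1 x1 hx1) (hP1 x2 hx2) hP.le hP.ge B1 B3 n j2
        (by rw [← e1]; rw [← e1] at hn1; exact hn1.le)
      have h2 : rl (F (j2 + 1)) (P j2) = 0 := rl_eq_zero_iff.mpr h1
      have h3 : (n : ℕ∞) = 0 := by rw [← hn]; exact h2
      exact_mod_cast h3
    rw [← hn', hn0]
    simp
  · have h1 : (1 : ℤ) ≤ b := by exact_mod_cast hbpos
    have h2 : y ≤ c + b0 * e := by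
      have h3 : (0 : ℤ) ≤ b0 := Int.natCast_nonneg _
      nlinarith
    calc y ≤ max 0 (c + b0 * e) := le_max_of_le_right h2
      _ = max 0 (c + b0 * e) * 1 := by ring
      _ ≤ max 0 (c + b0 * e) * b := by
          apply mul_le_mul_of_nonneg_left h1 (le_max_left _ _)

end Vale.Agent.P202
end

section

/-!
P202-CHARP, definitions: relative homology of graded families of submodules, total complexes,
Koszul matrices, base change of families, windows.
-/

namespace Vale.Agent.P202.CharP

open Submodule TensorProduct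

section LES

variable {S 𝕋 : Type*} [CommRing S] [AddCommGroup 𝕋] [Module S 𝕋]

/-- `D`-stability (homological degree `-1`) of a graded family of submodules. -/
def Stab (D : 𝕋 →ₗ[S] 𝕋) (X : ℤ → Submodule S 𝕋) : Prop := ∀ δ x, x ∈ X δ → D x ∈ X (δ - 1)

/-- relative cycles of `Y / X` in degree `δ`. -/
def zz (D : 𝕋 →ₗ[S] 𝕋) (Y X : ℤ → Submodule S 𝕋) (δ : ℤ) : Submodule S 𝕋 :=
  Y δ ⊓ (X (δ - 1)).comap D

/-- relative boundaries of `Y / X` in degree `δ`. -/
def bb (D : 𝕋 →ₗ[S] 𝕋) (Y X : ℤ → Submodule S 𝕋) (δ : ℤ) : Submodule S 𝕋 :=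
  (Y (δ + 1)).map D ⊔ X δ

/-- length of the homology of `Y / X` in degree `δ`. -/
noncomputable def hh (D : 𝕋 →ₗ[S] 𝕋) (Y X : ℤ → Submodule S 𝕋) (δ : ℤ) : ℕ∞ :=
  rl (bb D Y X δ) (zz D Y X δ)

/-- cohomological version: `d` raises the degree by one. -/
def cz (d : 𝕋 →ₗ[S] 𝕋) (Y X : ℤ → Submodule S 𝕋) (p : ℤ) : Submodule S 𝕋 :=
  Y p ⊓ (X (p + 1)).comap d

/-- cohomological version: `d` raises the degree by one. -/
def cb (d : 𝕋 →ₗ[S] 𝕋) (Y X : ℤ → Submodule S 𝕋) (p : ℤ) : Submodule S 𝕋 :=
  (Y (p - 1)).map d ⊔ X p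

/-- exactness of `Y / X` in cohomological degree `p`. -/
def Ex (d : 𝕋 →ₗ[S] 𝕋) (Y X : ℤ → Submodule S 𝕋) (p : ℤ) : Prop := cz d Y X p ≤ cb d Y X p

/-- `d`-stability, cohomological version. -/
def CStab (d : 𝕋 →ₗ[S] 𝕋) (X : ℤ → Submodule S 𝕋) : Prop := ∀ p x, x ∈ X p → d x ∈ X (p + 1)

end LES

section Tot

variable {S : Type*} [CommRing S] {ι : Type*} [Fintype ι]

/-- the action of a matrix on `M^ι`. -/
def act (Q : Matrix ι ι S) (M : Type*) [AddCommGroup M] [Module S M] :
    (ι → M) →ₗ[S] (ι → M) where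
  toFun f a := ∑ b, Q a b • f b
  map_add' f g := by ext a; simp [Finset.sum_add_distrib]
  map_smul' c f := by
    ext a
    simp only [Pi.smul_apply, RingHom.id_apply, Finset.smul_sum]
    exact Finset.sum_congr rfl fun b _ => smul_comm _ _ _

/-- a finite complex of finite free modules, given by a square matrix lowering the degree by
one. -/
structure IsCx (deg : ι → ℤ) (Q : Matrix ι ι S) : Prop where
  deg_eq : ∀ a b, Q a b ≠ 0 → deg b = deg a + 1
  sq : Q * Q = 0

variable {M : Type*} [AddCommGroup M] [Module S M]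

/-- the total differential on `M^ι`: the matrix part (homological degree `-1`) plus
`(-1)^deg` times an endomorphism `d` of `M`. -/
def tot (deg : ι → ℤ) (Q : Matrix ι ι S) (d : M →ₗ[S] M) : (ι → M) →ₗ[S] (ι → M) :=
  act Q M +
  { toFun := fun f a => ((deg a).negOnePow : ℤ) • d (f a)
    map_add' := fun f g => by ext a; simp
    map_smul' := fun c f => by
      ext a
      simp only [Pi.smul_apply, RingHom.id_apply, map_smul]
      exact smul_comm _ _ _ }

/-- the graded family of submodules of `M^ι` attached to a graded family of `M`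
(total degree `δ = deg - p`). -/
def lift (deg : ι → ℤ) (X : ℤ → Submodule S M) (δ : ℤ) : Submodule S (ι → M) :=
  Submodule.pi Set.univ fun a => X (deg a - δ)

/-- a submodule placed in degree `0`. -/
def conc (X : Submodule S M) (p : ℤ) : Submodule S M := if p = 0 then X else ⊥

/-- length of the `i`-th homology of `Q ⊗ (Y / X)`. -/
noncomputable def khs (deg : ι → ℤ) (Q : Matrix ι ι S) (Y X : Submodule S M) (i : ℤ) : ℕ∞ :=
  hh (tot deg Q (0 : M →ₗ[S] M)) (lift deg (conc Y)) (lift deg (conc X)) i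

/-- length of the `i`-th homology of `Q ⊗ M`. -/
noncomputable def kh (deg : ι → ℤ) (Q : Matrix ι ι S) (M : Type*) [AddCommGroup M] [Module S M]
    (i : ℤ) : ℕ∞ := khs deg Q (⊤ : Submodule S M) ⊥ i

end Tot

section Koszul

/-- index set of the Koszul complex. -/
def KIdx : ℕ → Type
  | 0 => PUnit
  | n + 1 => KIdx n ⊕ KIdx n

instance KIdx.fintype : ∀ n, Fintype (KIdx n)
  | 0 => inferInstanceAs (Fintype PUnit)
  | n + 1 => by
    haveI := KIdx.fintype n
    exact inferInstanceAs (Fintype (KIdx n ⊕ KIdx n))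

instance KIdx.decEq : ∀ n, DecidableEq (KIdx n)
  | 0 => inferInstanceAs (DecidableEq PUnit)
  | n + 1 => by
    haveI := KIdx.decEq n
    exact inferInstanceAs (DecidableEq (KIdx n ⊕ KIdx n))

/-- degree function of the Koszul complex. -/
def kdeg : ∀ n, KIdx n → ℤ
  | 0, _ => 0
  | n + 1, Sum.inl a => kdeg n a
  | n + 1, Sum.inr a => kdeg n a + 1

variable {S : Type*} [CommRing S]

/-- the Koszul matrix. -/
def kos : ∀ n, (Fin n → S) → Matrix (KIdx n) (KIdx n) S
  | 0, _ => 0
  | n + 1, y => Matrix.fromBlocks (kos n fun i => y i.succ) (y 0 • (1 : Matrix (KIdx n) (KIdx n) S))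
      0 (-(kos n fun i => y i.succ))

/-- length of the `i`-th Koszul homology of `M`. -/
noncomputable def kk {n : ℕ} (y : Fin n → S) (M : Type*) [AddCommGroup M] [Module S M] (i : ℤ) :
    ℕ∞ := kh (kdeg n) (kos n y) M i

/-- Koszul Euler characteristic (meaningful when all the `kk y M i` are finite). -/
noncomputable def kchi {n : ℕ} (y : Fin n → S) (M : Type*) [AddCommGroup M] [Module S M] : ℤ :=
  ∑ i ∈ Finset.range (n + 1), (-1 : ℤ) ^ i * ((kk y M (i : ℤ)).toNat : ℤ)

end Koszul

section Windows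

variable {A : Type*} [CommRing A] {V : Type*} [AddCommGroup V] [Module A V]

/-- base change of a graded family of submodules. -/
def bcf (S : Type*) [CommRing S] [Algebra A S] (X : ℤ → Submodule A V) (p : ℤ) :
    Submodule S (S ⊗[A] V) := (X p).baseChange S

/-- position of the cohomology of the window `-j`. -/
def pdeg (m j : ℕ) : ℤ := if j ≤ m then (j : ℤ) else (j : ℤ) - 1

/-- the window conditions on a chain `Winf ≤ W 0 ≤ W 1 ≤ W 2 ≤ ...` of families of submodules
(`W 0` is the level `1`, `W (j + 1)` the level `-j`); `I` is an ideal pushing one window up;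
`w j` is the length of the cohomology of the window `W (j + 1) / W j`. -/
structure Win (I : Ideal A) (n m : ℕ) (d : V →ₗ[A] V) (W : ℕ → ℤ → Submodule A V)
    (Winf : ℤ → Submodule A V) (w : ℕ → ℕ∞) : Prop where
  dd : ∀ x, d (d x) = 0
  stab : ∀ j, CStab d (W j)
  stabinf : CStab d Winf
  mono : ∀ j p, W j p ≤ W (j + 1) p
  monoinf : ∀ p, Winf p ≤ W 0 p
  push : ∀ j p, I • W (j + 1) p ≤ W j p
  neg : ∀ j p, p < 0 → W j p = ⊥
  ex : ∀ j, j < n → ∀ p, p ≠ pdeg m j → Ex d (W (j + 1)) (W j) p
  dim : ∀ j, j < n → rl (cb d (W (j + 1)) (W j) (pdeg m j)) (cz d (W (j + 1)) (W j) (pdeg m j))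
    = w j
  lift : ∀ j, j ≤ m → cz d (W (j + 1)) (W j) (pdeg m j) ≤
    (W (j + 1) (pdeg m j) ⊓ (Winf (pdeg m j + 1)).comap d) ⊔ cb d (W (j + 1)) (W j) (pdeg m j)
  ex1 : ∀ p, 1 ≤ p → Ex d (W 0) Winf p

end Windows

end Vale.Agent.P202.CharP
end

section

/-!
P202-CHARP, T4: congruences for the homology `khs`, `kh`.
-/

namespace Vale.Agent.P202.CharP

open Submodule TensorProduct IsLocalRing

section KhCongr

variable {S 𝕋 𝕋' : Type*} [CommRing S] [AddCommGroup 𝕋] [Module S 𝕋] [AddCommGroup 𝕋'] [Module S 𝕋']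

/-- relative homology under a chain map which is an isomorphism on subquotients. -/
theorem hh_map_eq (D : 𝕋 →ₗ[S] 𝕋) (D' : 𝕋' →ₗ[S] 𝕋') (F : 𝕋 →ₗ[S] 𝕋')
    (hF : ∀ x, D' (F x) = F (D x)) (Y X : ℤ → Submodule S 𝕋) (Y' X' : ℤ → Submodule S 𝕋')
    (hXY : ∀ δ, X δ ≤ Y δ) (hY : Stab D Y) (hYY : ∀ δ, (Y δ).map F = Y' δ)
    (hXX : ∀ δ, ∀ x ∈ Y δ, F x ∈ X' δ ↔ x ∈ X δ) (δ : ℤ) :
    hh D Y X δ = hh D' Y' X' δ := by
  unfold hh
  have hF2 : ∀ z : ↥(zz D Y X δ), F z.1 ∈ zz D' Y' X' δ := by
    rintro ⟨z, hz⟩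
    obtain ⟨h1, h2⟩ := Submodule.mem_inf.mp hz
    refine Submodule.mem_inf.mpr ⟨?_, ?_⟩
    · rw [← hYY]; exact Submodule.mem_map_of_mem h1
    · rw [Submodule.mem_comap, hF, hXX _ _ (hY δ z h1)]
      exact h2
  let g0 : ↥(zz D Y X δ) →ₗ[S] ↥(zz D' Y' X' δ) :=
    (F.comp (zz D Y X δ).subtype).codRestrict _ hF2
  let g : ↥(zz D Y X δ) →ₗ[S] (↥(zz D' Y' X' δ) ⧸ (bb D' Y' X' δ).submoduleOf (zz D' Y' X' δ)) :=
    (Submodule.mkQ _).comp g0
  refine rl_eq_length_of_surjective g ?_ ?_
  · refine (Submodule.mkQ_surjective _).comp ?_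
    rintro ⟨z', hz'⟩
    obtain ⟨h1, h2⟩ := Submodule.mem_inf.mp hz'
    rw [← hYY] at h1
    obtain ⟨y, hy, rfl⟩ := h1
    refine ⟨⟨y, Submodule.mem_inf.mpr ⟨hy, ?_⟩⟩, rfl⟩
    rw [Submodule.mem_comap, hF, hXX _ _ (hY δ y hy)] at h2
    exact h2
  · ext ⟨z, hz⟩
    have h1 : (⟨z, hz⟩ : ↥(zz D Y X δ)) ∈ LinearMap.ker g ↔ F z ∈ bb D' Y' X' δ := by
      rw [LinearMap.mem_ker]
      change Submodule.Quotient.mk (g0 ⟨z, hz⟩) = _ ↔ _
      rw [Submodule.Quotient.mk_eq_zero]
      exact Iff.rfl
    have h2 : (⟨z, hz⟩ : ↥(zz D Y X δ)) ∈ (bb D Y X δ).submoduleOf (zz D Y X δ) ↔ z ∈ bb D Y X δ :=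
      Iff.rfl
    rw [h1, h2]
    obtain ⟨hzY, -⟩ := Submodule.mem_inf.mp hz
    constructor
    · intro h
      obtain ⟨u, hu, x', hx', hux⟩ := Submodule.mem_sup.mp h
      obtain ⟨w', hw', rfl⟩ := hu
      rw [SetLike.mem_coe, ← hYY] at hw'
      obtain ⟨w, hw, rfl⟩ := hw'
      have hDw : D w ∈ Y δ := by
        have := hY (δ + 1) w hw
        rwa [add_sub_cancel_right] at this
      have h3 : F (z - D w) ∈ X' δ := by
        rw [map_sub, ← hF, ← hux, add_sub_cancel_left]
        exact hx'
      rw [hXX δ _ (Submodule.sub_mem _ hzY hDw)] at h3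
      rw [← sub_add_cancel z (D w)]
      exact Submodule.add_mem _ (Submodule.mem_sup_right h3)
        (Submodule.mem_sup_left (Submodule.mem_map_of_mem hw))
    · intro h
      obtain ⟨u, hu, x, hx, hux⟩ := Submodule.mem_sup.mp h
      obtain ⟨w, hw, rfl⟩ := hu
      rw [← hux, map_add, ← hF]
      refine Submodule.add_mem _ (Submodule.mem_sup_left (Submodule.mem_map_of_mem ?_))
        (Submodule.mem_sup_right ?_)
      · rw [← hYY]; exact Submodule.mem_map_of_mem hw
      · exact (hXX δ x (hXY δ hx)).mpr hx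

variable {ι : Type*} [Fintype ι] {M N : Type*} [AddCommGroup M] [Module S M]
  [AddCommGroup N] [Module S N]

lemma tot_zero_apply (deg : ι → ℤ) (Q : Matrix ι ι S) (f : ι → M) (a : ι) :
    tot deg Q (0 : M →ₗ[S] M) f a = ∑ b, Q a b • f b := by
  simp [tot, act]

/-- composition with a linear map commutes with the differential. -/
lemma tot_zero_comp (deg : ι → ℤ) (Q : Matrix ι ι S) (φ : M →ₗ[S] N) (f : ι → M) :
    tot deg Q (0 : N →ₗ[S] N) (φ.compLeft ι f) = φ.compLeft ι (tot deg Q (0 : M →ₗ[S] M) f) := by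
  ext a
  rw [tot_zero_apply]
  simp only [LinearMap.compLeft_apply, Function.comp_apply, tot_zero_apply, map_sum, map_smul]

omit [Fintype ι] in
lemma khc_mem_lift {deg : ι → ℤ} {X : ℤ → Submodule S M} {δ : ℤ} {f : ι → M} :
    f ∈ lift deg X δ ↔ ∀ a, f a ∈ X (deg a - δ) := by
  simp [lift, Submodule.mem_pi]

lemma mem_conc {X : Submodule S M} {p : ℤ} {x : M} :
    x ∈ conc X p ↔ (p = 0 → x ∈ X) ∧ (p ≠ 0 → x = 0) := by
  unfold conc
  split_ifs with h
  · simp [h]
  · simp [h]

lemma conc_mono {X Y : Submodule S M} (h : X ≤ Y) (p : ℤ) : conc X p ≤ conc Y p := by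
  unfold conc
  split_ifs
  · exact h
  · exact le_rfl

lemma lift_conc_stab (deg : ι → ℤ) (Q : Matrix ι ι S) (hQ : IsCx deg Q) (Y : Submodule S M) :
    Stab (tot deg Q (0 : M →ₗ[S] M)) (lift deg (conc Y)) := by
  intro δ f hf
  rw [khc_mem_lift] at hf ⊢
  intro a
  rw [tot_zero_apply]
  refine Submodule.sum_mem _ fun b _ => ?_
  by_cases hab : Q a b = 0
  · rw [hab, zero_smul]; exact Submodule.zero_mem _
  · have h1 := hQ.deg_eq a b hab
    have h2 := hf b
    rw [h1] at h2
    refine Submodule.smul_mem _ _ ?_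
    have e : deg a - (δ - 1) = deg a + 1 - δ := by ring
    rw [e]; exact h2

/-- homology with coefficients in a subquotient under a linear map. -/
theorem khs_map_eq (deg : ι → ℤ) (Q : Matrix ι ι S) (hQ : IsCx deg Q) (φ : M →ₗ[S] N)
    (Y X : Submodule S M) (Y' X' : Submodule S N) (hXY : X ≤ Y) (hYY : Y.map φ = Y')
    (hXX : ∀ x ∈ Y, φ x ∈ X' ↔ x ∈ X) (i : ℤ) :
    khs deg Q Y X i = khs deg Q Y' X' i := by
  unfold khs
  refine hh_map_eq _ _ (φ.compLeft ι) (fun f => tot_zero_comp deg Q φ f) _ _ _ _ ?_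
    (lift_conc_stab deg Q hQ Y) ?_ ?_ i
  · intro δ f hf
    rw [khc_mem_lift] at hf ⊢
    exact fun a => conc_mono hXY _ (hf a)
  · intro δ
    ext f'
    constructor
    · rintro ⟨f, hf, rfl⟩
      rw [SetLike.mem_coe, khc_mem_lift] at hf
      rw [khc_mem_lift]
      intro a
      have h1 := hf a
      rw [mem_conc] at h1 ⊢
      refine ⟨fun h => ?_, fun h => ?_⟩
      · rw [← hYY]; exact Submodule.mem_map_of_mem (h1.1 h)
      · simp [h1.2 h]
    · intro hf'
      rw [khc_mem_lift] at hf'
      have h2 : ∀ a, ∃ x, x ∈ conc Y (deg a - δ) ∧ φ x = f' a := by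
        intro a
        have h1 := hf' a
        rw [mem_conc] at h1
        by_cases h : deg a - δ = 0
        · have h3 := h1.1 h
          rw [← hYY] at h3
          obtain ⟨x, hx, hx'⟩ := h3
          exact ⟨x, mem_conc.mpr ⟨fun _ => hx, fun h' => absurd h h'⟩, hx'⟩
        · exact ⟨0, Submodule.zero_mem _, by rw [map_zero, h1.2 h]⟩
      choose f hf hff using h2
      refine ⟨f, ?_, ?_⟩
      · rw [SetLike.mem_coe, khc_mem_lift]; exact hf
      · ext a; exact hff a
  · intro δ f hf
    rw [khc_mem_lift] at hf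
    rw [khc_mem_lift, khc_mem_lift]
    refine forall_congr' fun a => ?_
    have h1 := hf a
    rw [mem_conc] at h1 ⊢
    rw [mem_conc]
    by_cases h : deg a - δ = 0
    · simp only [h, forall_const, ne_eq, not_true_eq_false, IsEmpty.forall_iff, and_true]
      exact hXX (f a) (h1.1 h)
    · simp only [h, IsEmpty.forall_iff, ne_eq, not_false_eq_true, forall_const, true_and]
      have h3 := h1.2 h
      simp [h3]

/-- T4 (with the necessary hypothesis that `Q` lowers the degree by one). -/
theorem khs_eq_kh (deg : ι → ℤ) (Q : Matrix ι ι S) (hQ : IsCx deg Q) (X Y : Submodule S M)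
    (h : X ≤ Y) (i : ℤ) :
    khs deg Q Y X i = kh deg Q (↥Y ⧸ X.submoduleOf Y) i := by
  have e1 : khs deg Q (⊤ : Submodule S ↥Y) (X.submoduleOf Y) i = khs deg Q Y X i := by
    refine khs_map_eq deg Q hQ Y.subtype _ _ _ _ le_top ?_ ?_ i
    · rw [Submodule.map_top, Submodule.range_subtype]
    · intro x _
      exact Iff.rfl
  have e2 : khs deg Q (⊤ : Submodule S ↥Y) (X.submoduleOf Y) i =
      kh deg Q (↥Y ⧸ X.submoduleOf Y) i := by
    unfold kh
    refine khs_map_eq deg Q hQ (Submodule.mkQ _) _ _ _ _ le_top ?_ ?_ i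
    · rw [Submodule.map_top, Submodule.range_mkQ]
    · intro x _
      rw [Submodule.mem_bot, Submodule.mkQ_apply, Submodule.Quotient.mk_eq_zero]
  rw [← e1, e2]

/-- T4. -/
theorem kh_congr (deg : ι → ℤ) (Q : Matrix ι ι S) (e : M ≃ₗ[S] N) (i : ℤ) :
    kh deg Q M i = kh deg Q N i := by
  unfold kh khs hh
  set F : (ι → M) →ₗ[S] (ι → N) := (e : M →ₗ[S] N).compLeft ι with hF
  have hinj : Function.Injective F := by
    intro f g hfg
    ext a
    have := congrFun hfg a
    exact e.injective this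
  have hL : ∀ δ, (lift deg (conc (⊤ : Submodule S M)) δ).map F = lift deg (conc ⊤) δ := by
    intro δ
    ext f'
    constructor
    · rintro ⟨f, hf, rfl⟩
      rw [SetLike.mem_coe, khc_mem_lift] at hf
      rw [khc_mem_lift]
      intro a
      have h1 := hf a
      rw [mem_conc] at h1 ⊢
      refine ⟨fun _ => trivial, fun h => ?_⟩
      simp [hF, h1.2 h]
    · intro hf'
      rw [khc_mem_lift] at hf'
      refine ⟨fun a => e.symm (f' a), ?_, ?_⟩
      · rw [SetLike.mem_coe, khc_mem_lift]
        intro a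
        have h1 := hf' a
        rw [mem_conc] at h1 ⊢
        refine ⟨fun _ => trivial, fun h => ?_⟩
        rw [h1.2 h, map_zero]
      · ext a; simp [hF]
  have hB : ∀ δ, (lift deg (conc (⊥ : Submodule S M)) δ).map F = lift deg (conc ⊥) δ := by
    intro δ
    ext f'
    constructor
    · rintro ⟨f, hf, rfl⟩
      rw [SetLike.mem_coe, khc_mem_lift] at hf
      rw [khc_mem_lift]
      intro a
      have h1 := hf a
      rw [mem_conc] at h1 ⊢
      refine ⟨fun h => ?_, fun h => ?_⟩
      · have := h1.1 h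
        rw [Submodule.mem_bot] at this ⊢
        simp [hF, this]
      · simp [hF, h1.2 h]
    · intro hf'
      rw [khc_mem_lift] at hf'
      refine ⟨fun a => e.symm (f' a), ?_, ?_⟩
      · rw [SetLike.mem_coe, khc_mem_lift]
        intro a
        have h1 := hf' a
        rw [mem_conc] at h1 ⊢
        refine ⟨fun h => ?_, fun h => ?_⟩
        · have := h1.1 h
          rw [Submodule.mem_bot] at this ⊢
          rw [this, map_zero]
        · rw [h1.2 h, map_zero]
      · ext a; simp [hF]
  have hbb : (bb (tot deg Q (0 : M →ₗ[S] M)) (lift deg (conc ⊤)) (lift deg (conc ⊥)) i).map F =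
      bb (tot deg Q (0 : N →ₗ[S] N)) (lift deg (conc ⊤)) (lift deg (conc ⊥)) i := by
    unfold bb
    rw [Submodule.map_sup, hB, ← hL (i + 1), ← Submodule.map_comp, ← Submodule.map_comp]
    congr 2
    ext1 f
    exact (tot_zero_comp deg Q (e : M →ₗ[S] N) f).symm
  have hzz : (zz (tot deg Q (0 : M →ₗ[S] M)) (lift deg (conc ⊤)) (lift deg (conc ⊥)) i).map F =
      zz (tot deg Q (0 : N →ₗ[S] N)) (lift deg (conc ⊤)) (lift deg (conc ⊥)) i := by
    unfold zz
    rw [Submodule.map_inf _ hinj, hL]
    ext f'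
    simp only [Submodule.mem_inf]
    refine and_congr_right fun hf' => ?_
    rw [← hL] at hf'
    obtain ⟨f, hf, rfl⟩ := hf'
    rw [Submodule.mem_comap, tot_zero_comp, ← hB]
    constructor
    · rintro ⟨f2, hf2, hff⟩
      have : f2 = f := hinj hff
      subst this
      exact Submodule.mem_map_of_mem hf2
    · rintro ⟨f2, hf2, hff⟩
      have : f2 = _ := hinj hff
      subst this
      exact Submodule.mem_map_of_mem hf2
  rw [← hbb, ← hzz, rl_map_of_injective F hinj]

omit [Fintype ι] in
lemma lift_conc_bot (deg : ι → ℤ) (δ : ℤ) : lift deg (conc (⊥ : Submodule S M)) δ = ⊥ := by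
  ext f
  rw [khc_mem_lift, Submodule.mem_bot]
  constructor
  · intro h
    ext a
    have h1 := h a
    rw [mem_conc] at h1
    by_cases h2 : deg a - δ = 0
    · exact h1.1 h2
    · exact h1.2 h2
  · rintro rfl a
    exact Submodule.zero_mem _

omit [Fintype ι] in
lemma mem_lift_conc_top {deg : ι → ℤ} {δ : ℤ} {f : ι → M} :
    f ∈ lift deg (conc (⊤ : Submodule S M)) δ ↔ ∀ a, deg a - δ ≠ 0 → f a = 0 := by
  rw [khc_mem_lift]
  refine forall_congr' fun a => ?_
  rw [mem_conc]
  exact ⟨fun h => h.2, fun h => ⟨fun _ => trivial, h⟩⟩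

lemma mem_zz_kh {deg : ι → ℤ} {Q : Matrix ι ι S} {i : ℤ} {f : ι → M} :
    f ∈ zz (tot deg Q (0 : M →ₗ[S] M)) (lift deg (conc ⊤)) (lift deg (conc ⊥)) i ↔
      (∀ a, deg a - i ≠ 0 → f a = 0) ∧ tot deg Q (0 : M →ₗ[S] M) f = 0 := by
  unfold zz
  rw [Submodule.mem_inf, Submodule.mem_comap, lift_conc_bot, Submodule.mem_bot,
    mem_lift_conc_top]

lemma mem_bb_kh {deg : ι → ℤ} {Q : Matrix ι ι S} {i : ℤ} {f : ι → M} :
    f ∈ bb (tot deg Q (0 : M →ₗ[S] M)) (lift deg (conc ⊤)) (lift deg (conc ⊥)) i ↔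
      ∃ g : ι → M, (∀ a, deg a - (i + 1) ≠ 0 → g a = 0) ∧ tot deg Q (0 : M →ₗ[S] M) g = f := by
  unfold bb
  rw [lift_conc_bot, sup_bot_eq, Submodule.mem_map]
  refine exists_congr fun g => ?_
  rw [mem_lift_conc_top]

/-- T4. -/
theorem kh_pi (deg : ι → ℤ) (Q : Matrix ι ι S) (w : ℕ) (i : ℤ) :
    kh deg Q (Fin w → M) i = (w : ℕ∞) * kh deg Q M i := by
  unfold kh khs hh
  set Z := zz (tot deg Q (0 : M →ₗ[S] M)) (lift deg (conc ⊤)) (lift deg (conc ⊥)) i with hZ
  set B := bb (tot deg Q (0 : M →ₗ[S] M)) (lift deg (conc ⊤)) (lift deg (conc ⊥)) i with hB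
  set Zw := zz (tot deg Q (0 : (Fin w → M) →ₗ[S] (Fin w → M))) (lift deg (conc ⊤))
    (lift deg (conc ⊥)) i with hZw
  set Bw := bb (tot deg Q (0 : (Fin w → M) →ₗ[S] (Fin w → M))) (lift deg (conc ⊤))
    (lift deg (conc ⊥)) i with hBw
  let F : Fin w → (ι → (Fin w → M)) →ₗ[S] (ι → M) := fun j =>
    (LinearMap.proj j : (Fin w → M) →ₗ[S] M).compLeft ι
  have hF : ∀ j f a, F j f a = f a j := fun j f a => rfl
  have hFD : ∀ j f, tot deg Q (0 : M →ₗ[S] M) (F j f) = F j (tot deg Q 0 f) := fun j f =>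
    tot_zero_comp deg Q (LinearMap.proj j : (Fin w → M) →ₗ[S] M) f
  have hext : ∀ f g : ι → (Fin w → M), (∀ j, F j f = F j g) → f = g := by
    intro f g h
    ext a j
    exact congrFun (h j) a
  have hZiff : ∀ f, f ∈ Zw ↔ ∀ j, F j f ∈ Z := by
    intro f
    rw [hZw, mem_zz_kh]
    simp only [hZ, mem_zz_kh]
    constructor
    · rintro ⟨h1, h2⟩ j
      refine ⟨fun a ha => ?_, ?_⟩
      · rw [hF, h1 a ha]; rfl
      · rw [hFD, h2, map_zero]
    · intro h
      refine ⟨fun a ha => ?_, ?_⟩
      · ext j; exact (h j).1 a ha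
      · refine hext _ _ fun j => ?_
        rw [← hFD, (h j).2, map_zero]
  have hBiff : ∀ f, f ∈ Bw ↔ ∀ j, F j f ∈ B := by
    intro f
    rw [hBw, mem_bb_kh]
    simp only [hB, mem_bb_kh]
    constructor
    · rintro ⟨g, h1, h2⟩ j
      refine ⟨F j g, fun a ha => ?_, ?_⟩
      · rw [hF, h1 a ha]; rfl
      · rw [hFD, h2]
    · intro h
      choose g h1 h2 using h
      refine ⟨fun a j => g j a, fun a ha => ?_, ?_⟩
      · ext j; exact h1 j a ha
      · refine hext _ _ fun j => ?_
        rw [← hFD, ← h2 j]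
        rfl
  let G : ↥Zw →ₗ[S] (Fin w → (↥Z ⧸ B.submoduleOf Z)) :=
    LinearMap.pi fun j => (Submodule.mkQ _).comp
      (((F j).comp Zw.subtype).codRestrict Z fun z => (hZiff z.1).mp z.2 j)
  rw [rl_eq_length_of_surjective (K := Bw) (N := Zw) G ?_ ?_, Module.length_pi_of_fintype,
    Finset.sum_const, Finset.card_univ, Fintype.card_fin, nsmul_eq_mul]
  · rfl
  · intro z
    have : ∀ j, ∃ y : ↥Z, Submodule.Quotient.mk y = z j := fun j =>
      Submodule.Quotient.mk_surjective _ (z j)
    choose y hy using this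
    have hmem : (fun a j => (y j).1 a : ι → (Fin w → M)) ∈ Zw := by
      rw [hZiff]
      intro j
      exact (y j).2
    refine ⟨⟨_, hmem⟩, ?_⟩
    ext j
    rw [← hy j]
    rfl
  · ext ⟨z, hz⟩
    have h2 : (⟨z, hz⟩ : ↥Zw) ∈ Bw.submoduleOf Zw ↔ z ∈ Bw := Iff.rfl
    rw [h2, hBiff, LinearMap.mem_ker, funext_iff]
    refine forall_congr' fun j => ?_
    change Submodule.Quotient.mk _ = _ ↔ _
    rw [Pi.zero_apply, Submodule.Quotient.mk_eq_zero]
    exact Iff.rfl

end KhCongr

end Vale.Agent.P202.CharP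
end

section

/-!
Basic facts on total complexes and Koszul matrices.
-/

namespace Vale.Agent.P202.CharP

open Submodule

section T

variable {S : Type*} [CommRing S] {ι : Type*} [Fintype ι] {M : Type*} [AddCommGroup M]
  [Module S M]

theorem act_apply (Q : Matrix ι ι S) (f : ι → M) (a : ι) : act Q M f a = ∑ b, Q a b • f b := rfl

theorem tot_apply (deg : ι → ℤ) (Q : Matrix ι ι S) (d : M →ₗ[S] M) (f : ι → M) (a : ι) :
    tot deg Q d f a = ∑ b, Q a b • f b + ((deg a).negOnePow : ℤ) • d (f a) := rfl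

theorem tot_eq (deg : ι → ℤ) (Q : Matrix ι ι S) (d : M →ₗ[S] M) (f : ι → M) (a : ι) :
    tot deg Q d f a = act Q M f a + ((deg a).negOnePow : ℤ) • d (f a) := rfl

theorem act_mul (Q Q' : Matrix ι ι S) (f : ι → M) :
    act (Q * Q') M f = act Q M (act Q' M f) := by
  ext a
  simp only [act_apply, Matrix.mul_apply, Finset.sum_smul, Finset.smul_sum, smul_smul]
  rw [Finset.sum_comm]

theorem act_add (Q Q' : Matrix ι ι S) (f : ι → M) :
    act (Q + Q') M f = act Q M f + act Q' M f := by
  ext a
  simp only [act_apply, Matrix.add_apply, add_smul, Finset.sum_add_distrib, Pi.add_apply]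

theorem act_smul (c : S) (Q : Matrix ι ι S) (f : ι → M) :
    act (c • Q) M f = c • act Q M f := by
  ext a
  simp only [act_apply, Matrix.smul_apply, smul_eq_mul, mul_smul, Finset.smul_sum, Pi.smul_apply]

theorem act_one [DecidableEq ι] (f : ι → M) : act (1 : Matrix ι ι S) M f = f := by
  ext a
  simp [act_apply, Matrix.one_apply]

theorem act_zero (f : ι → M) : act (0 : Matrix ι ι S) M f = 0 := by
  ext a
  simp [act_apply]

/-- A matrix commutes with an endomorphism of `M` applied to all components. -/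
theorem act_comp (Q : Matrix ι ι S) (φ : M →ₗ[S] M) (f : ι → M) (a : ι) :
    act Q M (fun b => φ (f b)) a = φ (act Q M f a) := by
  simp only [act_apply, map_sum, map_smul]

/-- A matrix preserves families with components in a submodule. -/
theorem act_mem (Q : Matrix ι ι S) {X : Submodule S M} {f : ι → M} (hf : ∀ a, f a ∈ X) (a : ι) :
    act Q M f a ∈ X := by
  rw [act_apply]
  exact X.sum_mem fun b _ => X.smul_mem _ (hf b)

omit [Fintype ι] in
theorem mem_lift (deg : ι → ℤ) (X : ℤ → Submodule S M) (δ : ℤ) (f : ι → M) :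
    f ∈ lift deg X δ ↔ ∀ a, f a ∈ X (deg a - δ) := by
  simp [lift, Submodule.mem_pi]

theorem negOnePow_mul_self (n : ℤ) : ((n.negOnePow : ℤˣ) : ℤ) * ((n.negOnePow : ℤˣ) : ℤ) = 1 := by
  rw [← Units.val_mul, Int.units_mul_self, Units.val_one]

theorem negOnePow_succ' (n : ℤ) : (((n + 1).negOnePow : ℤˣ) : ℤ) = -((n.negOnePow : ℤˣ) : ℤ) := by
  rw [Int.negOnePow_succ, Units.val_neg]

/-- TASK T1. -/
theorem tot_tot (deg : ι → ℤ) (Q : Matrix ι ι S) (hQ : IsCx deg Q) (d : M →ₗ[S] M)
    (hd : ∀ x, d (d x) = 0) (f : ι → M) : tot deg Q d (tot deg Q d f) = 0 := by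
  ext a
  have h1 : ∑ b, Q a b • (∑ c, Q b c • f c) = 0 := by
    have := congrFun (act_mul Q Q f) a
    rw [hQ.sq, act_zero] at this
    simpa [act_apply] using this.symm
  have h2 : ∀ b, Q a b • (((deg b).negOnePow : ℤ) • d (f b)) =
      -(((deg a).negOnePow : ℤ) • (Q a b • d (f b))) := by
    intro b
    by_cases hb : Q a b = 0
    · simp [hb]
    · rw [hQ.deg_eq a b hb, negOnePow_succ', neg_smul, smul_neg, smul_comm]
  rw [tot_apply]
  simp only [tot_apply, smul_add, Finset.sum_add_distrib, h1, zero_add, map_add, map_sum, map_smul,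
    map_zsmul, hd, smul_zero, add_zero]
  rw [Finset.sum_congr rfl (fun b _ => h2 b), Finset.sum_neg_distrib, Finset.smul_sum]
  simp

/-- TASK T1. -/
theorem lift_stab (deg : ι → ℤ) (Q : Matrix ι ι S) (hQ : IsCx deg Q) (d : M →ₗ[S] M)
    (X : ℤ → Submodule S M) (hX : CStab d X) : Stab (tot deg Q d) (lift deg X) := by
  intro δ f hf
  rw [mem_lift] at hf ⊢
  intro a
  rw [tot_apply]
  refine Submodule.add_mem _ (Submodule.sum_mem _ fun b _ => ?_) ?_
  · by_cases hb : Q a b = 0
    · simp [hb]
    · have := hf b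
      rw [hQ.deg_eq a b hb] at this
      have e : deg a + 1 - δ = deg a - (δ - 1) := by ring
      rw [e] at this
      exact Submodule.smul_mem _ _ this
  · have := hX _ _ (hf a)
    have e : deg a - δ + 1 = deg a - (δ - 1) := by ring
    rw [e] at this
    exact zsmul_mem this _

/-- TASK T1. -/
theorem lift_mono (deg : ι → ℤ) {X Y : ℤ → Submodule S M} (h : ∀ p, X p ≤ Y p) (δ : ℤ) :
    lift deg X δ ≤ lift deg Y δ := by
  intro f hf
  rw [mem_lift] at hf ⊢
  exact fun a => h _ (hf a)

/-- TASK T5: the Koszul matrix is a complex and its degrees. -/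
theorem kos_isCx : ∀ (n : ℕ) (y : Fin n → S), IsCx (kdeg n) (kos n y)
  | 0, y => ⟨fun a b h => absurd rfl h, by
      change (0 : Matrix (KIdx 0) (KIdx 0) S) * 0 = 0
      simp⟩
  | n + 1, y => by
    have ih := kos_isCx n (fun i => y i.succ)
    refine ⟨?_, ?_⟩
    · rintro (a | a) (b | b) h
      · exact ih.deg_eq a b h
      · by_cases hab : a = b
        · subst hab; rfl
        · refine absurd ?_ h
          change (y 0 • (1 : Matrix (KIdx n) (KIdx n) S)) a b = 0
          simp [hab]
      · exact absurd rfl h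
      · have h' : kos n (fun i => y i.succ) a b ≠ 0 := by
          intro h0
          refine h ?_
          change (-(kos n fun i => y i.succ)) a b = 0
          rw [Matrix.neg_apply, h0, neg_zero]
        have := ih.deg_eq a b h'
        change kdeg n b + 1 = kdeg n a + 1 + 1
        rw [this]
    · change Matrix.fromBlocks (kos n fun i => y i.succ)
          (y 0 • (1 : Matrix (KIdx n) (KIdx n) S)) 0 (-(kos n fun i => y i.succ)) *
        Matrix.fromBlocks (kos n fun i => y i.succ)
          (y 0 • (1 : Matrix (KIdx n) (KIdx n) S)) 0 (-(kos n fun i => y i.succ)) = 0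
      rw [Matrix.fromBlocks_multiply, ih.sq]
      simp [ih.sq]

/-- TASK T5. -/
theorem kdeg_range : ∀ (n : ℕ) (a : KIdx n), 0 ≤ kdeg n a ∧ kdeg n a ≤ n
  | 0, _ => by simp [kdeg]
  | n + 1, Sum.inl a => by
    have h := kdeg_range n a
    change 0 ≤ kdeg n a ∧ kdeg n a ≤ ((n + 1 : ℕ) : ℤ)
    push_cast
    omega
  | n + 1, Sum.inr a => by
    have h := kdeg_range n a
    change 0 ≤ kdeg n a + 1 ∧ kdeg n a + 1 ≤ ((n + 1 : ℕ) : ℤ)
    push_cast
    omega

theorem blocks_aux1 {α : Type*} [Fintype α] [DecidableEq α] (A : Matrix α α S) (c : S) :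
    Matrix.fromBlocks A (c • (1 : Matrix α α S)) 0 (-A) * Matrix.fromBlocks 0 0 1 0 +
      Matrix.fromBlocks 0 0 1 0 * Matrix.fromBlocks A (c • (1 : Matrix α α S)) 0 (-A) =
      c • (1 : Matrix (α ⊕ α) (α ⊕ α) S) := by
  rw [Matrix.fromBlocks_multiply, Matrix.fromBlocks_multiply, Matrix.fromBlocks_add,
    ← Matrix.fromBlocks_one, Matrix.fromBlocks_smul]
  congr 1 <;> simp

theorem blocks_aux2 {α : Type*} [Fintype α] [DecidableEq α] (A h : Matrix α α S) (c c' : S)
    (H : A * h + h * A = c' • 1) :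
    Matrix.fromBlocks A (c • (1 : Matrix α α S)) 0 (-A) * Matrix.fromBlocks h 0 0 (-h) +
      Matrix.fromBlocks h 0 0 (-h) * Matrix.fromBlocks A (c • (1 : Matrix α α S)) 0 (-A) =
      c' • (1 : Matrix (α ⊕ α) (α ⊕ α) S) := by
  rw [Matrix.fromBlocks_multiply, Matrix.fromBlocks_multiply, Matrix.fromBlocks_add,
    ← Matrix.fromBlocks_one, Matrix.fromBlocks_smul]
  congr 1
  · simpa using H
  · simp
  · simp
  · simpa using H

/-- TASK T5: the standard null-homotopies of the Koszul complex: `∂ h + h ∂ = y l`, with `h` given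
by a matrix raising the degree by one. -/
theorem kos_homotopy : ∀ (n : ℕ) (y : Fin n → S) (l : Fin n), ∃ h : Matrix (KIdx n) (KIdx n) S,
    (∀ a b, h a b ≠ 0 → kdeg n a = kdeg n b + 1) ∧ kos n y * h + h * kos n y = y l • 1
  | 0, _, l => l.elim0
  | n + 1, y, l => by
    refine Fin.cases ?_ (fun l => ?_) l
    · let h : Matrix (KIdx n ⊕ KIdx n) (KIdx n ⊕ KIdx n) S := Matrix.fromBlocks 0 0 1 0
      refine ⟨h, ?_, ?_⟩
      · rintro (a | a) (b | b) hab
        · exact absurd rfl hab
        · exact absurd rfl hab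
        · by_cases he : a = b
          · subst he; rfl
          · refine absurd ?_ hab
            change (1 : Matrix (KIdx n) (KIdx n) S) a b = 0
            simp [he]
        · exact absurd rfl hab
      · exact blocks_aux1 (kos n fun i => y i.succ) (y 0)
    · obtain ⟨h, h1, h2⟩ := kos_homotopy n (fun i => y i.succ) l
      let h' : Matrix (KIdx n ⊕ KIdx n) (KIdx n ⊕ KIdx n) S := Matrix.fromBlocks h 0 0 (-h)
      refine ⟨h', ?_, ?_⟩
      · rintro (a | a) (b | b) hab
        · exact h1 a b hab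
        · exact absurd rfl hab
        · exact absurd rfl hab
        · have : h a b ≠ 0 := by
            intro h0
            refine hab ?_
            change (-h) a b = 0
            rw [Matrix.neg_apply, h0, neg_zero]
          have := h1 a b this
          change kdeg n a + 1 = kdeg n b + 1 + 1
          rw [this]
      · exact blocks_aux2 (kos n fun i => y i.succ) h (y 0) (y l.succ) h2

end T

end Vale.Agent.P202.CharP
end

section

/-!
P202-CHARP, L1: the long exact sequence of a triple, in terms of lengths of images.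
-/

namespace Vale.Agent.P202.CharP

open Submodule

section

variable {S 𝕋 : Type*} [CommRing S] [AddCommGroup 𝕋] [Module S 𝕋]

lemma les_rl_map_right {A M M' : Type*} [CommRing A] [AddCommGroup M] [Module A M]
    [AddCommGroup M'] [Module A M'] (f : M →ₗ[A] M') (K : Submodule A M') (N : Submodule A M) :
    rl K (N.map f) = rl (K.comap f) N := by
  have h1 := rl_map f (K.comap f) N
  have hk : LinearMap.ker f ≤ K.comap f := fun x hx => by
    rw [Submodule.mem_comap, LinearMap.mem_ker.mp hx]; exact K.zero_mem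
  rw [sup_of_le_left hk, Submodule.map_comap_eq] at h1
  rw [← h1, ← rl_inf_left K, ← rl_inf_left (LinearMap.range f ⊓ K)]
  congr 1
  have h2 : N.map f ≤ LinearMap.range f := LinearMap.map_le_range
  rw [inf_comm (LinearMap.range f) K, inf_assoc, inf_of_le_right h2]

lemma les_rl_sup (K N : Submodule S 𝕋) : rl K (N ⊔ K) = rl (K ⊓ N) N := by
  rw [sup_comm, rl_sup_inf]

variable (D : 𝕋 →ₗ[S] 𝕋)

lemma les_bb_le_zz (hD : ∀ x, D (D x) = 0) {X Y : ℤ → Submodule S 𝕋}
    (hX : Stab D X) (hY : Stab D Y) (hXY : ∀ δ, X δ ≤ Y δ) (δ : ℤ) :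
    bb D Y X δ ≤ zz D Y X δ := by
  refine sup_le ?_ ?_
  · rintro _ ⟨z, hz, rfl⟩
    refine ⟨?_, ?_⟩
    · have := hY _ z hz
      rwa [add_sub_cancel_right] at this
    · change D (D z) ∈ X (δ - 1)
      rw [hD]; exact (X (δ - 1)).zero_mem
  · intro x hx
    exact ⟨hXY δ hx, hX δ x hx⟩

/-- TASK L1: long exact sequence of a triple `X ≤ Y ≤ Z`: lengths of images. `al` is the image of
`H(Y/X) → H(Z/X)`, `be` the image of `H(Z/X) → H(Z/Y)`, `ga` the image of the connecting map
`H_δ(Z/Y) → H_{δ-1}(Y/X)`. -/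
theorem hh_les (D : 𝕋 →ₗ[S] 𝕋) (hD : ∀ x, D (D x) = 0) (X Y Z : ℤ → Submodule S 𝕋)
    (hX : Stab D X) (hY : Stab D Y) (hZ : Stab D Z) (hXY : ∀ δ, X δ ≤ Y δ)
    (hYZ : ∀ δ, Y δ ≤ Z δ) (δ : ℤ) :
    hh D Z X δ = rl (bb D Z X δ) (zz D Y X δ ⊔ bb D Z X δ) +
        rl (bb D Z Y δ) (zz D Z X δ ⊔ bb D Z Y δ) ∧
      hh D Z Y δ = rl (bb D Z Y δ) (zz D Z X δ ⊔ bb D Z Y δ) +
        rl (bb D Y X (δ - 1)) ((zz D Z Y δ).map D ⊔ bb D Y X (δ - 1)) ∧
      hh D Y X δ = rl (bb D Y X δ) ((zz D Z Y (δ + 1)).map D ⊔ bb D Y X δ) +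
        rl (bb D Z X δ) (zz D Y X δ ⊔ bb D Z X δ) := by
  have hXZ : ∀ δ, X δ ≤ Z δ := fun δ => (hXY δ).trans (hYZ δ)
  have b1 := les_bb_le_zz D hD hX hZ hXZ δ
  have b2 := les_bb_le_zz D hD hY hZ hYZ δ
  have b3 := les_bb_le_zz D hD hX hY hXY δ
  have z1 : zz D Y X δ ≤ zz D Z X δ := inf_le_inf_right _ (hYZ δ)
  have z2 : zz D Z X δ ≤ zz D Z Y δ := inf_le_inf_left _ (Submodule.comap_mono (hXY _))
  have c1 : bb D Z X δ ≤ bb D Z Y δ := sup_le_sup_left (hXY δ) _
  have c2 : bb D Y X δ ≤ bb D Z X δ := sup_le_sup_right (Submodule.map_mono (hYZ _)) _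
  refine ⟨?_, ?_, ?_⟩
  · rw [hh, rl_add (le_sup_right : bb D Z X δ ≤ zz D Y X δ ⊔ bb D Z X δ) (sup_le z1 b1),
      les_rl_sup (bb D Z Y δ)]
    congr 2
    apply le_antisymm
    · refine sup_le (le_inf ?_ z1) (le_inf c1 b1)
      exact inf_le_left.trans le_sup_right
    · rintro x ⟨hx1, hx2⟩
      obtain ⟨_, ⟨z, hz, rfl⟩, y, hy, rfl⟩ := Submodule.mem_sup.mp hx1
      have hy' : y ∈ zz D Y X δ := by
        refine ⟨hy, ?_⟩
        have h1 : D (D z + y) ∈ X (δ - 1) := hx2.2
        rw [map_add, hD, zero_add] at h1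
        exact h1
      rw [add_comm]
      exact Submodule.add_mem_sup hy' (Submodule.mem_sup_left ⟨z, hz, rfl⟩)
  · rw [hh, rl_add (le_sup_right : bb D Z Y δ ≤ zz D Z X δ ⊔ bb D Z Y δ) (sup_le z2 b2)]
    congr 1
    rw [sup_comm ((zz D Z Y δ).map D), rl_sup_right, les_rl_map_right,
      ← rl_inf_left ((bb D Y X (δ - 1)).comap D)]
    congr 1
    apply le_antisymm
    · refine sup_le (le_inf ?_ z2) (le_inf ?_ b2)
      · intro z hz
        exact Submodule.mem_sup_right hz.2
      · refine sup_le ?_ ?_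
        · rintro _ ⟨z, hz, rfl⟩
          rw [Submodule.mem_comap, hD]; exact Submodule.zero_mem _
        · intro y hy
          refine Submodule.mem_sup_left ⟨y, ?_, rfl⟩
          rw [sub_add_cancel]
          exact hy
    · rintro z ⟨hz1, hz2⟩
      obtain ⟨_, ⟨y, hy, rfl⟩, x, hx, he⟩ := Submodule.mem_sup.mp hz1
      rw [sub_add_cancel] at hy
      have h1 : z - y ∈ zz D Z X δ := by
        refine ⟨Submodule.sub_mem _ hz2.1 (hYZ δ hy), ?_⟩
        change D (z - y) ∈ X (δ - 1)
        rw [map_sub, ← he, add_sub_cancel_left]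
        exact hx
      have h2 : z = (z - y) + y := by abel
      rw [h2]
      exact Submodule.add_mem_sup h1 (Submodule.mem_sup_right hy)
  · have d1 : (zz D Z Y (δ + 1)).map D ≤ zz D Y X δ := by
      rintro _ ⟨z, hz, rfl⟩
      refine ⟨?_, ?_⟩
      · have : D z ∈ Y (δ + 1 - 1) := hz.2
        rwa [add_sub_cancel_right] at this
      · change D (D z) ∈ X (δ - 1)
        rw [hD]; exact Submodule.zero_mem _
    rw [hh, rl_add (le_sup_right : bb D Y X δ ≤ (zz D Z Y (δ + 1)).map D ⊔ bb D Y X δ)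
      (sup_le d1 b3), les_rl_sup (bb D Z X δ)]
    congr 2
    apply le_antisymm
    · refine sup_le (le_inf ?_ d1) (le_inf c2 b3)
      rintro _ ⟨z, hz, rfl⟩
      exact Submodule.mem_sup_left ⟨z, hz.1, rfl⟩
    · rintro v ⟨hv1, hv2⟩
      obtain ⟨_, ⟨z, hz, rfl⟩, x, hx, rfl⟩ := Submodule.mem_sup.mp hv1
      have h1 : D z ∈ Y δ := by
        have := Submodule.sub_mem _ hv2.1 (hXY δ hx)
        rwa [add_sub_cancel_right] at this
      refine Submodule.add_mem_sup ⟨z, ⟨hz, ?_⟩, rfl⟩ (Submodule.mem_sup_right hx)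
      change D z ∈ Y (δ + 1 - 1)
      rwa [add_sub_cancel_right]

end

end Vale.Agent.P202.CharP
end

section

/-!
D4, D5: the rank of a finite module does not drop under base change to a domain, a local
criterion, and comparison of lengths over two local rings with the same residue field.
-/

set_option linter.unusedVariables false

namespace Vale.Agent.P202.CZ

open IsLocalRing TensorProduct

/-- D5: a local criterion. -/
theorem local_of_pow_le {A R : Type*} [CommRing A] [IsLocalRing A] [CommRing R] [Algebra A R]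
    [Module.Finite A R] (m : Ideal R) [m.IsMaximal] (M : ℕ)
    (hM : m ^ M ≤ (maximalIdeal A).map (algebraMap A R)) :
    ∃ _ : IsLocalRing R, maximalIdeal R = m := by
  have key : ∀ P : Ideal R, P.IsMaximal → P = m := by
    intro P hP
    have h1 : (P.comap (algebraMap A R)).IsMaximal :=
      Ideal.isMaximal_comap_of_isIntegral_of_isMaximal P
    have h2 : P.comap (algebraMap A R) = maximalIdeal A := IsLocalRing.eq_maximalIdeal h1
    have h3 : (maximalIdeal A).map (algebraMap A R) ≤ P := by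
      rw [Ideal.map_le_iff_le_comap, h2]
    have h4 : m ≤ P := Ideal.IsPrime.le_of_pow_le (hM.trans h3)
    exact (Ideal.IsMaximal.eq_of_le ‹m.IsMaximal› hP.ne_top h4).symm
  have hloc : IsLocalRing R := IsLocalRing.of_unique_max_ideal ⟨m, ‹_›, key⟩
  exact ⟨hloc, key _ (maximalIdeal.isMaximal R)⟩

theorem simple_of_residue {A R : Type*} [CommRing A] [CommRing R]
    [IsLocalRing R] [Algebra A R] (hres : ∀ z : R, ∃ a : A, z - algebraMap A R a ∈ maximalIdeal R)
    {P : Type*} [AddCommGroup P] [Module A P] [Module R P] [IsScalarTower A R P]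
    [IsSimpleModule R P] : IsSimpleModule A P := by
  rw [isSimpleModule_iff_toSpanSingleton_surjective]
  obtain ⟨h1, h2⟩ := (isSimpleModule_iff_toSpanSingleton_surjective (R := R) (M := P)).1 ‹_›
  refine ⟨h1, fun x hx y => ?_⟩
  obtain ⟨z, hz⟩ := h2 x hx y
  obtain ⟨a, ha⟩ := hres z
  have hkill : ∀ c ∈ maximalIdeal R, c • x = 0 := by
    intro c hc
    by_contra hne
    obtain ⟨u, hu⟩ := h2 _ hne x
    have h3 : (1 - u * c) • x = 0 := by
      rw [sub_smul, one_smul, mul_smul]
      exact sub_eq_zero.2 hu.symm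
    have h4 : IsUnit (1 - u * c) := by
      by_contra h5
      have h6 : (1 - u * c) + u * c ∈ maximalIdeal R :=
        add_mem ((mem_maximalIdeal _).2 h5) (Ideal.mul_mem_left _ _ hc)
      rw [sub_add_cancel] at h6
      exact (maximalIdeal.isMaximal R).ne_top ((Ideal.eq_top_iff_one _).2 h6)
    obtain ⟨v, hv⟩ := h4
    apply hx
    have h7 : (↑v⁻¹ : R) • ((1 - u * c) • x) = x := by
      rw [← hv, smul_smul, Units.inv_mul, one_smul]
    rw [← h7, h3, smul_zero]
  refine ⟨a, ?_⟩
  have h8 := hkill _ ha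
  rw [sub_smul, algebraMap_smul, sub_eq_zero] at h8
  rw [LinearMap.toSpanSingleton_apply, ← h8]
  exact hz

/-- D5b: comparison of lengths over two local rings with the same residue field. -/
theorem length_le_of_residue {A R : Type*} [CommRing A] [IsLocalRing A] [CommRing R]
    [IsLocalRing R] [Algebra A R] (hres : ∀ z : R, ∃ a : A, z - algebraMap A R a ∈ maximalIdeal R)
    (hloc : (maximalIdeal A).map (algebraMap A R) ≤ maximalIdeal R)
    {M : Type*} [AddCommGroup M] [Module A M] [Module R M] [IsScalarTower A R M] :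
    Module.length A M ≤ Module.length R M := by
  by_cases htop : Module.length R M = ⊤
  · rw [htop]; exact le_top
  obtain ⟨n, hn⟩ := ENat.ne_top_iff_exists.1 htop
  induction n generalizing M with
  | zero =>
    have : Subsingleton M := Module.length_eq_zero_iff.1 hn.symm
    rw [Module.length_eq_zero]
    exact zero_le
  | succ n ih =>
    have h1 := Module.length_ne_top_iff.1 htop
    cases h1 with
    | of_subsingleton => 
      rw [Module.length_eq_zero]
      exact zero_le
    | of_simple_quotient h2 =>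
      rename_i N hN
      have h3 := Module.length_eq_add_of_exact N.subtype N.mkQ N.injective_subtype
        N.mkQ_surjective (LinearMap.exact_subtype_mkQ N)
      have h4 := Module.length_eq_add_of_exact (N.subtype.restrictScalars A)
        (N.mkQ.restrictScalars A) N.injective_subtype
        N.mkQ_surjective (LinearMap.exact_subtype_mkQ N)
      have h5 : Module.length R (M ⧸ N) = 1 := Module.length_eq_one R _
      have h6 : IsSimpleModule A (M ⧸ N) := simple_of_residue hres
      have h7 : Module.length A (M ⧸ N) = 1 := Module.length_eq_one A _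
      rw [h3, h4, h5, h7]
      rw [h3, h5] at hn
      gcongr
      have h8 := Module.length_ne_top_iff.2 h2
      refine ih h8 ?_
      obtain ⟨l, hl⟩ := ENat.ne_top_iff_exists.1 h8
      rw [← hl] at hn ⊢
      have h9 : n + 1 = l + 1 := by exact_mod_cast hn
      rw [Nat.succ.inj h9]

/-- if `K ⊗ P = 0` for a field `K`, then `P` is killed by an element not zero in `K` -/
theorem exists_annihilator {B K P : Type*} [CommRing B] [Field K] [Algebra B K] [AddCommGroup P]
    [Module B P] [Module.Finite B P] (h : Subsingleton (K ⊗[B] P)) :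
    ∃ b ∈ Module.annihilator B P, algebraMap B K b ≠ 0 := by
  by_contra hcon
  push Not at hcon
  let Q : Ideal B := RingHom.ker (algebraMap B K)
  have hQ : Q.IsPrime := RingHom.ker_isPrime _
  let q : PrimeSpectrum B := ⟨Q, hQ⟩
  have h1 : q ∈ Module.support B P := Module.mem_support_iff_of_finite.2 fun b hb => hcon b hb
  have h2 := (Module.mem_support_iff_nontrivial_residueField_tensorProduct q).1 h1
  let f : q.asIdeal.ResidueField →+* K := Ideal.ResidueField.lift q.asIdeal (algebraMap B K) le_rfl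
    (fun x hx => (Ne.isUnit (fun h0 => hx h0) : IsUnit (algebraMap B K x)))
  let := f.toAlgebra
  have hst : IsScalarTower B q.asIdeal.ResidueField K := IsScalarTower.of_algebraMap_eq fun b =>
    (Ideal.ResidueField.lift_algebraMap _ _ _ _ b).symm
  have e := (AlgebraTensorModule.cancelBaseChange B q.asIdeal.ResidueField K K P)
  have h3 : Nontrivial (K ⊗[q.asIdeal.ResidueField] (q.asIdeal.ResidueField ⊗[B] P)) :=
    inferInstance
  have h4 := e.toEquiv.subsingleton
  exact not_subsingleton _ h4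

/-- D4: the rank of a finite module does not drop under base change to a domain. -/
theorem rank_base_change {B L M : Type*} [CommRing B] [IsDomain B] [CommRing L] [IsDomain L]
    [Algebra B L] [AddCommGroup M] [Module B M] [Module.Finite B M] {r : ℕ} (e : Fin r → M)
    (he : LinearIndependent B e) :
    ∃ e' : Fin r → TensorProduct B L M, LinearIndependent L e' := by
  classical
  let K := FractionRing L
  obtain ⟨s, hs⟩ := Module.Finite.fg_top (R := B) (M := M)
  -- a basis of `K ⊗ M` from the generators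
  obtain ⟨κ, a, ha, hsp, hli⟩ := exists_linearIndependent' K
    (fun m : s => (1 : K) ⊗ₜ[B] (m : M))
  have hκ : Finite κ := Finite.of_injective a ha
  let := Fintype.ofFinite κ
  let N : Submodule B M := Submodule.span B (Set.range fun i => (a i : M))
  have htop : Submodule.span K (Set.range fun m : s => (1 : K) ⊗ₜ[B] (m : M)) = ⊤ := by
    rw [eq_top_iff]
    rintro x -
    induction x using TensorProduct.induction_on with
    | zero => exact zero_mem _
    | add x y hx hy => exact add_mem hx hy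
    | tmul c m =>
      have hm : m ∈ Submodule.span B (s : Set M) := by rw [hs]; trivial
      induction hm using Submodule.span_induction with
      | mem m hm =>
        have : c ⊗ₜ[B] m = c • ((1 : K) ⊗ₜ[B] m) := by
          rw [TensorProduct.smul_tmul', smul_eq_mul, mul_one]
        rw [this]
        exact Submodule.smul_mem _ _ (Submodule.subset_span ⟨⟨m, hm⟩, rfl⟩)
      | zero => rw [TensorProduct.tmul_zero]; exact zero_mem _
      | add x y _ _ hx hy => rw [TensorProduct.tmul_add]; exact add_mem hx hy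
      | smul b x _ hx =>
        rw [TensorProduct.tmul_smul, ← algebraMap_smul K b]
        exact Submodule.smul_mem _ _ hx
  have hsub : Subsingleton (K ⊗[B] (M ⧸ N)) := by
    have h1 : ∀ y : K ⊗[B] M, (N.mkQ.baseChange K) y = 0 := by
      intro y
      have hy : y ∈ Submodule.span K (Set.range ((fun m : s => (1 : K) ⊗ₜ[B] (m : M)) ∘ a)) := by
        rw [hsp, htop]; trivial
      induction hy using Submodule.span_induction with
      | mem y hy =>
        obtain ⟨i, rfl⟩ := hy
        simp only [Function.comp_apply, LinearMap.baseChange_tmul, Submodule.mkQ_apply]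
        have h2 : (Submodule.Quotient.mk (a i : M) : M ⧸ N) = 0 :=
          (Submodule.Quotient.mk_eq_zero N).2 (Submodule.subset_span ⟨i, rfl⟩)
        rw [h2, TensorProduct.tmul_zero]
      | zero => exact map_zero _
      | add x y _ _ hx hy => rw [map_add, hx, hy, add_zero]
      | smul c x _ hx => rw [map_smul, hx, smul_zero]
    refine ⟨fun x y => ?_⟩
    have h3 : Function.Surjective (N.mkQ.baseChange K) :=
      LinearMap.lTensor_surjective K N.mkQ_surjective
    obtain ⟨x', rfl⟩ := h3 x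
    obtain ⟨y', rfl⟩ := h3 y
    rw [h1, h1]
  obtain ⟨b, hb, hbK⟩ := exists_annihilator hsub
  have hb0 : b ≠ 0 := fun h => hbK (by rw [h, map_zero])
  have hbN : ∀ m : M, b • m ∈ N := by
    intro m
    rw [← Submodule.Quotient.mk_eq_zero N, Submodule.Quotient.mk_smul]
    exact Module.mem_annihilator.1 hb _
  -- counting
  have hcard : r ≤ Fintype.card κ := by
    have h1 : LinearIndependent B (fun i => b • e i) := by
      rw [Fintype.linearIndependent_iff] at he ⊢
      intro g hg i
      have h2 := he (fun i => g i * b) (by simpa only [mul_smul] using hg) i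
      exact (mul_eq_zero.1 h2).resolve_right hb0
    have h2 := linearIndependent_le_span_aux' (fun i => b • e i) h1
      (Set.range fun i => (a i : M)) (by
        rintro _ ⟨i, rfl⟩
        exact hbN (e i))
    rw [Fintype.card_fin] at h2
    exact h2.trans (Fintype.card_range_le _)
  have hL : LinearIndependent L (fun i : κ => (1 : L) ⊗ₜ[B] (a i : M)) := by
    have h1 : LinearIndependent L (fun i : κ => (1 : K) ⊗ₜ[B] (a i : M)) := by
      refine LinearIndependent.restrict_scalars ?_ hli
      intro x y hxy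
      simp only [Algebra.smul_def, mul_one] at hxy
      exact FaithfulSMul.algebraMap_injective L K hxy
    let φ : L ⊗[B] M →ₗ[L] K ⊗[B] M := AlgebraTensorModule.map (Algebra.linearMap L K)
      (LinearMap.id : M →ₗ[B] M)
    refine LinearIndependent.of_comp φ ?_
    convert h1 using 2 with i
    simp [φ]
  have e' : Fin r ↪ κ := (Function.Embedding.nonempty_of_card_le (by simpa using hcard)).some
  exact ⟨_, hL.comp e' e'.injective⟩

end Vale.Agent.P202.CZ
end

section

/-!
P202, characteristic zero: task D6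
-/

namespace Vale.Agent.P202.CZ

universe u

theorem charPQuot_isJacobsonRing_int : IsJacobsonRing ℤ := by
  rw [isJacobsonRing_iff_prime_eq]
  intro P hP
  by_cases h0 : P = ⊥
  · subst h0
    rw [eq_bot_iff]
    intro x hx
    rw [Ideal.mem_bot]
    by_contra hx0
    obtain ⟨p, hp1, hp2⟩ := Nat.exists_infinite_primes (x.natAbs + 1)
    have hmax : (Ideal.span {(p : ℤ)}).IsMaximal := by
      have hprime : (Ideal.span {(p : ℤ)}).IsPrime := by
        rw [Ideal.span_singleton_prime (by exact_mod_cast hp2.ne_zero)]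
        exact Nat.prime_iff_prime_int.1 hp2
      exact hprime.isMaximal (by
        rw [Ne, Ideal.span_singleton_eq_bot]
        exact_mod_cast hp2.ne_zero)
    rw [Ideal.mem_jacobson_bot] at hx
    have hx' : x ∈ (⊥ : Ideal ℤ).jacobson := by
      rw [Ideal.mem_jacobson_bot]; exact hx
    have h1 : x ∈ Ideal.span {(p : ℤ)} := by
      have := Ideal.mem_sInf.1 hx' (I := Ideal.span {(p : ℤ)}) ⟨bot_le, hmax⟩
      exact this
    rw [Ideal.mem_span_singleton] at h1
    have h2 : p ∣ x.natAbs := Int.natCast_dvd.1 h1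
    have h3 := Nat.le_of_dvd (Int.natAbs_pos.2 hx0) h2
    omega
  · have := hP.isMaximal h0
    exact Ideal.jacobson_eq_self_of_isMaximal

/-- D6: finitely generated domains have residue fields of prime characteristic. -/
theorem exists_charP_quotient {D : Type u} [CommRing D] [Nontrivial D] [Algebra.FiniteType ℤ D] :
    ∃ (𝔐 : Ideal D) (_ : 𝔐.IsMaximal) (p : ℕ), p.Prime ∧ CharP (D ⧸ 𝔐) p ∧ Finite (D ⧸ 𝔐) := by
  obtain ⟨𝔐, h𝔐⟩ := Ideal.exists_maximal D
  refine ⟨𝔐, h𝔐, ?_⟩
  let _ : Field (D ⧸ 𝔐) := Ideal.Quotient.field 𝔐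
  have := charPQuot_isJacobsonRing_int
  have : Algebra.FiniteType ℤ (D ⧸ 𝔐) :=
    Algebra.FiniteType.of_surjective (Ideal.Quotient.mkₐ ℤ 𝔐) (Ideal.Quotient.mkₐ_surjective ℤ 𝔐)
  have : Module.Finite ℤ (D ⧸ 𝔐) := finite_of_finite_type_of_isJacobsonRing ℤ (D ⧸ 𝔐)
  obtain ⟨p, hp⟩ := CharP.exists (D ⧸ 𝔐)
  suffices hpp : p.Prime by
    refine ⟨p, hpp, hp, ?_⟩
    have : NeZero p := ⟨hpp.ne_zero⟩
    let _ : Algebra (ZMod p) (D ⧸ 𝔐) := ZMod.algebra _ p
    have : IsScalarTower ℤ (ZMod p) (D ⧸ 𝔐) := IsScalarTower.of_algebraMap_eq' (RingHom.ext_int _ _)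
    have : Module.Finite (ZMod p) (D ⧸ 𝔐) := Module.Finite.of_restrictScalars_finite ℤ (ZMod p) _
    exact Module.finite_of_finite (ZMod p)
  rcases CharP.char_is_prime_or_zero (D ⧸ 𝔐) p with h | h
  · exact h
  · exfalso
    subst h
    have : CharZero (D ⧸ 𝔐) := CharP.charP_to_charZero _
    have : Algebra.IsIntegral ℤ (D ⧸ 𝔐) := inferInstance
    have hinj : Function.Injective (algebraMap ℤ (D ⧸ 𝔐)) := by
      intro a b hab
      simpa using hab
    have := isField_of_isIntegral_of_isField hinj (Field.toIsField (D ⧸ 𝔐))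
    exact Int.not_isField this

end Vale.Agent.P202.CZ
end

section

/-!
P202-MIX, part GEO (the core inequality for additive lengths): definitions.
-/

namespace Vale.Agent.P202.Mix

open Vale.Agent.P202.CharP
open scoped ENNReal

universe u

/-- additive length functions on the modules over a ring `R`. -/
structure AddLen (R : Type u) [CommRing R] where
  len : ∀ (M : Type u) [AddCommGroup M] [Module R M], ℝ≥0∞
  zero : len PUnit.{u + 1} = 0
  add : ∀ {M N K : Type u} [AddCommGroup M] [Module R M] [AddCommGroup N] [Module R N]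
    [AddCommGroup K] [Module R K] (f : M →ₗ[R] N) (g : N →ₗ[R] K),
    Function.Injective f → Function.Surjective g → Function.Exact f g →
    len N = len M + len K

namespace AddLen

variable {R : Type u} [CommRing R] (L : AddLen R) {M : Type u} [AddCommGroup M] [Module R M]

/-- relative length: the length of `Y / (X ∩ Y)`. -/
noncomputable def rl (X Y : Submodule R M) : ℝ≥0∞ := L.len (↥Y ⧸ X.submoduleOf Y)

/-- length of the homology of `Y / X` in degree `δ`. -/
noncomputable def hh (D : M →ₗ[R] M) (Y X : ℤ → Submodule R M) (δ : ℤ) : ℝ≥0∞ :=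
  L.rl (bb D Y X δ) (zz D Y X δ)

/-- length of the cohomology of `Y / X` in degree `p`. -/
noncomputable def hc (d : M →ₗ[R] M) (Y X : ℤ → Submodule R M) (p : ℤ) : ℝ≥0∞ :=
  L.rl (cb d Y X p) (cz d Y X p)

end AddLen

/-! ### bigraded families -/

section Bi

variable {R : Type u} [CommRing R] {V : Type u} [AddCommGroup V] [Module R V]

/-- total differential of two commuting differentials `d` (raising `p`) and `e` (lowering `i`),
on functions of `i`. -/
def totD (d e : V →ₗ[R] V) : (ℤ → V) →ₗ[R] (ℤ → V) where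
  toFun z i := (i.negOnePow : ℤ) • d (z i) + e (z (i + 1))
  map_add' z z' := by
    ext i
    simp only [Pi.add_apply, map_add, smul_add]
    abel
  map_smul' c z := by
    ext i
    simp only [Pi.smul_apply, map_smul, RingHom.id_apply, smul_add]
    rw [smul_comm]

/-- the part of total degree `δ = i - p` of a bigraded family. -/
def TT (X : ℤ → ℤ → Submodule R V) (δ : ℤ) : Submodule R (ℤ → V) :=
  Submodule.pi Set.univ fun i => X i (i - δ)

/-- stability under the two differentials. -/
structure BStab (d e : V →ₗ[R] V) (X : ℤ → ℤ → Submodule R V) : Prop where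
  hd : ∀ i p x, x ∈ X i p → d x ∈ X i (p + 1)
  he : ∀ i p x, x ∈ X i p → e x ∈ X (i - 1) p

/-- vanishing outside the box `0 ≤ i ≤ n`. -/
def BBox (n : ℕ) (X : ℤ → ℤ → Submodule R V) : Prop :=
  ∀ i p, (i < 0 ∨ (n : ℤ) < i) → X i p = ⊥

end Bi

/-! ### Koszul complexes of commuting operators, indexed by finite sets -/

section Kos

/-- sign of `l` in `J`. -/
def ksg {n : ℕ} (l : Fin n) (J : Finset (Fin n)) : ℤ := (-1) ^ (J.filter (· < l)).card

variable {R : Type u} [CommRing R] {V : Type u} [AddCommGroup V] [Module R V] {n : ℕ}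

/-- Koszul differential of the operators `T l`. -/
def kz (T : Fin n → V →ₗ[R] V) : (Finset (Fin n) → V) →ₗ[R] (Finset (Fin n) → V) where
  toFun v J := ∑ l ∈ Jᶜ, ksg l J • T l (v (insert l J))
  map_add' v w := by
    ext J
    simp [Finset.sum_add_distrib]
  map_smul' c v := by
    ext J
    simp only [Pi.smul_apply, map_smul, RingHom.id_apply, Finset.smul_sum]
    exact Finset.sum_congr rfl fun l _ => smul_comm _ _ _

/-- the degree `i` part of a Koszul complex. -/
def kgr (R : Type u) [CommRing R] (V : Type u) [AddCommGroup V] [Module R V] (n : ℕ) (i : ℤ) :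
    Submodule R (Finset (Fin n) → V) where
  carrier := {v | ∀ J, v J ≠ 0 → (J.card : ℤ) = i}
  add_mem' := by
    intro v w hv hw J h
    by_cases h1 : v J = 0
    · exact hw J (by intro h2; apply h; simp [h1, h2])
    · exact hv J h1
  zero_mem' := by intro J h; exact absurd rfl h
  smul_mem' := by
    intro c v hv J h
    exact hv J (by intro h1; apply h; simp [h1])

/-- Koszul cycles in degree `i`. -/
def kcyc (T : Fin n → V →ₗ[R] V) (i : ℤ) : Submodule R (Finset (Fin n) → V) :=
  kgr R V n i ⊓ LinearMap.ker (kz T)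

/-- a linear map acting componentwise. -/
def kmap {W : Type u} [AddCommGroup W] [Module R W] (n : ℕ) (f : V →ₗ[R] W) :
    (Finset (Fin n) → V) →ₗ[R] (Finset (Fin n) → W) :=
  LinearMap.pi fun J => f ∘ₗ LinearMap.proj J

end Kos

/-! ### representations by integer matrices -/

/-- the action of an integer matrix on functions with values in a module. -/
def za {α β : Type} [Fintype β] (A : Matrix α β ℤ) (R : Type u) [CommRing R] (M : Type u)
    [AddCommGroup M] [Module R M] : (β → M) →ₗ[R] (α → M) where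
  toFun f a := ∑ b, A a b • f b
  map_add' f g := by ext a; simp [Finset.sum_add_distrib]
  map_smul' c f := by
    ext a
    simp only [Pi.smul_apply, RingHom.id_apply, Finset.smul_sum]
    exact Finset.sum_congr rfl fun b _ => smul_comm _ _ _

/-- finitely generated free `ℤ`-modules with `n` endomorphisms, given by integer matrices. -/
structure MRep (n : ℕ) where
  ι : Type
  [fin : Fintype ι]
  [dec : DecidableEq ι]
  X : Fin n → Matrix ι ι ℤ

attribute [instance] MRep.fin MRep.dec

/-- the endomorphisms commute and all their `q`-fold products vanish. -/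
structure MRep.IsNil {n : ℕ} (W : MRep n) (q : ℕ) : Prop where
  comm : ∀ k l, W.X k * W.X l = W.X l * W.X k
  nil : ∀ f : Fin q → Fin n, (List.ofFn fun i => W.X (f i)).prod = 0

/-- surjections (automatically split over `ℤ`). -/
structure MRep.Surj {n : ℕ} (W W' : MRep n) where
  P : Matrix W'.ι W.ι ℤ
  σ : Matrix W.ι W'.ι ℤ
  split : P * σ = 1
  comm : ∀ l, P * W.X l = W'.X l * P

/-- the operators `X_l - x_l` on `W ⊗ Q`. -/
def MRep.T {n : ℕ} (W : MRep n) {R : Type u} [CommRing R] (Q : Type u) [AddCommGroup Q]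
    [Module R Q] (x : Fin n → R) (l : Fin n) : (W.ι → Q) →ₗ[R] (W.ι → Q) :=
  za (W.X l) R Q - x l • LinearMap.id

/-- length of the cokernel of the map induced on Koszul cycles. -/
noncomputable def cokerCyc {n : ℕ} {R : Type u} [CommRing R] (L : AddLen R) (Q : Type u)
    [AddCommGroup Q] [Module R Q] (x : Fin n → R) {W W' : MRep n} (f : W.Surj W') (i : ℤ) :
    ℝ≥0∞ :=
  L.rl ((kcyc (W.T Q x) i).map (kmap n (za f.P R Q))) (kcyc (W'.T Q x) i)

/-- cycles lift up to null modules, for all `q`-nilpotent representations. -/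
def CLnull {R : Type u} [CommRing R] (L : AddLen R) (n q : ℕ) (Q : Type u)
    [AddCommGroup Q] [Module R Q] (x : Fin n → R) : Prop :=
  ∀ (W W' : MRep n), W.IsNil q → W'.IsNil q → ∀ (f : W.Surj W') (i : ℤ),
    cokerCyc L Q x f i = 0

/-! ### complexes of representations -/

/-- cochain complexes of representations (data). -/
structure MCx (n : ℕ) where
  W : ℕ → MRep n
  D : ∀ p, Matrix (W (p + 1)).ι (W p).ι ℤ

/-- the conditions on a complex of representations. -/
structure MCx.IsCx {n : ℕ} (C : MCx n) (q : ℕ) : Prop where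
  nil : ∀ p, (C.W p).IsNil q
  dd : ∀ p, C.D (p + 1) * C.D p = 0
  comm : ∀ p l, C.D p * (C.W p).X l = (C.W (p + 1)).X l * C.D p

/-- exactness in degree `p` with arbitrary coefficients. -/
def MCx.ExAt {n : ℕ} (C : MCx n) : ℕ → Prop
  | 0 => ∀ (M : Type) [AddCommGroup M] (f : (C.W 0).ι → M), za (C.D 0) ℤ M f = 0 → f = 0
  | p + 1 => ∀ (M : Type) [AddCommGroup M] (f : (C.W (p + 1)).ι → M),
      za (C.D (p + 1)) ℤ M f = 0 → ∃ g, za (C.D p) ℤ M g = f

/-- Koszul boundaries in degree `i`. -/
def kbd {R : Type u} [CommRing R] {V : Type u} [AddCommGroup V] [Module R V] {n : ℕ}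
    (T : Fin n → V →ₗ[R] V) (i : ℤ) : Submodule R (Finset (Fin n) → V) :=
  (kgr R V n (i + 1)).map (kz T)

end Vale.Agent.P202.Mix
end

section

/-!
P202-MIX, TASK GEO-A1: additive lengths and relative lengths.
-/

namespace Vale.Agent.P202.Mix

open Vale.Agent.P202.CharP
open scoped ENNReal

universe u

section LenBasic

variable {R : Type u} [CommRing R] (L : AddLen R) {M N K : Type u} [AddCommGroup M] [Module R M]
  [AddCommGroup N] [Module R N] [AddCommGroup K] [Module R K]

theorem len_congr (e : M ≃ₗ[R] N) : L.len M = L.len N := by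
  have h := L.add (e : M →ₗ[R] N) (0 : N →ₗ[R] PUnit.{u + 1}) e.injective
    (fun y => ⟨0, Subsingleton.elim _ _⟩)
    (fun y => ⟨fun _ => ⟨e.symm y, by simp⟩, fun _ => Subsingleton.elim _ _⟩)
  rw [L.zero, add_zero] at h
  exact h.symm

theorem len_sub_quot (X : Submodule R M) : L.len M = L.len X + L.len (M ⧸ X) := by
  refine L.add X.subtype X.mkQ X.injective_subtype X.mkQ_surjective ?_
  rw [LinearMap.exact_iff, Submodule.ker_mkQ, Submodule.range_subtype]

theorem len_prod_aux : L.len (M × N) = L.len M + L.len N :=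
  L.add (LinearMap.inl R M N) (LinearMap.snd R M N) LinearMap.inl_injective
    LinearMap.snd_surjective Function.Exact.inl_snd

theorem len_subsingleton_aux [Subsingleton M] : L.len M = 0 := by
  rw [← L.zero]
  refine len_congr L (N := PUnit.{u + 1}) ?_
  exact LinearEquiv.ofSubsingleton M PUnit.{u + 1}

theorem len_pi_aux (ι : Type) [Fintype ι] :
    ∀ (P : ι → Type u) [∀ i, AddCommGroup (P i)] [∀ i, Module R (P i)],
      L.len (∀ i, P i) = ∑ i, L.len (P i) := by
  refine Fintype.induction_empty_option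
    (P := fun (α : Type) [Fintype α] => ∀ (P : α → Type u) [∀ i, AddCommGroup (P i)]
      [∀ i, Module R (P i)], L.len (∀ i, P i) = ∑ i, L.len (P i)) ?_ ?_ ?_ ι
  · intro α β _ e h P _ _
    let _ := Fintype.ofEquiv β e.symm
    have h1 := h fun a => P (e a)
    rw [← len_congr L (LinearEquiv.piCongrLeft R P e), h1]
    exact Fintype.sum_equiv e _ _ fun x => rfl
  · intro P _ _
    rw [len_subsingleton_aux L]
    simp
  · intro α _ h P _ _
    rw [len_congr L (LinearEquiv.piOptionEquivProd R), len_prod_aux, h, Fintype.sum_option]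

theorem len_pi (ι : Type) [Fintype ι] : L.len (ι → M) = Fintype.card ι * L.len M := by
  rw [len_pi_aux L ι (fun _ => M)]
  simp

/-- the length of a quotient computed by a linear map out of `Y`. -/
theorem rl_eq_len_aux {Q : Type u} [AddCommGroup Q] [Module R Q] {X Y : Submodule R M}
    (f : Y →ₗ[R] Q) (hf : Function.Surjective f) (hk : LinearMap.ker f = X.submoduleOf Y) :
    L.rl X Y = L.len Q := by
  rw [AddLen.rl, ← hk]
  exact len_congr L (f.quotKerEquivOfSurjective hf)

theorem rl_eq_zero_of_le {X Y : Submodule R M} (h : Y ≤ X) : L.rl X Y = 0 := by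
  rw [rl_eq_len_aux L (0 : Y →ₗ[R] PUnit.{u + 1}) (fun y => ⟨0, Subsingleton.elim _ _⟩), L.zero]
  rw [LinearMap.ker_zero, eq_comm, Submodule.submoduleOf_eq_top]
  exact h

theorem rl_bot (Y : Submodule R M) : L.rl ⊥ Y = L.len Y := by
  refine len_congr L (Submodule.quotEquivOfEqBot _ ?_)
  simp [Submodule.submoduleOf]

theorem rl_top (X : Submodule R M) : L.rl X ⊤ = L.len (M ⧸ X) := by
  refine len_congr L (Submodule.Quotient.equiv _ _ Submodule.topEquiv ?_)
  ext x
  simp [Submodule.submoduleOf]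

theorem rl_inf_left (X Y : Submodule R M) : L.rl (X ⊓ Y) Y = L.rl X Y := by
  have : (X ⊓ Y).submoduleOf Y = X.submoduleOf Y := by
    ext x; simp [Submodule.submoduleOf]
  rw [AddLen.rl, AddLen.rl, this]

theorem rl_sup_right (X Y : Submodule R M) : L.rl X (X ⊔ Y) = L.rl X Y := by
  have h := LinearMap.quotientInfEquivSupQuotient Y X
  have e1 : (Submodule.comap Y.subtype Y ⊓ Submodule.comap Y.subtype X) = X.submoduleOf Y := by
    ext x; simp [Submodule.submoduleOf]
  rw [sup_comm, AddLen.rl, AddLen.rl]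
  have := len_congr L h
  rw [e1] at this
  exact this.symm

theorem rl_add {X Y Z : Submodule R M} (h1 : X ≤ Y) (h2 : Y ≤ Z) :
    L.rl X Z = L.rl X Y + L.rl Y Z := by
  let f : (↥Y ⧸ X.submoduleOf Y) →ₗ[R] (↥Z ⧸ X.submoduleOf Z) :=
    Submodule.mapQ _ _ (Submodule.inclusion h2) (by intro x hx; exact hx)
  let g : (↥Z ⧸ X.submoduleOf Z) →ₗ[R] (↥Z ⧸ Y.submoduleOf Z) :=
    Submodule.factor (by intro x hx; exact h1 hx)
  refine L.add f g ?_ (Submodule.factor_surjective _) ?_
  · rw [injective_iff_map_eq_zero]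
    intro z
    obtain ⟨z, rfl⟩ := Submodule.Quotient.mk_surjective _ z
    intro hz
    have hz' : (Submodule.Quotient.mk (Submodule.inclusion h2 z) : ↥Z ⧸ X.submoduleOf Z) = 0 := hz
    rw [Submodule.Quotient.mk_eq_zero] at hz' ⊢
    exact hz'
  · rw [LinearMap.exact_iff]
    ext z
    obtain ⟨z, rfl⟩ := Submodule.Quotient.mk_surjective _ z
    constructor
    · intro hz
      have hz' : z ∈ Y.submoduleOf Z := by
        have : (Submodule.Quotient.mk z : ↥Z ⧸ Y.submoduleOf Z) = 0 := hz
        exact (Submodule.Quotient.mk_eq_zero _).mp this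
      exact ⟨Submodule.Quotient.mk ⟨z.1, hz'⟩, rfl⟩
    · rintro ⟨c, hc⟩
      obtain ⟨c, rfl⟩ := Submodule.Quotient.mk_surjective _ c
      rw [← hc]
      change (Submodule.Quotient.mk (Submodule.inclusion h2 c) : ↥Z ⧸ Y.submoduleOf Z) = 0
      rw [Submodule.Quotient.mk_eq_zero]
      exact c.2

theorem rl_mono_right {X Y Y' : Submodule R M} (h : Y ≤ Y') : L.rl X Y ≤ L.rl X Y' := by
  rw [← rl_sup_right L X Y, ← rl_sup_right L X Y',
    rl_add L (X := X) (Y := X ⊔ Y) (Z := X ⊔ Y') le_sup_left (sup_le_sup_left h X)]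
  exact le_self_add

theorem rl_anti_left {X X' Y : Submodule R M} (h : X ≤ X') : L.rl X' Y ≤ L.rl X Y := by
  rw [← rl_inf_left L X Y, ← rl_inf_left L X' Y,
    rl_add L (inf_le_inf_right Y h) (inf_le_right : X' ⊓ Y ≤ Y)]
  exact le_add_self

theorem rl_map (f : M →ₗ[R] N) (X Y : Submodule R M) :
    L.rl (X.map f) (Y.map f) = L.rl (X ⊔ LinearMap.ker f) Y := by
  symm
  let g : Y →ₗ[R] (↥(Y.map f) ⧸ (X.map f).submoduleOf (Y.map f)) :=
    (Submodule.mkQ _).comp (f.submoduleMap Y)
  refine rl_eq_len_aux L g ?_ ?_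
  · exact (Submodule.mkQ_surjective _).comp (f.submoduleMap_surjective Y)
  · ext x
    have h1 : x ∈ LinearMap.ker g ↔ f x ∈ X.map f := by
      rw [LinearMap.mem_ker]
      change Submodule.Quotient.mk (f.submoduleMap Y x) = _ ↔ _
      rw [Submodule.Quotient.mk_eq_zero]
      exact Iff.rfl
    have h2 : x ∈ (X ⊔ LinearMap.ker f).submoduleOf Y ↔ x.1 ∈ X ⊔ LinearMap.ker f := Iff.rfl
    rw [h1, h2, ← Submodule.comap_map_eq, Submodule.mem_comap]

theorem rl_comap (f : M →ₗ[R] N) (X Y : Submodule R N) :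
    L.rl (X.comap f) (Y.comap f) = L.rl X (Y ⊓ LinearMap.range f) := by
  have hk : LinearMap.ker f ≤ X.comap f := fun x hx => by
    rw [Submodule.mem_comap, LinearMap.mem_ker.mp hx]; exact X.zero_mem
  have h := rl_map L f (X.comap f) (Y.comap f)
  rw [Submodule.map_comap_eq, Submodule.map_comap_eq, inf_comm _ X, inf_comm _ Y,
    sup_of_le_left hk] at h
  rw [← h, ← rl_inf_left L (X ⊓ _), ← rl_inf_left L X]
  congr 1
  ext x
  simp only [Submodule.mem_inf]
  tauto

/-- relative length of families of submodules on a finite index set. -/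
theorem rl_pi {ι : Type} [Fintype ι] (X Y : ι → Submodule R M) :
    L.rl (Submodule.pi Set.univ X) (Submodule.pi Set.univ Y) = ∑ i, L.rl (X i) (Y i) := by
  let c : ∀ i, ↥(Submodule.pi Set.univ Y) →ₗ[R] ↥(Y i) := fun i =>
    LinearMap.codRestrict (Y i) ((LinearMap.proj i).comp (Submodule.pi Set.univ Y).subtype)
      (fun x => x.2 i trivial)
  let g : ↥(Submodule.pi Set.univ Y) →ₗ[R] (∀ i, ↥(Y i) ⧸ (X i).submoduleOf (Y i)) :=
    LinearMap.pi fun i => (Submodule.mkQ _).comp (c i)
  rw [rl_eq_len_aux L g ?_ ?_, len_pi_aux L ι]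
  · rfl
  · intro y
    choose z hz using fun i => Submodule.mkQ_surjective _ (y i)
    refine ⟨⟨fun i => (z i : M), fun i _ => (z i).2⟩, ?_⟩
    funext i
    exact hz i
  · ext x
    rw [LinearMap.mem_ker]
    have h2 : x ∈ (Submodule.pi Set.univ X).submoduleOf (Submodule.pi Set.univ Y) ↔
        ∀ i, x.1 i ∈ X i :=
      ⟨fun h i => h i trivial, fun h i _ => h i⟩
    rw [h2]
    constructor
    · intro h i
      have h3 : (Submodule.Quotient.mk (c i x) : ↥(Y i) ⧸ (X i).submoduleOf (Y i)) = 0 :=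
        congrFun h i
      rw [Submodule.Quotient.mk_eq_zero] at h3
      exact h3
    · intro h
      funext i
      change (Submodule.Quotient.mk (c i x) : ↥(Y i) ⧸ (X i).submoduleOf (Y i)) = 0
      rw [Submodule.Quotient.mk_eq_zero]
      exact h i

end LenBasic

end Vale.Agent.P202.Mix
end

section

/-!
P202-CHARP: base change of submodules along a flat algebra.
-/

namespace Vale.Agent.P202.CharP

open Submodule TensorProduct IsLocalRing

section B

variable {A : Type*} [CommRing A] {V : Type*} [AddCommGroup V] [Module A V]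
  (S : Type*) [CommRing S] [Algebra A S]

theorem baseChange_sup' (X Y : Submodule A V) :
    (X ⊔ Y).baseChange S = X.baseChange S ⊔ Y.baseChange S := by
  refine le_antisymm ?_
    (sup_le (baseChange_mono S le_sup_left) (baseChange_mono S le_sup_right))
  rw [Submodule.baseChange_eq_span S (X ⊔ Y), span_le]
  rintro _ ⟨v, hv, rfl⟩
  obtain ⟨x, hx, y, hy, rfl⟩ := Submodule.mem_sup.1 hv
  simp only [TensorProduct.mk_apply, TensorProduct.tmul_add, SetLike.mem_coe]
  exact Submodule.add_mem _ (mem_sup_left (tmul_mem_baseChange_of_mem _ hx))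
    (mem_sup_right (tmul_mem_baseChange_of_mem _ hy))

theorem baseChange_map {V' : Type*} [AddCommGroup V'] [Module A V'] (f : V →ₗ[A] V')
    (X : Submodule A V) : (X.map f).baseChange S = (X.baseChange S).map (f.baseChange S) := by
  refine le_antisymm ?_ ?_
  · rw [Submodule.baseChange_eq_span S (X.map f), span_le]
    rintro _ ⟨_, ⟨x, hx, rfl⟩, rfl⟩
    exact ⟨1 ⊗ₜ x, tmul_mem_baseChange_of_mem _ hx, by simp⟩
  · rw [Submodule.map_le_iff_le_comap, Submodule.baseChange_eq_span S X, span_le]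
    rintro _ ⟨x, hx, rfl⟩
    simp only [TensorProduct.mk_apply, SetLike.mem_coe, mem_comap, LinearMap.baseChange_tmul]
    exact tmul_mem_baseChange_of_mem _ ⟨x, hx, rfl⟩

theorem ker_baseChange [Module.Flat A S] {V' : Type*} [AddCommGroup V'] [Module A V']
    (f : V →ₗ[A] V') :
    LinearMap.ker (f.baseChange S) = (LinearMap.ker f).baseChange S :=
  Module.Flat.ker_lTensor_eq S S f

theorem baseChange_comap [Module.Flat A S] {V' : Type*} [AddCommGroup V'] [Module A V']
    (f : V →ₗ[A] V') (X : Submodule A V') :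
    (X.comap f).baseChange S = (X.baseChange S).comap (f.baseChange S) := by
  have h1 : X.comap f = LinearMap.ker (X.mkQ ∘ₗ f) := by
    rw [LinearMap.ker_comp, Submodule.ker_mkQ]
  rw [h1, ← ker_baseChange, LinearMap.baseChange_comp, LinearMap.ker_comp, ker_baseChange,
    Submodule.ker_mkQ]

theorem baseChange_inf [Module.Flat A S] (X Y : Submodule A V) :
    (X ⊓ Y).baseChange S = X.baseChange S ⊓ Y.baseChange S := by
  have h1 : X ⊓ Y = (Y.comap X.subtype).map X.subtype := by
    rw [Submodule.map_comap_eq, Submodule.range_subtype]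
  rw [h1, baseChange_map, baseChange_comap, Submodule.map_comap_eq]
  rfl

theorem cz_bcf [Module.Flat A S] (d : V →ₗ[A] V) (Y X : ℤ → Submodule A V) (p : ℤ) :
    cz (d.baseChange S) (bcf S Y) (bcf S X) p = (cz d Y X p).baseChange S := by
  rw [cz, cz, bcf, bcf, baseChange_inf, baseChange_comap]

theorem cb_bcf (d : V →ₗ[A] V) (Y X : ℤ → Submodule A V) (p : ℤ) :
    cb (d.baseChange S) (bcf S Y) (bcf S X) p = (cb d Y X p).baseChange S := by
  rw [cb, cb, bcf, bcf, baseChange_sup', baseChange_map]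

/-- a module of length `w` killed by a maximal ideal is `(A ⧸ m)^w`. -/
theorem exists_equiv_pi {N : Type*} [AddCommGroup N] [Module A N] (m : Ideal A) [m.IsMaximal]
    (hm : ∀ a ∈ m, ∀ x : N, a • x = 0) (w : ℕ) (hw : Module.length A N = w) :
    Nonempty (N ≃ₗ[A] (Fin w → A ⧸ m)) := by
  let _ : Field (A ⧸ m) := Ideal.Quotient.field m
  have htor : Module.IsTorsionBySet A N m := fun x r => hm r.1 r.2 x
  let _ : Module (A ⧸ m) N := htor.module
  have : IsScalarTower A (A ⧸ m) N := htor.isScalarTower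
  have h1 : Module.length (A ⧸ m) N = w := by
    rw [← hw]
    exact (Module.length_eq_of_surjective (S := A) (R := A ⧸ m) (M := N)
      Ideal.Quotient.mk_surjective).symm
  have hfin : Module.Finite (A ⧸ m) N := by
    rw [Module.length_eq_rank] at h1
    rw [← Module.rank_lt_aleph0_iff, ← Cardinal.toENat_lt_top, h1]
    exact WithTop.coe_lt_top w
  rw [Module.length_eq_finrank] at h1
  have h2 : Module.finrank (A ⧸ m) N = w := by exact_mod_cast h1
  let e := (Module.finBasisOfFinrankEq (A ⧸ m) N h2).equivFun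
  exact ⟨e.restrictScalars A⟩

variable {ι : Type*} [Fintype ι]

theorem khs_baseChange [IsLocalRing A] [Module.Flat A S] (deg : ι → ℤ) (Q : Matrix ι ι S)
    (hQ : IsCx deg Q) (X Y : Submodule A V) (hXY : X ≤ Y) (hm : maximalIdeal A • Y ≤ X) (w : ℕ)
    (hw : rl X Y = w) (i : ℤ) :
    khs deg Q (Y.baseChange S) (X.baseChange S) i =
      (w : ℕ∞) * kh deg Q (S ⧸ (maximalIdeal A).map (algebraMap A S)) i := by
  rw [khs_eq_kh deg Q hQ _ _ (baseChange_mono S hXY), ← kh_pi]
  obtain ⟨g0⟩ := exists_equiv_pi (N := ↥Y ⧸ X.submoduleOf Y) (maximalIdeal A) (by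
    intro a ha x
    obtain ⟨x, rfl⟩ := Submodule.Quotient.mk_surjective _ x
    rw [← Submodule.Quotient.mk_smul, Submodule.Quotient.mk_eq_zero]
    exact hm (Submodule.smul_mem_smul ha x.2)) w hw
  let g : Y →ₗ[A] (Fin w → A ⧸ maximalIdeal A) := g0.toLinearMap ∘ₗ (X.submoduleOf Y).mkQ
  have hg : LinearMap.ker g = X.submoduleOf Y := by
    rw [LinearMap.ker_comp, LinearEquiv.ker, Submodule.comap_bot, Submodule.ker_mkQ]
  have hgs : Function.Surjective g := g0.surjective.comp (Submodule.mkQ_surjective _)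
  have hinj : Function.Injective (Y.subtype.baseChange S) :=
    Module.Flat.lTensor_preserves_injective_linearMap Y.subtype Y.injective_subtype
  let e1 : (S ⊗[A] Y) ≃ₗ[S] Y.baseChange S :=
    LinearEquiv.ofInjective (Y.subtype.baseChange S) hinj
  let e2 : (S ⊗[A] (Fin w → A ⧸ maximalIdeal A)) ≃ₗ[S] (Fin w → S ⊗[A] (A ⧸ maximalIdeal A)) :=
    TensorProduct.piRight A S S (fun _ => A ⧸ maximalIdeal A)
  let e3 : (Fin w → S ⊗[A] (A ⧸ maximalIdeal A)) ≃ₗ[S]
      (Fin w → S ⧸ (maximalIdeal A).map (algebraMap A S)) :=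
    LinearEquiv.piCongrRight fun _ =>
      (Algebra.TensorProduct.quotIdealMapEquivTensorQuot S (maximalIdeal A)).toLinearEquiv.symm
  let F : Y.baseChange S →ₗ[S] (Fin w → S ⧸ (maximalIdeal A).map (algebraMap A S)) :=
    (e3.toLinearMap ∘ₗ e2.toLinearMap) ∘ₗ (g.baseChange S) ∘ₗ e1.symm.toLinearMap
  have hFs : Function.Surjective F := by
    have h0 : Function.Surjective (g.baseChange S) := LinearMap.lTensor_surjective S hgs
    exact (e3.surjective.comp e2.surjective).comp (h0.comp e1.symm.surjective)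
  have hF : LinearMap.ker F = (X.baseChange S).submoduleOf (Y.baseChange S) := by
    ext y
    obtain ⟨t, rfl⟩ := e1.surjective y
    have h1 : F (e1 t) = e3 (e2 (g.baseChange S t)) := by
      simp [F]
    rw [LinearMap.mem_ker, h1, LinearEquiv.map_eq_zero_iff, LinearEquiv.map_eq_zero_iff,
      ← LinearMap.mem_ker, ker_baseChange, hg]
    have h2 : (X.submoduleOf Y).baseChange S = (X.baseChange S).comap (Y.subtype.baseChange S) :=
      baseChange_comap S Y.subtype X
    rw [h2]
    rfl
  exact kh_congr deg Q ((Submodule.quotEquivOfEq _ _ hF.symm).trans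
    (F.quotKerEquivOfSurjective hFs)) i

end B

end Vale.Agent.P202.CharP
end

section

/-!
P202-GEN, definitions: lengths of cohomology, Euler characteristics, truncated families, the
décalage family.
-/

namespace Vale.Agent.P202.CharP.Gen

open Submodule TensorProduct IsLocalRing

section Hom

variable {S 𝕋 : Type*} [CommRing S] [AddCommGroup 𝕋] [Module S 𝕋]

/-- length of the cohomology of `Y / X` in degree `p`. -/
noncomputable def hc (d : 𝕋 →ₗ[S] 𝕋) (Y X : ℤ → Submodule S 𝕋) (p : ℤ) : ℕ∞ :=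
  rl (cb d Y X p) (cz d Y X p)

/-- two-sided Euler characteristic. -/
noncomputable def xi (n : ℕ) (f : ℤ → ℕ∞) : ℤ :=
  ∑ δ ∈ Finset.Icc (-(n : ℤ)) n, (δ.negOnePow : ℤ) * ((f δ).toNat : ℤ)

/-- Euler characteristic, cohomological degrees in `[-c, n)`. -/
noncomputable def xic (c n : ℕ) (f : ℤ → ℕ∞) : ℤ :=
  ∑ p ∈ Finset.Ico (-(c : ℤ)) n, (p.negOnePow : ℤ) * ((f p).toNat : ℤ)

end Hom

section Trunc

variable {A : Type*} [CommRing A] {V : Type*} [AddCommGroup V] [Module A V]
  (S : Type*) [CommRing S] [Algebra A S] {ι : Type*} [Fintype ι]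

/-- the truncated family: the part of `Q ⊗ (Y / X)` formed with the canonical truncation
`τ_{≥ j+1}` of `Q`. -/
def TG (deg : ι → ℤ) (Q : Matrix ι ι S) (j : ℤ) (Y X : ℤ → Submodule A V) (δ : ℤ) :
    Submodule S (ι → S ⊗[A] V) :=
  lift deg (bcf S Y) δ ⊓
    (Submodule.pi Set.univ (fun a => if deg a ≤ j then bcf S X (deg a - δ) else ⊤) ⊓
      (Submodule.pi Set.univ
        (fun a => if deg a ≤ j then bcf S X (deg a - δ + 1) else ⊤)).comap (act Q (S ⊗[A] V)))

/-- the décalage subcomplex of a chain of families. -/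
def GG (deg : ι → ℤ) (Q : Matrix ι ι S) (W : ℕ → ℤ → Submodule A V) (δ : ℤ) :
    Submodule S (ι → S ⊗[A] V) :=
  Submodule.pi Set.univ (fun a => bcf S (W (deg a).toNat) (deg a - δ)) ⊓
    (Submodule.pi Set.univ
      (fun a => bcf S (W (deg a).toNat) (deg a - δ + 1))).comap (act Q (S ⊗[A] V))

end Trunc

end Vale.Agent.P202.CharP.Gen
end

section

/-!
P202-CHARP, L3: pushing down acyclicity from the union of the chain.
-/

namespace Vale.Agent.P202.CharP

open Submodule TensorProduct IsLocalRing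

section L

variable {S 𝕋 : Type*} [CommRing S] [AddCommGroup 𝕋] [Module S 𝕋]

lemma hh_eq_zero_iff {D : 𝕋 →ₗ[S] 𝕋} {Y X : ℤ → Submodule S 𝕋} {δ : ℤ} :
    hh D Y X δ = 0 ↔ ∀ z ∈ Y δ, D z ∈ X (δ - 1) → ∃ w ∈ Y (δ + 1), z - D w ∈ X δ := by
  unfold hh
  rw [rl_eq_zero_iff]
  constructor
  · intro h z hz hDz
    have h1 : z ∈ bb D Y X δ := h ⟨hz, hDz⟩
    obtain ⟨a, ⟨w, hw, rfl⟩, b, hb, hab⟩ := Submodule.mem_sup.1 h1
    refine ⟨w, hw, ?_⟩
    rw [← hab, add_sub_cancel_left]
    exact hb
  · rintro h z ⟨hz, hDz⟩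
    obtain ⟨w, hw, hb⟩ := h z hz hDz
    exact Submodule.mem_sup.2 ⟨D w, ⟨w, hw, rfl⟩, z - D w, hb, by abel⟩

end L

end Vale.Agent.P202.CharP
end

section

/-!
Acyclicity of total complexes from null-homotopic endomorphisms that are bijective.
-/

namespace Vale.Agent.P202.CharP

open Submodule

section

variable {S : Type*} [CommRing S] {M : Type*} [AddCommGroup M] [Module S M]

end

end Vale.Agent.P202.CharP
end

section

/-!
P202-G3, definitions for the homological core.
-/

namespace Vale.Agent.P202.CharP.Gen2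

open Submodule TensorProduct

/-- the homology of `Q ⊗ (Y / X)` is, up to the error `ε`, that of a module of multiplicity
`lam` times the length of `Y / X` with Betti numbers `t`; `c` is a normalization of the length. -/
def Est {P : Type*} [CommRing P] {V : Type*} [AddCommGroup V] [Module P V]
    (S : Type*) [CommRing S] [Algebra P S] {ι : Type*} [Fintype ι] (deg : ι → ℤ)
    (Q : Matrix ι ι S) (c lam : ℕ) (t : ℤ → ℕ) (ε : ℕ) (X₀ Y₀ : Submodule P V) : Prop :=
  rl X₀ Y₀ ≠ ⊤ ∧ ∀ X Y : Submodule P V, X₀ ≤ X → X ≤ Y → Y ≤ Y₀ → ∀ i : ℤ,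
    khs deg Q (Y.baseChange S) (X.baseChange S) i ≠ ⊤ ∧
    |(c : ℤ) * ((khs deg Q (Y.baseChange S) (X.baseChange S) i).toNat : ℤ) -
      (lam : ℤ) * ((rl X Y).toNat : ℤ) * (t i : ℤ)| ≤ (ε : ℤ)

end Vale.Agent.P202.CharP.Gen2
end

section

/-!
P202-GEN-4: truncated families, stability and the lifting lemma.
-/

set_option linter.all false

namespace Vale.Agent.P202.CharP.Gen

open Submodule TensorProduct IsLocalRing

section TGsec

variable {A : Type*} [CommRing A] {V : Type*} [AddCommGroup V] [Module A V]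
  (S : Type*) [CommRing S] [Algebra A S] {ι : Type*} [Fintype ι]

theorem mem_tg (deg : ι → ℤ) (Q : Matrix ι ι S) (j : ℤ) (Y X : ℤ → Submodule A V) (δ : ℤ)
    (f : ι → S ⊗[A] V) : f ∈ TG S deg Q j Y X δ ↔ (∀ a, f a ∈ bcf S Y (deg a - δ)) ∧
      (∀ a, deg a ≤ j → f a ∈ bcf S X (deg a - δ)) ∧
      ∀ a, deg a ≤ j → act Q (S ⊗[A] V) f a ∈ bcf S X (deg a - δ + 1) := by
  rw [TG, Submodule.mem_inf, Submodule.mem_inf, mem_lift, Submodule.mem_pi, Submodule.mem_comap,
    Submodule.mem_pi]
  refine and_congr Iff.rfl (and_congr ?_ ?_)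
  · refine forall_congr' fun a => ?_
    by_cases h : deg a ≤ j <;> simp [h]
  · refine forall_congr' fun a => ?_
    by_cases h : deg a ≤ j <;> simp [h]

theorem bcf_mono {X Y : ℤ → Submodule A V} (h : ∀ p, X p ≤ Y p) (p : ℤ) :
    bcf S X p ≤ bcf S Y p := baseChange_mono S (h p)

theorem bcf_cstab (d : V →ₗ[A] V) {X : ℤ → Submodule A V} (hX : CStab d X) :
    CStab (d.baseChange S) (bcf S X) := by
  intro p x hx
  have h1 : (X p).map d ≤ X (p + 1) := by
    rintro _ ⟨y, hy, rfl⟩
    exact hX p y hy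
  have h2 := baseChange_mono S h1
  rw [baseChange_map] at h2
  exact h2 ⟨x, hx, rfl⟩

/-- `Q f` at `a` only involves degree `deg a + 1`. -/
theorem act_mem_of_deg {M : Type*} [AddCommGroup M] [Module S M] (deg : ι → ℤ)
    (Q : Matrix ι ι S) (hQ : IsCx deg Q) (f : ι → M) (a : ι) (P : Submodule S M)
    (h : ∀ b, deg b = deg a + 1 → f b ∈ P) : act Q M f a ∈ P := by
  rw [act_apply]
  refine P.sum_mem fun b _ => ?_
  by_cases hb : Q a b = 0
  · simp [hb]
  · exact P.smul_mem _ (h b (hQ.deg_eq a b hb))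

theorem act_act {M : Type*} [AddCommGroup M] [Module S M] (deg : ι → ℤ)
    (Q : Matrix ι ι S) (hQ : IsCx deg Q) (f : ι → M) : act Q M (act Q M f) = 0 := by
  rw [← act_mul, hQ.sq, act_zero]

/-- `Q (± d f) = - (± d (Q f))`. -/
theorem act_sign {M : Type*} [AddCommGroup M] [Module S M] (deg : ι → ℤ)
    (Q : Matrix ι ι S) (hQ : IsCx deg Q) (d : M →ₗ[S] M) (f : ι → M) (a : ι) :
    act Q M (fun b => ((deg b).negOnePow : ℤ) • d (f b)) a =
      -(((deg a).negOnePow : ℤ) • d (act Q M f a)) := by
  have h2 : ∀ b, Q a b • (((deg b).negOnePow : ℤ) • d (f b)) =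
      -(((deg a).negOnePow : ℤ) • (Q a b • d (f b))) := by
    intro b
    by_cases hb : Q a b = 0
    · simp [hb]
    · rw [hQ.deg_eq a b hb, negOnePow_succ', neg_smul, smul_neg, smul_comm]
  rw [act_apply, act_apply, Finset.sum_congr rfl (fun b _ => h2 b), Finset.sum_neg_distrib,
    map_sum, Finset.smul_sum]
  simp only [map_smul]

end TGsec

section TGmain

variable {A : Type*} [CommRing A] [IsLocalRing A] {V : Type*} [AddCommGroup V] [Module A V]
  (S : Type*) [CommRing S] [Algebra A S] [Module.Flat A S] {ι : Type*} [Fintype ι]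

end TGmain

end Vale.Agent.P202.CharP.Gen
end
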