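import Vale.Agent.P202.MathlibUsed
attribute [-instance] SemiRingCat.instSemiringObjForgetRingHomCarrier DenselyNormedField.toNontriviallyNormedField DenselyNormedField.toNormedField NontriviallyNormedField.toNormedField RCLike.toDenselyNormedField NormedField.toField IdemCommSemiring.toIdemSemiring KleeneAlgebra.toIdemSemiring NormedField.toNormedDivisionRing IdemSemiring.toSemiring NormedDivisionRing.toDivisionRing IdemCommSemiring.toCommSemiring CommSemiRingCat.instCommSemiringObjForgetRingHomCarrier AbsoluteValue.funLike AddMonCat.addMonoidObj TopologicalSpace.Compacts.instSetLike SemimoduleCat.isAddCommMonoid instCoeT Pi.preorder NormedField.toNormedCommRing NormedCommRing.toNormedRing NormedDivisionRing.toNormedRing Pi.seminormedAddCommGroup NormedCommRing.toSeminormedCommRing LinearOrderedAddCommGroupWithTop.instLinearOrderedAddCommMonoidWithTop NormedRing.toSeminormedRing SeminormedCommRing.toSeminormedRing EuclideanDomain.toCommRing NormedCommRing.toCommRing SeminormedCommRing.toCommRing Pi.instZero instCoeTOfCoeDep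 NormedRing.toRing SeminormedRing.toRing LinearOrderedAddCommGroupWithTop.toAddCommMonoid NormedCommRing.toNonUnitalNormedCommRing NonUnitalNormedCommRing.toNonUnitalNormedRing NormedRing.toNonUnitalNormedRing ModuleCat.isModule MonCat.monoidObj NonUnitalNormedRing.toNormedAddCommGroup NonUnitalNormedCommRing.toNonUnitalSeminormedCommRing SeminormedCommRing.toNonUnitalSeminormedCommRing NonUnitalNormedRing.toNonUnitalSeminormedRing NonUnitalSeminormedCommRing.toNonUnitalSeminormedRing SeminormedRing.toNonUnitalSeminormedRing Pi.partialOrder Filter.instMembership PerfectClosure.instField NormedCommGroup.toNormedGroup LinearOrderedCommGroupWithZero.toLinearOrderedCommMonoidWithZero NonUnitalSeminormedRing.toSeminormedAddCommGroup NormedAddCommGroup.toSeminormedAddCommGroup NormedCommGroup.toSeminormedCommGroup instCoeHTC instCoeHTCT NormedGroup.toSeminormedGroup SeminormedCommGroup.toSeminormedGroup LieRing.toAddCommGroup instNonUnitalAlgHomClassOfNonUnitalAlgEquivClass Pi.mulZeroOneClass Pi.addZeroClass NonUnitalNormedCommRing.toNonUnitalCommRing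 NonUnitalSeminormedCommRing.toNonUnitalCommRing CommMonCat.str NormedAddCommGroup.toNormedAddGroup NonUnitalNormedRing.toNonUnitalRing NonUnitalSeminormedRing.toNonUnitalRing Ring.toNonUnitalRing CommSemiring.toNonAssocCommSemiring NonAssocCommRing.toNonAssocCommSemiring NonAssocCommSemiring.toNonAssocSemiring CompleteLinearOrder.toConditionallyCompleteLinearOrderBot NonAssocCommRing.toNonUnitalNonAssocCommRing ConditionallyCompleteLinearOrderBot.toConditionallyCompleteLinearOrder NonAssocRing.toNonUnitalNonAssocRing NonUnitalRing.toNonUnitalNonAssocRing CompleteAtomicBooleanAlgebra.toCompletelyDistribLattice CompleteBooleanAlgebra.toBooleanAlgebra CompleteBooleanAlgebra.toCompleteDistribLattice CompletelyDistribLattice.toCompleteDistribLattice CommRing.toAddCommGroupWithOne NonAssocRing.toAddCommGroupWithOne instCoeTC instCoeTCOfCoe PerfectClosure.instDivisionRing BooleanAlgebra.toBiheytingAlgebra CompleteDistribLattice.toBiheytingAlgebra CompleteDistribLattice.toCoframe CompleteLinearOrder.toBiheytingAlgebra CompletelyDistribLattice.toBiheytingAlgebra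 CompleteDistribLattice.toFrame NormedAddGroup.toSeminormedAddGroup SeminormedAddCommGroup.toSeminormedAddGroup LinearOrderedCommGroupWithZero.toCommGroupWithZero BiheytingAlgebra.toCoheytingAlgebra Order.Coframe.toCoheytingAlgebra RingCat.instRingObjForgetRingHomCarrier BooleanAlgebra.toGeneralizedBooleanAlgebra AlgEquivClass.toAlgHomClass BiheytingAlgebra.toHeytingAlgebra CompleteLinearOrder.toCompleteLattice Order.Coframe.toCompleteLattice Order.Frame.toCompleteLattice Order.Frame.toHeytingAlgebra Pi.nonUnitalSemiring AddCommGroupWithOne.toAddGroupWithOne CoheytingAlgebra.toGeneralizedCoheytingAlgebra GeneralizedBooleanAlgebra.toGeneralizedCoheytingAlgebra HeytingAlgebra.toGeneralizedHeytingAlgebra NormedCommGroup.toCommGroup SeminormedCommGroup.toCommGroup NonAssocCommSemiring.toNonUnitalNonAssocCommSemiring NonUnitalNonAssocCommSemiring.toNonUnitalNonAssocSemiring NonUnitalSemiring.toNonUnitalNonAssocSemiring instConditionallyCompletePartialOrderSup CompleteLattice.toCompleteSemilatticeInf CompleteLattice.toCompleteSemilatticeSup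 CompleteLattice.toConditionallyCompleteLattice ConditionallyCompleteLattice.toConditionallyCompletePartialOrder ConditionallyCompleteLinearOrder.toConditionallyCompleteLattice ConditionallyCompletePartialOrder.toConditionallyCompletePartialOrderInf ConditionallyCompletePartialOrder.toConditionallyCompletePartialOrderSup CommGroup.toGroup NormedGroup.toGroup SeminormedGroup.toGroup CommGroupWithZero.toGroupWithZero BooleanAlgebra.toDistribLattice ChainCompletePartialOrder.instOfCompleteLattice ChainCompletePartialOrder.instOmegaCompletePartialOrder ChainCompletePartialOrder.toPartialOrder CompleteLattice.toLattice CompletePartialOrder.toOmegaCompletePartialOrder CompleteSemilatticeInf.toPartialOrder CompleteSemilatticeSup.toPartialOrder ConditionallyCompleteLattice.toLattice ConditionallyCompletePartialOrderInf.toPartialOrder ConditionallyCompletePartialOrderSup.toPartialOrder GeneralizedBooleanAlgebra.toDistribLattice GeneralizedCoheytingAlgebra.toDistribLattice GeneralizedCoheytingAlgebra.toLattice GeneralizedHeytingAlgebra.toDistribLattice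 GeneralizedHeytingAlgebra.toLattice OmegaCompletePartialOrder.toPartialOrder Order.Coframe.toDistribLattice Order.Frame.toDistribLattice ContinuousAddMonoidHom.instCoeOutOfAddMonoidHomClassOfContinuousMapClass ContinuousMonoidHom.instCoeOutOfMonoidHomClassOfContinuousMapClass HomeomorphClass.instCoeOutHomeomorph IsometryClass.instCoeOutIsometryEquiv LinearOrderedAddCommGroupWithTop.toSubNegMonoid SetLike.GradeZero.instSemiring AddCommGroupWithOne.toAddCommGroup NormedAddCommGroup.toAddCommGroup SeminormedAddCommGroup.toAddCommGroup CompleteLinearOrder.toLinearOrder ConditionallyCompleteLinearOrder.toLinearOrder LinearOrderedAddCommGroupWithTop.toLinearOrder LinearOrderedAddCommMonoidWithTop.toLinearOrder LinearOrderedCommMonoidWithZero.toLinearOrder AddOpposite.instAddZero EMetricSpace.toPseudoEMetricSpace MetricSpace.toEMetricSpace MetricSpace.toPseudoMetricSpace NonUnitalNormedRing.toMetricSpace NonUnitalSeminormedRing.toPseudoMetricSpace NormedAddCommGroup.toMetricSpace NormedAddGroup.toMetricSpace NormedCommGroup.toMetricSpace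 NormedDivisionRing.toMetricSpace NormedField.toMetricSpace NormedGroup.toMetricSpace NormedRing.toMetricSpace PseudoEMetricSpace.toUniformSpace PseudoMetricSpace.toPseudoEMetricSpace PseudoMetricSpace.toUniformSpace SeminormedAddCommGroup.toPseudoMetricSpace SeminormedAddGroup.toPseudoMetricSpace SeminormedCommGroup.toPseudoMetricSpace SeminormedGroup.toPseudoMetricSpace SeminormedRing.toPseudoMetricSpace UniformSpace.toTopologicalSpace Valued.toUniformSpace WithIdeal.instTopologicalSpace WithIdeal.instUniformSpace CommGroupWithZero.toCommMonoidWithZero LinearOrderedCommMonoidWithZero.toCommMonoidWithZero GradedMonoid.GradeZero.smul ValuationClass.toMonoidWithZeroHomClass AddCommGroupWithOne.toAddCommMonoidWithOne LieAlgebra.toModule NormedSpace.toModule AdjoinRoot.instField NormedAddGroup.toAddGroup SeminormedAddGroup.toAddGroup Pi.mulZeroClass OrderDual.instDivisionRing OrderDual.instDivisionSemiring AbsoluteValue.mulHomClass LinearOrderedAddCommGroupWithTop.toSubtractionMonoid CompleteLattice.toPartialOrder' LinearOrder.toLattice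 SemilatticeSup.toPartialOrder CommGroup.toDivisionCommMonoid Group.toDivisionMonoid GroupWithZero.toDivisionMonoid Pi.nonAssocRing AddCancelCommMonoid.toAddCommMonoid AddCommGroup.toAddCancelCommMonoid AddCommMonoidWithOne.toAddCommMonoid ESeminormedAddCommMonoid.toAddCommMonoid AddGrpCat.str ContinuousSemilinearEquivClass.continuousSemilinearMapClass ContinuousSemilinearMapClass.toSemilinearMapClass RingHomClass.toLinearMapClassNNRat RingHomClass.toLinearMapClassRat SemilinearIsometryClass.toContinuousSemilinearMapClass SemilinearIsometryClass.toSemilinearMapClass DivInvMonoid.toMonoid DivInvOneMonoid.toDivInvMonoid DivisionMonoid.toDivInvMonoid DivisionRing.toDivInvMonoid Group.toDivInvMonoid MulOpposite.instMulOne OrderAddMonoidHom.instAddMonoidHomClass AlgHomClass.linearMapClass NonUnitalAlgHomClass.instSemilinearMapClassOfNonUnitalAlgSemiHomClassToMonoidHomRingHom instSubsingleton IsEmpty.instSubsingleton Unique.instSubsingleton Monoid.End.instMonoidHomClass ENormedAddCommMonoid.toESeminormedAddCommMonoid NormedAddCommGroup.toENormedAddCommMonoid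 Fintype.decidablePiFintype FloorSemiring.instCharZero IsStrictOrderedRing.toCharZero NumberField.to_charZero RCLike.charZero_rclike Pi.subtractionMonoid NonUnitalAlgHomClass.toNonUnitalRingHomClass MulSemiringActionSemiHomClass.toDistribMulActionSemiHomClass AddCancelCommMonoid.toAddCancelMonoid AddCancelMonoid.toAddLeftCancelMonoid AddCancelMonoid.toAddRightCancelMonoid AddGroup.toAddCancelMonoid AddLeftCancelMonoid.toAddMonoid AddRightCancelMonoid.toAddMonoid ENormedAddCommMonoid.toENormedAddMonoid ENormedAddMonoid.toESeminormedAddMonoid ESeminormedAddCommMonoid.toESeminormedAddMonoid ESeminormedAddMonoid.toAddMonoid NormedAddGroup.toENormedAddMonoid NormedAlgebra.toAlgebra Invertible.toNeZero Nat.AtLeastTwo.toNeZero MulSemiringActionSemiHomClass.toRingHomClass AbsoluteValue.zeroHomClass SubfieldClass.toNormedField MulCharClass.toMonoidHomClass MulDistribMulActionSemiHomClass.toMonoidHomClass Std.DTreeMap.Raw.instSingletonSigma CommRing.toGrindCommRing Field.toGrindField Ring.toGrindRing SetLike.GradeZero.instCommSemiring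 MonoidWithZero.toMulActionWithZero instSMulZeroClass Pi.instBotForall SubfieldClass.toDivisionRing SubfieldClass.toField Nat.instAtLeastTwoHAddOfNat RingHomInvPair.triples RingHomInvPair.triples₂ Pi.instOne Pi.monoidWithZero TwoSidedIdeal.instIsTwoSidedCoeOrderHomIdealAsIdeal AddCommGroup.toGrindIntModule MulSemiringAction.toDistribMulAction ENormedCommMonoid.toESeminormedCommMonoid NormedCommGroup.toENormedCommMonoid MonoidWithZero.toSemigroupWithZero Pi.mulOneClass CancelCommMonoid.toCancelMonoid CommGroup.toCancelCommMonoid Group.toCancelMonoid instMonadLiftT instMonadLiftTOfMonadLift MulEquivClass.toMonoidWithZeroHomClass MulRingSeminormClass.toMonoidWithZeroHomClass Part.ofOptionDecidable CancelCommMonoid.toCommMonoid CancelCommMonoid.toLeftCancelMonoid CancelMonoid.toLeftCancelMonoid CancelMonoid.toRightCancelMonoid CommGroup.toCommMonoid CommMonoidWithZero.toCommMonoid CommSemiring.toGrindCommSemiring DivisionCommMonoid.toCommMonoid ENormedCommMonoid.toENormedMonoid ENormedMonoid.toESeminormedMonoid ESeminormedCommMonoid.toCommMonoid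 ESeminormedCommMonoid.toESeminormedMonoid ESeminormedMonoid.toMonoid LeftCancelMonoid.toMonoid NormedGroup.toENormedMonoid RightCancelMonoid.toMonoid Semiring.toGrindSemiring GradedMonoid.GradeZero.commMonoid GradedMonoid.GradeZero.monoid SemigroupWithZero.toMulZeroClass AddHom.addHomClass SubalgebraClass.toAlgebra Fin.completeLinearOrder Torsor.toMulAction GradedMonoid.GradeZero.mulAction CharP.ofCharZero RCLike.toDecidableEq Std.DTreeMap.Raw.instInsertSigma NormMulClass.toNoZeroDivisors OrderRingHom.instRingHomClass SemilinearIsometryEquivClass.toSemilinearIsometryClass Nat.instDvd AddCommMonoid.toGrindNatModule instDistribSMul instOfNatAtLeastTwo MulActionWithZero.toMulAction MulDistribMulAction.toMulAction MulSemiringAction.toMulDistribMulAction instCoeOutOfCoeFun Pi.nonUnitalNonAssocRing Pi.instTopForall decidableEq_of_subsingleton Std.Time.Duration.instHMulInt_1 SetLike.GradeZero.instCommRing SMulMemClass.toModule SubmoduleClass.module SubmoduleClass.module' MulZeroClass.negZeroClass Vector.instHMul Std.Time.WallTime.instHSubDuration_1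 IntermediateField.instSMulMemClass Fin.instBiheytingAlgebra LieAlgebra.ofAssociativeAlgebra instIsDedekindDomainOfIsDomainOfIsDedekindRing IsDedekindDomainDvr.isDedekindDomain EquivLike.toEmbeddingLike Pi.instLocallyFiniteOrderBot instIsReducedForall AddGroupWithOne.toIntCast InvOneClass.toOne Pi.commMagma OneHom.oneHomClass Pi.hasDistribNeg CategoryTheory.instFinCategoryOfFintypeOfIsThin MulRingNormClass.toMulRingSeminormClass SetLike.instFintype Unique.fintype CategoryTheory.FinCategory.fintypeObj DivisionRing.isDomain EuclideanDomain.instIsDomain Field.isDomain IsDedekindDomain.toIsDomain IsStrictOrderedRing.isDomain MonomialOrder.orderBot Pi.instInv IsOrderedRing.toIsStrictOrderedRing Pi.subNegMonoid SetLike.GradeZero.instRing IsInvariantSubfield.toMulSemiringAction Pi.semigroup LinOrd.str AddCommSemigroup.toAddSemigroup AddLeftCancelSemigroup.toAddSemigroup AddRightCancelMonoid.toAddRightCancelSemigroup AddRightCancelSemigroup.toAddSemigroup CommMonoid.toCommSemigroup CommSemigroup.toSemigroup LeftCancelMonoid.toLeftCancelSemigroup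 LeftCancelSemigroup.toSemigroup QuotientAddGroup.instHasQuotientAddSubgroup RightCancelMonoid.toRightCancelSemigroup RightCancelSemigroup.toSemigroup Semiring.toNatAlgebra One.ofOfNat1 instAlgEquivClassOfNonUnitalAlgEquivClass ContinuousAlgEquivClass.toAlgEquivClass instInhabitedOfMonad instNonemptyOfInhabited instNonemptyOfMonad Nontrivial.to_nonempty Torsor.nonempty Unique.instInhabited CategoryTheory.IsConnected.is_nonempty AddSubmonoid.instAddSubmonoidClass NonUnitalRingHomClass.toAddMonoidHomClass SemilinearMapClass.instAddMonoidHomClass Std.LinearOrderPackage.toLinearPreorderPackage Std.LinearPreorderPackage.toPreorderPackage Fin.instCoheytingAlgebra Fin.instHeytingAlgebra CompTriple.instComp_id CompTriple.instId_comp instCoeHTCTOfCoeTailOfCoeHTC instCoeTailIntOfIntCast instCoeTailNatOfNatCast instCoeTailRatOfRatCast DivisionRing.toNNRatCast DivisionRing.toRatCast DivisionSemiring.toNNRatCast LinearMapClass.instCoeToLinearMap NNRatCast.toCoeTail NonUnitalStarRingHomClass.instCoeHeadNonUnitalStarRingHom SemilinearMapClass.instCoeToSemilinearMap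 StarAlgEquivClass.instCoeHead StarRingEquivClass.instCoeHead OrderDual.instPow_1 NeZero.charZero_one instIsDomain Pi.smulZeroClass' ModuleCat.instAddCommGroupCarrierMkOfSMul' Ordinal.instNeZeroOne Field.henselian Field.instIsLocalRing HenselianLocalRing.toIsLocalRing IsDiscreteValuationRing.toIsLocalRing IsRegularLocalRing.instOfIsLocalRingOfIsDomainOfIsPrincipalIdealRing IsRegularLocalRing.toIsLocalRing ValuationRing.isLocalRing bot_nonempty infSet_to_nonempty supSet_to_nonempty top_nonempty ConnectedSpace.toNonempty IrreducibleSpace.toNonempty One.instNonempty Zero.instNonempty CoheytingAlgebra.toOrderTop LinearOrderedAddCommGroupWithTop.toOrderTop LinearOrderedAddCommMonoidWithTop.toOrderTop SubalgebraClass.normedRing SubalgebraClass.seminormedRing SubringClass.toNormedCommRing SubringClass.toNormedRing SubringClass.toSeminormedCommRing SubringClass.toSeminormedRing SetLike.smul SetLike.smul' SubalgebraClass.toNormedAlgebra SubMulAction.SMulMemClass.toMulAction Submodule.Quotient.instSMul -- iprune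

set_option linter.all false

section

/-!
Algebraic lemmas for the approximation theorem: clearing denominators.
-/

namespace Vale.Agent.P202.CZ

open Polynomial

universe u v w

/-- evaluation of polynomials over a polynomial ring. -/
noncomputable def ev {A : Type u} {B : Type v} [CommRing A] [CommRing B] [Algebra A B] {m : ℕ}
    (t : Fin m → B) (θ : B) : Polynomial (MvPolynomial (Fin m) A) →+* B :=
  Polynomial.eval₂RingHom (MvPolynomial.aeval (R := A) t).toRingHom θ

lemma ev_apply {A : Type u} {B : Type v} [CommRing A] [CommRing B] [Algebra A B] {m : ℕ}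
    (t : Fin m → B) (θ : B) (F : Polynomial (MvPolynomial (Fin m) A)) :
    ev t θ F = F.eval₂ (MvPolynomial.aeval (R := A) t).toRingHom θ := rfl

@[simp] lemma ev_C {A : Type u} {B : Type v} [CommRing A] [CommRing B] [Algebra A B] {m : ℕ}
    (t : Fin m → B) (θ : B) (Q : MvPolynomial (Fin m) A) :
    ev t θ (C Q) = MvPolynomial.aeval t Q := by
  simp [ev]

@[simp] lemma ev_X {A : Type u} {B : Type v} [CommRing A] [CommRing B] [Algebra A B] {m : ℕ}
    (t : Fin m → B) (θ : B) : ev (A := A) t θ X = θ := by
  simp [ev]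

/-- clearing denominators. -/
theorem exists_clear {A : Type u} [CommRing A] {m : ℕ} {ι : Type w}
    (Q : MvPolynomial (Fin m) A) (P : ι → Polynomial (MvPolynomial (Fin m) A))
    (F : MvPolynomial ι A) :
    ∃ (N : ℕ) (G : Polynomial (MvPolynomial (Fin m) A)),
      ∀ {B : Type v} [CommRing B] [Algebra A B] (t : Fin m → B) (θ : B) (y : ι → B),
        (∀ i, MvPolynomial.aeval t Q * y i = ev t θ (P i)) →
        (MvPolynomial.aeval t Q) ^ N * MvPolynomial.aeval y F = ev t θ G := by
  induction F using MvPolynomial.induction_on with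
  | C a =>
    refine ⟨0, C (MvPolynomial.C a), ?_⟩
    intro B _ _ t θ y _
    simp
  | add p q hp hq =>
    obtain ⟨N, G, hG⟩ := hp
    obtain ⟨N', G', hG'⟩ := hq
    refine ⟨N + N', C (Q ^ N') * G + C (Q ^ N) * G', ?_⟩
    intro B _ _ t θ y hy
    have h1 := hG t θ y hy
    have h2 := hG' t θ y hy
    simp only [map_add, map_mul, ev_C, map_pow, ← h1, ← h2]
    ring
  | mul_X p i hp =>
    obtain ⟨N, G, hG⟩ := hp
    refine ⟨N + 1, G * P i, ?_⟩
    intro B _ _ t θ y hy
    have h1 := hG t θ y hy
    rw [map_mul, map_mul, ← h1, ← hy i, MvPolynomial.aeval_X]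
    ring

/-- transfer of relations. -/
theorem relations_transfer {A : Type u} [CommRing A] {B : Type v} [CommRing B] [IsDomain B]
    [Algebra A B] {m : ℕ} {ι : Type w} (t : Fin m → B) (θ : B)
    (f : Polynomial (MvPolynomial (Fin m) A)) (Q : MvPolynomial (Fin m) A)
    (P : ι → Polynomial (MvPolynomial (Fin m) A)) (y : ι → B)
    (hker : ∀ F : Polynomial (MvPolynomial (Fin m) A), ev t θ F = 0 → f ∣ F)
    (hy : ∀ i, MvPolynomial.aeval t Q * y i = ev t θ (P i))
    (t' : Fin m → B) (θ' : B) (y' : ι → B) (hf : ev t' θ' f = 0)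
    (hQ' : MvPolynomial.aeval t' Q ≠ 0)
    (hy' : ∀ i, MvPolynomial.aeval t' Q * y' i = ev t' θ' (P i))
    (F : MvPolynomial ι A) (hF : MvPolynomial.aeval y F = 0) :
    MvPolynomial.aeval y' F = 0 := by
  obtain ⟨N, G, hG⟩ := exists_clear Q P F
  have h1 := hG t θ y hy
  rw [hF, mul_zero] at h1
  obtain ⟨H, hH⟩ := hker G h1.symm
  have h2 := hG t' θ' y' hy'
  rw [hH, map_mul, hf, zero_mul] at h2
  exact (mul_eq_zero.mp h2).resolve_left (pow_ne_zero _ hQ')

/-- compatibility of evaluation with a pair of compatible ring homomorphisms. -/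
theorem ev_map {A : Type u} [CommRing A] {B : Type v} [CommRing B] [Algebra A B] {m : ℕ}
    (σ : B →+* B) (σ₀ : A →+* A) (h : ∀ a, σ (algebraMap A B a) = algebraMap A B (σ₀ a))
    (t : Fin m → B) (θ : B) (F : Polynomial (MvPolynomial (Fin m) A)) :
    ev (σ ∘ t) (σ θ) (F.map (MvPolynomial.map σ₀)) = σ (ev t θ F) := by
  rw [ev_apply, ev_apply, Polynomial.eval₂_map, Polynomial.hom_eval₂]
  congr 1
  ext a
  · simp [h]
  · simp

theorem aeval_map' {A : Type u} [CommRing A] {B : Type v} [CommRing B] [Algebra A B] {ι : Type w}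
    (σ : B →+* B) (σ₀ : A →+* A) (h : ∀ a, σ (algebraMap A B a) = algebraMap A B (σ₀ a))
    (t : ι → B) (F : MvPolynomial ι A) :
    MvPolynomial.aeval (σ ∘ t) (MvPolynomial.map σ₀ F) = σ (MvPolynomial.aeval t F) := by
  rw [MvPolynomial.aeval_def, MvPolynomial.eval₂_map, MvPolynomial.aeval_def,
    MvPolynomial.hom_eval₂]
  congr 1
  ext a
  simp [h]

end Vale.Agent.P202.CZ
end

section

/-!
P202, mixed characteristic: the ring `B = W(C)/(p - [t])` attached to a perfect ring `C` of
characteristic `p` and an element `t`, roots, the base rings.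
-/

namespace Vale.Agent.P202.Mix

open Polynomial

universe u

section

variable (p : ℕ) [Fact p.Prime]

/-- the ring `W(C)/(p - [t])`. -/
def Bt (C : Type u) [CommRing C] (t : C) : Type u :=
  WittVector p C ⧸ Ideal.span {(p : WittVector p C) - WittVector.teichmuller p t}

variable (C : Type u) [CommRing C] (t : C)

noncomputable instance : CommRing (Bt p C t) :=
  inferInstanceAs (CommRing (WittVector p C ⧸ _))

/-- the projection `W(C) → B`. -/
noncomputable def toB : WittVector p C →+* Bt p C t := Ideal.Quotient.mk _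

/-- the class of the Teichmueller representative. -/
noncomputable def te (c : C) : Bt p C t := toB p C t (WittVector.teichmuller p c)

variable {C} in
/-- the `p^e`-th root in a perfect ring. -/
noncomputable def rt [CharP C p] [PerfectRing C p] (e : ℕ) (c : C) : C :=
  (iterateFrobeniusEquiv C p e).symm c

/-- the ring `k[[t, u_1, .., u_r]]`. -/
abbrev R0 (k : Type u) [Field k] (r : ℕ) : Type u := MvPowerSeries (Fin (r + 1)) k

/-- the ring `W(k)[[u_1, .., u_r]]`. -/
abbrev La (k : Type u) [Field k] (r : ℕ) : Type u := MvPowerSeries (Fin r) (WittVector p k)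

end

section

variable (p : ℕ) [Fact p.Prime] (k : Type u) [Field k] [CharP k p] (r : ℕ)

instance : CharP (R0 k r) p :=
  charP_of_injective_ringHom (f := (MvPowerSeries.C : k →+* R0 k r))
    (MvPowerSeries.C_injective) p

/-- the perfection of `k[[t, u_1, .., u_r]]`. -/
abbrev Rp : Type u := PerfectClosure (R0 k r) p

/-- the variables `t = x_0`, `u_i = x_i` in the perfection. -/
noncomputable def xp (i : Fin (r + 1)) : Rp p k r :=
  PerfectClosure.of (R0 k r) p (MvPowerSeries.X i)

end

end Vale.Agent.P202.Mix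
end

section

/-!
P202, mixed characteristic: the base ring `Λ → W(Rp)`, the rings `B_N = W(C)/(p - [t], p^N)`, the
data `CData` (cover of `Λ` on which the `F_j` split into Teichmueller representatives).
-/

namespace Vale.Agent.P202.Mix

open Polynomial

universe u

section

variable (p : ℕ) [Fact p.Prime] (k : Type u) [Field k] [CharP k p] (r : ℕ)

/-- A base: `Λ` with elements `u_i` and a homomorphism `ψ : Λ → W(Rp)`, `u_i ↦ [u_i]`, whose
reduction modulo `p` comes from a flat injective homomorphism `Λ/p → k[[t, u]]/t`. -/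
structure IsBase (Λ : Type u) [CommRing Λ] (u : Fin r → Λ)
    (ψ : Λ →+* WittVector p (Rp p k r))
    (red : Λ →+* R0 k r ⧸ Ideal.span {(MvPowerSeries.X 0 : R0 k r)}) : Prop where
  psi_u : ∀ i, ψ (u i) = WittVector.teichmuller p (xp p k r i.succ)
  red_coeff : ∀ l, ∃ (g : R0 k r) (y : Rp p k r), red l = Ideal.Quotient.mk _ g ∧
    (ψ l).coeff 0 = PerfectClosure.of (R0 k r) p g + xp p k r 0 * y
  red_p : ∀ l ∈ Ideal.span {(p : Λ)}, red l = 0
  red_ker : ∀ l, red l = 0 → l ∈ Ideal.span {(p : Λ)}
  red_flat : (Ideal.Quotient.lift (Ideal.span {(p : Λ)}) red red_p).Flat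

/-- the element `t` of an `Rp`-algebra. -/
noncomputable abbrev tC (C : Type u) [CommRing C] [Algebra (Rp p k r) C] : C :=
  algebraMap (Rp p k r) C (xp p k r 0)

variable {p k r} {Λ : Type u} [CommRing Λ] (ψ : Λ →+* WittVector p (Rp p k r))
variable (C : Type u) [CommRing C] [Algebra (Rp p k r) C]

/-- `Λ → B = W(C)/(p - [t])`. -/
noncomputable def laB : Λ →+* Bt p C (tC p k r C) :=
  (toB p C (tC p k r C)).comp ((WittVector.map (algebraMap (Rp p k r) C)).comp ψ)

/-- the ring `B/p^N`. -/
def BN (N : ℕ) : Type u :=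
  (fun _ : Λ →+* WittVector p (Rp p k r) =>
    Bt p C (tC p k r C) ⧸ Ideal.span {(p : Bt p C (tC p k r C)) ^ N}) ψ

noncomputable instance (N : ℕ) : CommRing (BN ψ C N) :=
  inferInstanceAs (CommRing (Bt p C (tC p k r C) ⧸ Ideal.span {(p : Bt p C (tC p k r C)) ^ N}))

/-- the projection `B → B/p^N`. -/
noncomputable def mkN (N : ℕ) : Bt p C (tC p k r C) →+* BN ψ C N :=
  Ideal.Quotient.mk (Ideal.span {(p : Bt p C (tC p k r C)) ^ N})

noncomputable instance (N : ℕ) : Algebra Λ (BN ψ C N) :=
  ((mkN ψ C N).comp (laB ψ C)).toAlgebra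

/-- the class of a Teichmueller representative in `B/p^N`. -/
noncomputable def teN (N : ℕ) (c : C) : BN ψ C N := mkN ψ C N (te p C (tC p k r C) c)

end

section

variable {p : ℕ} [Fact p.Prime] {k : Type u} [Field k] [CharP k p] {r : ℕ}

/-- a flat integral perfect `Rp`-algebra of finite rank. -/
structure PExt (p : ℕ) [Fact p.Prime] (k : Type u) [Field k] [CharP k p] (r r0 : ℕ) where
  C : Type u
  [commRing : CommRing C]
  [charP : CharP C p]
  [perfect : PerfectRing C p]
  [nontriv : Nontrivial C]
  [algebra : Algebra (Rp p k r) C]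
  flat : Module.Flat (Rp p k r) C
  integral : Algebra.IsIntegral (Rp p k r) C
  inj : Function.Injective (algebraMap (Rp p k r) C)
  fin : ∀ t : Finset C, ∃ v : Fin r0 → C, (t : Set C) ⊆ Submodule.span (Rp p k r) (Set.range v)

attribute [instance] PExt.commRing PExt.charP PExt.perfect PExt.nontriv PExt.algebra

/-- The covers: the polynomials `F_j` split into Teichmueller representatives modulo `p^(I+1)`,
`[δ_π] = π(E)`, `[δ'_π] = π(g - E)` modulo `p^(I+1)` for every choice `π` of roots. -/
structure CData {Λ : Type u} [CommRing Λ] (ψ : Λ →+* WittVector p (Rp p k r)) {s D : ℕ}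
    (F : Fin s → Λ[X]) (E : MvPolynomial (Fin s) Λ) (g : Λ) (I r0 : ℕ) extends
    PExt p k r r0 where
  c : Fin s → Fin D → C
  δ : (Fin s → Fin D) → C
  δ' : (Fin s → Fin D) → C
  split : ∀ j n, ((F j).map (laB ψ C) -
    ∏ i, (X - Polynomial.C (te p C (tC p k r C) (c j i)))).coeff n ∈
      Ideal.span {(p : Bt p C (tC p k r C)) ^ (I + 1)}
  hδ : ∀ π, te p C (tC p k r C) (δ π) -
    MvPolynomial.eval₂ (laB ψ C) (fun j => te p C (tC p k r C) (c j (π j))) E ∈
      Ideal.span {(p : Bt p C (tC p k r C)) ^ (I + 1)}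
  hδ' : ∀ π, te p C (tC p k r C) (δ' π) - (laB ψ C g -
    MvPolynomial.eval₂ (laB ψ C) (fun j => te p C (tC p k r C) (c j (π j))) E) ∈
      Ideal.span {(p : Bt p C (tC p k r C)) ^ (I + 1)}

end

end Vale.Agent.P202.Mix
end

section

/-!
P202, mixed characteristic: the ring `A ⊗_Λ B/p^N`, its ideals `K_π`, the package `APkg`.
-/

namespace Vale.Agent.P202.Mix

open Polynomial TensorProduct

universe u

/-- the annihilator of an element. -/
def annI {R : Type*} [CommRing R] (d : R) : Ideal R :=
  LinearMap.ker (LinearMap.toSpanSingleton R R d)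

theorem mem_annI {R : Type*} [CommRing R] (d x : R) : x ∈ annI d ↔ x * d = 0 := by
  rw [annI, LinearMap.mem_ker, LinearMap.toSpanSingleton_apply, smul_eq_mul]

section

variable {p : ℕ} [Fact p.Prime] {k : Type u} [Field k] [CharP k p] {r : ℕ}
variable {Λ : Type u} [CommRing Λ] {ψ : Λ →+* WittVector p (Rp p k r)} {s D : ℕ}
  {F : Fin s → Λ[X]} {E : MvPolynomial (Fin s) Λ} {g : Λ} {I r0 : ℕ}

/-- the element `[δ_π^(1/p^e)]` of `B/p^N`. -/
noncomputable def dq (d : CData.{u} ψ (D := D) F E g I r0) (e N : ℕ) (π : Fin s → Fin D) :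
    BN ψ d.C N :=
  teN ψ d.C N (rt p e (d.δ π))

end

/-- The package over `A` (and later over `S`): a ring `E` with ideals `K_π` such that the
`E/K_π` are almost regular for `x = (p, u_1, .., u_r)`, almost Frobenius-root-closed, and
together almost equal to `E`. -/
structure APkg {A : Type u} [CommRing A] (p : ℕ) (m : Ideal A) {n : ℕ} (x : Fin n → A)
    (P : Type) [Fintype P] (g0 g1 : A) (w w' N : ℕ) (E : Type u) [CommRing E] [Algebra A E] where
  K : P → Ideal E
  h : P → E
  z : P → Fin n → E
  η : P → E
  θ : P → E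
  hη : ∀ π, ∀ y ∈ K π, y * η π = 0
  hη' : algebraMap A E g1 ∈ Ideal.span (Set.range η)
  hθ : ∀ π π', π ≠ π' → θ π ∈ K π'
  hθ' : ∀ π, θ π - algebraMap A E g0 ∈ K π
  hz : ∀ π, m.map (algebraMap A E) ≤ Ideal.span (Set.range (z π)) ^ w ⊔ K π
  hz' : ∀ π l, z π l ^ w' ∈ m.map (algebraMap A E) ⊔ K π
  hp : algebraMap A E (p : A) ^ N = 0
  regp : ∀ π y, algebraMap A E (p : A) * y ∈ K π →
    h π * y ∈ Ideal.span {algebraMap A E (p : A) ^ (N - 1)} ⊔ K π
  regu : ∀ π (i : Fin n), 0 < (i : ℕ) → ∀ y,
    algebraMap A E (x i) * y ∈ Ideal.span ((fun l => algebraMap A E (x l)) '' {l | l < i}) ⊔ K π →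
    h π * y ∈ Ideal.span ((fun l => algebraMap A E (x l)) '' {l | l < i}) ⊔ K π

end Vale.Agent.P202.Mix
end

section

/-!
# Witt vector lemmas (P202, mixed characteristic): coefficients of `[a] * x` and the key lemma
-/

namespace P202.Mix

open WittVector

variable {p : ℕ} [hp : Fact (Nat.Prime p)]


theorem tmul_aux1 {R : Type*} (a : MvPolynomial R ℚ) (x : WittVector p (MvPolynomial R ℚ)) :
    teichmuller p a * x = WittVector.mk p (fun n => a ^ p ^ n * x.coeff n) := by
  apply (ghostMap.bijective_of_invertible p (MvPolynomial R ℚ)).1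
  rw [map_mul]
  ext1 n
  simp only [Pi.mul_apply, ghostMap_apply, ghostComponent_teichmuller]
  simp only [ghostComponent_apply, aeval_wittPolynomial, Finset.mul_sum]
  refine Finset.sum_congr rfl fun i hi => ?_
  have hin : i ≤ n := Nat.lt_succ_iff.1 (Finset.mem_range.1 hi)
  simp only [coeff_mk, mul_pow, ← pow_mul]
  rw [← pow_add p i (n - i), Nat.add_sub_cancel' hin]
  ring

theorem tmul_aux2 {R : Type*} (a : MvPolynomial R ℤ) (x : WittVector p (MvPolynomial R ℤ)) :
    teichmuller p a * x = WittVector.mk p (fun n => a ^ p ^ n * x.coeff n) := by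
  refine map_injective (MvPolynomial.map (Int.castRingHom ℚ))
    (MvPolynomial.map_injective _ Int.cast_injective) ?_
  rw [map_mul, map_teichmuller, tmul_aux1]
  ext n
  simp [map_coeff]

theorem teichmuller_mul {R : Type*} [CommRing R] (a : R) (x : WittVector p R) :
    teichmuller p a * x = WittVector.mk p (fun n => a ^ p ^ n * x.coeff n) := by
  obtain ⟨a', rfl⟩ := MvPolynomial.counit_surjective R a
  obtain ⟨x', rfl⟩ := map_surjective _ (MvPolynomial.counit_surjective R) x
  rw [← map_teichmuller, ← map_mul, tmul_aux2]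
  ext n
  simp [map_coeff]

theorem teichmuller_mul_coeff {R : Type*} [CommRing R] (a : R) (x : WittVector p R) (n : ℕ) :
    (teichmuller p a * x).coeff n = a ^ p ^ n * x.coeff n := by
  rw [teichmuller_mul, coeff_mk]


/-- Congruence modulo `p ^ n` is equality of the first `n` coefficients (perfect rings). -/
theorem dvd_sub_iff {C : Type*} [CommRing C] [CharP C p] [PerfectRing C p] (x y : WittVector p C) (n : ℕ) :
    (p : WittVector p C) ^ n ∣ x - y ↔ ∀ i < n, x.coeff i = y.coeff i := by
  rw [← Ideal.mem_span_singleton, mem_span_p_pow_iff_le_coeff_eq_zero,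
    le_coeff_eq_iff_le_sub_coeff_eq_zero]

theorem coeff_eq_of_dvd_sub {C : Type*} [CommRing C] [CharP C p] [PerfectRing C p] {x y : WittVector p C}
    {n : ℕ} (h : (p : WittVector p C) ^ n ∣ x - y) {i : ℕ} (hi : i < n) : x.coeff i = y.coeff i :=
  (dvd_sub_iff x y n).1 h i hi

/-- One step of the key lemma: divisibility of `y` by a further power of `[t]` modulo
`p ^ (I + 1)`. -/
theorem key_step {C : Type*} [CommRing C] [CharP C p] [PerfectRing C p] (t : C) (x y : WittVector p C)
    (I : ℕ) (hI : y.coeff I = 0)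
    (hy : (p : WittVector p C) ^ (I + 1) ∣ (p - teichmuller p t) * y - teichmuller p t ^ (I + 1) * x)
    (m : ℕ) (hm : m ≤ I) (v : WittVector p C) (hv : (p : WittVector p C) ^ (I + 1) ∣ y - teichmuller p t ^ m * v) :
    ∃ v' : WittVector p C, (p : WittVector p C) ^ (I + 1) ∣ y - teichmuller p t ^ (m + 1) * v' := by
  classical
  let u : WittVector p C := v + teichmuller p t ^ (I - m) * x
  have hpy : (p : WittVector p C) ^ (I + 1) ∣ y * p - teichmuller p (t ^ (m + 1)) * u := by
    have h1 : y * p - teichmuller p (t ^ (m + 1)) * u =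
        ((p - teichmuller p t) * y - teichmuller p t ^ (I + 1) * x) +
          teichmuller p t * (y - teichmuller p t ^ m * v) := by
      have h2 : teichmuller p t ^ (I + 1) = teichmuller p t ^ (m + 1) * teichmuller p t ^ (I - m) := by
        rw [← pow_add]; congr 1; omega
      rw [map_pow, h2]; simp only [u]; ring
    rw [h1]
    exact dvd_add hy (Dvd.dvd.mul_left hv _)
  have hc : ∀ k < I, y.coeff k ^ p = t ^ ((m + 1) * p ^ (k + 1)) * u.coeff (k + 1) := by
    intro k hk
    have := coeff_eq_of_dvd_sub hpy (i := k + 1) (by omega)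
    rw [mul_charP_coeff_succ, teichmuller_mul_coeff, ← pow_mul] at this
    exact this
  refine ⟨WittVector.mk p (fun k => if k < I then (_root_.frobeniusEquiv C p).symm (u.coeff (k + 1))
    else 0), ?_⟩
  rw [dvd_sub_iff]
  intro i hi
  rw [← map_pow, teichmuller_mul_coeff, coeff_mk]
  by_cases h : i < I
  · rw [if_pos h]
    apply (_root_.frobeniusEquiv C p).injective
    rw [map_mul, map_pow, map_pow, RingEquiv.apply_symm_apply, _root_.frobeniusEquiv_apply,
      _root_.frobeniusEquiv_apply, frobenius_def, frobenius_def, hc i h]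
    congr 1
    rw [← pow_mul, ← pow_mul]
    congr 1
    rw [pow_succ]; ring
  · rw [if_neg h, mul_zero]
    have : i = I := by omega
    rw [this, hI]

/-- KEY LEMMA (T3). -/
theorem key {C : Type*} [CommRing C] [CharP C p] [PerfectRing C p] (t : C)
    (ht : t ∈ nonZeroDivisors C) (x : WittVector p C) (I : ℕ)
    (h0 : (-(∑ j ∈ Finset.range (I + 1), (p : WittVector p C) ^ j * teichmuller p t ^ (I - j)) * x).coeff I
      = 0) :
    ∃ v w : WittVector p C, x = (p - teichmuller p t) * v + (p : WittVector p C) ^ (I + 1) * w := by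
  set y : WittVector p C := -(∑ j ∈ Finset.range (I + 1), (p : WittVector p C) ^ j * teichmuller p t ^ (I - j)) * x
    with hydef
  have hgeom : (∑ j ∈ Finset.range (I + 1), (p : WittVector p C) ^ j * teichmuller p t ^ (I - j)) *
      ((p : WittVector p C) - teichmuller p t) = (p : WittVector p C) ^ (I + 1) - teichmuller p t ^ (I + 1) := by
    have := Commute.geom_sum₂_mul (Commute.all (p : WittVector p C) (teichmuller p t)) (I + 1)
    simpa using this
  have hy : ((p : WittVector p C) - teichmuller p t) * y - teichmuller p t ^ (I + 1) * x =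
      (p : WittVector p C) ^ (I + 1) * (-x) := by
    have : ((p : WittVector p C) - teichmuller p t) * y = -((p : WittVector p C) ^ (I + 1) -
        teichmuller p t ^ (I + 1)) * x := by
      rw [← hgeom, hydef]; ring
    rw [this]; ring
  have hind : ∀ m ≤ I + 1, ∃ v : WittVector p C, (p : WittVector p C) ^ (I + 1) ∣ y - teichmuller p t ^ m * v := by
    intro m
    induction m with
    | zero => intro _; exact ⟨y, by simp⟩
    | succ m ih =>
      intro hm
      obtain ⟨v, hv⟩ := ih (by omega)
      exact key_step t x y I h0 ⟨-x, hy⟩ m (by omega) v hv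
  obtain ⟨v, hv⟩ := hind (I + 1) le_rfl
  have h1 : (p : WittVector p C) ^ (I + 1) ∣ teichmuller p (t ^ (I + 1)) *
      (x - (p - teichmuller p t) * v) - 0 := by
    have h2 : teichmuller p (t ^ (I + 1)) * (x - (p - teichmuller p t) * v) - 0 =
        ((p : WittVector p C) - teichmuller p t) * (y - teichmuller p t ^ (I + 1) * v) -
        (((p : WittVector p C) - teichmuller p t) * y - teichmuller p t ^ (I + 1) * x) := by
      rw [map_pow]; ring
    rw [h2]
    exact dvd_sub (Dvd.dvd.mul_left hv _) ⟨-x, hy⟩
  have h3 : (p : WittVector p C) ^ (I + 1) ∣ (x - (p - teichmuller p t) * v) - 0 := by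
    rw [dvd_sub_iff]
    intro i hi
    have h4 := coeff_eq_of_dvd_sub h1 hi
    rw [teichmuller_mul_coeff, zero_coeff] at h4
    rw [zero_coeff]
    have ht' : (t ^ (I + 1)) ^ p ^ i ∈ nonZeroDivisors C := pow_mem (pow_mem ht _) _
    exact (mul_left_mem_nonZeroDivisors_eq_zero_iff ht').1 h4
  obtain ⟨w, hw⟩ := h3
  refine ⟨v, w, ?_⟩
  rw [sub_zero] at hw
  rw [← hw]; ring

end P202.Mix
end

section

/-!
# The polynomial `H` of the key extension (P202, mixed characteristic, T4)
-/

namespace P202.Mix

open WittVector Polynomial LaurentPolynomial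

variable {p : ℕ} [hp : Fact (Nat.Prime p)]


section

variable {C : Type*} [CommRing C]

theorem map_map_comp {D E : Type*} [CommRing D] [CommRing E] (f : C →+* D) (g : D →+* E) :
    (WittVector.map (p := p) g).comp (WittVector.map f) = WittVector.map (g.comp f) := by
  ext x n
  simp [WittVector.map_coeff]

/-- The scalar `-∑ p ^ j [t] ^ (I - j)`. -/
noncomputable def kap (t : C) (I : ℕ) : WittVector p C :=
  -(∑ j ∈ Finset.range (I + 1), (p : WittVector p C) ^ j * teichmuller p t ^ (I - j))

/-- The polynomial `H`. -/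
noncomputable def HH (t : C) (I : ℕ) (G : Polynomial (WittVector p C)) : Polynomial C :=
  (WittVector.map (Polynomial.C) (kap t I) *
    G.eval₂ (WittVector.map (Polynomial.C)) (teichmuller p (X : Polynomial C))).coeff I

theorem map_kap {D : Type*} [CommRing D] (f : C →+* D) (t : C) (I : ℕ) :
    WittVector.map f (kap (p := p) t I) = kap (f t) I := by
  simp [kap, map_neg, map_sum, map_mul, map_pow, map_teichmuller]

theorem eval₂_HH {D : Type*} [CommRing D] (f : C →+* D) (c : D) (t : C) (I : ℕ)
    (G : Polynomial (WittVector p C)) :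
    eval₂ f c (HH t I G) =
      (kap (f t) I * G.eval₂ (WittVector.map f) (teichmuller p c)).coeff I := by
  have h1 : eval₂ f c (HH t I G) = (WittVector.map (eval₂RingHom f c)
      (WittVector.map (Polynomial.C) (kap t I) *
        G.eval₂ (WittVector.map (Polynomial.C)) (teichmuller p (X : Polynomial C)))).coeff I := by
    rw [WittVector.map_coeff]; rfl
  have h2 : (eval₂RingHom f c).comp Polynomial.C = f := by
    ext x; simp
  rw [h1, map_mul, Polynomial.hom_eval₂, map_map_comp, map_teichmuller, ← RingHom.comp_apply,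
    map_map_comp, h2, map_kap]
  simp

theorem HH_reverse (t : C) (I : ℕ) (G : Polynomial (WittVector p C)) :
    HH t I G * X ^ (HH t I G.reverse).natDegree =
      X ^ (G.natDegree * p ^ I) * (HH t I G.reverse).reverse := by
  apply toLaurent_injective
  have hT : (teichmuller p (LaurentPolynomial.T (-1) : C[T;T⁻¹])) *
      teichmuller p (LaurentPolynomial.T 1 : C[T;T⁻¹]) = 1 := by
    rw [← map_mul, ← LaurentPolynomial.T_add]; simp
  let _ : Invertible (teichmuller p (LaurentPolynomial.T 1 : C[T;T⁻¹])) :=
    ⟨teichmuller p (LaurentPolynomial.T (-1) : C[T;T⁻¹]), hT, by rw [mul_comm]; exact hT⟩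
  have hinv : ⅟(teichmuller p (LaurentPolynomial.T 1 : C[T;T⁻¹])) =
      teichmuller p (LaurentPolynomial.T (-1) : C[T;T⁻¹]) := rfl
  -- value of `toLaurent H`
  have hA : toLaurent (HH t I G) = (kap (LaurentPolynomial.C t) I *
      G.eval₂ (WittVector.map (LaurentPolynomial.C)) (teichmuller p (LaurentPolynomial.T 1))).coeff I := by
    rw [← eval₂_HH]
    conv_lhs => rw [← Polynomial.eval₂_C_X (p := HH t I G)]
    rw [Polynomial.hom_eval₂]
    congr 1
    · ext x; simp
    · simp
  have hB : LaurentPolynomial.invert (toLaurent (HH t I G.reverse)) =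
      (kap (LaurentPolynomial.C t) I * G.reverse.eval₂ (WittVector.map (LaurentPolynomial.C))
        (teichmuller p (LaurentPolynomial.T (-1)))).coeff I := by
    rw [← eval₂_HH]
    have : LaurentPolynomial.invert (toLaurent (HH t I G.reverse)) =
        ((LaurentPolynomial.invert : C[T;T⁻¹] ≃ₐ[C] C[T;T⁻¹]).toRingEquiv.toRingHom.comp
          (toLaurent : C[X] →+* C[T;T⁻¹])) (HH t I G.reverse) := rfl
    rw [this]
    conv_lhs => rw [← Polynomial.eval₂_C_X (p := HH t I G.reverse)]
    rw [Polynomial.hom_eval₂]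
    congr 1
    · ext x; simp
    · simp
  have hAB : toLaurent (HH t I G) = LaurentPolynomial.T (G.natDegree * p ^ I : ℕ) *
      LaurentPolynomial.invert (toLaurent (HH t I G.reverse)) := by
    rw [hA, hB, ← Polynomial.eval₂_reverse_mul_pow, hinv, ← map_pow]
    rw [show kap (LaurentPolynomial.C t) I * (eval₂ (WittVector.map LaurentPolynomial.C)
        (teichmuller p (LaurentPolynomial.T (-1))) G.reverse *
        teichmuller p (LaurentPolynomial.T 1 ^ G.natDegree)) =
        teichmuller p (LaurentPolynomial.T 1 ^ G.natDegree) * (kap (LaurentPolynomial.C t) I *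
        eval₂ (WittVector.map LaurentPolynomial.C)
        (teichmuller p (LaurentPolynomial.T (-1))) G.reverse) by ring]
    rw [teichmuller_mul_coeff, ← pow_mul, LaurentPolynomial.T_pow]
    simp
  rw [map_mul, map_mul, LaurentPolynomial.toLaurent_reverse, hAB, toLaurent_X_pow, toLaurent_X_pow]
  ring

theorem HH_natDegree_le (t : C) (I : ℕ) (G : Polynomial (WittVector p C)) :
    (HH t I G).natDegree ≤ G.natDegree * p ^ I := by
  have h := HH_reverse t I G
  by_cases h0 : HH t I G = 0
  · simp [h0]
  have : Nontrivial C := Polynomial.Nontrivial.of_polynomial_ne h0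
  have h1 : (HH t I G * X ^ (HH t I G.reverse).natDegree).natDegree =
      (HH t I G).natDegree + (HH t I G.reverse).natDegree := by
    rw [Polynomial.natDegree_mul_X_pow _ h0]
  have h2 : (X ^ (G.natDegree * p ^ I) * (HH t I G.reverse).reverse).natDegree ≤
      G.natDegree * p ^ I + (HH t I G.reverse).natDegree := by
    refine natDegree_mul_le.trans ?_
    exact Nat.add_le_add (natDegree_X_pow_le _) (reverse_natDegree_le _)
  rw [h] at h1
  omega

theorem HH_coeff (t : C) (I : ℕ) (G : Polynomial (WittVector p C)) (hG : G.Monic) :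
    (HH t I G).coeff (G.natDegree * p ^ I) = (kap (p := p) t I).coeff I := by
  have h := congrArg (fun q => q.coeff (G.natDegree * p ^ I + (HH t I G.reverse).natDegree))
    (HH_reverse t I G)
  rw [Polynomial.coeff_mul_X_pow] at h
  rw [h, mul_comm (X ^ _), add_comm, Polynomial.coeff_mul_X_pow, Polynomial.coeff_reverse,
    Polynomial.revAt_le le_rfl, Nat.sub_self]
  rw [Polynomial.coeff_zero_eq_eval_zero, ← Polynomial.eval₂_id, eval₂_HH]
  have : G.reverse.eval₂ (WittVector.map (RingHom.id C)) (teichmuller p (0 : C)) = 1 := by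
    rw [teichmuller_zero, Polynomial.eval₂_at_zero, coeff_zero_reverse, hG.leadingCoeff, map_one]
  rw [this, mul_one]
  rfl

/-- If `t` lies in the Jacobson radical then the leading coefficient of `H` is a unit. -/
theorem isUnit_kap_coeff [CharP C p] [Nontrivial C] (t : C) (ht : t ∈ (⊥ : Ideal C).jacobson)
    (I : ℕ) : IsUnit ((kap (p := p) t I).coeff I) := by
  set J := Ideal.span {t} with hJ
  let q := Ideal.Quotient.mk J
  have hq : q t = 0 := Ideal.Quotient.eq_zero_iff_mem.2 (Ideal.mem_span_singleton_self t)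
  have hJ1 : J ≠ ⊤ := by
    intro h
    have h1 : (1 : C) ∈ J := h ▸ Submodule.mem_top
    obtain ⟨a, ha⟩ := Ideal.mem_span_singleton'.1 h1
    have h2 := (Ideal.mem_jacobson_bot.1 ht) (-a)
    rw [mul_neg, mul_comm t a, ha] at h2
    simp at h2
  have hnt : Nontrivial (C ⧸ J) := Ideal.Quotient.nontrivial_iff.2 hJ1
  have hch : CharP (C ⧸ J) p := by
    rw [CharP.charP_iff_prime_eq_zero hp.out]
    have : ((p : ℕ) : C ⧸ J) = q ((p : ℕ) : C) := (map_natCast q p).symm
    rw [this, CharP.cast_eq_zero, map_zero]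
  have h1 : q ((kap (p := p) t I).coeff I) = (-1) ^ p ^ I := by
    rw [← WittVector.map_coeff, map_kap, hq]
    have h2 : (kap (p := p) (0 : C ⧸ J) I) = (-1) * (p : WittVector p (C ⧸ J)) ^ I := by
      rw [kap, Finset.sum_range_succ, Finset.sum_eq_zero]
      · simp
      · intro j hj
        rw [teichmuller_zero, zero_pow, mul_zero]
        have := Finset.mem_range.1 hj
        omega
    rw [h2]
    have h3 := WittVector.mul_pow_charP_coeff_succ (p := p) (-1 : WittVector p (C ⧸ J)) (m := 0) (n := I)
    rw [zero_add] at h3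
    rw [h3]
    congr 1
    change WittVector.constantCoeff (p := p) (-1 : WittVector p (C ⧸ J)) = -1
    rw [map_neg, map_one]
  have h4 : (kap (p := p) t I).coeff I - (-1) ^ p ^ I ∈ J := by
    rw [← Ideal.Quotient.eq_zero_iff_mem, map_sub]
    change q _ - q _ = 0
    rw [h1]; simp
  obtain ⟨a, ha⟩ := Ideal.mem_span_singleton'.1 h4
  have h5 : ((-1 : C) ^ p ^ I) * ((-1 : C) ^ p ^ I) = 1 := by
    rw [← mul_pow]; simp
  have h6 : (kap (p := p) t I).coeff I = (-1) ^ p ^ I * (t * ((-1) ^ p ^ I * a) + 1) := by
    have : (kap (p := p) t I).coeff I = a * t + (-1) ^ p ^ I := by rw [ha]; ring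
    rw [this]
    calc a * t + (-1) ^ p ^ I = ((-1 : C) ^ p ^ I * (-1) ^ p ^ I) * (a * t) + (-1) ^ p ^ I := by
          rw [h5]; ring
      _ = _ := by ring
  rw [h6]
  exact (IsUnit.of_mul_eq_one _ h5).mul (Ideal.mem_jacobson_bot.1 ht _)

end

end P202.Mix
end

section

/-!
# The perfect closure of a free algebra over a perfect ring (P202, mixed characteristic, T4)
-/

namespace P202.Mix

universe u

variable {p : ℕ} [hp : Fact (Nat.Prime p)]

section

variable {C K : Type*} [CommRing C] [CommRing K] [Algebra C K] [CharP K p]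

/-- The map `x ↦ x ^ (1 / p ^ n)` from `K` to its perfect closure. -/
noncomputable def rt (n : ℕ) : K →+* PerfectClosure K p :=
  ((iterateFrobeniusEquiv (PerfectClosure K p) p n).symm : PerfectClosure K p →+*
    PerfectClosure K p).comp (PerfectClosure.of K p)

theorem rt_pow (n : ℕ) (x : K) : rt (p := p) n x ^ p ^ n = PerfectClosure.of K p x := by
  have : iterateFrobeniusEquiv (PerfectClosure K p) p n (rt n x) = PerfectClosure.of K p x := by
    simp [rt]
  rwa [iterateFrobeniusEquiv_def] at this

theorem eq_rt_of_pow {n : ℕ} {x : K} {y : PerfectClosure K p}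
    (h : y ^ p ^ n = PerfectClosure.of K p x) : y = rt n x := by
  apply (iterateFrobeniusEquiv (PerfectClosure K p) p n).injective
  have h1 : iterateFrobeniusEquiv (PerfectClosure K p) p n y = y ^ p ^ n :=
    iterateFrobeniusEquiv_def _ _ _ _
  have h2 : iterateFrobeniusEquiv (PerfectClosure K p) p n (rt n x) = rt n x ^ p ^ n :=
    iterateFrobeniusEquiv_def _ _ _ _
  rw [h1, h2, h, rt_pow]

theorem exists_rt (y : PerfectClosure K p) : ∃ (n : ℕ) (x : K), y = rt n x := by
  obtain ⟨⟨n, x⟩, rfl⟩ := PerfectClosure.mk_surjective K p y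
  refine ⟨n, x, eq_rt_of_pow ?_⟩
  have := PerfectClosure.iterate_frobenius_mk K p n x
  rw [iterate_frobenius] at this
  exact this

theorem rt_add (n k : ℕ) (x : K) : rt (p := p) n x = rt (n + k) (x ^ p ^ k) := by
  refine eq_rt_of_pow ?_
  rw [pow_add, pow_mul, rt_pow, map_pow]

theorem rt_zero (x : K) : rt (p := p) 0 x = PerfectClosure.of K p x := by
  have := rt_pow (p := p) 0 x
  simpa using this

theorem rt_alg (n : ℕ) (c : C) :
    rt (p := p) n (algebraMap C K (c ^ p ^ n)) = PerfectClosure.of K p (algebraMap C K c) := by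
  symm
  refine eq_rt_of_pow ?_
  rw [map_pow, map_pow]

theorem rt_eq_zero {n : ℕ} {x : K} (h : rt (p := p) n x = 0) : ∃ k : ℕ, x ^ p ^ k = 0 := by
  have h1 : PerfectClosure.of K p x = 0 := by
    rw [← rt_pow n x, h, zero_pow (pow_ne_zero _ hp.out.ne_zero)]
  rw [PerfectClosure.of_apply, ← PerfectClosure.mk_zero K p] at h1
  obtain ⟨k, hk⟩ := (PerfectClosure.mk_eq_iff K p _ _).1 h1
  refine ⟨k, ?_⟩
  simpa [iterate_frobenius] using hk

theorem exists_rt_family {ι : Type*} (s : Finset ι) (y : ι → PerfectClosure K p) :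
    ∃ (n : ℕ) (x : ι → K), ∀ i ∈ s, y i = rt n (x i) := by
  classical
  choose m z hz using fun i => exists_rt (y i)
  refine ⟨s.sup m, fun i => z i ^ p ^ (s.sup m - m i), fun i hi => ?_⟩
  have hle : m i ≤ s.sup m := Finset.le_sup hi
  rw [hz i]
  conv_lhs => rw [rt_add (m i) (s.sup m - m i) (z i)]
  rw [Nat.add_sub_cancel' hle]

section

variable [CharP C p] [PerfectRing C p]

theorem exists_pow (c : C) (n : ℕ) : ∃ d : C, d ^ p ^ n = c := by
  refine ⟨(iterateFrobeniusEquiv C p n).symm c, ?_⟩
  have := (iterateFrobeniusEquiv C p n).apply_symm_apply c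
  rwa [iterateFrobeniusEquiv_def] at this

theorem eq_zero_of_pow {x : C} (n : ℕ) (h : x ^ p ^ n = 0) : x = 0 := by
  apply (iterateFrobeniusEquiv C p n).injective
  rw [iterateFrobeniusEquiv_def, h, map_zero]

variable {N : ℕ} (b : Module.Basis (Fin N) C K)

include b

/-- Expansion in the basis, inside the perfect closure. -/
theorem rt_expand (n : ℕ) (x : K) : ∃ d : Fin N → C, (∀ i, d i ^ p ^ n = b.repr x i) ∧
    rt (p := p) n x = ∑ i, PerfectClosure.of K p (algebraMap C K (d i)) * rt n (b i) := by
  choose d hd using fun i => exists_pow (p := p) (b.repr x i) n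
  refine ⟨d, hd, ?_⟩
  conv_lhs => rw [← b.sum_repr x]
  rw [map_sum]
  refine Finset.sum_congr rfl fun i _ => ?_
  rw [← hd i, Algebra.smul_def, map_mul, rt_alg]

/-- The algebra structure of the perfect closure of `K` over `C`. -/
theorem flat_perfectClosure :
    letI := ((PerfectClosure.of K p).comp (algebraMap C K)).toAlgebra
    Module.Flat C (PerfectClosure K p) := by
  letI := ((PerfectClosure.of K p).comp (algebraMap C K)).toAlgebra
  have hsm : ∀ (c : C) (y : PerfectClosure K p),
      c • y = PerfectClosure.of K p (algebraMap C K c) * y := fun c y => Algebra.smul_def c y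
  refine Module.Flat.of_forall_isTrivialRelation fun {l} {f} {y} h => ?_
  obtain ⟨n, x, hx⟩ := exists_rt_family (p := p) Finset.univ y
  have hx' : ∀ i, y i = rt n (x i) := fun i => hx i (Finset.mem_univ i)
  have h1 : rt (p := p) n (∑ i, algebraMap C K (f i ^ p ^ n) * x i) = 0 := by
    rw [map_sum, ← h]
    refine Finset.sum_congr rfl fun i _ => ?_
    rw [map_mul, rt_alg, hsm, hx' i]
  obtain ⟨k, hk⟩ := rt_eq_zero h1
  -- go up to level `n + k`
  have h2 : ∑ i, algebraMap C K (f i ^ p ^ (n + k)) * x i ^ p ^ k = 0 := by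
    rw [sum_pow_char_pow] at hk
    rw [← hk]
    refine Finset.sum_congr rfl fun i _ => ?_
    rw [mul_pow, ← map_pow, ← pow_mul, pow_add]
  choose d hd hd' using fun i => rt_expand (p := p) b (n + k) (x i ^ p ^ k)
  refine ⟨N, fun i j => d i j, fun j => rt (n + k) (b j), fun i => ?_, fun j => ?_⟩
  · rw [hx' i, rt_add n k, hd' i]
    exact Finset.sum_congr rfl fun j _ => (hsm _ _).symm
  · have h3 : b.repr (∑ i, algebraMap C K (f i ^ p ^ (n + k)) * x i ^ p ^ k) j = 0 := by
      rw [h2]; simp
    have h4 : ∑ i, (f i * d i j) ^ p ^ (n + k) = 0 := by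
      rw [← h3, map_sum, Finsupp.coe_finsetSum, Finset.sum_apply]
      refine Finset.sum_congr rfl fun i _ => ?_
      rw [← Algebra.smul_def, map_smul, Finsupp.smul_apply, smul_eq_mul, ← hd i j, mul_pow]
    rw [← sum_pow_char_pow] at h4
    exact eq_zero_of_pow (p := p) (n + k) h4

/-- Finite subsets of the perfect closure lie in submodules generated by `N` elements. -/
theorem exists_span_perfectClosure (s : Finset (PerfectClosure K p)) :
    letI := ((PerfectClosure.of K p).comp (algebraMap C K)).toAlgebra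
    ∃ g : Fin N → PerfectClosure K p, (s : Set (PerfectClosure K p)) ⊆
      Submodule.span C (Set.range g) := by
  let _ := ((PerfectClosure.of K p).comp (algebraMap C K)).toAlgebra
  have hsm : ∀ (c : C) (y : PerfectClosure K p),
      c • y = PerfectClosure.of K p (algebraMap C K c) * y := fun c y => Algebra.smul_def c y
  obtain ⟨n, x, hx⟩ := exists_rt_family (p := p) s id
  refine ⟨fun i => rt n (b i), fun y hy => ?_⟩
  obtain ⟨d, -, hd⟩ := rt_expand (p := p) b n (x y)
  have : y = rt n (x y) := hx y hy
  rw [this, hd]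
  refine Submodule.sum_mem _ fun i _ => ?_
  rw [← hsm]
  exact Submodule.smul_mem _ _ (Submodule.subset_span ⟨i, rfl⟩)

theorem injective_perfectClosure (hN : 0 < N) :
    Function.Injective ((PerfectClosure.of K p).comp (algebraMap C K)) := by
  rw [injective_iff_map_eq_zero]
  intro c hc
  rw [RingHom.comp_apply, ← rt_zero] at hc
  obtain ⟨k, hk⟩ := rt_eq_zero hc
  rw [← map_pow] at hk
  have h1 : (c ^ p ^ k) • b ⟨0, hN⟩ = 0 := by rw [Algebra.smul_def, hk, zero_mul]
  have h2 : b.repr ((c ^ p ^ k) • b ⟨0, hN⟩) ⟨0, hN⟩ = 0 := by rw [h1]; simp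
  rw [map_smul] at h2
  simp at h2
  exact eq_zero_of_pow (p := p) k h2

end

section

theorem isIntegral_perfectClosure [Module.Finite C K] (y : PerfectClosure K p) :
    ((PerfectClosure.of K p).comp (algebraMap C K)).IsIntegralElem y := by
  obtain ⟨n, x, rfl⟩ := exists_rt y
  obtain ⟨q, hq, hq0⟩ := Algebra.IsIntegral.isIntegral (R := C) x
  let _ := ((PerfectClosure.of K p).comp (algebraMap C K)).toAlgebra
  have h2 : IsIntegral C (PerfectClosure.of K p x) := by
    refine ⟨q, hq, ?_⟩
    have h3 := congrArg (PerfectClosure.of K p) hq0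
    rw [Polynomial.hom_eval₂, map_zero] at h3
    exact h3
  have h4 : IsIntegral C (rt (p := p) n x ^ p ^ n) := by rw [rt_pow]; exact h2
  exact IsIntegral.of_pow (pow_pos hp.out.pos n) h4

end

end

end P202.Mix
end

section

/-!
# T4: adjoining a Teichmüller root (P202, mixed characteristic)

For a perfect ring `C` of characteristic `p`, a nonzerodivisor `t` in the Jacobson radical and a
monic polynomial `G` over `W(C)` of positive degree there is a perfect `C`-algebra `C'`, flat and
integral over `C`, with an element `c` such that `G([c]) ∈ (p - [t]) W(C') + p ^ (I + 1) W(C')`.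
-/

namespace P202.Mix

open WittVector Polynomial

universe u

variable {p : ℕ} [hp : Fact (Nat.Prime p)]


theorem exists_adjoin {C : Type u} [CommRing C] [CharP C p] [PerfectRing C p] [Nontrivial C]
    (t : C) (ht : t ∈ nonZeroDivisors C) (htJ : t ∈ (⊥ : Ideal C).jacobson) (I : ℕ)
    (G : Polynomial (WittVector p C)) (hG : G.Monic) (hG0 : 0 < G.natDegree) :
    ∃ (C' : Type u) (_ : CommRing C') (_ : CharP C' p) (_ : PerfectRing C' p)
      (_ : Nontrivial C') (_ : Algebra C C') (c : C'),
      Module.Flat C C' ∧ Algebra.IsIntegral C C' ∧ Function.Injective (algebraMap C C') ∧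
      algebraMap C C' t ∈ nonZeroDivisors C' ∧
      algebraMap C C' t ∈ (⊥ : Ideal C').jacobson ∧
      (∀ s : Finset C', ∃ g : Fin (G.natDegree * p ^ I) → C',
        (s : Set C') ⊆ Submodule.span C (Set.range g)) ∧
      ∃ v w : WittVector p C', (G.map (WittVector.map (algebraMap C C'))).eval (teichmuller p c) =
        (p - teichmuller p (algebraMap C C' t)) * v + (p : WittVector p C') ^ (I + 1) * w := by
  classical
  -- the monic polynomial
  set N := G.natDegree * p ^ I with hN
  obtain ⟨γ, hγ⟩ := isUnit_kap_coeff (p := p) t htJ I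
  have hcoeff : (HH t I G).coeff N = γ := by rw [hγ]; exact HH_coeff t I G hG
  set H1 : C[X] := Polynomial.C ((γ⁻¹ : Cˣ) : C) * HH t I G with hH1
  have hH1coeff : H1.coeff N = 1 := by
    rw [hH1, Polynomial.coeff_C_mul, hcoeff]; simp
  have hH1deg : H1.natDegree ≤ N :=
    (Polynomial.natDegree_C_mul_le _ _).trans (HH_natDegree_le t I G)
  have hH1mon : H1.Monic := Polynomial.monic_of_natDegree_le_of_coeff_eq_one N hH1deg hH1coeff
  have hH1N : H1.natDegree = N := by
    refine le_antisymm hH1deg ?_
    refine Polynomial.le_natDegree_of_ne_zero ?_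
    rw [hH1coeff]; exact one_ne_zero
  have hNpos : 0 < N := Nat.mul_pos hG0 (pow_pos hp.out.pos _)
  -- the free algebra `K`
  let K := AdjoinRoot H1
  have hKfin : Module.Finite C K := hH1mon.finite_adjoinRoot
  let b : Module.Basis (Fin N) C K :=
    (AdjoinRoot.powerBasis' hH1mon).basis.reindex (finCongr (by
      rw [AdjoinRoot.powerBasis'_dim, hH1N]))
  have hKnt : Nontrivial K := by
    have h1 : b ⟨0, hNpos⟩ ≠ 0 := b.ne_zero _
    exact nontrivial_of_ne _ _ h1
  have hKch : CharP K p := by
    rw [CharP.charP_iff_prime_eq_zero hp.out]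
    have : ((p : ℕ) : K) = algebraMap C K ((p : ℕ) : C) := (map_natCast _ p).symm
    rw [this, CharP.cast_eq_zero, map_zero]
  have hroot : Polynomial.eval₂ (algebraMap C K) (AdjoinRoot.root H1) (HH t I G) = 0 := by
    have h0 : ∀ P Q : C[X], P = Polynomial.C ((γ⁻¹ : Cˣ) : C) * Q →
        Polynomial.eval₂ (algebraMap C K) (AdjoinRoot.root H1) P =
          algebraMap C K ((γ⁻¹ : Cˣ) : C) *
            Polynomial.eval₂ (algebraMap C K) (AdjoinRoot.root H1) Q := by
      rintro P Q rfl
      rw [Polynomial.eval₂_mul, Polynomial.eval₂_C]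
    have h1 : algebraMap C K ((γ⁻¹ : Cˣ) : C) *
        Polynomial.eval₂ (algebraMap C K) (AdjoinRoot.root H1) (HH t I G) = 0 := by
      rw [← h0 H1 _ hH1]
      exact AdjoinRoot.eval₂_root H1
    have h2 : algebraMap C K γ * algebraMap C K ((γ⁻¹ : Cˣ) : C) = 1 := by
      rw [← map_mul]; simp
    calc Polynomial.eval₂ (algebraMap C K) (AdjoinRoot.root H1) (HH t I G)
        = (algebraMap C K γ * algebraMap C K ((γ⁻¹ : Cˣ) : C)) *
          Polynomial.eval₂ (algebraMap C K) (AdjoinRoot.root H1) (HH t I G) := by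
            rw [h2, one_mul]
      _ = algebraMap C K γ * (algebraMap C K ((γ⁻¹ : Cˣ) : C) *
          Polynomial.eval₂ (algebraMap C K) (AdjoinRoot.root H1) (HH t I G)) := by ring
      _ = 0 := by rw [h1, mul_zero]
  -- the perfect closure
  let f : C →+* PerfectClosure K p := (PerfectClosure.of K p).comp (algebraMap C K)
  let alg : Algebra C (PerfectClosure K p) := f.toAlgebra
  have hflat : Module.Flat C (PerfectClosure K p) := flat_perfectClosure b
  have hint : Algebra.IsIntegral C (PerfectClosure K p) := ⟨fun y => isIntegral_perfectClosure y⟩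
  have hinj : Function.Injective (algebraMap C (PerfectClosure K p)) :=
    injective_perfectClosure b hNpos
  have hnt : Nontrivial (PerfectClosure K p) := hinj.nontrivial
  have hnzd : algebraMap C (PerfectClosure K p) t ∈ nonZeroDivisors (PerfectClosure K p) := by
    have h1 : IsSMulRegular C t := by
      intro x y hxy
      have : t * (x - y) = 0 := by
        rw [mul_sub, sub_eq_zero]; exact hxy
      exact sub_eq_zero.1 ((mul_left_mem_nonZeroDivisors_eq_zero_iff ht).1 this)
    have h2 := h1.of_flat (S := PerfectClosure K p)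
    rw [mem_nonZeroDivisors_iff_right]
    intro x hx
    have h3 : algebraMap C (PerfectClosure K p) t • x =
        algebraMap C (PerfectClosure K p) t • (0 : PerfectClosure K p) := by
      simp only [smul_eq_mul, mul_zero]; rw [mul_comm]; exact hx
    exact h2 h3
  refine ⟨PerfectClosure K p, inferInstance, inferInstance, inferInstance, hnt, alg,
    PerfectClosure.of K p (AdjoinRoot.root H1), hflat, hint, hinj, hnzd, ?_,
    fun s => exists_span_perfectClosure b s, ?_⟩
  · -- Jacobson radical
    rw [Ideal.jacobson, Ideal.mem_sInf]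
    rintro M ⟨-, hM⟩
    have h1 : (M.comap (algebraMap C (PerfectClosure K p))).IsMaximal :=
      Ideal.isMaximal_comap_of_isIntegral_of_isMaximal M
    have h2 : t ∈ M.comap (algebraMap C (PerfectClosure K p)) := by
      rw [Ideal.jacobson, Ideal.mem_sInf] at htJ
      exact htJ ⟨bot_le, h1⟩
    exact h2
  · apply key _ hnzd
    have h1 : Polynomial.eval₂ f (PerfectClosure.of K p (AdjoinRoot.root H1)) (HH t I G) = 0 := by
      have := congrArg (PerfectClosure.of K p) hroot
      rwa [Polynomial.hom_eval₂, map_zero] at this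
    rw [eval₂_HH] at h1
    rw [Polynomial.eval_map]
    exact h1

end P202.Mix
end

section

/-!
# T5: iterated extensions (P202, mixed characteristic)
-/

namespace P202.Mix

open WittVector Polynomial

universe u

variable {p : ℕ} [hp : Fact (Nat.Prime p)]


/-- A flat, integral, injective extension in which every finite subset lies in an `r`-generated
submodule. -/
structure GoodExt (C C' : Type u) [CommRing C] [CommRing C'] [Algebra C C'] (r : ℕ) : Prop where
  flat : Module.Flat C C'
  integral : Algebra.IsIntegral C C'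
  inj : Function.Injective (algebraMap C C')
  gen : ∀ s : Finset C', ∃ g : Fin r → C', (s : Set C') ⊆ Submodule.span C (Set.range g)

theorem GoodExt.refl (C : Type u) [CommRing C] : GoodExt C C 1 where
  flat := inferInstance
  integral := inferInstance
  inj := fun _ _ h => h
  gen := fun s => ⟨fun _ => 1, fun x _ => by
    have : x = x • (1 : C) := by simp
    rw [this]
    exact Submodule.smul_mem _ _ (Submodule.subset_span ⟨0, rfl⟩)⟩

theorem GoodExt.trans {C C' C'' : Type u} [CommRing C] [CommRing C'] [CommRing C'']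
    [Algebra C C'] [Algebra C' C''] [Algebra C C''] [IsScalarTower C C' C''] {r r' : ℕ}
    (h : GoodExt C C' r) (h' : GoodExt C' C'' r') : GoodExt C C'' (r * r') where
  flat := by
    have := h.flat
    have := h'.flat
    exact Module.Flat.trans C C' C''
  integral := by
    have := h.integral
    have := h'.integral
    exact Algebra.IsIntegral.trans C'
  inj := by
    rw [IsScalarTower.algebraMap_eq C C' C'']
    exact h'.inj.comp h.inj
  gen := by
    classical
    intro s
    obtain ⟨g', hg'⟩ := h'.gen s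
    have h1 : ∀ x ∈ s, ∃ c : Fin r' → C', ∑ i, c i • g' i = x := by
      intro x hx
      exact (Submodule.mem_span_range_iff_exists_fun C').1 (hg' hx)
    choose! c hc using h1
    obtain ⟨g, hg⟩ := h.gen (s.biUnion fun x => Finset.univ.image fun i => c x i)
    refine ⟨fun k => g (finProdFinEquiv.symm k).1 • g' (finProdFinEquiv.symm k).2, ?_⟩
    intro x hx
    have hx' : x ∈ s := hx
    rw [← hc x hx']
    refine Submodule.sum_mem _ fun i _ => ?_
    have h2 : c x i ∈ Submodule.span C (Set.range g) := by
      apply hg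
      rw [Finset.mem_coe, Finset.mem_biUnion]
      exact ⟨x, hx', Finset.mem_image.2 ⟨i, Finset.mem_univ i, rfl⟩⟩
    obtain ⟨d, hd⟩ := (Submodule.mem_span_range_iff_exists_fun C).1 h2
    rw [← hd, Finset.sum_smul]
    refine Submodule.sum_mem _ fun j _ => ?_
    rw [smul_assoc]
    refine Submodule.smul_mem _ _ (Submodule.subset_span ⟨finProdFinEquiv (j, i), ?_⟩)
    simp

/-- The ideal `(p - [t], p ^ (I + 1))` of `W(C)`. -/
noncomputable def JJ (p : ℕ) [Fact p.Prime] {C : Type u} [CommRing C] (t : C) (I : ℕ) : Ideal (WittVector p C) :=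
  Ideal.span {(p : WittVector p C) - teichmuller p t, (p : WittVector p C) ^ (I + 1)}

theorem map_JJ_le {C C' : Type u} [CommRing C] [CommRing C'] (f : C →+* C') (t : C) (I : ℕ) :
    (JJ p t I).map (WittVector.map f) ≤ JJ p (f t) I := by
  rw [JJ, Ideal.map_span, Ideal.span_le]
  rintro _ ⟨x, hx, rfl⟩
  rcases hx with rfl | hx
  · rw [map_sub, map_natCast, map_teichmuller]
    exact Ideal.subset_span (Or.inl rfl)
  · rw [Set.mem_singleton_iff] at hx
    subst hx
    rw [map_pow, map_natCast]
    exact Ideal.subset_span (Or.inr rfl)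

theorem map_mem_JJ {C C' : Type u} [CommRing C] [CommRing C'] (f : C →+* C') (t : C) (I : ℕ)
    {x : WittVector p C} (hx : x ∈ JJ p t I) : WittVector.map f x ∈ JJ p (f t) I :=
  map_JJ_le f t I (Ideal.mem_map_of_mem _ hx)

/-- `T4` in terms of `GoodExt` and `JJ`. -/
theorem exists_adjoin' {C : Type u} [CommRing C] [CharP C p] [PerfectRing C p] [Nontrivial C]
    (t : C) (ht : t ∈ nonZeroDivisors C) (htJ : t ∈ (⊥ : Ideal C).jacobson) (I : ℕ)
    (G : Polynomial (WittVector p C)) (hG : G.Monic) (hG0 : 0 < G.natDegree) :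
    ∃ (C' : Type u) (_ : CommRing C') (_ : CharP C' p) (_ : PerfectRing C' p)
      (_ : Nontrivial C') (_ : Algebra C C') (c : C'),
      GoodExt C C' (G.natDegree * p ^ I) ∧
      algebraMap C C' t ∈ nonZeroDivisors C' ∧
      algebraMap C C' t ∈ (⊥ : Ideal C').jacobson ∧
      (G.map (WittVector.map (algebraMap C C'))).eval (teichmuller p c) ∈
        JJ p (algebraMap C C' t) I := by
  obtain ⟨C', i1, i2, i3, i4, i5, c, h1, h2, h3, h4, h5, h6, v, w, h7⟩ :=
    exists_adjoin t ht htJ I G hG hG0
  refine ⟨C', i1, i2, i3, i4, i5, c, ⟨h1, h2, h3, h6⟩, h4, h5, ?_⟩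
  rw [h7]
  exact Ideal.add_mem _ (Ideal.mul_mem_right _ _ (Ideal.subset_span (Or.inl rfl)))
    (Ideal.mul_mem_right _ _ (Ideal.subset_span (Or.inr rfl)))

/-- Splitting of a monic polynomial modulo `JJ` by Teichmüller elements. -/
theorem exists_split (I : ℕ) (D : ℕ) : ∃ r : ℕ, ∀ {C : Type u} [CommRing C] [CharP C p]
    [PerfectRing C p] [Nontrivial C] (t : C) (_ : t ∈ nonZeroDivisors C)
    (_ : t ∈ (⊥ : Ideal C).jacobson) (G : Polynomial (WittVector p C)) (_ : G.Monic)
    (_ : G.natDegree = D),
    ∃ (C' : Type u) (_ : CommRing C') (_ : CharP C' p) (_ : PerfectRing C' p)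
      (_ : Nontrivial C') (_ : Algebra C C') (c : Fin D → C'),
      GoodExt C C' r ∧
      algebraMap C C' t ∈ nonZeroDivisors C' ∧
      algebraMap C C' t ∈ (⊥ : Ideal C').jacobson ∧
      G.map (WittVector.map (algebraMap C C')) - ∏ i, (X - Polynomial.C (teichmuller p (c i))) ∈
        (JJ p (algebraMap C C' t) I).map (Polynomial.C) := by
  induction D with
  | zero =>
    refine ⟨1, ?_⟩
    intro C _ _ _ _ t ht htJ G hG hD
    refine ⟨C, inferInstance, inferInstance, inferInstance, inferInstance, inferInstance,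
      Fin.elim0, GoodExt.refl C, ht, htJ, ?_⟩
    have : G = 1 := hG.natDegree_eq_zero.1 hD
    rw [this]
    simp
  | succ D ih =>
    obtain ⟨r, ih⟩ := ih
    refine ⟨((D + 1) * p ^ I) * r, ?_⟩
    intro C _ _ _ _ t ht htJ G hG hD
    obtain ⟨C', i1, i2, i3, i4, i5, c0, h1, h2, h3, h4⟩ :=
      exists_adjoin' t ht htJ I G hG (by omega)
    have hnt : Nontrivial (WittVector p C') := inferInstance
    set G' := G.map (WittVector.map (algebraMap C C')) with hG'
    have hG'm : G'.Monic := hG.map _
    have hG'd : G'.natDegree = D + 1 := by rw [hG', hG.natDegree_map, hD]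
    set G1 := G' /ₘ (X - Polynomial.C (teichmuller p c0)) with hG1
    have hG1e : G' = (X - Polynomial.C (teichmuller p c0)) * G1 +
        Polynomial.C (G'.eval (teichmuller p c0)) := by
      have := Polynomial.modByMonic_add_div G' (X - Polynomial.C (teichmuller p c0))
      rw [Polynomial.modByMonic_X_sub_C_eq_C_eval] at this
      conv_lhs => rw [← this]
      ring
    have hG1d : G1.natDegree = D := by
      rw [hG1, Polynomial.natDegree_divByMonic _ (monic_X_sub_C _), hG'd, natDegree_X_sub_C]
      rfl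
    have hG1m : G1.Monic := by
      rw [Polynomial.Monic, hG1, Polynomial.leadingCoeff_divByMonic_of_monic (monic_X_sub_C _)]
      · exact hG'm
      · rw [degree_X_sub_C, Polynomial.degree_eq_natDegree hG'm.ne_zero, hG'd]
        exact_mod_cast Nat.succ_le_succ (Nat.zero_le D)
    obtain ⟨C'', j1, j2, j3, j4, j5, c, k1, k2, k3, k4⟩ := ih (algebraMap C C' t) h2 h3 G1 hG1m hG1d
    let alg : Algebra C C'' := ((algebraMap C' C'').comp (algebraMap C C')).toAlgebra
    have tow : IsScalarTower C C' C'' := IsScalarTower.of_algebraMap_eq fun _ => rfl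
    have halg : ∀ x, algebraMap C C'' x = algebraMap C' C'' (algebraMap C C' x) := fun _ => rfl
    refine ⟨C'', j1, j2, j3, j4, alg, Fin.cons (algebraMap C' C'' c0) c, ?_, k2, k3, ?_⟩
    · have h5 : GoodExt C C' ((D + 1) * p ^ I) := by rw [← hD]; exact h1
      exact h5.trans k1
    · have h5 : G.map (WittVector.map (algebraMap C C'')) =
          G'.map (WittVector.map (algebraMap C' C'')) := by
        rw [hG', Polynomial.map_map]
        congr 1
      rw [h5, Fin.prod_univ_succ, Fin.cons_zero]
      simp only [Fin.cons_succ]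
      rw [hG1e]
      simp only [Polynomial.map_add, Polynomial.map_mul, Polynomial.map_sub, Polynomial.map_X,
        Polynomial.map_C, map_teichmuller]
      have h6 : (X - Polynomial.C (teichmuller p (algebraMap C' C'' c0))) *
          G1.map (WittVector.map (algebraMap C' C'')) +
          Polynomial.C (WittVector.map (algebraMap C' C'') (G'.eval (teichmuller p c0))) -
          (X - Polynomial.C (teichmuller p (algebraMap C' C'' c0))) *
            ∏ i, (X - Polynomial.C (teichmuller p (c i))) =
          (X - Polynomial.C (teichmuller p (algebraMap C' C'' c0))) *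
            (G1.map (WittVector.map (algebraMap C' C'')) -
              ∏ i, (X - Polynomial.C (teichmuller p (c i)))) +
          Polynomial.C (WittVector.map (algebraMap C' C'') (G'.eval (teichmuller p c0))) := by
        ring
      rw [h6]
      refine Ideal.add_mem _ (Ideal.mul_mem_left _ _ k4) ?_
      exact Ideal.mem_map_of_mem _ (map_mem_JJ (algebraMap C' C'') _ I h4)

/-- Teichmüller representatives modulo `JJ` of finitely many elements. -/
theorem exists_teich (I : ℕ) (m : ℕ) : ∃ r : ℕ, ∀ {C : Type u} [CommRing C] [CharP C p]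
    [PerfectRing C p] [Nontrivial C] (t : C) (_ : t ∈ nonZeroDivisors C)
    (_ : t ∈ (⊥ : Ideal C).jacobson) (f : Fin m → WittVector p C),
    ∃ (C' : Type u) (_ : CommRing C') (_ : CharP C' p) (_ : PerfectRing C' p)
      (_ : Nontrivial C') (_ : Algebra C C') (δ : Fin m → C'),
      GoodExt C C' r ∧
      algebraMap C C' t ∈ nonZeroDivisors C' ∧
      algebraMap C C' t ∈ (⊥ : Ideal C').jacobson ∧
      ∀ i, teichmuller p (δ i) - WittVector.map (algebraMap C C') (f i) ∈
        JJ p (algebraMap C C' t) I := by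
  induction m with
  | zero =>
    refine ⟨1, ?_⟩
    intro C _ _ _ _ t ht htJ f
    exact ⟨C, inferInstance, inferInstance, inferInstance, inferInstance, inferInstance,
      Fin.elim0, GoodExt.refl C, ht, htJ, fun i => i.elim0⟩
  | succ m ih =>
    obtain ⟨r, ih⟩ := ih
    refine ⟨(1 * p ^ I) * r, ?_⟩
    intro C _ _ _ _ t ht htJ f
    have hnt0 : Nontrivial (WittVector p C) := inferInstance
    obtain ⟨C', i1, i2, i3, i4, i5, c0, h1, h2, h3, h4⟩ :=
      exists_adjoin' t ht htJ I (X - Polynomial.C (f 0)) (monic_X_sub_C _)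
        (by rw [natDegree_X_sub_C]; exact one_pos)
    obtain ⟨C'', j1, j2, j3, j4, j5, c, k1, k2, k3, k4⟩ := ih (algebraMap C C' t) h2 h3
      (fun i => WittVector.map (algebraMap C C') (f i.succ))
    let alg : Algebra C C'' := ((algebraMap C' C'').comp (algebraMap C C')).toAlgebra
    have tow : IsScalarTower C C' C'' := IsScalarTower.of_algebraMap_eq fun _ => rfl
    have hmap : ∀ x : WittVector p C, WittVector.map (algebraMap C C'') x =
        WittVector.map (algebraMap C' C'') (WittVector.map (algebraMap C C') x) := by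
      intro x
      rw [← RingHom.comp_apply, map_map_comp]
      rfl
    refine ⟨C'', j1, j2, j3, j4, alg, Fin.cons (algebraMap C' C'' c0) c, ?_, k2, k3, ?_⟩
    · rw [natDegree_X_sub_C] at h1
      exact h1.trans k1
    · intro i
      refine Fin.cases ?_ (fun i => ?_) i
      · rw [Fin.cons_zero, hmap, ← map_teichmuller, ← map_sub]
        rw [Polynomial.eval_map, Polynomial.eval₂_sub, Polynomial.eval₂_X,
          Polynomial.eval₂_C] at h4
        exact map_mem_JJ (algebraMap C' C'') (algebraMap C C' t) I h4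
      · rw [Fin.cons_succ, hmap]
        exact k4 i

/-- Splitting of finitely many monic polynomials of degree `D`. -/
theorem exists_split_family (I D : ℕ) (s : ℕ) : ∃ r : ℕ, ∀ {C : Type u} [CommRing C] [CharP C p]
    [PerfectRing C p] [Nontrivial C] (t : C) (_ : t ∈ nonZeroDivisors C)
    (_ : t ∈ (⊥ : Ideal C).jacobson) (G : Fin s → Polynomial (WittVector p C))
    (_ : ∀ j, (G j).Monic) (_ : ∀ j, (G j).natDegree = D),
    ∃ (C' : Type u) (_ : CommRing C') (_ : CharP C' p) (_ : PerfectRing C' p)
      (_ : Nontrivial C') (_ : Algebra C C') (c : Fin s → Fin D → C'),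
      GoodExt C C' r ∧
      algebraMap C C' t ∈ nonZeroDivisors C' ∧
      algebraMap C C' t ∈ (⊥ : Ideal C').jacobson ∧
      ∀ j, (G j).map (WittVector.map (algebraMap C C')) -
        ∏ i, (X - Polynomial.C (teichmuller p (c j i))) ∈
        (JJ p (algebraMap C C' t) I).map (Polynomial.C) := by
  induction s with
  | zero =>
    refine ⟨1, ?_⟩
    intro C _ _ _ _ t ht htJ G _ _
    exact ⟨C, inferInstance, inferInstance, inferInstance, inferInstance, inferInstance,
      Fin.elim0, GoodExt.refl C, ht, htJ, fun i => i.elim0⟩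
  | succ s ih =>
    obtain ⟨r, ih⟩ := ih
    obtain ⟨r0, h0⟩ := exists_split.{u} (p := p) I D
    refine ⟨r0 * r, ?_⟩
    intro C _ _ _ _ t ht htJ G hG hGD
    have hnt0 : Nontrivial (WittVector p C) := inferInstance
    obtain ⟨C', i1, i2, i3, i4, i5, c0, h1, h2, h3, h4⟩ := h0 t ht htJ (G 0) (hG 0) (hGD 0)
    have hnt1 : Nontrivial (WittVector p C') := inferInstance
    obtain ⟨C'', j1, j2, j3, j4, j5, c, k1, k2, k3, k4⟩ := ih (algebraMap C C' t) h2 h3
      (fun j => (G j.succ).map (WittVector.map (algebraMap C C'))) (fun j => (hG _).map _)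
      (fun j => by rw [(hG _).natDegree_map, hGD])
    let alg : Algebra C C'' := ((algebraMap C' C'').comp (algebraMap C C')).toAlgebra
    have tow : IsScalarTower C C' C'' := IsScalarTower.of_algebraMap_eq fun _ => rfl
    have hmap : ∀ P : Polynomial (WittVector p C), P.map (WittVector.map (algebraMap C C'')) =
        (P.map (WittVector.map (algebraMap C C'))).map (WittVector.map (algebraMap C' C'')) := by
      intro P
      rw [Polynomial.map_map, map_map_comp]
      rfl
    refine ⟨C'', j1, j2, j3, j4, alg, Fin.cons (fun i => algebraMap C' C'' (c0 i)) c,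
      h1.trans k1, k2, k3, ?_⟩
    intro j
    refine Fin.cases ?_ (fun j => ?_) j
    · rw [Fin.cons_zero, hmap]
      have h5 : (∏ i, (X - Polynomial.C (teichmuller p (algebraMap C' C'' (c0 i)))) :
          Polynomial (WittVector p C'')) = (∏ i, (X - Polynomial.C (teichmuller p (c0 i)))).map
          (WittVector.map (algebraMap C' C'')) := by
        rw [Polynomial.map_prod]
        refine Finset.prod_congr rfl fun i _ => ?_
        rw [Polynomial.map_sub, Polynomial.map_X, Polynomial.map_C, map_teichmuller]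
      rw [h5, ← Polynomial.map_sub]
      have h6 := Ideal.mem_map_of_mem (Polynomial.mapRingHom
        (WittVector.map (p := p) (algebraMap C' C''))) h4
      rw [Ideal.map_map, Polynomial.mapRingHom_comp_C, ← Ideal.map_map] at h6
      exact Ideal.map_mono (map_JJ_le (algebraMap C' C'') (algebraMap C C' t) I) h6
    · rw [Fin.cons_succ, hmap]
      exact k4 j

end P202.Mix
end

section

/-!
P202 MIX, M5: existence of the covers `CData`.
-/

namespace Vale.Agent.P202.Mix

open Polynomial

universe u

section M5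
variable (p : ℕ) [Fact p.Prime] (k : Type u) [Field k] [CharP k p] (r : ℕ)

theorem nontrivial_Rp : Nontrivial (Rp p k r) := by
  have h : PerfectClosure.of (R0 k r) p 1 ≠ 0 := by
    intro h0
    rw [← _root_.P202.Mix.rt_zero] at h0
    obtain ⟨n, hn⟩ := _root_.P202.Mix.rt_eq_zero h0
    rw [one_pow] at hn
    exact one_ne_zero hn
  exact nontrivial_of_ne _ _ h

theorem xp_mem_nonZeroDivisors (i : Fin (r + 1)) : xp p k r i ∈ nonZeroDivisors (Rp p k r) := by
  rw [mem_nonZeroDivisors_iff_right]
  intro y hy
  obtain ⟨n, x, rfl⟩ := _root_.P202.Mix.exists_rt y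
  have h1 : xp p k r i = _root_.P202.Mix.rt n ((MvPowerSeries.X i : R0 k r) ^ p ^ n) := by
    have := _root_.P202.Mix.rt_add (p := p) 0 n (MvPowerSeries.X i : R0 k r)
    rw [zero_add] at this
    rw [← this, _root_.P202.Mix.rt_zero]
    rfl
  rw [h1, ← map_mul] at hy
  obtain ⟨m, hm⟩ := _root_.P202.Mix.rt_eq_zero hy
  have h2 := pow_eq_zero_iff (pow_ne_zero m (Fact.out : p.Prime).ne_zero) |>.1 hm
  rcases mul_eq_zero.1 h2 with h3 | h3
  · rw [h3, map_zero]
  · exfalso
    have h4 := pow_eq_zero_iff (pow_ne_zero n (Fact.out : p.Prime).ne_zero) |>.1 h3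
    have h5 := congrArg (MvPowerSeries.coeff (Finsupp.single i 1)) h4
    rw [MvPowerSeries.coeff_X, if_pos rfl, map_zero] at h5
    exact one_ne_zero h5

theorem xp_mem_jacobson (i : Fin (r + 1)) : xp p k r i ∈ (⊥ : Ideal (Rp p k r)).jacobson := by
  rw [Ideal.mem_jacobson_bot]
  intro y
  obtain ⟨n, x, rfl⟩ := _root_.P202.Mix.exists_rt y
  have hp0 : p ^ n ≠ 0 := pow_ne_zero n (Fact.out : p.Prime).ne_zero
  have h1 : (xp p k r i * _root_.P202.Mix.rt n x + 1) ^ p ^ n =
      PerfectClosure.of (R0 k r) p ((MvPowerSeries.X i : R0 k r) ^ p ^ n * x + 1) := by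
    rw [add_pow_char_pow, mul_pow, _root_.P202.Mix.rt_pow, one_pow, map_add, map_mul, map_pow,
      map_one]
    rfl
  have h2 : IsUnit ((MvPowerSeries.X i : R0 k r) ^ p ^ n * x + 1) := by
    rw [MvPowerSeries.isUnit_iff_constantCoeff, map_add, map_mul, map_pow,
      MvPowerSeries.constantCoeff_X, zero_pow hp0, zero_mul, zero_add, map_one]
    exact isUnit_one
  have h3 : IsUnit ((xp p k r i * _root_.P202.Mix.rt n x + 1) ^ p ^ n) := by
    rw [h1]; exact h2.map _
  exact (isUnit_pow_iff hp0).1 h3

variable {p k r} in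
theorem toB_mem {C : Type u} [CommRing C] (t : C) (I : ℕ) {x : WittVector p C}
    (hx : x ∈ _root_.P202.Mix.JJ p t I) :
    toB p C t x ∈ Ideal.span {(p : Bt p C t) ^ (I + 1)} := by
  have h1 : (_root_.P202.Mix.JJ p t I).map (toB p C t) ≤ Ideal.span {(p : Bt p C t) ^ (I + 1)} := by
    rw [_root_.P202.Mix.JJ, Ideal.map_span, Ideal.span_le]
    rintro _ ⟨y, hy, rfl⟩
    rcases hy with rfl | hy
    · have : toB p C t ((p : WittVector p C) - WittVector.teichmuller p t) = 0 :=
        Ideal.Quotient.eq_zero_iff_mem.2 (Ideal.mem_span_singleton_self _)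
      rw [this]
      exact Submodule.zero_mem _
    · rw [Set.mem_singleton_iff] at hy
      subst hy
      rw [map_pow, map_natCast]
      exact Ideal.mem_span_singleton_self _
  exact h1 (Ideal.mem_map_of_mem _ hx)

/-- TASK M5: existence of the covers. -/
theorem exists_cdata {Λ : Type u} [CommRing Λ] (ψ : Λ →+* WittVector p (Rp p k r)) {s D : ℕ}
    (F : Fin s → Λ[X]) (hF : ∀ j, (F j).Monic) (hD : ∀ j, (F j).natDegree = D)
    (E : MvPolynomial (Fin s) Λ) (g : Λ) (I : ℕ) :
    ∃ r0 : ℕ, Nonempty (CData.{u} ψ (D := D) F E g I r0) := by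
  classical
  obtain ⟨r1, h1⟩ := _root_.P202.Mix.exists_split_family.{u} (p := p) I D s
  obtain ⟨r2, h2⟩ := _root_.P202.Mix.exists_teich.{u} (p := p) I
    (Fintype.card (Bool × (Fin s → Fin D)))
  refine ⟨r1 * r2, ?_⟩
  have hnt := nontrivial_Rp p k r
  have hnt' : Nontrivial (WittVector p (Rp p k r)) := inferInstance
  obtain ⟨C1, i1, i2, i3, i4, i5, c1, a1, a2, a3, a4⟩ := h1 (xp p k r 0)
    (xp_mem_nonZeroDivisors p k r 0) (xp_mem_jacobson p k r 0) (fun j => (F j).map ψ)
    (fun j => (hF j).map _) (fun j => by rw [(hF j).natDegree_map, hD])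
  let e := Fintype.equivFin (Bool × (Fin s → Fin D))
  let ψ1 : Λ →+* WittVector p C1 := (WittVector.map (algebraMap (Rp p k r) C1)).comp ψ
  let f1 : (Fin s → Fin D) → WittVector p C1 := fun π =>
    MvPolynomial.eval₂ ψ1 (fun j => WittVector.teichmuller p (c1 j (π j))) E
  let f : Bool × (Fin s → Fin D) → WittVector p C1 := fun z =>
    if z.1 then f1 z.2 else ψ1 g - f1 z.2
  obtain ⟨C2, j1, j2, j3, j4, j5, d, b1, b2, b3, b4⟩ := h2 (algebraMap (Rp p k r) C1 (xp p k r 0))
    a2 a3 (fun m => f (e.symm m))
  let alg : Algebra (Rp p k r) C2 := ((algebraMap C1 C2).comp (algebraMap (Rp p k r) C1)).toAlgebra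
  have tow : IsScalarTower (Rp p k r) C1 C2 := IsScalarTower.of_algebraMap_eq fun _ => rfl
  have hG := a1.trans b1
  let P : PExt p k r (r1 * r2) :=
    { C := C2, flat := hG.flat, integral := hG.integral, inj := hG.inj, fin := hG.gen }
  have htC : tC p k r C2 = algebraMap C1 C2 (algebraMap (Rp p k r) C1 (xp p k r 0)) := rfl
  have hψ : (WittVector.map (algebraMap (Rp p k r) C2)).comp ψ =
      (WittVector.map (algebraMap C1 C2)).comp ψ1 := by
    rw [← RingHom.comp_assoc, _root_.P202.Mix.map_map_comp]
    rfl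
  -- the evaluation of `E`
  have hE : ∀ π : Fin s → Fin D,
      MvPolynomial.eval₂ (laB ψ C2) (fun j => te p C2 (tC p k r C2) (algebraMap C1 C2 (c1 j (π j)))) E
        = toB p C2 (tC p k r C2) (WittVector.map (algebraMap C1 C2) (f1 π)) := by
    intro π
    have h5 := MvPolynomial.eval₂_comp_left
      ((toB p C2 (tC p k r C2)).comp (WittVector.map (algebraMap C1 C2))) ψ1
      (fun j => WittVector.teichmuller p (c1 j (π j))) E
    have h6 : (toB p C2 (tC p k r C2)) (WittVector.map (algebraMap C1 C2) (f1 π)) =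
      ((toB p C2 (tC p k r C2)).comp (WittVector.map (algebraMap C1 C2))) (f1 π) := rfl
    rw [h6, h5]
    have h7 : laB ψ C2 =
        ((toB p C2 (tC p k r C2)).comp (WittVector.map (algebraMap C1 C2))).comp ψ1 := by
      rw [laB, hψ, RingHom.comp_assoc]
    rw [h7]
    congr 1
    funext j
    change toB p C2 (tC p k r C2) (WittVector.teichmuller p (algebraMap C1 C2 (c1 j (π j)))) =
      toB p C2 (tC p k r C2) (WittVector.map (algebraMap C1 C2)
        (WittVector.teichmuller p (c1 j (π j))))
    rw [WittVector.map_teichmuller]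
  refine ⟨{ toPExt := P, c := fun j i => algebraMap C1 C2 (c1 j i),
            δ := fun π => d (e (true, π)), δ' := fun π => d (e (false, π)),
            split := ?_, hδ := ?_, hδ' := ?_ }⟩
  · intro j n
    have h5 := (Ideal.mem_map_C_iff.1 (a4 j)) n
    have h6 := _root_.P202.Mix.map_mem_JJ (algebraMap C1 C2) _ I h5
    have h7 := toB_mem (p := p) _ I h6
    have h8 : toB p C2 (tC p k r C2) (WittVector.map (algebraMap C1 C2)
        ((((F j).map ψ).map (WittVector.map (algebraMap (Rp p k r) C1)) -
          ∏ i, (X - Polynomial.C (WittVector.teichmuller p (c1 j i)))).coeff n)) =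
        ((F j).map (laB ψ C2) -
          ∏ i, (X - Polynomial.C (te p C2 (tC p k r C2) (algebraMap C1 C2 (c1 j i))))).coeff n := by
      rw [← RingHom.comp_apply, ← Polynomial.coeff_map, Polynomial.map_sub, Polynomial.map_prod,
        Polynomial.map_map, Polynomial.map_map]
      have h9 : (((toB p C2 (tC p k r C2)).comp (WittVector.map (algebraMap C1 C2))).comp
          (WittVector.map (algebraMap (Rp p k r) C1))).comp ψ = laB ψ C2 := by
        rw [laB, hψ]
        rfl
      have h10 : ∏ i, Polynomial.map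
          ((toB p C2 (tC p k r C2)).comp (WittVector.map (algebraMap C1 C2)))
          (X - Polynomial.C (WittVector.teichmuller p (c1 j i))) =
          ∏ i, (X - Polynomial.C (te p C2 (tC p k r C2) (algebraMap C1 C2 (c1 j i)))) := by
        refine Finset.prod_congr rfl fun i _ => ?_
        rw [Polynomial.map_sub, Polynomial.map_X, Polynomial.map_C, RingHom.comp_apply,
          WittVector.map_teichmuller]
        rfl
      rw [h9, h10]
    rw [← h8]
    exact h7
  · intro π
    have h5 := toB_mem (p := p) _ I (b4 (e (true, π)))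
    rw [map_sub] at h5
    have h6 : f (e.symm (e (true, π))) = f1 π := by rw [e.symm_apply_apply]; rfl
    rw [h6] at h5
    rw [hE π]
    exact h5
  · intro π
    have h5 := toB_mem (p := p) _ I (b4 (e (false, π)))
    rw [map_sub] at h5
    have h6 : f (e.symm (e (false, π))) = ψ1 g - f1 π := by rw [e.symm_apply_apply]; rfl
    rw [h6, map_sub, map_sub] at h5
    have h7 : laB ψ C2 g = toB p C2 (tC p k r C2) (WittVector.map (algebraMap C1 C2) (ψ1 g)) := by
      rw [laB, hψ]
      rfl
    rw [hE π, h7]
    exact h5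

end M5

end Vale.Agent.P202.Mix
end

section

/-!
P202 MIX: `p`-bases and the algebra of all `p`-power roots (definitions).
-/

namespace Vale.Agent.P202.Mix

open Polynomial TensorProduct IsLocalRing

universe u v w

/-- exponents below `q`. -/
abbrev Bx (ι : Type*) (q : ℕ) : Type _ := {α : ι →₀ ℕ // ∀ i, α i < q}

/-- `b` is a `p`-basis of `k`: for every `e`, every element is uniquely a sum of
`c_α ^ (p ^ e) * b ^ α`, the exponents of `b ^ α` being less than `p ^ e`. -/
def IsPBasis (p : ℕ) {k : Type*} [Field k] {ι : Type*} (b : ι → k) : Prop :=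
  (∀ i, b i ≠ 0) ∧ ∀ (e : ℕ) (x : k), ∃! c : (Bx ι (p ^ e) →₀ k),
    (c.sum fun α y => y ^ p ^ e * α.1.prod fun i m => b i ^ m) = x

/-- the algebra of all `p`-power roots of the elements `a i`. -/
def RootAlg (p : ℕ) (S : Type*) [CommRing S] {ι : Type*} (a : ι → S) : Type _ :=
  MvPolynomial (ι × ℕ) S ⧸ Ideal.span
    ((Set.range fun i : ι => (MvPolynomial.X (i, 0) - MvPolynomial.C (a i) :
      MvPolynomial (ι × ℕ) S)) ∪
    Set.range fun x : ι × ℕ => (MvPolynomial.X (x.1, x.2 + 1) ^ p - MvPolynomial.X x :
      MvPolynomial (ι × ℕ) S))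

noncomputable section

variable (p : ℕ) (S : Type u) [CommRing S] {ι : Type v} (a : ι → S)

instance : CommRing (RootAlg p S a) := inferInstanceAs (CommRing (MvPolynomial (ι × ℕ) S ⧸ _))

instance : Algebra S (RootAlg p S a) := inferInstanceAs (Algebra S (MvPolynomial (ι × ℕ) S ⧸ _))

/-- the root of order `p ^ e`. -/
def rx (i : ι) (e : ℕ) : RootAlg p S a := Ideal.Quotient.mk _ (MvPolynomial.X (i, e))

/-- the index set of the tower. -/
abbrev RI (ι : Type v) : Type v := Finset ι × ℕ

/-- the subalgebra generated by the `p ^ e`-th roots of the `a i`, `i ∈ F`. -/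
def rsub (x : RI ι) : Subalgebra S (RootAlg p S a) :=
  Algebra.adjoin S {y | ∃ i ∈ x.1, y = rx p S a i x.2}

end

end Vale.Agent.P202.Mix
end

section

/-!
P202, mixed characteristic: `p`-bases of fields; sections of square-zero extensions with
prescribed values on a `p`-basis.
-/

namespace Vale.Agent.P202.Mix

open Finset

/-- monomials -/
noncomputable def pmon {M : Type*} [CommMonoid M] {ι : Type*} (b : ι → M) (I : ι →₀ ℕ) : M :=
  I.prod fun i n => b i ^ n

section pmon

variable {M : Type*} [CommMonoid M] {ι : Type*} (b : ι → M)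

@[simp] theorem pmon_zero : pmon b 0 = 1 := Finsupp.prod_zero_index

theorem pmon_add (I J : ι →₀ ℕ) : pmon b (I + J) = pmon b I * pmon b J :=
  Finsupp.prod_add_index' (fun _ => pow_zero _) fun _ _ _ => pow_add _ _ _

theorem pmon_smul (n : ℕ) (I : ι →₀ ℕ) : pmon b (n • I) = pmon b I ^ n := by
  induction n with
  | zero => rw [zero_smul, pmon_zero, pow_zero]
  | succ n ih => rw [succ_nsmul, pmon_add, ih, pow_succ]

theorem pmon_single (i : ι) (n : ℕ) : pmon b (Finsupp.single i n) = b i ^ n :=
  Finsupp.prod_single_index (pow_zero _)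

theorem map_pmon {M' : Type*} [CommMonoid M'] {F : Type*} [FunLike F M M'] [MonoidHomClass F M M']
    (f : F) (I : ι →₀ ℕ) : f (pmon b I) = pmon (fun i => f (b i)) I := by
  unfold pmon
  rw [map_finsuppProd]
  simp only [map_pow]

end pmon

/-- division with remainder of exponents. -/
theorem exists_div_mod {ι : Type*} (q : ℕ) (hq : 0 < q) (I : ι →₀ ℕ) :
    ∃ Q R : ι →₀ ℕ, I = q • Q + R ∧ ∀ i, R i < q := by
  refine ⟨I.mapRange (fun n => n / q) (Nat.zero_div q),
    I.mapRange (fun n => n % q) (Nat.zero_mod q), ?_, fun i => ?_⟩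
  · ext i
    simp only [Finsupp.coe_add, Finsupp.coe_smul, Pi.add_apply, Pi.smul_apply,
      Finsupp.mapRange_apply, smul_eq_mul]
    exact (Nat.div_add_mod (I i) q).symm
  · rw [Finsupp.mapRange_apply]
    exact Nat.mod_lt _ hq

/-- `p`-bases (with exponents below `q`, where `q` is `p`, or a power of `p`). -/
structure IsQBasis (q : ℕ) {k : Type*} [Field k] {ι : Type*} (b : ι → k) : Prop where
  ind : ∀ c : (ι →₀ ℕ) →₀ k, (∀ I ∈ c.support, ∀ i, I i < q) →
    (c.sum fun I a => a ^ q * pmon b I) = 0 → c = 0
  span : ∀ x : k, ∃ c : (ι →₀ ℕ) →₀ k, (∀ I ∈ c.support, ∀ i, I i < q) ∧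
    (c.sum fun I a => a ^ q * pmon b I) = x

section section_

variable (p : ℕ) [hp : Fact p.Prime] {T : Type*} [CommRing T] [CharP T p] {ι : Type*}

/-- the sums of `p`-th powers times reduced monomials. -/
def pspan (B : ι → T) : AddSubgroup T :=
  AddSubgroup.closure {x | ∃ (a : T) (I : ι →₀ ℕ), (∀ i, I i < p) ∧ x = a ^ p * pmon B I}

omit [CharP T p] in
theorem mem_pspan {B : ι → T} (a : T) (I : ι →₀ ℕ) : a ^ p * pmon B I ∈ pspan p B := by
  obtain ⟨Q, R, rfl, hR⟩ := exists_div_mod p hp.out.pos I
  refine AddSubgroup.subset_closure ⟨a * pmon B Q, R, hR, ?_⟩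
  rw [pmon_add, pmon_smul, mul_pow, mul_assoc]

/-- the subring generated by the `p`-th powers and the `B i`. -/
def pring (B : ι → T) : Subring T :=
  { pspan p B with
    one_mem' := by
      have := mem_pspan p (B := B) 1 0
      rwa [one_pow, pmon_zero, one_mul] at this
    mul_mem' := by
      intro x y hx hy
      change x ∈ pspan p B at hx
      change y ∈ pspan p B at hy
      change x * y ∈ pspan p B
      induction hx using AddSubgroup.closure_induction with
      | mem x hx =>
        obtain ⟨a, I, -, rfl⟩ := hx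
        induction hy using AddSubgroup.closure_induction with
        | mem y hy =>
          obtain ⟨a', J, -, rfl⟩ := hy
          have h1 : a ^ p * pmon B I * (a' ^ p * pmon B J) = (a * a') ^ p * pmon B (I + J) := by
            rw [pmon_add, mul_pow]
            ring
          rw [h1]
          exact mem_pspan p _ _
        | zero => rw [mul_zero]; exact zero_mem _
        | add y y' _ _ h1 h2 => rw [mul_add]; exact add_mem h1 h2
        | neg y _ h1 => rw [mul_neg]; exact neg_mem h1
      | zero => rw [zero_mul]; exact zero_mem _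
      | add x x' _ _ h1 h2 => rw [add_mul]; exact add_mem h1 h2
      | neg x _ h1 => rw [neg_mul]; exact neg_mem h1 }

/-- elements of `pspan` are sums. -/
theorem exists_of_mem_pspan {B : ι → T} {x : T} (hx : x ∈ pspan p B) :
    ∃ c : (ι →₀ ℕ) →₀ T, (∀ I ∈ c.support, ∀ i, I i < p) ∧
      (c.sum fun I a => a ^ p * pmon B I) = x := by
  classical
  have hz : ∀ I : ι →₀ ℕ, (0 : T) ^ p * pmon B I = 0 := fun I => by
    rw [zero_pow hp.out.ne_zero, zero_mul]
  induction hx using AddSubgroup.closure_induction with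
  | mem x hx =>
    obtain ⟨a, I, hI, rfl⟩ := hx
    refine ⟨Finsupp.single I a, fun J hJ => ?_, Finsupp.sum_single_index (hz I)⟩
    have := Finset.mem_singleton.mp (Finsupp.support_single_subset hJ)
    rw [this]
    exact hI
  | zero => exact ⟨0, by simp, Finsupp.sum_zero_index⟩
  | add x y _ _ h1 h2 =>
    obtain ⟨c, hc, rfl⟩ := h1
    obtain ⟨d, hd, rfl⟩ := h2
    refine ⟨c + d, fun I hI => ?_, ?_⟩
    · rcases Finset.mem_union.mp (Finsupp.support_add hI) with h | h
      · exact hc I h
      · exact hd I h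
    · refine Finsupp.sum_add_index' hz fun I a a' => ?_
      rw [add_pow_char, add_mul]
  | neg x _ h1 =>
    obtain ⟨c, hc, rfl⟩ := h1
    refine ⟨-c, fun I hI => hc I (by rwa [Finsupp.support_neg] at hI), ?_⟩
    rw [Finsupp.sum_neg_index hz, Finsupp.sum, Finsupp.sum, ← Finset.sum_neg_distrib]
    refine Finset.sum_congr rfl fun I _ => ?_
    have : (-(c I)) ^ p = -(c I) ^ p := map_neg (frobenius T p) (c I)
    rw [this, neg_mul]

/-- sections of square-zero extensions of a field in characteristic `p` with prescribed values on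
a `p`-basis. -/
theorem exists_section_qbasis {k : Type*} [Field k] (π : T →+* k) (hπ : Function.Surjective π)
    (hN : ∀ a b, π a = 0 → π b = 0 → a * b = 0) {b : ι → k} (hb : IsQBasis p b) (B : ι → T)
    (hB : ∀ i, π (B i) = b i) : ∃ s : k →+* T, π.comp s = RingHom.id k ∧ ∀ i, s (b i) = B i := by
  have hz : ∀ I : ι →₀ ℕ, (0 : T) ^ p * pmon B I = 0 := fun I => by
    rw [zero_pow hp.out.ne_zero, zero_mul]
  have hmon : ∀ I, π (pmon B I) = pmon b I := fun I => by
    rw [map_pmon]
    simp only [hB]
  let f : pring p B →+* k := π.comp (pring p B).subtype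
  have hinj : Function.Injective f := by
    rw [injective_iff_map_eq_zero]
    rintro ⟨x, hx⟩ h
    have h0 : π x = 0 := h
    obtain ⟨c, hc, hcx⟩ := exists_of_mem_pspan p hx
    have h1 : ((c.mapRange π (map_zero π)).sum fun I a => a ^ p * pmon b I) = 0 := by
      rw [Finsupp.sum_mapRange_index (fun I => by rw [zero_pow hp.out.ne_zero, zero_mul]), ← h0,
        ← hcx, Finsupp.sum, Finsupp.sum, map_sum]
      refine Finset.sum_congr rfl fun I _ => ?_
      rw [map_mul, map_pow, hmon]
    have h2 := hb.ind _ (fun I hI => hc I (Finsupp.support_mapRange hI)) h1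
    refine Subtype.ext ?_
    change x = 0
    rw [← hcx]
    refine Finset.sum_eq_zero fun I _ => ?_
    have h3 : π (c I) = 0 := by
      have := DFunLike.congr_fun h2 I
      rwa [Finsupp.mapRange_apply] at this
    obtain ⟨m, hm⟩ := Nat.exists_eq_add_of_le hp.out.two_le
    have h4 : c I ^ p = 0 := by rw [hm, pow_add, pow_two, hN _ _ h3 h3, zero_mul]
    change c I ^ p * pmon B I = 0
    rw [h4, zero_mul]
  have hsurj : Function.Surjective f := by
    intro x
    obtain ⟨c, hc, hcx⟩ := hb.span x
    choose g hg using hπ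
    let y : T := ∑ I ∈ c.support, g (c I) ^ p * pmon B I
    have hy : y ∈ pring p B := sum_mem fun I _ => mem_pspan p _ _
    refine ⟨⟨y, hy⟩, ?_⟩
    change π y = x
    rw [← hcx, Finsupp.sum, map_sum]
    refine Finset.sum_congr rfl fun I _ => ?_
    rw [map_mul, map_pow, hg, hmon]
  let e : pring p B ≃+* k := RingEquiv.ofBijective f ⟨hinj, hsurj⟩
  refine ⟨(pring p B).subtype.comp (e.symm : k →+* pring p B), ?_, fun i => ?_⟩
  · ext x
    exact e.apply_symm_apply x
  · have hBi : B i ∈ pring p B := by
      have := mem_pspan p (B := B) 1 (Finsupp.single i 1)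
      rwa [one_pow, pmon_single, pow_one, one_mul] at this
    have h1 : e ⟨B i, hBi⟩ = b i := hB i
    have h2 : e.symm (b i) = ⟨B i, hBi⟩ := by rw [← h1, RingEquiv.symm_apply_apply]
    change ((e.symm (b i) : pring p B) : T) = B i
    rw [h2]

end section_

section conversion

/-- the `p`-bases of `RootDefs`. -/
theorem isQBasis_of_isPBasis (p : ℕ) [hp : Fact p.Prime] {k : Type*} [Field k] {ι : Type*}
    {b : ι → k} (hb : IsPBasis p b) : IsQBasis p b := by
  have h1 : ∀ x : k, ∃! c : (Bx ι p →₀ k),
      (c.sum fun α y => y ^ p * α.1.prod fun i m => b i ^ m) = x := by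
    have := hb.2 1
    rw [pow_one] at this
    exact this
  have hz : ∀ I : ι →₀ ℕ, (0 : k) ^ p * pmon b I = 0 := fun I => by
    rw [zero_pow hp.out.ne_zero, zero_mul]
  refine ⟨fun c hc hsum => ?_, fun x => ?_⟩
  · obtain ⟨c0, -, huniq⟩ := h1 0
    have h2 := huniq (c.subtypeDomain fun α => ∀ i, α i < p) (by
      rw [← hsum]
      exact Finsupp.sum_subtypeDomain_index (h := fun I a => a ^ p * pmon b I) hc)
    have h3 := huniq 0 Finsupp.sum_zero_index
    have h4 : (c.subtypeDomain fun α => ∀ i, α i < p) = 0 := h2.trans h3.symm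
    ext I
    by_contra hI
    have h5 : I ∈ c.support := Finsupp.mem_support_iff.mpr hI
    have h6 := DFunLike.congr_fun h4 ⟨I, hc I h5⟩
    rw [Finsupp.subtypeDomain_apply] at h6
    exact hI h6
  · obtain ⟨c, hc, -⟩ := h1 x
    refine ⟨c.embDomain (Function.Embedding.subtype _), fun I hI => ?_, ?_⟩
    · rw [Finsupp.support_embDomain, Finset.mem_map] at hI
      obtain ⟨J, -, rfl⟩ := hI
      exact J.2
    · rw [← hc, Finsupp.sum_embDomain]
      rfl

end conversion

end Vale.Agent.P202.Mix
end

section

/-!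
P202, mixed characteristic: Cohen rings as subrings of a `p`-adically complete ring.
-/

namespace Vale.Agent.P202.Mix

section cohen

variable (p : ℕ) [hp : Fact p.Prime] {W K k : Type*} [CommRing W] [Field K] [Field k] [CharP k p]
  (j : k →+* K) (π : W →+* K) {ι : Type*} (B : ι → W)

/-- one step of the construction. -/
structure CRel (G G' : Subring W) : Prop where
  le : G' ≤ G
  pmul : ∀ x ∈ G, (p : W) * x ∈ G'
  range : ∀ x ∈ G', π x ∈ j.range
  surj : ∀ a : k, ∃ x ∈ G', π x = j a
  ker : ∀ x ∈ G', π x = 0 → ∃ y ∈ G, x = p * y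
  basis : ∀ i, B i ∈ G'

variable {p j π B}

theorem CRel.step {b : ι → k} (hb : IsQBasis p b) (hB : ∀ i, π (B i) = j (b i))
    {G G' : Subring W} (h : CRel p j π B G G') : ∃ G'', CRel p j π B G' G'' := by
  classical
  -- the residue map of `G'`
  have hbij : Function.Bijective j.rangeRestrict :=
    ⟨fun x y hxy => j.injective (congrArg Subtype.val hxy), j.rangeRestrict_surjective⟩
  let e : k ≃+* j.range := RingEquiv.ofBijective _ hbij
  let f : G' →+* k := (e.symm : j.range →+* k).comp
    ((π.comp G'.subtype).codRestrict j.range fun x => h.range x x.2)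
  have hf : ∀ x : G', j (f x) = π x := by
    intro x
    have h1 : (e (f x) : K) = π x := by
      change ((e (e.symm _) : j.range) : K) = π x
      rw [RingEquiv.apply_symm_apply]
      rfl
    exact h1
  let I : Ideal G' := Ideal.span {(p : G')}
  have hfI : ∀ x ∈ I, f x = 0 := by
    intro x hx
    obtain ⟨y, rfl⟩ := Ideal.mem_span_singleton'.mp hx
    rw [map_mul, map_natCast, CharP.cast_eq_zero, mul_zero]
  let g : G' ⧸ I →+* k := Ideal.Quotient.lift I f hfI
  have hg : ∀ x : G', g (Ideal.Quotient.mk I x) = f x := fun x => Ideal.Quotient.lift_mk I f hfI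
  have hnt : Nontrivial (G' ⧸ I) := g.domain_nontrivial
  have hch : CharP (G' ⧸ I) p := by
    rw [CharP.charP_iff_prime_eq_zero hp.out, ← map_natCast (Ideal.Quotient.mk I),
      Ideal.Quotient.eq_zero_iff_mem]
    exact Ideal.mem_span_singleton_self _
  have hgs : Function.Surjective g := by
    intro a
    obtain ⟨x, hx, hxa⟩ := h.surj a
    refine ⟨Ideal.Quotient.mk I ⟨x, hx⟩, ?_⟩
    rw [hg]
    apply j.injective
    rw [hf, ← hxa]
  have hkf : ∀ x : G', f x = 0 → ∃ y ∈ G, (x : W) = p * y := by
    intro x hx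
    refine h.ker x x.2 ?_
    rw [← hf, hx, map_zero]
  have hgn : ∀ a b, g a = 0 → g b = 0 → a * b = 0 := by
    intro a b ha hb'
    obtain ⟨x, rfl⟩ := Ideal.Quotient.mk_surjective a
    obtain ⟨y, rfl⟩ := Ideal.Quotient.mk_surjective b
    rw [hg] at ha hb'
    obtain ⟨x', hx', hxx⟩ := hkf x ha
    obtain ⟨y', hy', hyy⟩ := hkf y hb'
    rw [← map_mul, Ideal.Quotient.eq_zero_iff_mem]
    refine Ideal.mem_span_singleton'.mpr ⟨⟨p * (x' * y'), h.pmul _ (mul_mem hx' hy')⟩, ?_⟩
    refine Subtype.ext ?_
    change (p : W) * (x' * y') * p = (x : W) * y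
    rw [hxx, hyy]
    ring
  obtain ⟨s, hs, hsB⟩ := exists_section_qbasis p g hgs hgn hb
    (fun i => Ideal.Quotient.mk I ⟨B i, h.basis i⟩) (by
      intro i
      rw [hg]
      apply j.injective
      rw [hf]
      exact hB i)
  have hs' : ∀ a, g (s a) = a := fun a => DFunLike.congr_fun hs a
  refine ⟨(s.range.comap (Ideal.Quotient.mk I)).map G'.subtype, ?_, ?_, ?_, ?_, ?_, ?_⟩
  · rintro _ ⟨x, -, rfl⟩
    exact x.2
  · intro x hx
    refine ⟨⟨p * x, h.le (h.pmul x (h.le hx)) |> fun _ => h.pmul x (h.le hx)⟩, ?_, rfl⟩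
    change Ideal.Quotient.mk I _ ∈ s.range
    have h1 : Ideal.Quotient.mk I ⟨(p : W) * x, h.pmul x (h.le hx)⟩ = 0 := by
      rw [Ideal.Quotient.eq_zero_iff_mem]
      refine Ideal.mem_span_singleton'.mpr ⟨⟨x, hx⟩, ?_⟩
      refine Subtype.ext ?_
      exact mul_comm _ _
    rw [h1]
    exact zero_mem _
  · rintro _ ⟨x, -, rfl⟩
    exact h.range x x.2
  · intro a
    obtain ⟨x, hx⟩ := Ideal.Quotient.mk_surjective (s a)
    refine ⟨x, ⟨x, ?_, rfl⟩, ?_⟩
    · change Ideal.Quotient.mk I x ∈ s.range
      rw [hx]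
      exact ⟨a, rfl⟩
    · rw [← hf, ← hg, hx, hs']
  · rintro _ ⟨x, hx, rfl⟩ h0
    obtain ⟨a, ha⟩ := (hx : Ideal.Quotient.mk I x ∈ s.range)
    have h1 : f x = 0 := by
      apply j.injective
      rw [hf, map_zero]
      exact h0
    have h2 : a = 0 := by rw [← hs' a, ha, hg, h1]
    rw [h2, map_zero] at ha
    have h3 : x ∈ I := Ideal.Quotient.eq_zero_iff_mem.mp ha.symm
    obtain ⟨y, hy⟩ := Ideal.mem_span_singleton'.mp h3
    refine ⟨y, y.2, ?_⟩
    rw [← hy]
    exact mul_comm _ _
  · intro i
    exact ⟨⟨B i, h.basis i⟩, ⟨b i, hsB i⟩, rfl⟩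

omit hp in
theorem CRel.base (hπs : Function.Surjective π) (hπ : ∀ x, π x = 0 → ∃ y, x = p * y)
    {b : ι → k} (hB : ∀ i, π (B i) = j (b i)) :
    CRel p j π B ⊤ (j.range.comap π) where
  le := le_top
  pmul x _ := by
    change π (p * x) ∈ j.range
    have h0 : (p : K) = 0 := by rw [← map_natCast j, CharP.cast_eq_zero, map_zero]
    rw [map_mul, map_natCast, h0, zero_mul]
    exact zero_mem _
  range x hx := hx
  surj a := by
    obtain ⟨x, hx⟩ := hπs (j a)
    exact ⟨x, ⟨a, hx.symm⟩, hx⟩
  ker x _ hx := by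
    obtain ⟨y, hy⟩ := hπ x hx
    exact ⟨y, trivial, hy⟩
  basis i := ⟨b i, (hB i).symm⟩

/-- Cohen subrings of a `p`-adically complete ring. -/
theorem exists_cohen_subring (hπs : Function.Surjective π)
    (hπ : ∀ x, π x = 0 → ∃ y, x = p * y) (htf : ∀ x : W, (p : W) * x = 0 → x = 0)
    [IsAdicComplete (Ideal.span {(p : W)}) W]
    {b : ι → k} (hb : IsQBasis p b) (hB : ∀ i, π (B i) = j (b i)) :
    ∃ Λ : Subring W, (∀ x ∈ Λ, π x ∈ j.range) ∧ (∀ a : k, ∃ x ∈ Λ, π x = j a) ∧
      (∀ x ∈ Λ, π x = 0 → ∃ y ∈ Λ, x = p * y) ∧ (∀ i, B i ∈ Λ) ∧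
      (∀ x, (∀ n : ℕ, ∃ y ∈ Λ, ∃ z, x = y + (p : W) ^ n * z) → x ∈ Λ) := by
  -- the sequence
  choose nxt hnxt using fun P : {P : Subring W × Subring W // CRel p j π B P.1 P.2} =>
    P.2.step hb hB
  let seq : ℕ → {P : Subring W × Subring W // CRel p j π B P.1 P.2} := fun n =>
    Nat.rec ⟨(⊤, j.range.comap π), CRel.base hπs hπ hB⟩
      (fun _ P => ⟨(P.1.2, nxt P), hnxt P⟩) n
  let G : ℕ → Subring W := fun n => (seq n).1.1
  have hG0 : G 0 = ⊤ := rfl
  have hG : ∀ n, CRel p j π B (G n) (G (n + 1)) := fun n => (seq n).2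
  have hanti : Antitone G := antitone_nat_of_succ_le fun n => (hG n).le
  have hpn : ∀ n x, (p : W) ^ n * x ∈ G n := by
    intro n
    induction n with
    | zero => intro x; rw [hG0]; trivial
    | succ n ih =>
      intro x
      rw [pow_succ', mul_assoc]
      exact (hG n).pmul _ (ih x)
  have happ : ∀ n, ∀ x ∈ G n, ∃ y ∈ G (n + 1), ∃ z, x = y + (p : W) ^ n * z := by
    intro n
    induction n with
    | zero =>
      intro x _
      exact ⟨0, zero_mem _, x, by rw [pow_zero, one_mul, zero_add]⟩
    | succ n ih =>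
      intro x hx
      obtain ⟨a, ha⟩ := (hG n).range x hx
      obtain ⟨y0, hy0, hy0a⟩ := (hG (n + 1)).surj a
      obtain ⟨w, hw, hxw⟩ := (hG n).ker (x - y0) (sub_mem hx ((hG (n + 1)).le hy0)) (by
        rw [map_sub, hy0a, ha, sub_self])
      obtain ⟨y', hy', z, hz⟩ := ih w hw
      refine ⟨y0 + p * y', add_mem hy0 ((hG (n + 1)).pmul _ hy'), z, ?_⟩
      have h1 : x = y0 + p * w := by rw [← hxw]; ring
      rw [h1, hz]
      ring
  let Λ : Subring W := ⨅ n, G n
  have hmem : ∀ x, x ∈ Λ ↔ ∀ n, x ∈ G n := fun x => Subring.mem_iInf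
  -- approximation by elements of `Λ`
  have hlim : ∀ n, ∀ x ∈ G n, ∃ y ∈ Λ, ∃ z, x = y + (p : W) ^ n * z := by
    intro n x hx
    -- the sequence of approximations
    choose! φ hφ1 ψ hφ2 using happ
    let u : ℕ → W := fun m => Nat.rec x (fun i y => φ (n + i) y) m
    have hu0 : u 0 = x := rfl
    have hus : ∀ m, u (m + 1) = φ (n + m) (u m) := fun m => rfl
    have hu : ∀ m, u m ∈ G (n + m) := by
      intro m
      induction m with
      | zero => exact hx
      | succ m ih => rw [hus]; exact hφ1 (n + m) (u m) ih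
    have hud : ∀ m, u m = u (m + 1) + (p : W) ^ (n + m) * ψ (n + m) (u m) := fun m =>
      hφ2 (n + m) (u m) (hu m)
    have hcauchy : ∀ m m', m ≤ m' → ∃ z, u m = u m' + (p : W) ^ (n + m) * z := by
      intro m m' hmm
      induction m', hmm using Nat.le_induction with
      | base => exact ⟨0, by rw [mul_zero, add_zero]⟩
      | succ m' hmm ih =>
        obtain ⟨z, hz⟩ := ih
        refine ⟨(p : W) ^ (m' - m) * ψ (n + m') (u m') + z, ?_⟩
        have h1 : (p : W) ^ (n + m') = p ^ (n + m) * p ^ (m' - m) := by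
          rw [← pow_add]; congr 1; omega
        calc u m = u m' + (p : W) ^ (n + m) * z := hz
          _ = (u (m' + 1) + (p : W) ^ (n + m') * ψ (n + m') (u m')) + (p : W) ^ (n + m) * z := by
              rw [← hud m']
          _ = _ := by rw [h1]; ring
    obtain ⟨y, hy⟩ := IsPrecomplete.prec (I := Ideal.span {(p : W)}) (M := W) inferInstance
      (f := u) (fun {m m'} hmm => by
        rw [SModEq.sub_mem, smul_eq_mul, Ideal.mul_top, Ideal.span_singleton_pow,
          Ideal.mem_span_singleton]
        obtain ⟨z, hz⟩ := hcauchy m m' hmm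
        exact ⟨p ^ n * z, by rw [hz, pow_add]; ring⟩)
    have hy' : ∀ m, ∃ z, u m = y + (p : W) ^ m * z := by
      intro m
      have h1 := hy m
      rw [SModEq.sub_mem, smul_eq_mul, Ideal.mul_top, Ideal.span_singleton_pow,
        Ideal.mem_span_singleton] at h1
      obtain ⟨z, hz⟩ := h1
      exact ⟨z, by rw [← hz]; ring⟩
    have hyG : ∀ m, y ∈ G m := by
      intro m
      obtain ⟨z, hz⟩ := hy' m
      have h1 : y = u m - p ^ m * z := by rw [hz]; ring
      rw [h1]
      exact sub_mem (hanti (Nat.le_add_left m n) (hu m)) (hpn m z)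
    refine ⟨y, (hmem y).mpr hyG, ?_⟩
    obtain ⟨z, hz⟩ := hy' n
    obtain ⟨z', hz'⟩ := hcauchy 0 n (Nat.zero_le n)
    refine ⟨z + z', ?_⟩
    rw [← hu0, hz', hz, add_zero]
    ring
  refine ⟨Λ, fun x hx => (hG 0).range x ((hmem x).mp hx 1), fun a => ?_, fun x hx h0 => ?_,
    fun i => (hmem _).mpr fun n => ?_, fun x hx => (hmem x).mpr fun n => ?_⟩
  · obtain ⟨x, hx, hxa⟩ := (hG 0).surj a
    obtain ⟨y, hy, z, hz⟩ := hlim 1 x hx
    refine ⟨y, hy, ?_⟩
    have h0 : (p : K) = 0 := by rw [← map_natCast j, CharP.cast_eq_zero, map_zero]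
    rw [← hxa, hz, map_add, map_mul, map_pow, map_natCast, h0, pow_one, zero_mul, add_zero]
  · have h1 : ∀ n, ∃ y ∈ G n, x = p * y := fun n => (hG n).ker x ((hmem x).mp hx (n + 1)) h0
    choose y hy hxy using h1
    have h2 : ∀ n, y n = y 0 := by
      intro n
      have h3 : (p : W) * (y n - y 0) = 0 := by
        rw [mul_sub, ← hxy, ← hxy, sub_self]
      exact sub_eq_zero.mp (htf _ h3)
    exact ⟨y 0, (hmem _).mpr fun n => by rw [← h2 n]; exact hy n, hxy 0⟩
  · cases n with
    | zero => rw [hG0]; trivial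
    | succ n => exact (hG n).basis i
  · obtain ⟨y, hy, z, hz⟩ := hx n
    rw [hz]
    exact add_mem ((hmem y).mp hy n) (hpn n z)

end cohen

end Vale.Agent.P202.Mix
end

section

/-!
P202 MIX: existence of `p`-bases (Zorn's lemma).
-/

namespace Vale.Agent.P202.Mix

open Polynomial

universe u

namespace PB

section

variable (p : ℕ) (k : Type u) [Field k] [ExpChar k p]

/-- the subfield `k ^ p` -/
abbrev K : Subfield k := (frobenius k p).fieldRange

variable {k}

/-- the monomial with exponent `α` in the elements of `k` -/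
def mn (α : k →₀ ℕ) : k := α.prod fun b m => b ^ m

/-- exponents below `p` supported in `B` -/
def E (B : Set k) : Set (k →₀ ℕ) := {α | (α.support : Set k) ⊆ B ∧ ∀ i, α i < p}

omit [ExpChar k p] in
theorem mn_add (α β : k →₀ ℕ) : mn (α + β) = mn α * mn β := by
  classical
  exact Finsupp.prod_add_index' (fun _ => pow_zero _) (fun _ _ _ => pow_add _ _ _)

omit [ExpChar k p] in
theorem mn_zero : mn (0 : k →₀ ℕ) = 1 := Finsupp.prod_zero_index

omit [ExpChar k p] in
theorem mn_single (b : k) (m : ℕ) : mn (Finsupp.single b m) = b ^ m :=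
  Finsupp.prod_single_index (pow_zero _)

omit [ExpChar k p] in
theorem mn_nsmul (n : ℕ) (α : k →₀ ℕ) : mn (n • α) = mn α ^ n := by
  induction n with
  | zero => rw [zero_smul, mn_zero, pow_zero]
  | succ n ih => rw [succ_nsmul, mn_add, ih, pow_succ]

/-- `B` is `p`-independent -/
def Ind (B : Set k) : Prop := LinearIndepOn (K p k) (mn : (k →₀ ℕ) → k) (E p B)

theorem pow_mem (x : k) : x ^ p ∈ K p k := ⟨x, rfl⟩

variable {p}

theorem mn_mem_span (hp : 0 < p) {B : Set k} {α : k →₀ ℕ} (hα : (α.support : Set k) ⊆ B) :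
    mn α ∈ Submodule.span (K p k) (mn '' E p B) := by
  classical
  set β : k →₀ ℕ := α.mapRange (· / p) (Nat.zero_div _) with hβ
  set γ : k →₀ ℕ := α.mapRange (· % p) (Nat.zero_mod _) with hγ
  have h1 : α = p • β + γ := by
    ext i
    simp [hβ, hγ, Nat.div_add_mod]
  have h2 : γ ∈ E p B := by
    refine ⟨?_, ?_⟩
    · intro i hi
      apply hα
      have hi' : γ i ≠ 0 := by simpa using hi
      show i ∈ (α.support : Set k)
      have : α i ≠ 0 := by
        intro h0
        apply hi'
        simp [hγ, h0]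
      simpa using this
    · intro i
      simp only [hγ, Finsupp.mapRange_apply]
      exact Nat.mod_lt _ hp
  rw [h1, mn_add, mn_nsmul]
  have h3 : mn β ^ p * mn γ = (⟨mn β ^ p, pow_mem p _⟩ : K p k) • mn γ := rfl
  rw [h3]
  exact Submodule.smul_mem _ _ (Submodule.subset_span ⟨γ, h2, rfl⟩)

theorem isAlg (hp : 0 < p) (x : k) : IsIntegral (K p k) x := by
  refine ⟨X ^ p - C ⟨x ^ p, pow_mem p x⟩, monic_X_pow_sub_C _ hp.ne', ?_⟩
  simp only [eval₂_sub, eval₂_pow, eval₂_X, eval₂_C]
  exact sub_self _

theorem adjoin_le (hp : 0 < p) {B : Set k} {x : k} (hx : x ∈ IntermediateField.adjoin (K p k) B) :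
    x ∈ Submodule.span (K p k) (mn '' E p B) := by
  have h1 : x ∈ (IntermediateField.adjoin (K p k) B).toSubalgebra := hx
  rw [IntermediateField.adjoin_toSubalgebra_of_isAlgebraic
    (fun y _ => (isAlg hp y).isAlgebraic), ← Subalgebra.mem_toSubmodule,
    Algebra.adjoin_eq_span] at h1
  refine (Submodule.span_le.2 ?_ : Submodule.span (K p k) _ ≤ _) h1
  intro y hy
  have : ∃ α : k →₀ ℕ, (α.support : Set k) ⊆ B ∧ mn α = y := by
    classical
    induction hy using Submonoid.closure_induction with
    | mem y hy =>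
      refine ⟨Finsupp.single y 1, ?_, by rw [mn_single, pow_one]⟩
      refine (Finset.coe_subset.2 Finsupp.support_single_subset).trans ?_
      simpa using hy
    | one => exact ⟨0, by simp, mn_zero⟩
    | mul y z _ _ ihy ihz =>
      obtain ⟨α, hα, rfl⟩ := ihy
      obtain ⟨β, hβ, rfl⟩ := ihz
      refine ⟨α + β, ?_, mn_add _ _⟩
      refine (Finset.coe_subset.2 Finsupp.support_add).trans ?_
      rw [Finset.coe_union]
      exact Set.union_subset hα hβ
  obtain ⟨α, hα, rfl⟩ := this
  exact mn_mem_span hp hα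

theorem mn_mem_adjoin {B : Set k} {α : k →₀ ℕ} (hα : (α.support : Set k) ⊆ B) :
    mn α ∈ IntermediateField.adjoin (K p k) B :=
  prod_mem fun b hb => pow_mem' b hb
where
  pow_mem' (b : k) (hb : b ∈ α.support) : b ^ α b ∈ IntermediateField.adjoin (K p k) B :=
    _root_.pow_mem (IntermediateField.subset_adjoin _ _ (hα hb)) _

theorem natDegree_minpoly (hp : p.Prime) (L : IntermediateField (K p k) k) {x : k} (hx : x ∉ L) :
    (minpoly L x).natDegree = p := by
  set a : L := algebraMap (K p k) L ⟨x ^ p, pow_mem p x⟩ with ha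
  have hirr : Irreducible (X ^ p - C a : L[X]) := by
    refine X_pow_sub_C_irreducible_of_prime hp ?_
    intro b hb
    apply hx
    have h1 : ((b : k)) ^ p = x ^ p := congrArg (Subtype.val : L → k) hb
    have h2 : (b : k) = x := frobenius_inj k p h1
    rw [← h2]
    exact b.2
  have h := minpoly.eq_of_irreducible_of_monic hirr (x := x) (by
    simp only [map_sub, map_pow, aeval_X, aeval_C]
    exact sub_self _) (monic_X_pow_sub_C _ hp.ne_zero)
  rw [← h, natDegree_X_pow_sub_C]

theorem ind_insert (hp : p.Prime) {B : Set k} (hB : Ind p B) {x : k}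
    (hx : x ∉ IntermediateField.adjoin (K p k) B) : Ind p (insert x B) := by
  classical
  set L := IntermediateField.adjoin (K p k) B with hL
  have hxB : x ∉ B := fun h => hx (IntermediateField.subset_adjoin _ _ h)
  have h1 : LinearIndependent (K p k)
      (fun α : E p B => (⟨mn α.1, mn_mem_adjoin α.2.1⟩ : L)) :=
    LinearIndependent.of_comp L.val.toLinearMap hB
  have h2 : LinearIndependent L (fun i : Fin p => x ^ (i : ℕ)) := by
    have h := linearIndependent_pow (K := L) x
    have e := natDegree_minpoly hp L hx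
    exact h.comp (Fin.cast e.symm) (Fin.cast_injective _)
  have h3 := linearIndependent_smul h1 h2
  have herase : ∀ γ : E p (insert x B), (γ.1.erase x) ∈ E p B := by
    intro γ
    refine ⟨?_, ?_⟩
    · intro i hi
      have hi' : γ.1.erase x i ≠ 0 := Finsupp.mem_support_iff.1 hi
      have hix : i ≠ x := by
        rintro rfl
        exact hi' Finsupp.erase_same
      rw [Finsupp.erase_ne hix] at hi'
      have : i ∈ insert x B := γ.2.1 (by simpa using hi')
      exact this.resolve_left hix
    · intro i
      by_cases hix : i = x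
      · rw [hix, Finsupp.erase_same]; exact hp.pos
      · rw [Finsupp.erase_ne hix]; exact γ.2.2 i
  have h4 := h3.comp (fun γ : E p (insert x B) =>
    ((⟨γ.1.erase x, herase γ⟩, ⟨γ.1 x, γ.2.2 x⟩) : E p B × Fin p)) (by
      intro γ γ' h
      simp only [Prod.mk.injEq, Subtype.mk.injEq, Fin.mk.injEq] at h
      apply Subtype.ext
      rw [← Finsupp.erase_add_single x γ.1, ← Finsupp.erase_add_single x γ'.1, h.1, h.2])
  have h5 : (fun γ : E p (insert x B) => mn (γ : k →₀ ℕ)) =
      fun γ : E p (insert x B) => mn (γ.1.erase x) * x ^ (γ.1 x) := by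
    funext γ
    rw [← mn_single, ← mn_add, Finsupp.erase_add_single]
  show LinearIndependent _ (fun γ : E p (insert x B) => mn (γ : k →₀ ℕ))
  rw [h5]
  exact h4

theorem exists_max (hp : p.Prime) : ∃ B : Set k, Ind p B ∧
    ∀ x : k, x ∈ Submodule.span (K p k) (mn '' E p B) := by
  classical
  obtain ⟨B, -, hB⟩ := zorn_subset_nonempty {B : Set k | Ind p B} (by
    intro c hc hch hne
    refine ⟨⋃₀ c, ?_, fun s hs => Set.subset_sUnion_of_mem hs⟩
    have hdir : DirectedOn ((E p : Set k → Set (k →₀ ℕ)) ⁻¹'o (· ⊆ ·)) c := by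
      intro s hs t ht
      obtain ⟨u, hu, h1, h2⟩ := hch.directedOn s hs t ht
      exact ⟨u, hu, fun α hα => ⟨hα.1.trans h1, hα.2⟩, fun α hα => ⟨hα.1.trans h2, hα.2⟩⟩
    refine (linearIndepOn_biUnion_of_directed (R := K p k) (v := mn) hdir
      (fun a ha => hc ha)).mono ?_
    intro α hα
    obtain ⟨u, hu, h1⟩ := DirectedOn.exists_mem_subset_of_finset_subset_biUnion (f := fun s => s)
      hne hch.directedOn (s := α.support) (by rw [← Set.sUnion_eq_biUnion]; exact hα.1)
    exact Set.mem_biUnion hu ⟨h1, hα.2⟩) ∅ (by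
      show LinearIndepOn _ _ _
      have : E p (∅ : Set k) ⊆ {0} := by
        intro α hα
        have h0 : (α.support : Set k) = ∅ := Set.subset_empty_iff.1 hα.1
        simpa using h0
      refine LinearIndepOn.mono ?_ this
      rw [linearIndepOn_singleton_iff, mn_zero]
      exact one_ne_zero)
  refine ⟨B, hB.prop, ?_⟩
  intro x
  by_contra hx
  have hx' : x ∉ IntermediateField.adjoin (K p k) B := fun h => hx (adjoin_le hp.pos h)
  have h1 := hB.le_of_ge (ind_insert hp hB.prop hx') (Set.subset_insert x B)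
  exact hx' (IntermediateField.subset_adjoin _ _ (h1 (Set.mem_insert x B)))

/-- the map `c ↦ ∑ c_α ^ (p ^ e) b ^ α` -/
noncomputable def Phi (p : ℕ) {k : Type u} [Field k] [ExpChar k p] {ι : Type u} (b : ι → k)
    (q e : ℕ) : (Bx ι q →₀ k) →+ k :=
  Finsupp.liftAddHom fun α => (AddMonoidHom.mulRight (α.1.prod fun i m => b i ^ m)).comp
    (iterateFrobenius k p e).toAddMonoidHom

theorem Phi_single {ι : Type u} (b : ι → k) (q e : ℕ) (α : Bx ι q) (y : k) :
    Phi p b q e (Finsupp.single α y) = y ^ p ^ e * α.1.prod fun i m => b i ^ m := by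
  unfold Phi
  rw [Finsupp.liftAddHom_apply_single]
  rfl

theorem Phi_apply {ι : Type u} (b : ι → k) (q e : ℕ) (c : Bx ι q →₀ k) :
    Phi p b q e c = c.sum fun α y => y ^ p ^ e * α.1.prod fun i m => b i ^ m := by
  unfold Phi
  rw [Finsupp.liftAddHom_apply]
  rfl

/-- division with remainder of the exponents -/
noncomputable def bxEquiv (ι : Type u) (p q : ℕ) (hp : 0 < p) : Bx ι (q * p) ≃ Bx ι p × Bx ι q where
  toFun γ := (⟨γ.1.mapRange (· % p) (Nat.zero_mod _), fun i => by
      simp only [Finsupp.mapRange_apply]; exact Nat.mod_lt _ hp⟩,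
    ⟨γ.1.mapRange (· / p) (Nat.zero_div _), fun i => by
      simp only [Finsupp.mapRange_apply]
      exact (Nat.div_lt_iff_lt_mul hp).2 (γ.2 i)⟩)
  invFun x := ⟨p • x.2.1 + x.1.1, fun i => by
    simp only [Finsupp.add_apply, Finsupp.smul_apply, smul_eq_mul]
    calc p * x.2.1 i + x.1.1 i < p * x.2.1 i + p := by have := x.1.2 i; omega
      _ = (x.2.1 i + 1) * p := by ring
      _ ≤ q * p := Nat.mul_le_mul_right _ (x.2.2 i)⟩
  left_inv γ := by
    apply Subtype.ext
    ext i
    simp [Nat.div_add_mod]
  right_inv x := by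
    have h1 : ∀ i, (p * x.2.1 i + x.1.1 i) % p = x.1.1 i := fun i => by
      rw [Nat.mul_add_mod, Nat.mod_eq_of_lt (x.1.2 i)]
    have h2 : ∀ i, (p * x.2.1 i + x.1.1 i) / p = x.2.1 i := fun i => by
      rw [Nat.mul_add_div hp, Nat.div_eq_of_lt (x.1.2 i), add_zero]
    apply Prod.ext
    · apply Subtype.ext
      ext i
      simpa using h1 i
    · apply Subtype.ext
      ext i
      simpa using h2 i

theorem bijective_Phi_mul (hp : 0 < p) {ι : Type u} (b : ι → k) (q e : ℕ)
    (h1 : Function.Bijective (Phi p b p 1)) (h2 : Function.Bijective (Phi p b q e)) :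
    Function.Bijective (Phi p b (q * p) (e + 1)) := by
  classical
  let F : (Bx ι (q * p) →₀ k) ≃+ k :=
    (Finsupp.domCongr (bxEquiv ι p q hp)).trans
      (Finsupp.curryAddEquiv.trans
        ((Finsupp.mapRange.addEquiv (AddEquiv.ofBijective _ h2)).trans
          (AddEquiv.ofBijective _ h1)))
  have hF : Phi p b (q * p) (e + 1) = F.toAddMonoidHom := by
    apply Finsupp.addHom_ext
    intro γ y
    have hγ : (bxEquiv ι p q hp).symm (bxEquiv ι p q hp γ) = γ := Equiv.symm_apply_apply _ _
    set α := (bxEquiv ι p q hp γ).1 with hα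
    set β := (bxEquiv ι p q hp γ).2 with hβ
    have e1 : F (Finsupp.single γ y) = Phi p b p 1 (Finsupp.single α
        (Phi p b q e (Finsupp.single β y))) := by
      show Phi p b p 1 (Finsupp.mapRange (Phi p b q e) (map_zero _) (Finsupp.curry
        (Finsupp.equivMapDomain (bxEquiv ι p q hp) (Finsupp.single γ y)))) = _
      rw [Finsupp.equivMapDomain_single]
      show Phi p b p 1 (Finsupp.mapRange (Phi p b q e) (map_zero _) (Finsupp.curry
        (Finsupp.single (α, β) y))) = _
      rw [Finsupp.curry_single, Finsupp.mapRange_single]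
    show _ = F (Finsupp.single γ y)
    rw [e1, Phi_single, Phi_single, Phi_single, ← hγ]
    show _ = (y ^ p ^ e * _) ^ p ^ 1 * _
    have e2 : (((bxEquiv ι p q hp).symm (α, β)).1.prod fun i m => b i ^ m) =
        (β.1.prod fun i m => b i ^ m) ^ p * α.1.prod fun i m => b i ^ m := by
      show ((p • β.1 + α.1).prod fun i m => b i ^ m) = _
      rw [Finsupp.prod_add_index' (fun _ => pow_zero _) (fun _ _ _ => pow_add _ _ _)]
      congr 1
      rw [Finsupp.prod_of_support_subset (s := β.1.support) _ Finsupp.support_smul _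
        (fun _ _ => pow_zero _), Finsupp.prod, ← Finset.prod_pow]
      refine Finset.prod_congr rfl fun i _ => ?_
      rw [Finsupp.smul_apply, smul_eq_mul, mul_comm, pow_mul]
    rw [show ((α, β) : Bx ι p × Bx ι q) = bxEquiv ι p q hp γ from rfl] at e2
    rw [e2, pow_one, mul_pow, ← pow_mul, pow_succ, mul_assoc]
  rw [hF]
  exact F.bijective

theorem bijective_Phi_one (hp : 0 < p) {B : Set k} (hB : Ind p B)
    (hs : ∀ x : k, x ∈ Submodule.span (K p k) (mn '' E p B)) :
    Function.Bijective (Phi p (fun i : B => (i : k)) p 1) := by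
  classical
  set v : Bx B p → k := fun α => α.1.prod fun i m => (i : k) ^ m with hv
  have hemb : ∀ α : Bx B p, α.1.embDomain (Function.Embedding.subtype _) ∈ E p B := by
    intro α
    refine ⟨?_, ?_⟩
    · rw [Finsupp.support_embDomain]
      intro i hi
      obtain ⟨j, -, rfl⟩ := Finset.mem_map.1 (Finset.mem_coe.1 hi)
      exact j.2
    · intro i
      by_cases hi : i ∈ B
      · have := Finsupp.embDomain_apply_self (Function.Embedding.subtype (· ∈ B)) α.1 ⟨i, hi⟩
        have h2 := α.2 ⟨i, hi⟩
        rw [← this] at h2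
        exact h2
      · rw [Finsupp.embDomain_of_notMem_range _ _ _ (by simpa using hi)]
        exact hp
  have hval : ∀ α : Bx B p, mn (α.1.embDomain (Function.Embedding.subtype _)) = v α := by
    intro α
    unfold mn
    rw [Finsupp.prod_embDomain]
    rfl
  have hli : LinearIndependent (K p k) v := by
    have h1 := LinearIndependent.comp hB (fun α : Bx B p => (⟨_, hemb α⟩ : E p B)) (by
      intro α β h
      simp only [Subtype.mk.injEq] at h
      exact Subtype.ext (Finsupp.embDomain_injective _ h))
    have h2 : v = fun α : Bx B p => mn (α.1.embDomain (Function.Embedding.subtype _)) := by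
      funext α
      rw [hval]
    rw [h2]
    exact h1
  have hsp : ⊤ ≤ Submodule.span (K p k) (Set.range v) := by
    rintro x -
    refine Submodule.span_mono ?_ (hs x)
    rintro _ ⟨γ, hγ, rfl⟩
    refine ⟨⟨γ.subtypeDomain (· ∈ B), fun i => hγ.2 i⟩, ?_⟩
    rw [← hval]
    congr 1
    show Finsupp.embDomain (Function.Embedding.subtype _) (γ.subtypeDomain (· ∈ B)) = γ
    rw [← Finsupp.extendDomain_eq_embDomain_subtype]
    exact Finsupp.extendDomain_subtypeDomain γ fun a ha => hγ.1 ha
  let bs := Module.Basis.mk hli hsp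
  let Fr : k →+* K p k := (frobenius k p).rangeRestrictField
  have hFr : Function.Bijective Fr := by
    refine ⟨Fr.injective, ?_⟩
    rintro ⟨_, ⟨y, rfl⟩⟩
    exact ⟨y, rfl⟩
  let G : (Bx B p →₀ k) ≃+ (Bx B p →₀ K p k) :=
    Finsupp.mapRange.addEquiv (RingEquiv.ofBijective Fr hFr).toAddEquiv
  have h : (Phi p (fun i : B => (i : k)) p 1 : (Bx B p →₀ k) → k) = bs.repr.symm ∘ G := by
    funext c
    rw [Function.comp_apply, Phi_apply, Module.Basis.repr_symm_apply,
      Finsupp.linearCombination_apply]
    show _ = (Finsupp.mapRange Fr (map_zero _) c).sum _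
    rw [Finsupp.sum_mapRange_index (h := fun α (a : K p k) => a • bs α)
      (fun α => zero_smul (K p k) (bs α))]
    refine Finsupp.sum_congr fun α _ => ?_
    rw [Module.Basis.mk_apply, pow_one]
    rfl
  rw [h]
  exact bs.repr.symm.bijective.comp G.bijective

theorem bijective_Phi (hp : 0 < p) {ι : Type u} (b : ι → k)
    (h1 : Function.Bijective (Phi p b p 1)) (e : ℕ) :
    Function.Bijective (Phi p b (p ^ e) e) := by
  induction e with
  | zero =>
    rw [pow_zero]
    have h0 : ∀ α : Bx ι 1, α = ⟨0, fun _ => Nat.zero_lt_one⟩ := fun α => by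
      apply Subtype.ext
      ext i
      have := α.2 i
      show α.1 i = 0
      omega
    have hs : ∀ c : Bx ι 1 →₀ k, c = Finsupp.single ⟨0, fun _ => Nat.zero_lt_one⟩
        (c ⟨0, fun _ => Nat.zero_lt_one⟩) := fun c => by
      ext α
      rw [h0 α, Finsupp.single_eq_same]
    have hv : ∀ c : Bx ι 1 →₀ k, Phi p b 1 0 c = c ⟨0, fun _ => Nat.zero_lt_one⟩ := fun c => by
      conv_lhs => rw [hs c]
      rw [Phi_single]
      simp
    refine ⟨?_, ?_⟩
    · intro c c' h
      rw [hv, hv] at h
      rw [hs c, hs c', h]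
    · intro y
      refine ⟨Finsupp.single ⟨0, fun _ => Nat.zero_lt_one⟩ y, ?_⟩
      rw [hv, Finsupp.single_eq_same]
  | succ e ih =>
    rw [pow_succ]
    exact bijective_Phi_mul hp b (p ^ e) e h1 ih

end

end PB

/-- every field of characteristic `p` has a `p`-basis -/
theorem exists_pbasis (p : ℕ) [Fact p.Prime] (k : Type u) [Field k] [CharP k p] :
    ∃ (ι : Type u) (b : ι → k), IsPBasis p b := by
  classical
  have hp : p.Prime := Fact.out
  have : ExpChar k p := ExpChar.prime hp
  obtain ⟨B, hB, hs⟩ := PB.exists_max (k := k) hp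
  refine ⟨B, fun i => (i : k), ?_, ?_⟩
  · rintro ⟨i, hi⟩ h0
    have h0' : i = 0 := h0
    subst h0'
    have hE : Finsupp.single (0 : k) 1 ∈ PB.E p B := by
      refine ⟨?_, ?_⟩
      · refine (Finset.coe_subset.2 Finsupp.support_single_subset).trans ?_
        simpa using hi
      · intro j
        refine lt_of_le_of_lt ?_ hp.one_lt
        rw [Finsupp.single_apply]
        split_ifs <;> omega
    have h1 := LinearIndepOn.ne_zero hB hE
    rw [PB.mn_single, pow_one] at h1
    exact h1 rfl
  · intro e x
    obtain ⟨c, hc, hu⟩ :=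
      (PB.bijective_Phi hp.pos _ (PB.bijective_Phi_one hp.pos hB hs) e).existsUnique x
    exact ⟨c, (PB.Phi_apply _ _ _ c).symm.trans hc,
      fun c' hc' => hu c' ((PB.Phi_apply _ _ _ c').trans hc')⟩

end Vale.Agent.P202.Mix
end

section

/-!
P202, mixed characteristic, M15c: length estimate in `k[[x_0, .., x_r]]` (helper777).
-/

namespace Vale.Agent.P202.Mix

open scoped ENNReal MonomialOrder

universe u

section LenEst

variable {k : Type u} [Field k] {n : ℕ}

/-- a power series whose coefficients vanish on the box `a_i < Q_i (i ∈ s)` lies in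
`(X_i^(Q_i) : i ∈ s)`. -/
lemma lenEst_mem_span (Q : Fin n → ℕ) (s : Finset (Fin n)) :
    ∀ h : MvPowerSeries (Fin n) k,
      (∀ a : Fin n →₀ ℕ, (∀ i ∈ s, a i < Q i) → MvPowerSeries.coeff a h = 0) →
      h ∈ Ideal.span ((fun i => (MvPowerSeries.X i : MvPowerSeries (Fin n) k) ^ (Q i)) ''
        (s : Set (Fin n))) := by
  classical
  induction s using Finset.induction_on with
  | empty =>
    intro h hh
    have : h = 0 := by
      ext a
      simpa using hh a (by simp)
    rw [this]
    exact Ideal.zero_mem _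
  | insert i s hi ih =>
    intro h hh
    -- split
    set h2 : MvPowerSeries (Fin n) k :=
      fun a => if a i < Q i then MvPowerSeries.coeff a h else 0 with hh2
    have hc2 : ∀ a, MvPowerSeries.coeff a h2 = if a i < Q i then MvPowerSeries.coeff a h else 0 :=
      fun a => rfl
    have h1 : (MvPowerSeries.X i : MvPowerSeries (Fin n) k) ^ (Q i) ∣ h - h2 := by
      rw [MvPowerSeries.X_pow_dvd_iff]
      intro m hm
      rw [map_sub, hc2, if_pos hm, sub_self]
    have hmem2 : h2 ∈ Ideal.span ((fun i => (MvPowerSeries.X i : MvPowerSeries (Fin n) k) ^ (Q i))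
        '' ((insert i s : Finset (Fin n)) : Set (Fin n))) := by
      refine Ideal.span_mono ?_ (ih h2 ?_)
      · apply Set.image_mono
        intro j hj
        simp only [Finset.coe_insert, Set.mem_insert_iff]
        exact Or.inr hj
      · intro a ha
        rw [hc2]
        split_ifs with hai
        · apply hh
          intro j hj
          rcases Finset.mem_insert.1 hj with rfl | hj
          · exact hai
          · exact ha j hj
        · rfl
    have hmem1 : h - h2 ∈ Ideal.span
        ((fun i => (MvPowerSeries.X i : MvPowerSeries (Fin n) k) ^ (Q i))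
        '' ((insert i s : Finset (Fin n)) : Set (Fin n))) := by
      refine Ideal.mem_of_dvd _ h1 (Ideal.subset_span ?_)
      exact ⟨i, by simp, rfl⟩
    have := Ideal.add_mem _ hmem1 hmem2
    simpa using this

/-- modulo an ideal containing `X_i^(b_i + 1)`, a power series is the sum of its monomials in the
box. -/
lemma lenEst_mk_eq (b : Fin n →₀ ℕ) (I : Ideal (MvPowerSeries (Fin n) k))
    (hI : ∀ i, (MvPowerSeries.X i : MvPowerSeries (Fin n) k) ^ (b i + 1) ∈ I)
    (h : MvPowerSeries (Fin n) k) :
    Ideal.Quotient.mk I h =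
      ∑ a ∈ Finset.Iic b, MvPowerSeries.coeff a h •
        Ideal.Quotient.mk I (MvPowerSeries.monomial a (1 : k)) := by
  classical
  have hmem : h - ∑ a ∈ Finset.Iic b, MvPowerSeries.coeff a h •
      (MvPowerSeries.monomial a (1 : k)) ∈ I := by
    have h1 := lenEst_mem_span (k := k) (fun i => b i + 1) Finset.univ
      (h - ∑ a ∈ Finset.Iic b, MvPowerSeries.coeff a h • (MvPowerSeries.monomial a (1 : k))) ?_
    · refine (Ideal.span_le.2 ?_) h1
      rintro x ⟨i, -, rfl⟩
      exact hI i
    · intro a ha
      have hab : a ∈ Finset.Iic b := by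
        rw [Finset.mem_Iic]
        intro i
        exact Nat.lt_succ_iff.1 (ha i (Finset.mem_univ i))
      rw [map_sub, map_sum, Finset.sum_eq_single a]
      · simp
      · intro a' _ hne
        simp [MvPowerSeries.coeff_monomial, hne.symm]
      · intro h'
        exact absurd hab h'
  have h2 : Ideal.Quotient.mk I h = Ideal.Quotient.mk I (∑ a ∈ Finset.Iic b,
      MvPowerSeries.coeff a h • (MvPowerSeries.monomial a (1 : k))) := by
    rw [Ideal.Quotient.eq]
    exact hmem
  rw [h2, map_sum]
  refine Finset.sum_congr rfl fun a _ => ?_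
  exact map_smul (Ideal.Quotient.mkₐ k I) (MvPowerSeries.coeff a h)
    (MvPowerSeries.monomial a (1 : k))

/-- length bound by the box monomials not above the lowest exponent. -/
lemma lenEst_box (b : Fin n →₀ ℕ) (I : Ideal (MvPowerSeries (Fin n) k))
    (hI : ∀ i, (MvPowerSeries.X i : MvPowerSeries (Fin n) k) ^ (b i + 1) ∈ I)
    (m : MonomialOrder (Fin n)) (f : MvPowerSeries (Fin n) k) (hf : f ∈ I) (α : Fin n →₀ ℕ)
    (hα : MvPowerSeries.coeff α f ≠ 0)
    (hlow : ∀ a, m.toSyn a < m.toSyn α → MvPowerSeries.coeff a f = 0) :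
    Module.length (MvPowerSeries (Fin n) k) (MvPowerSeries (Fin n) k ⧸ I) ≤
      (((Finset.Iic b).filter fun a => ¬ α ≤ a).card : ℕ∞) := by
  classical
  set S := (Finset.Iic b).filter fun a => ¬ α ≤ a with hS
  let e : (Fin n →₀ ℕ) → (MvPowerSeries (Fin n) k ⧸ I) :=
    fun a => Ideal.Quotient.mk I (MvPowerSeries.monomial a (1 : k))
  let N : Submodule k (MvPowerSeries (Fin n) k ⧸ I) := Submodule.span k ((S.image e : Finset _) :
    Set (MvPowerSeries (Fin n) k ⧸ I))
  -- all box monomials lie in `N`
  have key : ∀ a ∈ Finset.Iic b, e a ∈ N := by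
    by_contra hcon
    push Not at hcon
    -- take the largest bad exponent
    let B := (Finset.Iic b).filter fun a => e a ∉ N
    have hBne : B.Nonempty := by
      obtain ⟨a, ha, ha'⟩ := hcon
      exact ⟨a, by simp only [B, Finset.mem_filter]; exact ⟨ha, ha'⟩⟩
    obtain ⟨a, haB, hmax⟩ := Finset.exists_max_image B (fun a => m.toSyn a) hBne
    have ha := (Finset.mem_filter.1 haB)
    apply ha.2
    by_cases hαa : α ≤ a
    · -- use `x^(a - α) f`
      have hmem : MvPowerSeries.monomial (a - α) (1 : k) * f ∈ I := I.mul_mem_left _ hf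
      have h0 : Ideal.Quotient.mk I (MvPowerSeries.monomial (a - α) (1 : k) * f) = 0 :=
        Ideal.Quotient.eq_zero_iff_mem.2 hmem
      rw [lenEst_mk_eq b I hI] at h0
      have hcoef : ∀ c : Fin n →₀ ℕ,
          MvPowerSeries.coeff c (MvPowerSeries.monomial (a - α) (1 : k) * f) =
          if a - α ≤ c then MvPowerSeries.coeff (c - (a - α)) f else 0 := by
        intro c
        rw [MvPowerSeries.coeff_monomial_mul]
        simp
      have hca : MvPowerSeries.coeff a (MvPowerSeries.monomial (a - α) (1 : k) * f) =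
          MvPowerSeries.coeff α f := by
        rw [hcoef, if_pos tsub_le_self, tsub_tsub_cancel_of_le hαa]
      rw [← Finset.add_sum_erase _ _ ha.1, hca] at h0
      have h1 : MvPowerSeries.coeff α f • e a ∈ N := by
        have h2 : MvPowerSeries.coeff α f • e a = - ∑ x ∈ (Finset.Iic b).erase a,
            (MvPowerSeries.coeff x) ((MvPowerSeries.monomial (a - α)) (1 : k) * f) •
              (Ideal.Quotient.mk I) ((MvPowerSeries.monomial x) (1 : k)) :=
          eq_neg_of_add_eq_zero_left h0
        rw [h2]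
        refine N.neg_mem (N.sum_mem fun c hc => ?_)
        obtain ⟨hca', hcb⟩ := Finset.mem_erase.1 hc
        by_cases hc0 : (MvPowerSeries.coeff c) ((MvPowerSeries.monomial (a - α)) (1 : k) * f) = 0
        · rw [hc0, zero_smul]
          exact N.zero_mem
        · refine N.smul_mem _ ?_
          by_contra hbad
          have hcB : c ∈ B := Finset.mem_filter.2 ⟨hcb, hbad⟩
          have hle := hmax c hcB
          have hlt : m.toSyn c < m.toSyn a :=
            lt_of_le_of_ne hle (fun h => hca' (m.toSyn.injective h))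
          rw [hcoef] at hc0
          split_ifs at hc0 with hle'
          · apply hc0
            apply hlow
            have e1 : c = (a - α) + (c - (a - α)) := (add_tsub_cancel_of_le hle').symm
            have e2 : a = (a - α) + α := (tsub_add_cancel_of_le hαa).symm
            have e3 : m.toSyn ((a - α) + (c - (a - α))) < m.toSyn ((a - α) + α) := by
              rw [← e1, ← e2]; exact hlt
            rw [map_add, map_add] at e3
            exact lt_of_add_lt_add_left e3
          · exact hc0 rfl
      have h3 := N.smul_mem (MvPowerSeries.coeff α f)⁻¹ h1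
      rwa [smul_smul, inv_mul_cancel₀ hα, one_smul] at h3
    · apply Submodule.subset_span
      simp only [Finset.coe_image, Set.mem_image]
      exact ⟨a, by simp only [hS, Finset.coe_filter, Set.mem_ofPred_eq]; exact ⟨ha.1, hαa⟩, rfl⟩
  have htop : N = ⊤ := by
    rw [eq_top_iff]
    rintro x -
    obtain ⟨h, rfl⟩ := Ideal.Quotient.mk_surjective x
    rw [lenEst_mk_eq b I hI]
    exact N.sum_mem fun a ha => N.smul_mem _ (key a ha)
  have hfin : Module.Finite k (MvPowerSeries (Fin n) k ⧸ I) :=
    ⟨⟨S.image e, htop⟩⟩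
  have h1 : Module.length (MvPowerSeries (Fin n) k) (MvPowerSeries (Fin n) k ⧸ I) ≤
      Module.length k (MvPowerSeries (Fin n) k ⧸ I) := by
    rw [← WithBot.coe_le_coe, Module.coe_length, Module.coe_length]
    exact Order.krullDim_le_of_orderEmbedding
      (Submodule.restrictScalarsEmbedding k (MvPowerSeries (Fin n) k) _)
  refine h1.trans ?_
  rw [Module.length_eq_finrank]
  have h2 : Module.finrank k (MvPowerSeries (Fin n) k ⧸ I) ≤ (S.image e).card := by
    have h3 := finrank_span_finset_le_card (R := k) (S.image e)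
    have h4 : Module.finrank k N = Module.finrank k (MvPowerSeries (Fin n) k ⧸ I) := by
      rw [htop]; exact finrank_top k _
    rw [← h4]; exact h3
  exact_mod_cast h2.trans Finset.card_image_le

/-- lowest exponents multiply. -/
lemma lenEst_mul_low (m : MonomialOrder (Fin n)) (f g : MvPowerSeries (Fin n) k)
    (α β : Fin n →₀ ℕ)
    (hf : ∀ a, m.toSyn a < m.toSyn α → MvPowerSeries.coeff a f = 0)
    (hg : ∀ a, m.toSyn a < m.toSyn β → MvPowerSeries.coeff a g = 0) :
    MvPowerSeries.coeff (α + β) (f * g) =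
      MvPowerSeries.coeff α f * MvPowerSeries.coeff β g ∧
    ∀ a, m.toSyn a < m.toSyn (α + β) → MvPowerSeries.coeff a (f * g) = 0 := by
  classical
  have hgen : ∀ x y : Fin n →₀ ℕ, m.toSyn (x + y) ≤ m.toSyn (α + β) →
      (x, y) ≠ (α, β) → MvPowerSeries.coeff x f * MvPowerSeries.coeff y g = 0 := by
    intro x y hxy hne
    by_cases hx : m.toSyn x < m.toSyn α
    · rw [hf x hx, zero_mul]
    · by_cases hy : m.toSyn y < m.toSyn β
      · rw [hg y hy, mul_zero]
      · exfalso
        push Not at hx hy
        rw [map_add, map_add] at hxy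
        have h1 : m.toSyn x = m.toSyn α := by
          by_contra h
          have : m.toSyn α < m.toSyn x := lt_of_le_of_ne hx (Ne.symm h)
          exact absurd (add_lt_add_of_lt_of_le this hy) (not_lt.2 hxy)
        have h2 : m.toSyn y = m.toSyn β := by
          by_contra h
          have : m.toSyn β < m.toSyn y := lt_of_le_of_ne hy (Ne.symm h)
          exact absurd (add_lt_add_of_le_of_lt hx this) (not_lt.2 hxy)
        exact hne (by rw [m.toSyn.injective h1, m.toSyn.injective h2])
  constructor
  · rw [MvPowerSeries.coeff_mul, Finset.sum_eq_single (α, β)]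
    · rintro ⟨x, y⟩ hxy hne
      have h0 : x + y = α + β := Finset.HasAntidiagonal.mem_antidiagonal.1 hxy
      exact hgen x y (le_of_eq (congrArg m.toSyn h0)) hne
    · intro h
      exact (h (Finset.HasAntidiagonal.mem_antidiagonal.2 rfl)).elim
  · intro a ha
    rw [MvPowerSeries.coeff_mul]
    apply Finset.sum_eq_zero
    rintro ⟨x, y⟩ hxy
    have hs : x + y = a := Finset.HasAntidiagonal.mem_antidiagonal.1 hxy
    refine hgen x y (le_trans (le_of_eq (congrArg m.toSyn hs)) ha.le) ?_
    intro h
    rw [Prod.mk.injEq] at h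
    rw [h.1, h.2] at hs
    rw [← hs] at ha
    exact lt_irrefl _ ha

lemma lenEst_pow_low (m : MonomialOrder (Fin n)) (g : MvPowerSeries (Fin n) k)
    (α : Fin n →₀ ℕ)
    (hg : ∀ a, m.toSyn a < m.toSyn α → MvPowerSeries.coeff a g = 0) (c : ℕ) :
    MvPowerSeries.coeff (c • α) (g ^ c) = MvPowerSeries.coeff α g ^ c ∧
    ∀ a, m.toSyn a < m.toSyn (c • α) → MvPowerSeries.coeff a (g ^ c) = 0 := by
  classical
  induction c with
  | zero =>
    constructor
    · simp
    · intro a ha
      exfalso
      rw [zero_smul, map_zero] at ha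
      have h0 := m.toSyn_monotone (bot_le : (⊥ : Fin n →₀ ℕ) ≤ a)
      rw [bot_eq_zero] at h0
      rw [map_zero] at h0
      exact absurd ha (not_lt.2 h0)
  | succ c ih =>
    have h := lenEst_mul_low m (g ^ c) g (c • α) α ih.2 hg
    have e : (c + 1) • α = c • α + α := succ_nsmul α c
    rw [pow_succ, pow_succ, e]
    refine ⟨?_, h.2⟩
    rw [h.1, ih.1]

/-- counting. -/
lemma lenEst_count_one (b : Fin n →₀ ℕ) (i : Fin n) (t : ℕ) :
    (b i + 1) * ((Finset.Iic b).filter fun a => a i < t).card ≤
      t * (Finset.Iic b).card := by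
  classical
  have h : (Finset.range (b i + 1) ×ˢ ((Finset.Iic b).filter fun a => a i < t)).card ≤
      (Finset.range t ×ˢ Finset.Iic b).card := by
    apply Finset.card_le_card_of_injOn
      (fun x : ℕ × (Fin n →₀ ℕ) => (x.2 i, x.2.update i x.1))
    · rintro ⟨s, a⟩ hx
      simp only [Finset.coe_product, Set.mem_prod, Finset.coe_range, Set.mem_Iio,
        Finset.coe_filter, Set.mem_ofPred_eq, Finset.mem_Iic, Finset.coe_Iic, Set.mem_Iic] at hx ⊢
      obtain ⟨hs, ha, hai⟩ := hx
      refine ⟨hai, ?_⟩
      intro j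
      rw [Finsupp.coe_update]
      by_cases hj : j = i
      · subst hj
        rw [Function.update_self]
        omega
      · rw [Function.update_of_ne hj]
        exact ha j
    · rintro ⟨s, a⟩ _ ⟨s', a'⟩ _ heq
      simp only [Prod.mk.injEq] at heq
      obtain ⟨h1, h2⟩ := heq
      have hs : s = s' := by
        have := DFunLike.congr_fun h2 i
        rw [Finsupp.coe_update, Finsupp.coe_update, Function.update_self,
          Function.update_self] at this
        exact this
      have ha : a = a' := by
        ext j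
        by_cases hj : j = i
        · subst hj; exact h1
        · have := DFunLike.congr_fun h2 j
          rw [Finsupp.coe_update, Finsupp.coe_update, Function.update_of_ne hj,
            Function.update_of_ne hj] at this
          exact this
      rw [hs, ha]
  rwa [Finset.card_product, Finset.card_product, Finset.card_range, Finset.card_range] at h

end LenEst

/-- TASK M15c: length estimate in `k[[x_0, .., x_r]]`. -/
theorem length_estimate (k : Type u) [Field k] (r : ℕ) (g : R0 k r)
    (hg : g ∉ Ideal.span {(MvPowerSeries.X 0 : R0 k r)}) :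
    ∃ Cg : ℕ, ∀ q c : ℕ, 1 ≤ q → 1 ≤ c →
      (q : ℝ≥0∞) * ENat.toENNReal (Module.length (R0 k r) (R0 k r ⧸ Ideal.span
        ({(MvPowerSeries.X 0 : R0 k r), g ^ c} ∪
          Set.range fun i : Fin r => (MvPowerSeries.X i.succ : R0 k r) ^ q))) ≤
        (c * Cg * q ^ r : ℕ) := by
  classical
  -- an exponent with `a_0 = 0`
  have hex : ∃ a : Fin (r + 1) →₀ ℕ, a 0 = 0 ∧ MvPowerSeries.coeff a g ≠ 0 := by
    by_contra hcon
    push Not at hcon
    apply hg
    rw [Ideal.mem_span_singleton, MvPowerSeries.X_dvd_iff]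
    exact hcon
  let m : MonomialOrder (Fin (r + 1)) := MonomialOrder.lex
  -- lowest exponent
  let T : Set (Fin (r + 1) →₀ ℕ) := {a | MvPowerSeries.coeff a g ≠ 0}
  have hTne : T.Nonempty := by
    obtain ⟨a, -, ha⟩ := hex
    exact ⟨a, ha⟩
  obtain ⟨α, hαT, hmin⟩ : ∃ α ∈ T, ∀ a, m.toSyn a < m.toSyn α → a ∉ T := by
    have hwf : WellFounded (fun a b : Fin (r + 1) →₀ ℕ => m.toSyn a < m.toSyn b) :=
      InvImage.wf _ (wellFounded_lt (α := m.syn))
    refine ⟨hwf.min T hTne, hwf.min_mem T hTne, fun a ha haT => ?_⟩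
    exact hwf.not_lt_min T haT ha
  have hα : MvPowerSeries.coeff α g ≠ 0 := hαT
  have hlow : ∀ a, m.toSyn a < m.toSyn α → MvPowerSeries.coeff a g = 0 := by
    intro a ha
    have := hmin a ha
    simpa [T] using this
  have hα0 : α 0 = 0 := by
    obtain ⟨a, ha0, ha⟩ := hex
    by_contra hne
    have hlt : m.toSyn a < m.toSyn α := by
      have : a ≺[m] α := by
        rw [MonomialOrder.lex_lt_iff]
        refine ⟨0, fun j hj => absurd hj (Fin.not_lt_zero j), ?_⟩
        show a 0 < α 0
        omega
      exact this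
    exact ha (hlow a hlt)
  refine ⟨∑ i, α i, fun q c hq hc => ?_⟩
  -- the box
  let b : Fin (r + 1) →₀ ℕ := Finsupp.equivFunOnFinite.symm (Fin.cons 0 fun _ => q - 1)
  have hb0 : b 0 = 0 := by simp [b]
  have hbs : ∀ i : Fin r, b i.succ = q - 1 := by intro i; simp [b]
  set I : Ideal (R0 k r) := Ideal.span
        ({(MvPowerSeries.X 0 : R0 k r), g ^ c} ∪
          Set.range fun i : Fin r => (MvPowerSeries.X i.succ : R0 k r) ^ q) with hIdef
  have hI : ∀ i, (MvPowerSeries.X i : MvPowerSeries (Fin (r + 1)) k) ^ (b i + 1) ∈ I := by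
    intro i
    refine Fin.cases ?_ (fun i => ?_) i
    · rw [hb0, zero_add, pow_one]
      exact Ideal.subset_span (by simp)
    · rw [hbs, Nat.sub_add_cancel hq]
      exact Ideal.subset_span (Or.inr ⟨i, rfl⟩)
  have hgI : g ^ c ∈ I := Ideal.subset_span (by simp)
  obtain ⟨hp1, hp2⟩ := lenEst_pow_low m g α hlow c
  have hbox := lenEst_box b I hI m (g ^ c) hgI (c • α)
    (by rw [hp1]; exact pow_ne_zero _ hα) hp2
  -- counting
  have hcard : (Finset.Iic b).card = q ^ r := by
    rw [Finsupp.card_Iic, Finset.prod_subset (Finset.subset_univ _), Fin.prod_univ_succ, hb0]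
    · simp [hbs, Nat.sub_add_cancel hq]
    · intro i _ hi
      rw [Finsupp.notMem_support_iff.1 hi]
      simp
  have hcount : q * ((Finset.Iic b).filter fun a => ¬ c • α ≤ a).card ≤
      c * (∑ i, α i) * q ^ r := by
    have h1 : ((Finset.Iic b).filter fun a => ¬ c • α ≤ a) ⊆
        Finset.univ.biUnion fun i : Fin (r + 1) =>
          (Finset.Iic b).filter fun a => a i < (c • α) i := by
      intro a ha
      rw [Finset.mem_filter] at ha
      rw [Finset.mem_biUnion]
      have : ∃ i, ¬ (c • α) i ≤ a i := by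
        by_contra h
        push Not at h
        exact ha.2 h
      obtain ⟨i, hi⟩ := this
      exact ⟨i, Finset.mem_univ _, Finset.mem_filter.2 ⟨ha.1, not_le.1 hi⟩⟩
    have h2 := (Finset.card_le_card h1).trans Finset.card_biUnion_le
    calc q * ((Finset.Iic b).filter fun a => ¬ c • α ≤ a).card
        ≤ q * ∑ i, ((Finset.Iic b).filter fun a => a i < (c • α) i).card :=
          Nat.mul_le_mul_left _ h2
      _ = ∑ i, q * ((Finset.Iic b).filter fun a => a i < (c • α) i).card := Finset.mul_sum _ _ _
      _ ≤ ∑ i, (c * α i) * q ^ r := by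
          apply Finset.sum_le_sum
          intro i _
          refine Fin.cases ?_ (fun i => ?_) i
          · have : ((Finset.Iic b).filter fun a => a 0 < (c • α) 0) = ∅ := by
              apply Finset.filter_eq_empty_iff.2
              intro a _
              simp [hα0]
            rw [this]
            simp
          · have h3 := lenEst_count_one b i.succ ((c • α) i.succ)
            rw [hbs, Nat.sub_add_cancel hq, hcard] at h3
            simpa using h3
      _ = c * (∑ i, α i) * q ^ r := by
          rw [Finset.mul_sum, Finset.sum_mul]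
  calc (q : ℝ≥0∞) * ENat.toENNReal (Module.length (R0 k r) (R0 k r ⧸ I))
      ≤ (q : ℝ≥0∞) * ENat.toENNReal
          (((Finset.Iic b).filter fun a => ¬ c • α ≤ a).card : ℕ∞) := by
        gcongr
    _ = ((q * ((Finset.Iic b).filter fun a => ¬ c • α ≤ a).card : ℕ) : ℝ≥0∞) := by
        rw [Nat.cast_mul, ENat.toENNReal_coe]
    _ ≤ _ := by exact_mod_cast hcount

end Vale.Agent.P202.Mix
end
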