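import Vale.Agent.P202.MathlibUsed
attribute [-instance] DenselyNormedField.toNontriviallyNormedField DenselyNormedField.toNormedField NontriviallyNormedField.toNormedField RCLike.toDenselyNormedField NormedField.toField NormedField.toNormedDivisionRing SemiRingCat.instSemiringObjForgetRingHomCarrier IdemCommSemiring.toIdemSemiring KleeneAlgebra.toIdemSemiring NormedDivisionRing.toDivisionRing CommSemiRingCat.instCommSemiringObjForgetRingHomCarrier TopologicalSpace.Compacts.instSetLike instCoeT AddMonCat.addMonoidObj instCoeTOfCoeDep SemimoduleCat.isAddCommMonoid NormedField.toNormedCommRing LinearOrderedAddCommGroupWithTop.instLinearOrderedAddCommMonoidWithTop NormedCommRing.toNormedRing NormedDivisionRing.toNormedRing NormedCommRing.toSeminormedCommRing NormedRing.toSeminormedRing SeminormedCommRing.toSeminormedRing LinearOrderedAddCommGroupWithTop.toAddCommMonoid EuclideanDomain.toCommRing NormedCommRing.toCommRing SeminormedCommRing.toCommRing instCoeTC NormedRing.toRing SeminormedRing.toRing instCoeTCOfCoe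 AbsoluteValue.funLike NormedCommRing.toNonUnitalNormedCommRing NonUnitalNormedCommRing.toNonUnitalNormedRing NormedRing.toNonUnitalNormedRing Pi.seminormedAddCommGroup CommRing.toAddCommGroupWithOne ModuleCat.isModule Pi.nonAssocSemiring instCoeHTC instCoeHTCT Pi.preorder NonUnitalNormedCommRing.toNonUnitalSeminormedCommRing SeminormedCommRing.toNonUnitalSeminormedCommRing NonUnitalNormedRing.toNonUnitalSeminormedRing NonUnitalSeminormedCommRing.toNonUnitalSeminormedRing SeminormedRing.toNonUnitalSeminormedRing LieRing.toAddCommGroup NonAssocCommRing.toNonAssocCommSemiring CommSemiring.toNonAssocCommSemiring NonAssocCommSemiring.toNonAssocSemiring NonUnitalCommRing.toNonUnitalRing NonUnitalNormedCommRing.toNonUnitalCommRing NonUnitalSeminormedCommRing.toNonUnitalCommRing NonUnitalNormedRing.toNonUnitalRing NonUnitalSeminormedRing.toNonUnitalRing Ring.toNonUnitalRing NonUnitalNormedRing.toNormedAddCommGroup NonAssocCommRing.toNonUnitalNonAssocCommRing NonUnitalRing.toNonUnitalNonAssocRing Filter.instMembership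 AddCommGroupWithOne.toAddCommMonoidWithOne CompleteAtomicBooleanAlgebra.toCompletelyDistribLattice NonUnitalRing.toNonUnitalSemiring Semiring.toNonUnitalSemiring NonAssocCommSemiring.toNonUnitalNonAssocCommSemiring NonUnitalCommSemiring.toNonUnitalNonAssocCommSemiring NonUnitalNonAssocCommSemiring.toNonUnitalNonAssocSemiring Pi.addMonoidWithOne Pi.partialOrder LinearOrderedCommGroupWithZero.toLinearOrderedCommMonoidWithZero LinearOrderedAddCommGroupWithTop.toSubNegMonoid CompleteBooleanAlgebra.toCompleteDistribLattice CompletelyDistribLattice.toCompleteDistribLattice CompleteDistribLattice.toCoframe CompleteDistribLattice.toFrame CompleteLinearOrder.toCompleteLattice Order.Coframe.toCompleteLattice Order.Frame.toCompleteLattice instSubsingleton IsEmpty.instSubsingleton NormedCommGroup.toNormedGroup RingCat.instRingObjForgetRingHomCarrier NonUnitalSeminormedRing.toSeminormedAddCommGroup NormedAddCommGroup.toSeminormedAddCommGroup MonCat.monoidObj LieAlgebra.toModule NormedSpace.toModule CompleteLinearOrder.toLinearOrder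 ConditionallyCompleteLinearOrder.toLinearOrder LinearOrderedAddCommGroupWithTop.toLinearOrder LinearOrderedCommMonoidWithZero.toLinearOrder ChainCompletePartialOrder.instOfCompleteLattice ChainCompletePartialOrder.instOmegaCompletePartialOrder ChainCompletePartialOrder.toPartialOrder CompletePartialOrder.toOmegaCompletePartialOrder OmegaCompletePartialOrder.toPartialOrder NormedCommGroup.toSeminormedCommGroup NormedGroup.toSeminormedGroup SeminormedCommGroup.toSeminormedGroup NormedAddCommGroup.toNormedAddGroup MulSemiringAction.toDistribMulAction SubfieldClass.toNormedField SubfieldClass.toField Invertible.toNeZero NeZero.of_gt' Nat.AtLeastTwo.toNeZero SubfieldClass.toDivisionRing ContinuousAddMonoidHom.instCoeOutOfAddMonoidHomClassOfContinuousMapClass ContinuousMonoidHom.instCoeOutOfMonoidHomClassOfContinuousMapClass HomeomorphClass.instCoeOutHomeomorph IsometryClass.instCoeOutIsometryEquiv CompleteBooleanAlgebra.toBooleanAlgebra boolToProp instNonUnitalAlgHomClassOfNonUnitalAlgEquivClass SetLike.GradeZero.instCommSemiring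 AddCommGroupWithOne.toAddCommGroup NormedAddCommGroup.toAddCommGroup SeminormedAddCommGroup.toAddCommGroup SetLike.GradeZero.instSemiring NormedAddGroup.toSeminormedAddGroup SeminormedAddCommGroup.toSeminormedAddGroup IsRegularLocalRing.instOfIsLocalRingOfIsDomainOfIsPrincipalIdealRing IsRegularLocalRing.toIsLocalRing BooleanAlgebra.toBiheytingAlgebra CompleteDistribLattice.toBiheytingAlgebra CompleteLinearOrder.toBiheytingAlgebra CompletelyDistribLattice.toBiheytingAlgebra Field.instIsLocalRing IsDiscreteValuationRing.toIsLocalRing ValuationRing.isLocalRing IsRegularLocalRing.toIsNoetherian Ring.HasFiniteQuotients.instIsNoetherianRing coePNatNat Nat.Primes.coeNat Nat.Primes.coePNat instIsNoetherianRingOfIsArtinianRing IsDedekindDomainDvr.toIsNoetherian IsDedekindRing.toIsNoetherian IsSimpleModule.instIsNoetherian isNoetherian_of_finite isNoetherian_of_subsingleton IsSemisimpleModule.instIsNoetherianOfFinite PrincipalIdealRing.isNoetherianRing NormedAddGroup.toAddGroup SeminormedAddGroup.toAddGroup CommMonCat.str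 instFiniteProp NormedCommGroup.toCommGroup SeminormedCommGroup.toCommGroup instIsSemisimpleRingOfSubsingleton CommGroup.toGroup NormedGroup.toGroup SeminormedGroup.toGroup BiheytingAlgebra.toCoheytingAlgebra BiheytingAlgebra.toHeytingAlgebra BooleanAlgebra.toGeneralizedBooleanAlgebra Order.Coframe.toCoheytingAlgebra Order.Frame.toHeytingAlgebra Valued.toUniformSpace AddCancelCommMonoid.toAddCancelMonoid AddOpposite.instAddZero ModuleCat.instAddCommGroupCarrierMkOfSMul' Pi.instTopForall Nat.Prime.one_lt' EMetricSpace.toPseudoEMetricSpace MetricSpace.toEMetricSpace MetricSpace.toPseudoMetricSpace NonUnitalNormedRing.toMetricSpace NonUnitalSeminormedRing.toPseudoMetricSpace NormedAddCommGroup.toMetricSpace NormedAddGroup.toMetricSpace NormedCommGroup.toMetricSpace NormedDivisionRing.toMetricSpace NormedField.toMetricSpace NormedGroup.toMetricSpace NormedRing.toMetricSpace PseudoEMetricSpace.toUniformSpace PseudoMetricSpace.toPseudoEMetricSpace SeminormedAddCommGroup.toPseudoMetricSpace SeminormedAddGroup.toPseudoMetricSpace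 SeminormedCommGroup.toPseudoMetricSpace SeminormedGroup.toPseudoMetricSpace SeminormedRing.toPseudoMetricSpace WithIdeal.instTopologicalSpace WithIdeal.instUniformSpace ENormedAddCommMonoid.toESeminormedAddCommMonoid NormedAddCommGroup.toENormedAddCommMonoid CoheytingAlgebra.toGeneralizedCoheytingAlgebra GeneralizedBooleanAlgebra.toGeneralizedCoheytingAlgebra HeytingAlgebra.toGeneralizedHeytingAlgebra AddCancelMonoid.toAddLeftCancelMonoid AddCancelCommMonoid.toAddCommMonoid ESeminormedAddCommMonoid.toAddCommMonoid LinearOrderedAddCommGroupWithTop.toSubtractionMonoid NumberField.instFiniteDimensional NumberField.to_charZero OrderDual.instDivisionRing CategoryTheory.instFinCategoryOfFintypeOfIsThin SetLike.instFintype Unique.fintype CategoryTheory.FinCategory.fintypeObj AddLeftCancelMonoid.toAddMonoid AddRightCancelMonoid.toAddMonoid ENormedAddCommMonoid.toENormedAddMonoid ENormedAddMonoid.toESeminormedAddMonoid ESeminormedAddCommMonoid.toESeminormedAddMonoid ESeminormedAddMonoid.toAddMonoid NormedAddGroup.toENormedAddMonoid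 instConditionallyCompletePartialOrderSup Pi.mulZeroOneClass OrderDual.instDivisionSemiring AddGrpCat.str instFiniteOfFinitePresentation instFinitePresentation Algebra.instFiniteOfIsQuadraticExtension FiniteDimensional.finiteDimensional_self Algebra.IsFiniteSplit.instFinitePresentation Module.Finite.self Module.FinitePresentation.of_subsingleton RingHom.Finite.instFinite instIsDedekindDomainOfIsDomainOfIsDedekindRing IsDedekindDomainDvr.isDedekindDomain Module.instFiniteDimensionalOfIsReflexive Module.Finite.of_finite Pi.mulOneClass BooleanAlgebra.toDistribLattice CompleteLattice.toPartialOrder' ConditionallyCompletePartialOrderInf.toPartialOrder GeneralizedBooleanAlgebra.toDistribLattice GeneralizedCoheytingAlgebra.toDistribLattice GeneralizedCoheytingAlgebra.toLattice GeneralizedHeytingAlgebra.toDistribLattice GeneralizedHeytingAlgebra.toLattice LinearOrder.toLattice Order.Coframe.toDistribLattice Order.Frame.toDistribLattice Finite.of_subsingleton SetLike.instFinite LinearOrderedCommGroupWithZero.toCommGroupWithZero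 Module.free_of_finite_type_torsion_free' Algebra.IsQuadraticExtension.toFree CommRing.Pic.instFreeOfSubsingleton Module.Free.self OrderDual.instPow_1 instDistribSMul NonUnitalNonAssocSemiring.toDistribSMul Pi.mulZeroClass Pi.addGroupWithOne Pi.nonAssocRing Module.Free.of_subsingleton Torsor.toMulAction GradedMonoid.GradeZero.mulAction AlgEquivClass.toAlgHomClass IsStrictOrderedRing.toCharZero RCLike.charZero_rclike IsDedekindDomain.isDedekindDomainDvr of_isDiscreteValuationRing ValuationRing.instOfIsLocalRingOfIsBezout ValuationRing.of_field NormedAlgebra.toAlgebra Fin.completeLinearOrder AbsoluteValue.mulHomClass instIsPrincipalIdealRingOfIsSemisimpleRing EuclideanDomain.to_principal_ideal_domain IsDedekindDomain.isPrincipalIdealRing IsDiscreteValuationRing.toIsPrincipalIdealRing LinOrd.str ValuationClass.toMonoidWithZeroHomClass Algebra.Extension.commRing LinearOrderedCommMonoidWithZero.toCommMonoidWithZero LinearOrder.toDecidableEq RCLike.toDecidableEq IsSimpleOrder.toNontrivial IsDedekindDomain.toIsDedekindRing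 RingHomInvPair.triples RingHomInvPair.triples₂ DivisionSemiring.isPrincipalIdealRing IsPrincipalIdealRing.of_isNoetherianRing_of_isBezout instRingHomSurjectiveForallEvalRingHom AbsoluteValue.zeroHomClass AddHom.addHomClass IsStrictOrderedRing.noZeroDivisors NormMulClass.toNoZeroDivisors ContinuousSemilinearEquivClass.continuousSemilinearMapClass ContinuousSemilinearMapClass.toSemilinearMapClass RingHomClass.toLinearMapClassNNRat RingHomClass.toLinearMapClassRat SemilinearIsometryClass.toContinuousSemilinearMapClass SemilinearIsometryClass.toSemilinearMapClass ValuationRing.toPreValuationRing Pi.distribSMul' Pi.semigroup MulOpposite.instMulOne MonomialOrder.orderBot AlgHomClass.linearMapClass NonUnitalAlgHomClass.instSemilinearMapClassOfNonUnitalAlgSemiHomClassToMonoidHomRingHom TwoSidedIdeal.instIsTwoSidedCoeOrderHomIdealAsIdeal MulSemiringActionSemiHomClass.toDistribMulActionSemiHomClass NonUnitalAlgSemiHomClass.toDistribMulActionSemiHomClass decidableEq_of_subsingleton DivisionRing.toNontrivial LinearOrderedAddCommGroupWithTop.toNontrivial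 Algebra.IsFiniteSplit.instOfIsSepClosedOfEssFiniteTypeOfFormallyEtale Fin.instBiheytingAlgebra instSMulZeroClass AlgebraicClosure.instGroupWithZero OrderAddMonoidHom.instAddMonoidHomClass UniformSpace.Completion.instField AddMonoid.fg_of_addGroup_fg IsAffineAddMonoid.toFG NonUnitalAlgHomClass.toNonUnitalRingHomClass RingEquivClass.toNonUnitalRingHomClass IsAffineAddMonoid.toIsCancelAdd IsOrderedCancelAddMonoid.toIsCancelAdd AddMonoid.FG.to_moduleFinite_int Pi.instLocallyFiniteOrder MonoidWithZero.toSemigroupWithZero GrpCat.str Pi.divisionMonoid SemigroupWithZero.toMulZeroClass Pi.instBotForall Module.FaithfullyFlat.of_isIntegral_of_isDomain instIsDomain DivisionRing.isDomain EuclideanDomain.instIsDomain Field.isDomain IsDedekindDomain.toIsDomain IsStrictOrderedRing.isDomain Algebra.Generators.instIsScalarTowerRing SetLike.GradeZero.instCommRing Module.FaithfullyFlat.self Part.ofOptionDecidable instNonemptyOfMonad IsAffineAddMonoid.mk OneHom.oneHomClass NormedAlgebra.id commRing_strongRankCondition instMonadLiftT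 instMonadLiftTOfMonadLift SubringClass.nonUnitalSubringClass SubringClass.toNormedCommRing SubringClass.toSeminormedCommRing Module.Flat.instOfIsDedekindDomainOfIsTorsionFree Fin.instCoheytingAlgebra Fin.instHeytingAlgebra ENormedCommMonoid.toESeminormedCommMonoid NormedCommGroup.toENormedCommMonoid SubringClass.toCommRing SemilinearIsometryEquivClass.toSemilinearIsometryClass CommRing.toGrindCommRing Field.toGrindField Ring.toGrindRing MulCharClass.toMonoidHomClass MulDistribMulActionSemiHomClass.toMonoidHomClass Std.DTreeMap.Raw.instSingletonSigma SetLike.GradeZero.instRing Module.FaithfullyFlat.toFlat Module.Invertible.instProjective IsBezout.of_isPrincipalIdealRing Module.instIsReflexiveOfFiniteOfProjective ValuationRing.instIsBezout Module.IsReflexive.of_finite_of_free Module.toMulActionWithZero MonoidWithZero.toMulActionWithZero IsAlgClosed.instIsAlgClosure IsSepClosure.isAlgClosure_of_perfectField IsSepClosure.isAlgClosure_of_perfectField_top OrderRingHom.instRingHomClass Std.DTreeMap.Raw.instInsertSigma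 AddGroup.fg_of_finite IdemSemiring.toCanonicallyOrderedAdd ValuationRing.instLinearOrderIdealOfDecidableLE SubalgebraClass.normedRing SubalgebraClass.seminormedRing SubringClass.toNormedRing SubringClass.toSeminormedRing Module.Flat.of_free Module.Flat.of_projective Module.Flat.self Module.Projective.of_free instNontrivialCarrierObjModuleCatOfFullOfFaithful AddCommGroup.toGrindIntModule IsOrderedRing.toIsStrictOrderedRing Pi.isOrderedRing instSubsingletonSubtype_mathlib SubringClass.toRing CommSemiring.toGrindCommSemiring Semiring.toGrindSemiring Monoid.End.instMonoidHomClass instIsWellOrderOfIsEmpty instWellQuasiOrderedLEOfWellFoundedLT isArtinian_of_fg_of_artinian' isWellOrder_lt DivisionRing.instIsArtinianRing DivisionSemiring.instIsArtinianRing Finite.to_wellFoundedLT Ideal.instFinite IsWellOrder.toIsWellFounded Submodule.instUniqueOfSubsingleton Submodule.unique' WellQuasiOrderedLE.to_wellFoundedLT Subsingleton.to_isCancelMulZero Ring.HasFiniteQuotients.instOfFinite Ring.HasFiniteQuotients.instOfIsDomainOfFiniteInt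 Pi.commMagma instMulActionSemiHomClassMulActionHom instInhabitedOfMonad Nontrivial.to_nonempty Torsor.nonempty Unique.instInhabited CategoryTheory.IsConnected.is_nonempty AddCommMonoid.toGrindNatModule CancelCommMonoid.toCancelMonoid CancelCommMonoid.toCommMonoid CancelCommMonoid.toLeftCancelMonoid CancelMonoid.toLeftCancelMonoid CancelMonoid.toRightCancelMonoid CommGroup.toCancelCommMonoid CommGroup.toCommMonoid CommGroup.toDivisionCommMonoid DivInvMonoid.toMonoid DivInvOneMonoid.toDivInvMonoid DivisionCommMonoid.toCommMonoid DivisionMonoid.toDivInvMonoid ENormedCommMonoid.toENormedMonoid ENormedMonoid.toESeminormedMonoid ESeminormedCommMonoid.toCommMonoid ESeminormedCommMonoid.toESeminormedMonoid ESeminormedMonoid.toMonoid Group.toCancelMonoid Group.toDivInvMonoid Group.toDivisionMonoid LeftCancelMonoid.toMonoid NormedGroup.toENormedMonoid RightCancelMonoid.toMonoid GradedMonoid.GradeZero.commMonoid GradedMonoid.GradeZero.monoid instIsEmptySubtype IsSepClosure.isSeparable Pi.addSemigroup Pi.instLattice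 Set.instNoZeroDivisors Algebra.instEtaleOfIsStandardSmoothOfRelativeDimensionOfNatNat Algebra.instIsStandardSmoothOfRelativeDimensionOfNatNatOfSubsingleton Algebra.instIsStandardSmoothOfSubsingleton Algebra.instSmoothOfIsStandardSmooth Algebra.Etale.inst Algebra.Etale.instSmooth Algebra.IsStandardSmoothOfRelativeDimension.id MulZeroClass.negZeroClass MulActionWithZero.toMulAction MulDistribMulAction.toMulAction MulSemiringAction.toMulDistribMulAction IsAlgClosure.isAlgebraic Normal.toIsAlgebraic Set.instAddLeftMono Pi.instOrderTop MulEquivClass.toMonoidWithZeroHomClass MulRingSeminormClass.toMonoidWithZeroHomClass bot_nonempty infSet_to_nonempty supSet_to_nonempty top_nonempty ConnectedSpace.toNonempty IrreducibleSpace.toNonempty One.instNonempty Zero.instNonempty Pi.topologicalSpace MulZeroClass.toSMulWithZero OrderDual.instRightDistribClass Pi.instSubtractionCommMonoid Pi.monoidWithZero SubringClass.toNonAssocCommRing instIsTorsionFreeOfIsDomainOfNoZeroSMulDivisors GroupWithZero.toNoZeroSMulDivisors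 NoZeroDivisors.toNoZeroSMulDivisors Subsingleton.to_moduleIsTorsionFree Module.Free.instIsTorsionFree Module.IsReflexive.to_isTorsionFree instInfiniteOfUncountable CategoryTheory.isConnected_of_nonempty_and_subsingleton CharZero.infinite Denumerable.instInfinite Group.instTorsor Infinite.instNontrivial IsAlgClosed.instInfinite IsSimpleAddGroup.toNontrivial IsSimpleGroup.toNontrivial IsSimpleRing.instNontrivial IsStrictOrderedRing.toNontrivial NoMaxOrder.infinite NoMinOrder.infinite NontriviallyNormedField.infinite Preorder.smallCategory CategoryTheory.Groupoid.toCategory CategoryTheory.StrictBicategory.category instIsFractionRing Algebra.isSeparable_self Ordinal.instNeZeroOne instCoeHTCOfCoeHeadOfCoeOTC Pi.commMonoidWithZero LocalizedModule.instIsScalarTower Algebra.IsAlgebraic.isPurelyInseparable_of_isSepClosed Int.instIsDomain Int.instNontrivial instIsBotZeroClass AddSubgroupClass.normedAddCommGroup AddSubgroupClass.seminormedAddCommGroup NonUnitalSubalgebraClass.nonUnitalNormedRing NonUnitalSubalgebraClass.nonUnitalSeminormedRing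 Module.Invertible.instFaithfulSMul One.ofOfNat1 LieAlgebra.ofAssociativeAlgebra instFiniteDimensionalFractionRingOfFinite IsSepClosure.of_isAlgClosure_of_perfectField IsSepClosure.self_of_isSepClosed IsOrderedAddMonoid.toIsOrderedCancelAddMonoid IsStrictOrderedRing.toIsOrderedCancelAddMonoid instIsLeftCancelAddOfAddLeftReflectLE Pi.smulZeroClass' Ordinal.leftDistribClass Pi.nonUnitalNonAssocRing IsLocalization.instIsNoetherianRingLocalization IsAlgClosure.separable IsGalois.to_isSeparable Algebra.IsAlgebraic.isIntegral Ideal.Quotient.normedCommRing Ideal.Quotient.semiNormedCommRing NonUnitalSubringClass.toNonUnitalNonAssocCommRing NonUnitalSubringClass.toNonUnitalNonAssocRing NonUnitalSubringClass.toNonUnitalRing Submodule.normedAddCommGroup Submodule.seminormedAddCommGroup instFaithfulSMul instFaithfulSMulOfIsRightCancelMul instFaithfulSMul_1 NonUnitalSubringClass.addSubgroupClass SubringClass.addSubgroupClass Module.Free.instFaithfulSMulOfNontrivial BooleanAlgebra.toBot BooleanAlgebra.toBoundedOrder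 BooleanAlgebra.toTop BoundedOrder.toOrderBot CoheytingAlgebra.toBoundedOrder CoheytingAlgebra.toOrderTop CompletePartialOrder.toOrderBot CompleteSemilatticeInf.toInfSet ConditionallyCompleteLattice.toInfSet ConditionallyCompleteLattice.toSupSet ConditionallyCompleteLinearOrderBot.toOrderBot Fin.addCommGroup Fin.addCommMonoid GeneralizedBooleanAlgebra.toBot GeneralizedBooleanAlgebra.toOrderBot GeneralizedCoheytingAlgebra.toOrderBot GeneralizedHeytingAlgebra.toOrderTop HeytingAlgebra.toBoundedOrder HeytingAlgebra.toOrderBot IdemSemiring.toOrderBot IrreducibleSpace.connectedSpace LinearOrderedAddCommGroupWithTop.toOrderTop LinearOrderedCommMonoidWithZero.toOrderBot PathConnectedSpace.connectedSpace MulActionWithZero.toSMulWithZero Set.instEmptyCollection IsPurelyInseparable.normal instCoeHTCTOfCoeTailOfCoeHTC instCoeOutOfCoeFun instCoeTailNatOfNatCast LinearMapClass.instCoeToLinearMap NonUnitalStarRingHomClass.instCoeHeadNonUnitalStarRingHom SemilinearMapClass.instCoeToSemilinearMap StarAlgEquivClass.instCoeHead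 StarRingEquivClass.instCoeHead CompTriple.instComp_id CompTriple.instId_comp Set.instAddRightMono Algebra.IsIntegral.isAlgebraic Submodule.instIdemCommSemiring NonUnitalSubringClass.toNonUnitalSubsemiringClass instIsTorsionFree AddSubgroupClass.toAddCommGroup Submodule.addSubgroupClass instTopologicalSpaceFin Fin.instBoundedOrder Fin.instCommMonoid Fin.instNontrivial NormedSpace.instPathConnectedSpace Localization.instUniqueLocalization LocalizedModule.instSubsingleton Submonoid.LocalizationMap.instSubsingletonLocalization instCoeTailIntOfIntCast instCoeTailRatOfRatCast DivisionRing.toNNRatCast DivisionRing.toRatCast DivisionSemiring.toNNRatCast NNRatCast.toCoeTail Set.uniqueEmpty MulSemiringActionSemiHomClass.toRingHomClass Pi.instCanonicallyOrderedAddForall instFinitePresentationLocalizationLocalizedModule instIsAbelianGalois normal_self GaloisField.instIsGaloisOfFinite IsAbelianGalois.toIsGalois IsAlgClosure.isGalois IsAlgClosure.normal IsGalois.self IsGalois.to_normal IsSepClosure.isGalois Algebra.IsQuadraticExtension.isGalois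 Algebra.IsQuadraticExtension.normal Subtype.fintype Pi.involutiveNeg MonomialOrder.isOrderedAddMonoid_syn SubsemiringClass.toSemiring AddMonoid.FG.to_moduleFinite_nat IsSepClosed.isAlgClosed_of_perfectField IsSepClosed.of_isAlgClosed AddGroup.addLeftReflectLE_of_addLeftMono IsOrderedCancelAddMonoid.toAddLeftReflectLE Finsupp.instSubsingleton' FractionRing.instIsScalarTower_1 AddMonoidAlgebra.moduleFinite MvPolynomial.instFiniteOfIsEmpty -- iprune

set_option linter.all false

section

namespace Vale.Agent.P202.X178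

open Module

section general

variable {D N M : Type*} [CommRing D] [AddCommGroup N] [Module D N] [AddCommGroup M] [Module D M]

theorem mapQ_injective_of {p : Submodule D N} {q : Submodule D M} (f : N →ₗ[D] M)
    (h : p ≤ q.comap f) (h' : q.comap f ≤ p) : Function.Injective (p.mapQ q f h) := by
  rw [← LinearMap.ker_eq_bot, Submodule.ker_mapQ, eq_bot_iff, Submodule.map_le_iff_le_comap]
  intro x hx
  have hx' : x ∈ p := h' hx
  simpa using hx'

theorem exact_mapQ_factor {p : Submodule D N} {q q' : Submodule D M} (f : N →ₗ[D] M)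
    (h : p ≤ q.comap f) (hqq : q ≤ q') (hrange : q' = LinearMap.range f ⊔ q) :
    Function.Exact (p.mapQ q f h) (Submodule.factor hqq) := by
  intro y
  obtain ⟨y, rfl⟩ := q.mkQ_surjective y
  constructor
  · intro hy
    have h1 : y ∈ q' := by
      have : q'.mkQ y = 0 := hy
      simpa using this
    rw [hrange] at h1
    obtain ⟨_, ⟨x, rfl⟩, z, hz, hxz⟩ := Submodule.mem_sup.mp h1
    refine ⟨p.mkQ x, ?_⟩
    change q.mkQ (f x) = q.mkQ y
    rw [← hxz, map_add]
    have : q.mkQ z = 0 := by simpa using hz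
    rw [this, add_zero]
  · rintro ⟨x, hx⟩
    obtain ⟨x, rfl⟩ := p.mkQ_surjective x
    have h1 : q.mkQ (f x) = q.mkQ y := hx
    rw [← h1]
    change q'.mkQ (f x) = 0
    have : f x ∈ q' := by rw [hrange]; exact Submodule.mem_sup_left ⟨x, rfl⟩
    simpa using this

/-- Invariance of the length of `N / a N` under passage to a submodule of finite colength. -/
theorem length_quotient_smul_eq (a : D) (hinj : ∀ x : N, a • x = 0 → x = 0)
    (N' : Submodule D N) (hfin : Module.length D (N ⧸ N') ≠ ⊤) :
    Module.length D (N ⧸ LinearMap.range (LinearMap.lsmul D N a)) =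
      Module.length D (N' ⧸ LinearMap.range (LinearMap.lsmul D N' a)) := by
  let f : N →ₗ[D] N := LinearMap.lsmul D N a
  let f' : N' →ₗ[D] N' := LinearMap.lsmul D N' a
  let R : Submodule D N := N'.map f
  have hRN' : R ≤ N' := by
    rintro _ ⟨x, hx, rfl⟩
    exact N'.smul_mem a hx
  -- first sequence
  have h1 : Module.length D (N ⧸ R) =
      Module.length D (N' ⧸ LinearMap.range f') + Module.length D (N ⧸ N') := by
    have hle : LinearMap.range f' ≤ R.comap N'.subtype := by
      rintro _ ⟨x, rfl⟩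
      exact ⟨x, x.2, rfl⟩
    refine Module.length_eq_add_of_exact ((LinearMap.range f').mapQ R N'.subtype hle)
      (Submodule.factor hRN') (mapQ_injective_of _ _ ?_) (Submodule.factor_surjective hRN')
      (exact_mapQ_factor _ _ hRN' ?_)
    · rintro x ⟨y, hy, hyx⟩
      exact ⟨⟨y, hy⟩, Subtype.ext hyx⟩
    · rw [Submodule.range_subtype]
      exact (sup_eq_left.mpr hRN').symm
  -- second sequence
  have hRf : R ≤ LinearMap.range f := by
    rintro _ ⟨x, _, rfl⟩
    exact ⟨x, rfl⟩
  have h2 : Module.length D (N ⧸ R) =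
      Module.length D (N ⧸ N') + Module.length D (N ⧸ LinearMap.range f) := by
    have hle : N' ≤ R.comap f := fun x hx => ⟨x, hx, rfl⟩
    refine Module.length_eq_add_of_exact (N'.mapQ R f hle)
      (Submodule.factor hRf) (mapQ_injective_of _ _ ?_) (Submodule.factor_surjective hRf)
      (exact_mapQ_factor _ _ hRf ?_)
    · rintro x ⟨y, hy, hyx⟩
      have h3 : a • (y - x) = 0 := by
        rw [smul_sub, sub_eq_zero]; exact hyx
      have h4 := hinj _ h3
      rw [sub_eq_zero] at h4
      exact h4 ▸ hy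
    · exact (sup_eq_left.mpr hRf).symm
  rw [h1, add_comm (Module.length D (N ⧸ N'))] at h2
  exact (ENat.add_left_injective_of_ne_top hfin h2).symm

/-- A module all of whose finitely generated submodules have bounded length is finite. -/
theorem finite_of_bounded_length (L : ℕ)
    (h : ∀ P : Submodule D N, P.FG → Module.length D P ≤ L) : Module.Finite D N := by
  by_contra hnf
  have hnfg : ¬ (⊤ : Submodule D N).FG := fun hfg => hnf ⟨hfg⟩
  have key : ∀ n : ℕ, ∃ P : Submodule D N, P.FG ∧ (n : ℕ∞) ≤ Module.length D P := by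
    intro n
    induction n with
    | zero => exact ⟨⊥, Submodule.fg_bot, by simp⟩
    | succ n ih =>
      obtain ⟨P, hP, hn⟩ := ih
      have hne : P ≠ ⊤ := fun heq => hnfg (heq ▸ hP)
      obtain ⟨x, -, hx⟩ := SetLike.exists_of_lt (lt_top_iff_ne_top.mpr hne)
      let P' : Submodule D N := P ⊔ Submodule.span D {x}
      have hP' : P'.FG := hP.sup (Submodule.fg_span_singleton x)
      refine ⟨P', hP', ?_⟩
      have hlt : P < P' := by
        refine lt_of_le_of_ne le_sup_left fun heq => hx ?_
        rw [heq]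
        exact Submodule.mem_sup_right (Submodule.mem_span_singleton_self x)
      rw [Module.length_submodule] at hn ⊢
      have h3 : Order.height P < ⊤ := by
        have := h P hP
        rw [Module.length_submodule] at this
        exact lt_of_le_of_lt this (ENat.natCast_lt_top L)
      have h4 := Order.height_strictMono hlt h3
      push_cast
      exact Order.add_one_le_of_lt (lt_of_le_of_lt hn h4)
  obtain ⟨P, hP, hn⟩ := key (L + 1)
  have h5 := hn.trans (h P hP)
  have h6 : L + 1 ≤ L := by exact_mod_cast h5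
  omega

end general

section domain

variable {D : Type*} [CommRing D] [IsDomain D] [IsNoetherianRing D] [Ring.KrullDimLE 1 D]
  {K : Type*} [Field K] [Algebra D K] [IsFractionRing D K]

theorem length_quotient_ideal_ne_top (I : Ideal D) (hI : I ≠ ⊥) :
    Module.length D (D ⧸ I) ≠ ⊤ := by
  obtain ⟨x, hxI, hx⟩ := Submodule.exists_mem_ne_zero_of_ne_bot hI
  have h1 : Module.length D (D ⧸ Ideal.span {x}) ≠ ⊤ := by
    rw [Module.length_ne_top_iff]
    exact isFiniteLength_quotient_span_singleton D (mem_nonZeroDivisors_of_ne_zero hx)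
  have hle : Ideal.span {x} ≤ I := by
    rw [Ideal.span_le, Set.singleton_subset_iff]; exact hxI
  have h2 : Module.length D (D ⧸ I) ≤ Module.length D (D ⧸ Ideal.span {x}) :=
    Module.length_le_of_surjective (Submodule.factor hle) (Submodule.factor_surjective hle)
  exact ne_top_of_le_ne_top h1 h2

theorem length_quotient_smul_ideal (a : D) (ha : a ≠ 0) (I : Ideal D) (hI : I ≠ ⊥) :
    Module.length D (I ⧸ LinearMap.range (LinearMap.lsmul D I a)) =
      Module.length D (D ⧸ Ideal.span {a}) := by
  have h := length_quotient_smul_eq (N := D) a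
    (fun x hx => (mul_eq_zero.mp hx).resolve_left ha) I (length_quotient_ideal_ne_top I hI)
  rw [← h]
  have h2 : LinearMap.range (LinearMap.lsmul D D a) = Ideal.span {a} := by
    ext x
    rw [Ideal.mem_span_singleton']
    constructor
    · rintro ⟨y, hy⟩
      exact ⟨y, by rw [← hy]; exact mul_comm _ _⟩
    · rintro ⟨y, hy⟩
      exact ⟨y, by rw [← hy]; exact mul_comm _ _⟩
  rw [h2]

/-- Key bound of the Krull-Akizuki theorem for finitely generated submodules. -/
theorem length_quotient_smul_le (a : D) (ha : a ≠ 0) (M : Submodule D K) (hM : M.FG) :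
    Module.length D (M ⧸ LinearMap.range (LinearMap.lsmul D M a)) ≤
      Module.length D (D ⧸ Ideal.span {a}) := by
  rcases eq_or_ne M ⊥ with rfl | hM0
  · rw [Module.length_eq_zero]
    exact bot_le
  -- clear denominators
  obtain ⟨b, hb, hbM⟩ : ∃ b : D, b ≠ 0 ∧ ∀ x ∈ M, ∃ y : D, algebraMap D K y = b • x := by
    obtain ⟨b, hb, hbM⟩ := FractionalIdeal.isFractional_of_fg (S := nonZeroDivisors D) hM
    exact ⟨b, nonZeroDivisors.ne_zero hb, fun x hx => hbM x hx⟩
  let I : Ideal D := (M.map (LinearMap.lsmul D K b)).comap (Algebra.linearMap D K)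
  have hbK : algebraMap D K b ≠ 0 := by
    rw [Ne, FaithfulSMul.algebraMap_eq_zero_iff]; exact hb
  have hinj : Function.Injective (algebraMap D K) := IsFractionRing.injective D K
  choose y hy using fun x : M => hbM x x.2
  have hyI : ∀ x, y x ∈ I := fun x => ⟨x, x.2, (hy x).symm⟩
  let e : M →ₗ[D] I :=
    { toFun := fun x => ⟨y x, hyI x⟩
      map_add' := by
        intro x x'
        apply Subtype.ext
        apply hinj
        change algebraMap D K (y (x + x')) = algebraMap D K (y x + y x')
        rw [map_add, hy, hy, hy, Submodule.coe_add, smul_add]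
      map_smul' := by
        intro r x
        apply Subtype.ext
        apply hinj
        change algebraMap D K (y (r • x)) = algebraMap D K (r * y x)
        rw [map_mul, hy, hy, Submodule.coe_smul, smul_comm, Algebra.smul_def r] }
  have heinj : Function.Injective e := by
    intro x x' h
    have h1 : y x = y x' := congrArg Subtype.val h
    have h2 : b • (x : K) = b • (x' : K) := by rw [← hy, ← hy, h1]
    rw [Algebra.smul_def, Algebra.smul_def] at h2
    exact Subtype.ext (mul_left_cancel₀ hbK h2)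
  have hesurj : Function.Surjective e := by
    rintro ⟨z, ⟨x, hx, hxz⟩⟩
    refine ⟨⟨x, hx⟩, Subtype.ext (hinj ?_)⟩
    change algebraMap D K (y ⟨x, hx⟩) = algebraMap D K z
    rw [hy]
    exact hxz
  let E : M ≃ₗ[D] I := LinearEquiv.ofBijective e ⟨heinj, hesurj⟩
  have hI : I ≠ ⊥ := by
    intro h
    obtain ⟨x, hx, hx0⟩ := Submodule.exists_mem_ne_zero_of_ne_bot hM0
    have h1 : e ⟨x, hx⟩ = e 0 := by
      apply Subtype.ext
      have h2 : ((e ⟨x, hx⟩ : I) : D) ∈ (⊥ : Ideal D) := h ▸ (e ⟨x, hx⟩).2
      rw [map_zero, (Submodule.mem_bot D).mp h2]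
      rfl
    have h2 := heinj h1
    exact hx0 (congrArg Subtype.val h2)
  rw [← length_quotient_smul_ideal a ha I hI]
  apply le_of_eq
  have hmap : (LinearMap.range (LinearMap.lsmul D M a)).map (E : M →ₗ[D] I) =
      LinearMap.range (LinearMap.lsmul D I a) := by
    ext z
    constructor
    · rintro ⟨_, ⟨x, rfl⟩, rfl⟩
      exact ⟨E x, by
        change a • E x = E (a • x)
        rw [map_smul]⟩
    · rintro ⟨z', rfl⟩
      obtain ⟨x, rfl⟩ := E.surjective z'
      exact ⟨a • x, ⟨x, rfl⟩, by
        change E (a • x) = a • E x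
        rw [map_smul]⟩
  exact (Submodule.Quotient.equiv _ _ E hmap).length_eq

/-- For any submodule `W` of `K`, the module `W / a W` is finitely generated. -/
theorem finite_quotient_smul (a : D) (ha : a ≠ 0) (W : Submodule D K) :
    Module.Finite D (W ⧸ LinearMap.range (LinearMap.lsmul D W a)) := by
  obtain ⟨L, hL⟩ := ENat.ne_top_iff_exists.mp
    (length_quotient_ideal_ne_top (Ideal.span {a}) (by simpa using ha))
  apply finite_of_bounded_length L
  intro P hP
  -- lift generators of `P`
  let R := LinearMap.range (LinearMap.lsmul D W a)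
  obtain ⟨M', hM', hM'P⟩ : ∃ M' : Submodule D W, M'.FG ∧ M'.map R.mkQ = P := by
    obtain ⟨s, hs⟩ := hP
    classical
    choose t ht using fun x : W ⧸ R => R.mkQ_surjective x
    refine ⟨Submodule.span D (s.image t), ⟨s.image t, rfl⟩, ?_⟩
    rw [Submodule.map_span, ← hs]
    congr 1
    rw [Finset.coe_image, Set.image_image]
    ext x
    constructor
    · rintro ⟨y, hy, rfl⟩
      change R.mkQ (t y) ∈ _
      rw [ht]; exact hy
    · intro hx
      exact ⟨x, hx, ht x⟩
  let M : Submodule D K := M'.map W.subtype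
  have hM : M.FG := hM'.map _
  have h1 := length_quotient_smul_le a ha M hM
  rw [← hL] at h1
  refine le_trans ?_ h1
  -- surjection `M / a M → P`
  have hMW : ∀ x : M, (x : K) ∈ W := by
    rintro ⟨_, x, hx, rfl⟩
    exact x.2
  have hMM' : ∀ x : M, (⟨x, hMW x⟩ : W) ∈ M' := by
    rintro ⟨_, x, hx, rfl⟩
    exact hx
  let f : M →ₗ[D] P :=
    { toFun := fun x => ⟨R.mkQ ⟨x, hMW x⟩, hM'P ▸ Submodule.mem_map_of_mem (hMM' x)⟩
      map_add' := by
        intro x x'
        apply Subtype.ext
        change R.mkQ ⟨((x + x' : M) : K), hMW (x + x')⟩ =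
          R.mkQ ⟨x, hMW x⟩ + R.mkQ ⟨x', hMW x'⟩
        rw [← map_add]
        rfl
      map_smul' := by
        intro r x
        apply Subtype.ext
        change R.mkQ ⟨((r • x : M) : K), hMW (r • x)⟩ = r • R.mkQ ⟨x, hMW x⟩
        rw [← map_smul]
        rfl }
  have hf : Function.Surjective f := by
    rintro ⟨z, hz⟩
    rw [← hM'P] at hz
    obtain ⟨x, hx, rfl⟩ := hz
    exact ⟨⟨x, x, hx, rfl⟩, rfl⟩
  have hker : LinearMap.range (LinearMap.lsmul D M a) ≤ LinearMap.ker f := by
    rintro _ ⟨x, rfl⟩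
    rw [LinearMap.mem_ker]
    apply Subtype.ext
    change R.mkQ ⟨((a • x : M) : K), hMW (a • x)⟩ = 0
    have : (⟨((a • x : M) : K), hMW (a • x)⟩ : W) ∈ R := ⟨⟨x, hMW x⟩, rfl⟩
    simpa using this
  refine Module.length_le_of_surjective
    ((LinearMap.range (LinearMap.lsmul D M a)).liftQ f hker) ?_
  intro z
  obtain ⟨x, hx⟩ := hf z
  exact ⟨Submodule.Quotient.mk x, hx⟩

end domain

end Vale.Agent.P202.X178
end

section

namespace Vale.Agent.P202.X178

open IsLocalRing

section general

variable {R : Type*} [CommRing R] (I : Ideal R)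

theorem isPrecomplete_pi [IsPrecomplete I R] (k : ℕ) : IsPrecomplete I (Fin k → R) := by
  rw [isPrecomplete_iff]
  intro f hf
  have h1 : ∀ i : Fin k, ∃ L : R, ∀ n, f n i ≡ L [SMOD (I ^ n • ⊤ : Submodule R R)] := by
    intro i
    refine IsPrecomplete.prec ‹_› (f := fun n => f n i) ?_
    intro m n hmn
    have h := hf hmn
    rw [SModEq.sub_mem] at h ⊢
    have h2 : (LinearMap.proj (R := R) (φ := fun _ : Fin k => R) i) (f m - f n) ∈
        Submodule.map (LinearMap.proj (R := R) (φ := fun _ : Fin k => R) i)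
          (I ^ m • ⊤ : Submodule R (Fin k → R)) := Submodule.mem_map_of_mem h
    rw [Submodule.map_smul''] at h2
    exact Submodule.smul_mono le_rfl le_top h2
  choose L hL using h1
  refine ⟨L, fun n => ?_⟩
  rw [SModEq.sub_mem]
  have h3 : f n - L = ∑ i, (f n i - L i) • (Pi.single i (1 : R) : Fin k → R) := by
    rw [← (Pi.basisFun R (Fin k)).sum_repr (f n - L)]
    simp
  rw [h3]
  refine Submodule.sum_mem _ fun i _ => ?_
  refine Submodule.smul_mem_smul ?_ trivial
  have h4 := hL i n
  rw [SModEq.sub_mem] at h4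
  simpa using h4

theorem finite_of_finite_quotient [IsPrecomplete I R] (N : Type*) [AddCommGroup N] [Module R N]
    [IsHausdorff I N] [Module.Finite R (N ⧸ (I • ⊤ : Submodule R N))] : Module.Finite R N := by
  obtain ⟨k, g, hg⟩ := Module.Finite.exists_fin' R (N ⧸ (I • ⊤ : Submodule R N))
  have := isPrecomplete_pi I k
  obtain ⟨f, hf⟩ := Module.projective_lifting_property (I • ⊤ : Submodule R N).mkQ g
    (Submodule.mkQ_surjective _)
  have h1 : Function.Surjective f := by
    apply surjective_of_mkQ_comp_surjective (I := I)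
    rw [hf]
    exact hg
  exact Module.Finite.of_surjective f h1

end general

section domain

variable {D : Type*} [CommRing D] [IsDomain D] [IsNoetherianRing D] [Ring.KrullDimLE 1 D]
  [IsLocalRing D]
  {K : Type*} [Field K] [Algebra D K] [IsFractionRing D K]

/-- Every nonzero ideal of a one-dimensional local domain contains a power of the
maximal ideal. -/
theorem exists_pow_le (J : Ideal D) (hJ : J ≠ ⊥) : ∃ s : ℕ, maximalIdeal D ^ s ≤ J := by
  apply Ideal.exists_pow_le_of_le_radical_of_fg
  · rw [Ideal.radical_eq_sInf]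
    refine le_sInf ?_
    rintro p ⟨hJp, hp⟩
    have hp0 : p ≠ ⊥ := fun h => hJ (le_bot_iff.mp (h ▸ hJp))
    have := hp
    have hpm : p.IsMaximal := hp.isMaximal_of_ne_bot hp0
    exact (eq_maximalIdeal hpm).ge
  · exact IsNoetherian.noetherian _

/-- The integral closure `W` of a one-dimensional local domain is separated. -/
theorem isHausdorff_integralClosure : IsHausdorff (maximalIdeal D) (integralClosure D K) := by
  refine ⟨fun x hx => ?_⟩
  by_contra hx0
  simp only [SModEq.zero] at hx
  rcases eq_or_ne (maximalIdeal D) ⊥ with hm | hm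
  · have h1 := hx 1
    rw [hm] at h1
    simp at h1
    exact hx0 h1
  obtain ⟨a, ham, ha⟩ := Submodule.exists_mem_ne_zero_of_ne_bot hm
  have hinj : Function.Injective (algebraMap D K) := IsFractionRing.injective D K
  -- `x` divides a nonzero element `b` of `D`
  obtain ⟨b, hb, w, hbw⟩ : ∃ b : D, b ≠ 0 ∧ ∃ w : integralClosure D K,
      algebraMap D (integralClosure D K) b = x * w := by
    have hxK : (x : K) ≠ 0 := fun h => hx0 (Subtype.ext h)
    obtain ⟨b, c, hc, hbc⟩ := IsFractionRing.div_surjective (A := D) ((x : K)⁻¹)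
    have hc0 : algebraMap D K c ≠ 0 := by
      rw [Ne, FaithfulSMul.algebraMap_eq_zero_iff]; exact nonZeroDivisors.ne_zero hc
    refine ⟨c, nonZeroDivisors.ne_zero hc, algebraMap D _ b, ?_⟩
    apply Subtype.ext
    change algebraMap D K c = x * algebraMap D K b
    rw [div_eq_iff hc0] at hbc
    rw [hbc, ← mul_assoc, mul_inv_cancel₀ hxK, one_mul]
  obtain ⟨s, hs⟩ := exists_pow_le (Ideal.span {b * a}) (by simpa using mul_ne_zero hb ha)
  have h1 : x ∈ (Ideal.span {b * a} • ⊤ : Submodule D (integralClosure D K)) :=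
    Submodule.smul_mono_left hs (hx s)
  rw [Submodule.ideal_span_singleton_smul] at h1
  obtain ⟨y, -, hy⟩ := h1
  have h2 : algebraMap D (integralClosure D K) (b * a) * y = x := by
    rw [← hy]; exact (Algebra.smul_def _ _).symm
  have h3 : algebraMap D (integralClosure D K) b *
      (algebraMap D (integralClosure D K) a * (y * w)) =
      algebraMap D (integralClosure D K) b * 1 := by
    rw [mul_one]
    nth_rewrite 2 [hbw]
    rw [← h2, map_mul]
    ring
  have h4 : algebraMap D (integralClosure D K) b ≠ 0 := by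
    rw [Ne, FaithfulSMul.algebraMap_eq_zero_iff]; exact hb
  have h5 := mul_left_cancel₀ h4 h3
  have h6 : IsUnit (algebraMap D (integralClosure D K) a) := IsUnit.of_mul_eq_one _ h5
  have h7 : IsUnit a := (isUnit_map_iff (algebraMap D (integralClosure D K)) a).mp h6
  exact (mem_maximalIdeal a).mp ham h7

theorem finite_integralClosure_of_precomplete [IsPrecomplete (maximalIdeal D) D] :
    Module.Finite D (integralClosure D K) := by
  rcases eq_or_ne (maximalIdeal D) ⊥ with hm | hm
  · have hf : IsField D := by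
      rw [IsLocalRing.isField_iff_maximalIdeal_eq]; exact hm
    have hbij := hf.localization_map_bijective (Rₘ := K) (M := nonZeroDivisors D)
      (fun h => nonZeroDivisors.ne_zero h rfl)
    have h1 : Function.Surjective (Algebra.linearMap D (integralClosure D K)) := by
      intro x
      obtain ⟨y, hy⟩ := hbij.2 (x : K)
      exact ⟨y, Subtype.ext hy⟩
    exact Module.Finite.of_surjective _ h1
  obtain ⟨a, ham, ha⟩ := Submodule.exists_mem_ne_zero_of_ne_bot hm
  have := isHausdorff_integralClosure (D := D) (K := K)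
  have h1 : Module.Finite D (integralClosure D K ⧸
      LinearMap.range (LinearMap.lsmul D (integralClosure D K) a)) :=
    finite_quotient_smul a ha (Subalgebra.toSubmodule (integralClosure D K))
  have hle : LinearMap.range (LinearMap.lsmul D (integralClosure D K) a) ≤
      (maximalIdeal D • ⊤ : Submodule D (integralClosure D K)) := by
    rintro _ ⟨x, rfl⟩
    exact Submodule.smul_mem_smul ham trivial
  have h2 : Module.Finite D (integralClosure D K ⧸
      (maximalIdeal D • ⊤ : Submodule D (integralClosure D K))) :=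
    Module.Finite.of_surjective (Submodule.factor hle) (Submodule.factor_surjective hle)
  exact finite_of_finite_quotient (maximalIdeal D) (integralClosure D K)

end domain

end Vale.Agent.P202.X178
end

section

namespace Vale.Agent.P202.X190

open IsLocalRing TensorProduct

universe u

/-- A finite module over a complete Noetherian ring is complete. -/
theorem isAdicComplete_of_finite {A M : Type u} [CommRing A] [IsNoetherianRing A]
    [AddCommGroup M] [Module A M] [Module.Finite A M] (I : Ideal A) (h : IsAdicComplete I A) :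
    IsAdicComplete I M := by
  rw [← AdicCompletion.of_bijective_iff]
  have h1 : Function.Bijective (AdicCompletion.of I A) := AdicCompletion.of_bijective I A
  let e1 : A ≃ₗ[A] AdicCompletion I A := LinearEquiv.ofBijective (AdicCompletion.of I A) h1
  let e2 : M ≃ₗ[A] AdicCompletion I A ⊗[A] M :=
    (TensorProduct.lid A M).symm ≪≫ₗ TensorProduct.congr e1 (LinearEquiv.refl A M)
  have h2 := AdicCompletion.ofTensorProduct_bijective_of_finite_of_isNoetherian I M
  have h3 : ∀ x : M, AdicCompletion.of I M x = AdicCompletion.ofTensorProduct I M (e2 x) := by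
    intro x
    have : e2 x = (1 : AdicCompletion I A) ⊗ₜ[A] x := by
      simp only [e2, LinearEquiv.trans_apply, TensorProduct.lid_symm_apply,
        TensorProduct.congr_tmul, LinearEquiv.refl_apply]
      congr 1
    rw [this, AdicCompletion.ofTensorProduct_tmul, one_smul]
  have h4 : (AdicCompletion.of I M : M → AdicCompletion I M) =
      (AdicCompletion.ofTensorProduct I M) ∘ e2 := funext h3
  rw [h4]
  exact h2.comp e2.bijective

end Vale.Agent.P202.X190
end

section

/-!
The integral closure of a complete one-dimensional local domain is a finite module and a discrete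
valuation ring.
-/

namespace Vale.Agent.P202

open IsLocalRing

universe u

/-- In an Artinian quotient, a power of an element is associated to an idempotent. -/
theorem exists_pow_eq_of_artinian {R : Type*} [CommRing R] [IsArtinianRing R] (a : R) :
    ∃ (n : ℕ) (y : R), 0 < n ∧ a ^ n = a ^ n * (a * y) ^ n := by
  obtain ⟨n, y, hy⟩ := IsArtinian.exists_pow_succ_smul_dvd a (1 : R)
  have h1 : a ^ n = a ^ n * (a * y) := by
    rw [smul_eq_mul, smul_eq_mul, mul_one, pow_succ, mul_assoc] at hy
    exact hy.symm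
  have h2 : ∀ k : ℕ, a ^ n = a ^ n * (a * y) ^ k := by
    intro k
    induction k with
    | zero => simp
    | succ k ih => rw [pow_succ, ← mul_assoc, ← ih]; exact h1
  refine ⟨n + 1, y, Nat.succ_pos n, ?_⟩
  nth_rewrite 1 [pow_succ]
  rw [h2 (n + 1)]
  ring

/-- A domain which is finite over a complete local ring is local. -/
theorem isLocalRing_of_finite_domain {B V : Type u} [CommRing B] [IsLocalRing B]
    [IsNoetherianRing B] [IsAdicComplete (maximalIdeal B) B] [CommRing V] [IsDomain V]
    [Algebra B V] [Module.Finite B V] : IsLocalRing V := by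
  let J : Ideal V := (maximalIdeal B).map (algebraMap B V)
  have hc : IsAdicComplete J V := (IsAdicComplete.map_algebraMap_iff _ _).mpr
    (Vale.Agent.P202.X190.isAdicComplete_of_finite (maximalIdeal B) inferInstance)
  have hH : HenselianRing V J := inferInstance
  have hjac : J ≤ Ideal.jacobson ⊥ := hH.jac
  have hloc : IsLocalHom (Ideal.Quotient.mk J) := isLocalHom_of_le_jacobson_bot J hjac
  have hart : IsArtinianRing (V ⧸ J) := by
    let _ : Algebra (B ⧸ maximalIdeal B) (V ⧸ J) := Ideal.Quotient.algebraQuotientMapQuotient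
    have : IsScalarTower B (B ⧸ maximalIdeal B) (V ⧸ J) :=
      IsScalarTower.of_algebraMap_eq (fun x => rfl)
    have : Module.Finite (B ⧸ maximalIdeal B) (V ⧸ J) :=
      Module.Finite.of_restrictScalars_finite B _ _
    let _ : Field (B ⧸ maximalIdeal B) := Ideal.Quotient.field _
    exact IsArtinianRing.of_finite (B ⧸ maximalIdeal B) (V ⧸ J)
  refine IsLocalRing.of_isUnit_or_isUnit_one_sub_self fun a => ?_
  obtain ⟨n, y', hpos, hy⟩ := exists_pow_eq_of_artinian (Ideal.Quotient.mk J a)
  obtain ⟨y, rfl⟩ := Ideal.Quotient.mk_surjective y'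
  have he : (a * y) ^ n * (a * y) ^ n - (a * y) ^ n ∈ J := by
    rw [← Ideal.Quotient.eq, map_mul, map_pow, map_mul]
    nth_rewrite 1 [mul_pow]
    rw [mul_right_comm, ← hy, ← mul_pow]
  obtain ⟨e, he1, he2⟩ := hH.is_henselian (Polynomial.X ^ 2 - Polynomial.X) (by monicity!)
    ((a * y) ^ n) (by simpa [pow_two] using he) (by
      refine IsUnit.of_mul_eq_one (Ideal.Quotient.mk J
        ((Polynomial.derivative (Polynomial.X ^ 2 - Polynomial.X)).eval ((a * y) ^ n))) ?_
      rw [← map_mul, ← map_one (Ideal.Quotient.mk J), Ideal.Quotient.eq]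
      have h3 : (Polynomial.derivative (Polynomial.X ^ 2 - Polynomial.X : Polynomial V)).eval
          ((a * y) ^ n) = 2 * (a * y) ^ n - 1 := by
        rw [Polynomial.derivative_sub, Polynomial.derivative_X_sq, Polynomial.derivative_X,
          Polynomial.eval_sub, Polynomial.eval_mul, Polynomial.eval_X, Polynomial.eval_C,
          Polynomial.eval_one]
      rw [h3]
      have h4 : (2 * (a * y) ^ n - 1) * (2 * (a * y) ^ n - 1) - 1 =
          4 * ((a * y) ^ n * (a * y) ^ n - (a * y) ^ n) := by ring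
      rw [h4]
      exact J.mul_mem_left _ he)
  have h5 : e * (e - 1) = 0 := by
    have := he1
    rw [Polynomial.IsRoot.def] at this
    simp only [Polynomial.eval_sub, Polynomial.eval_pow, Polynomial.eval_X] at this
    linear_combination this
  rcases mul_eq_zero.1 h5 with h6 | h6
  · right
    have h7 : (Ideal.Quotient.mk J a) ^ n = 0 := by
      rw [hy, ← map_mul, ← map_pow, ← map_pow, ← map_mul, Ideal.Quotient.eq_zero_iff_mem]
      refine J.mul_mem_left _ ?_
      rw [h6] at he2
      simpa using he2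
    have h8 : IsUnit (1 - Ideal.Quotient.mk J a) := IsNilpotent.isUnit_one_sub ⟨n, h7⟩
    rw [← map_one (Ideal.Quotient.mk J), ← map_sub] at h8
    exact (isUnit_map_iff (Ideal.Quotient.mk J) _).1 h8
  · left
    have h7 : (Ideal.Quotient.mk J (a * y)) ^ n = 1 := by
      rw [← map_pow, ← map_one (Ideal.Quotient.mk J), Ideal.Quotient.eq]
      rw [sub_eq_zero] at h6
      rw [h6] at he2
      have := J.neg_mem he2
      simpa using this
    have h8 : IsUnit (Ideal.Quotient.mk J (a * y)) := IsUnit.of_pow_eq_one h7 hpos.ne'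
    have h9 := (isUnit_map_iff (Ideal.Quotient.mk J) _).1 h8
    exact isUnit_of_mul_isUnit_left h9

/-- The integral closure of a complete one-dimensional local domain is finite and a discrete
valuation ring. -/
theorem exists_dvr_extension {B : Type*} [CommRing B] [IsDomain B] [IsLocalRing B]
    [IsNoetherianRing B] [IsAdicComplete (maximalIdeal B) B] (hdim : ringKrullDim B = 1) :
    Module.Finite B (integralClosure B (FractionRing B)) ∧
      IsDiscreteValuationRing (integralClosure B (FractionRing B)) := by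
  have hK : Ring.KrullDimLE 1 B := by
    rw [Ring.krullDimLE_iff, hdim]
    rfl
  have hfin : Module.Finite B (integralClosure B (FractionRing B)) :=
    Vale.Agent.P202.X178.finite_integralClosure_of_precomplete
  refine ⟨hfin, ?_⟩
  have hD : Ring.DimensionLEOne B :=
    ⟨fun {p} hp hp' => Ring.krullDimLE_one_iff_of_isPrime_bot.1 hK p hp hp'⟩
  have hnf : ¬ IsField B := by
    intro h
    let _ := h.toField
    rw [ringKrullDim_eq_zero_of_field] at hdim
    exact zero_ne_one hdim
  have hN : IsNoetherianRing (integralClosure B (FractionRing B)) :=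
    IsNoetherianRing.of_finite B _
  have hL : IsLocalRing (integralClosure B (FractionRing B)) := isLocalRing_of_finite_domain (B := B)
  have hI : IsIntegrallyClosed (integralClosure B (FractionRing B)) :=
    integralClosure.isIntegrallyClosedOfFiniteExtension (FractionRing B)
  have hD' : Ring.DimensionLEOne (integralClosure B (FractionRing B)) := inferInstance
  have hDed : IsDedekindDomain (integralClosure B (FractionRing B)) := { }
  have hnf' : ¬ IsField (integralClosure B (FractionRing B)) := by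
    intro h
    exact hnf (isField_of_isIntegral_of_isField
      (FaithfulSMul.algebraMap_injective B (integralClosure B (FractionRing B))) h)
  exact ((IsDiscreteValuationRing.TFAE _ hnf').out 0 2).2 hDed

end Vale.Agent.P202
end

section

/-!
Choice of a prime of coheight one over the maximal ideal of the base of a flat local homomorphism.
-/

namespace Vale.Agent.P202

open IsLocalRing

/-- A prime `Q` of coheight one in the closed fibre of a flat local homomorphism, of maximal
possible height. -/
theorem exists_prime_dim_one {R S : Type*} [CommRing R] [IsLocalRing R] [IsNoetherianRing R]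
    [CommRing S] [IsLocalRing S] [IsNoetherianRing S] [Algebra R S]
    [IsLocalHom (algebraMap R S)] [Module.Flat R S] (s : ℕ) (hS : ringKrullDim S = s + 1)
    (hlt : ringKrullDim R < ringKrullDim S) :
    ∃ Q : Ideal S, ∃ _ : Q.IsPrime, (maximalIdeal R).map (algebraMap R S) ≤ Q ∧
      ringKrullDim (S ⧸ Q) = 1 ∧ ringKrullDim (Localization.AtPrime Q) = s := by
  classical
  set I : Ideal S := (maximalIdeal R).map (algebraMap R S) with hI
  have hIM : I ≤ maximalIdeal S := by
    rw [hI, Ideal.map_le_iff_le_comap, IsLocalRing.maximalIdeal_comap]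
  set P : Ideal (S ⧸ I) := (maximalIdeal S).map (Ideal.Quotient.mk I) with hP
  have hPprime : P.IsPrime := by
    refine Ideal.map_isPrime_of_surjective Ideal.Quotient.mk_surjective ?_
    rwa [Ideal.mk_ker]
  have hht := Ideal.height_eq_height_add_of_liesOver_of_hasGoingDown (maximalIdeal R)
    (maximalIdeal S)
  rw [← hI, ← hP] at hht
  rw [← IsLocalRing.maximalIdeal_height_eq_ringKrullDim] at hS
  rw [← IsLocalRing.maximalIdeal_height_eq_ringKrullDim,
    ← IsLocalRing.maximalIdeal_height_eq_ringKrullDim (R := S)] at hlt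
  have hS' : (maximalIdeal S).height = ((s + 1 : ℕ) : ℕ∞) := by
    exact_mod_cast hS
  have hlt' : (maximalIdeal R).height < (maximalIdeal S).height := by
    exact_mod_cast hlt
  obtain ⟨lq, hlq, hlenq⟩ := P.exists_ltSeries_length_eq_height
  have hlen : lq.length ≠ 0 := by
    intro h0
    rw [h0, Nat.cast_zero] at hlenq
    rw [hht, ← hlenq, add_zero] at hlt'
    exact lt_irrefl _ hlt'
  set P' : PrimeSpectrum (S ⧸ I) := lq.eraseLast.last with hP'
  have hP'lt : P' < lq.last := lq.eraseLast_last_rel_last hlen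
  set q : PrimeSpectrum S := PrimeSpectrum.comap (Ideal.Quotient.mk I) P' with hq
  have hqI : I ≤ q.asIdeal := by
    intro x hx
    have : Ideal.Quotient.mk I x = 0 := Ideal.Quotient.eq_zero_iff_mem.mpr hx
    change Ideal.Quotient.mk I x ∈ P'.asIdeal
    rw [this]; exact zero_mem _
  have hmap : q.asIdeal.map (Ideal.Quotient.mk I) = P'.asIdeal := by
    change (P'.asIdeal.comap (Ideal.Quotient.mk I)).map (Ideal.Quotient.mk I) = _
    exact Ideal.map_comap_of_surjective _ Ideal.Quotient.mk_surjective _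
  have hqM : q < (⟨maximalIdeal S, inferInstance⟩ : PrimeSpectrum S) := by
    refine lt_of_le_of_ne (IsLocalRing.le_maximalIdeal q.2.ne_top) ?_
    intro h
    have h1 : q.asIdeal = maximalIdeal S := congrArg PrimeSpectrum.asIdeal h
    rw [h1, ← hP] at hmap
    apply hP'lt.ne
    rw [hlq]
    ext1
    exact hmap.symm
  have hlies : q.asIdeal.LiesOver (maximalIdeal R) := by
    refine ⟨?_⟩
    refine le_antisymm ?_ ?_
    · rw [Ideal.under_def, ← Ideal.map_le_iff_le_comap]; exact hqI
    · apply IsLocalRing.le_maximalIdeal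
      exact (Ideal.IsPrime.under R q.asIdeal).ne_top
  have hhq := Ideal.height_eq_height_add_of_liesOver_of_hasGoingDown (maximalIdeal R) q.asIdeal
  rw [← hI, hmap] at hhq
  have hP'h : (lq.length - 1 : ℕ) ≤ P'.asIdeal.height := by
    rw [P'.height_eq_orderHeight, hP']
    have := Order.length_le_height_last (p := lq.eraseLast)
    simpa using this
  have hsq : (s : ℕ∞) ≤ q.asIdeal.height := by
    rw [hhq]
    rw [hS', ← hlenq] at hht
    have hRfin : (maximalIdeal R).height ≠ ⊤ := Ideal.height_ne_top Ideal.IsPrime.ne_top'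
    obtain ⟨a, ha⟩ := ENat.ne_top_iff_exists.mp hRfin
    rw [← ha] at hht ⊢
    have h2 : s + 1 = a + lq.length := by exact_mod_cast hht
    have h3 : s = a + (lq.length - 1) := by omega
    calc (s : ℕ∞) = ((a + (lq.length - 1) : ℕ) : ℕ∞) := by rw [← h3]
      _ = (a : ℕ∞) + ((lq.length - 1 : ℕ) : ℕ∞) := by push_cast; rfl
      _ ≤ _ := by gcongr
  have hco : (1 : ℕ∞) ≤ Order.coheight q := by
    have := Order.coheight_add_one_le hqM
    exact le_trans (by simp) this
  have hsum : q.asIdeal.height + Order.coheight q ≤ ((s + 1 : ℕ) : ℕ∞) := by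
    rw [q.height_eq_orderHeight]
    have h1 : ringKrullDim S = ↑(⨆ (a : PrimeSpectrum S), Order.height a + Order.coheight a) := by
      rw [ringKrullDim, Order.krullDim_eq_iSup_height_add_coheight_of_nonempty]
    rw [← IsLocalRing.maximalIdeal_height_eq_ringKrullDim, hS'] at h1
    have h2 : ((s + 1 : ℕ) : ℕ∞) = ⨆ (a : PrimeSpectrum S), Order.height a + Order.coheight a := by
      exact_mod_cast h1
    rw [h2]
    exact le_iSup (fun a : PrimeSpectrum S => Order.height a + Order.coheight a) q
  have hqfin : q.asIdeal.height ≠ ⊤ := by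
    intro h
    rw [h, top_add, top_le_iff] at hsum
    exact ENat.natCast_ne_top _ hsum
  have hcofin : Order.coheight q ≠ ⊤ := by
    intro h
    rw [h, add_top, top_le_iff] at hsum
    exact ENat.natCast_ne_top _ hsum
  obtain ⟨a, ha⟩ := ENat.ne_top_iff_exists.mp hqfin
  obtain ⟨b, hb⟩ := ENat.ne_top_iff_exists.mp hcofin
  rw [← ha] at hsum hsq
  rw [← hb] at hsum hco
  have e1 : s ≤ a := by exact_mod_cast hsq
  have e2 : 1 ≤ b := by exact_mod_cast hco
  have e3 : a + b ≤ s + 1 := by exact_mod_cast hsum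
  have ea : a = s := by omega
  have eb : b = 1 := by omega
  refine ⟨q.asIdeal, q.2, hqI, ?_, ?_⟩
  · rw [ringKrullDim_quotient]
    have hset : PrimeSpectrum.zeroLocus (q.asIdeal : Set S) = Set.Ici q := by
      ext x
      rw [PrimeSpectrum.mem_zeroLocus, Set.mem_Ici, SetLike.coe_subset_coe]
      rfl
    rw [hset, ← Order.coheight_eq_krullDim_Ici, ← hb, eb]
    rfl
  · rw [IsLocalization.AtPrime.ringKrullDim_eq_height q.asIdeal, ← ha, ea]
    rfl

end Vale.Agent.P202
end

section

/-!
P202-CHARP, definitions for the monomial model.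

`Lau κ r` is the ring of Laurent polynomials in `Z_0, .., Z_{r-1}, τ`; the polynomial ring
`P = κ[X_0, .., X_r]` acts through `X_l ↦ e_l(Z) τ`.
-/

namespace Vale.Agent.P202.CharP

open Submodule TensorProduct

/-- exponents `(s, j)` of monomials `Z^s τ^j`. -/
abbrev Gx (r : ℕ) : Type := (Fin r → ℤ) × ℤ

/-- Laurent polynomials. -/
def Lau (κ : Type*) [Field κ] (r : ℕ) : Type _ := AddMonoidAlgebra κ (Gx r)

section

variable (κ : Type*) [Field κ] (r : ℕ)

noncomputable instance : CommRing (Lau κ r) :=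
  inferInstanceAs (CommRing (AddMonoidAlgebra κ (Gx r)))

noncomputable instance : Algebra κ (Lau κ r) :=
  inferInstanceAs (Algebra κ (AddMonoidAlgebra κ (Gx r)))

end

variable {κ : Type*} [Field κ] {r : ℕ}

/-- coefficients. -/
noncomputable def cf (f : Lau κ r) (g : Gx r) : κ := AddMonoidAlgebra.coeff f g

/-- monomials. -/
noncomputable def mono (g : Gx r) (c : κ) : Lau κ r := AddMonoidAlgebra.single g c

lemma cf_add (f f' : Lau κ r) (g : Gx r) : cf (f + f') g = cf f g + cf f' g := rfl

lemma cf_zero (g : Gx r) : cf (0 : Lau κ r) g = 0 := rfl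

/-- the exponent of `Z^L τ`. -/
def ex (L : Finset (Fin r)) : Gx r := (fun i => if i ∈ L then 1 else 0, 1)

variable (κ) in
/-- the element `e_l(Z) τ`. -/
noncomputable def xl (l : Fin (r + 1)) : Lau κ r :=
  ∑ L ∈ (Finset.univ : Finset (Fin r)).powersetCard l, mono (ex L) 1

/-- the polynomial ring in `r + 1` variables. -/
abbrev PP (κ : Type*) [Field κ] (r : ℕ) : Type _ := MvPolynomial (Fin (r + 1)) κ

noncomputable instance : Algebra (PP κ r) (Lau κ r) :=
  (MvPolynomial.aeval (xl κ (r := r))).toRingHom.toAlgebra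

lemma algebraMap_X (l : Fin (r + 1)) :
    algebraMap (PP κ r) (Lau κ r) (MvPolynomial.X l) = xl κ l := by
  show MvPolynomial.aeval (xl κ (r := r)) (MvPolynomial.X l) = xl κ l
  simp

/-- the irrelevant ideal of `P`. -/
noncomputable def mX (κ : Type*) [Field κ] (r : ℕ) : Ideal (PP κ r) :=
  Ideal.span (Set.range fun l : Fin (r + 1) => (MvPolynomial.X l : PP κ r))

/-- the ambient module of the Čech complex. -/
abbrev Lam (κ : Type*) [Field κ] (r : ℕ) : Type _ := Finset (Fin r) → Lau κ r

/-- the largest `P`-submodule of `Lau` all of whose elements are supported in `E`. -/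
noncomputable def NMon (κ : Type*) [Field κ] {r : ℕ} (E : Set (Gx r)) : Submodule (PP κ r) (Lau κ r) where
  carrier := {f | ∀ (q : PP κ r) (g : Gx r), cf (q • f) g ≠ 0 → g ∈ E}
  add_mem' := by
    intro f f' hf hf' q g h
    rw [smul_add, cf_add] at h
    by_cases h1 : cf (q • f) g = 0
    · rw [h1, zero_add] at h
      exact hf' q g h
    · exact hf q g h1
  zero_mem' := by
    intro q g h
    rw [smul_zero] at h
    exact absurd (cf_zero g) h
  smul_mem' := by
    intro c f hf q g h
    rw [smul_smul] at h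
    exact hf _ g h

/-- the largest `P`-submodule of `Lam` all of whose elements are supported in `E`. -/
noncomputable def Mon (κ : Type*) [Field κ] {r : ℕ} (E : Set (Finset (Fin r) × Gx r)) :
    Submodule (PP κ r) (Lam κ r) where
  carrier := {f | ∀ (q : PP κ r) (I : Finset (Fin r)) (g : Gx r),
    cf (q • f I) g ≠ 0 → (I, g) ∈ E}
  add_mem' := by
    intro f f' hf hf' q I g h
    rw [Pi.add_apply, smul_add, cf_add] at h
    by_cases h1 : cf (q • f I) g = 0
    · rw [h1, zero_add] at h
      exact hf' q I g h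
    · exact hf q I g h1
  zero_mem' := by
    intro q I g h
    rw [Pi.zero_apply, smul_zero] at h
    exact absurd (cf_zero g) h
  smul_mem' := by
    intro c f hf q I g h
    rw [Pi.smul_apply, smul_smul] at h
    exact hf _ I g h

/-- the set is stable under the monomials `Z^L τ`. -/
def Up (E : Set (Finset (Fin r) × Gx r)) : Prop := ∀ I g L, (I, g) ∈ E → (I, g + ex L) ∈ E

/-- the set is stable under the monomials `Z^L τ`. -/
def NUp (E : Set (Gx r)) : Prop := ∀ g L, g ∈ E → g + ex L ∈ E

/-- part of Čech degree `p`. -/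
def grd (E : Set (Finset (Fin r) × Gx r)) (p : ℤ) : Set (Finset (Fin r) × Gx r) :=
  {x | x ∈ E ∧ (x.1.card : ℤ) = p}

/-- sign of `i` in `I`. -/
def sg (i : Fin r) (I : Finset (Fin r)) : ℤ := (-1) ^ (I.filter (· < i)).card

/-- the Čech differential. -/
noncomputable def dC (κ : Type*) [Field κ] (r : ℕ) : Lam κ r →ₗ[PP κ r] Lam κ r where
  toFun f I := ∑ i ∈ I, sg i I • f (I.erase i)
  map_add' f f' := by
    ext I
    simp [Finset.sum_add_distrib]
  map_smul' c f := by
    ext I
    simp only [Pi.smul_apply, RingHom.id_apply, Finset.smul_sum]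
    exact Finset.sum_congr rfl fun i _ => smul_comm _ _ _

/-- monomials of the modules `F_I`. -/
def SF (r : ℕ) : Set (Finset (Fin r) × Gx r) := {x | ∀ i ∉ x.1, 0 ≤ x.2.1 i}

/-- monomials of the modules `G_I`. -/
def SG (a : Fin r → ℤ) : Set (Finset (Fin r) × Gx r) :=
  {x | x ∈ SF r ∧ ∃ i ∈ x.1, x.2.1 i ≤ a i + x.2.2}

/-- the level `1 - k` of the window filtration. -/
def SW (a : Fin r → ℤ) (Q k : ℕ) : Set (Finset (Fin r) × Gx r) :=
  {x | x ∈ SG a ∨ (x ∈ SF r ∧ (1 - (k : ℤ)) * Q ≤ x.2.2)}

/-- monomials of the module `N_a`. -/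
def SN (a : Fin r → ℤ) : Set (Gx r) := {g | 0 ≤ g.2 ∧ ∀ i, 0 ≤ g.1 i ∧ g.1 i ≤ a i + g.2}

/-- the twist vector `Q • ({0, .., r} \ {m})`. -/
def am (m : Fin (r + 1)) (Q : ℕ) : Fin r → ℤ := fun i => ((m.succAbove i : ℕ) : ℤ) * Q

/-- dimension of the cohomology of the window `-j`. -/
def wc (m : Fin (r + 1)) (Q j : ℕ) : ℕ :=
  ∑ u ∈ Finset.range Q, ∏ i : Fin r, (am m Q i - (j : ℤ) * Q + u + 1).natAbs

/-- family of `P`-submodules attached to a set of monomials. -/
noncomputable def MF (κ : Type*) [Field κ] {r : ℕ} (E : Set (Finset (Fin r) × Gx r)) (p : ℤ) :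
    Submodule (PP κ r) (Lam κ r) := Mon κ (grd E p)

end Vale.Agent.P202.CharP
end

section

/-!
Models of finite free extensions over finitely generated rings of power series.
-/

namespace Vale.Agent.P202.CZ

open MvPowerSeries

universe u

/-- A finite free extension `E → S` of algebras over a finitely generated ring `B` of power
series over `K`. -/
structure Model (K : Type u) [Field K] (d r j c l : ℕ) where
  T : Finset (MvPowerSeries (Fin d) K)
  hT : ∀ i, (X i : MvPowerSeries (Fin d) K) ∈
    Subring.closure (T : Set (MvPowerSeries (Fin d) K))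
  E : Type u
  S : Type u
  [crE : CommRing E]
  [crS : CommRing S]
  [algE : Algebra (Subring.closure (T : Set (MvPowerSeries (Fin d) K))) E]
  [algS : Algebra E S]
  [fin : Module.Finite (Subring.closure (T : Set (MvPowerSeries (Fin d) K))) E]
  t : ℕ
  v : Module.Basis (Fin t) E S
  e : Fin r → E
  he : LinearIndependent (Subring.closure (T : Set (MvPowerSeries (Fin d) K))) e
  J : Ideal E
  hJ : ∀ z : E, ∃ b : Subring.closure (T : Set (MvPowerSeries (Fin d) K)),
    z - algebraMap _ E b ∈ J
  hJx : ∀ i, algebraMap _ E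
    (⟨X i, hT i⟩ : Subring.closure (T : Set (MvPowerSeries (Fin d) K))) ∈ J
  εE : E →+* K
  hεE : ∀ b : Subring.closure (T : Set (MvPowerSeries (Fin d) K)),
    εE (algebraMap _ E b) = constantCoeff (b : MvPowerSeries (Fin d) K)
  hεJ : ∀ z ∈ J, εE z = 0
  s : ℕ
  hJs : J ^ (s + 1) ≤ Ideal.span (Set.range fun i => algebraMap _ E
    (⟨X i, hT i⟩ : Subring.closure (T : Set (MvPowerSeries (Fin d) K)))) * J ^ s
  n : Ideal S
  hn : ∀ z : S, ∃ b : Subring.closure (T : Set (MvPowerSeries (Fin d) K)),
    z - algebraMap E S (algebraMap _ E b) ∈ n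
  hJn : J.map (algebraMap E S) ≤ n
  εS : S →+* K
  hεS : ∀ z : E, εS (algebraMap E S z) = εE z
  hεn : ∀ z ∈ n, εS z = 0
  M : ℕ
  hnM : n ^ M ≤ Ideal.span (Set.range fun i => algebraMap E S (algebraMap _ E
    (⟨X i, hT i⟩ : Subring.closure (T : Set (MvPowerSeries (Fin d) K)))))
  y : Fin d → S
  hy : ∀ i, y i ∈ n
  hc : Ideal.span (Set.range fun i => algebraMap E S (algebraMap _ E
    (⟨X i, hT i⟩ : Subring.closure (T : Set (MvPowerSeries (Fin d) K))))) ^ c ≤
      Ideal.span (Set.range y) ^ j
  b : Fin l → S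
  hb1 : ∀ z : S, ∃ β : Fin l → Subring.closure (T : Set (MvPowerSeries (Fin d) K)),
      z - ∑ q, algebraMap E S (algebraMap _ E (β q)) * b q ∈ Ideal.span (Set.range y) ^ j
  hb2 : ∀ i q, ∃ β : Fin l → Subring.closure (T : Set (MvPowerSeries (Fin d) K)),
      (∀ q', ∃ a : K, (β q' : MvPowerSeries (Fin d) K) = C a) ∧
      algebraMap E S (algebraMap _ E
        (⟨X i, hT i⟩ : Subring.closure (T : Set (MvPowerSeries (Fin d) K)))) * b q -
        ∑ q', algebraMap E S (algebraMap _ E (β q')) * b q' ∈ Ideal.span (Set.range y) ^ j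

end Vale.Agent.P202.CZ
end

section

/-!
Definitions for the approximation theorem: power series over a field `K` of characteristic zero
whose coefficients lie in a finitely generated subring of `K`.
-/

namespace Vale.Agent.P202.CZ

open MvPowerSeries

/-- All coefficients of `f` lie in the subring `D`. -/
def CoeffsIn {σ : Type*} {K : Type*} [Field K] (D : Subring K) (f : MvPowerSeries σ K) : Prop :=
  ∀ a : σ →₀ ℕ, coeff a f ∈ D

/-- The subring of power series whose coefficients lie in a finitely generated subring. -/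
noncomputable def fgc (σ : Type*) (K : Type*) [Field K] : Subring (MvPowerSeries σ K) where
  carrier := {f | ∃ s : Finset K, CoeffsIn (Subring.closure (s : Set K)) f}
  mul_mem' := by
    classical
    rintro f g ⟨s, hs⟩ ⟨t, ht⟩
    refine ⟨s ∪ t, fun a => ?_⟩
    rw [coeff_mul]
    refine Subring.sum_mem _ fun p _ => Subring.mul_mem _ ?_ ?_
    · exact Subring.closure_mono (by simp) (hs _)
    · exact Subring.closure_mono (by simp) (ht _)
  one_mem' := by
    classical
    refine ⟨∅, fun a => ?_⟩
    rw [coeff_one]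
    split_ifs
    · exact Subring.one_mem _
    · exact Subring.zero_mem _
  add_mem' := by
    classical
    rintro f g ⟨s, hs⟩ ⟨t, ht⟩
    refine ⟨s ∪ t, fun a => ?_⟩
    rw [map_add]
    refine Subring.add_mem _ ?_ ?_
    · exact Subring.closure_mono (by simp) (hs _)
    · exact Subring.closure_mono (by simp) (ht _)
  zero_mem' := ⟨∅, fun a => by rw [map_zero]; exact Subring.zero_mem _⟩
  neg_mem' := by
    rintro f ⟨s, hs⟩
    exact ⟨s, fun a => by rw [map_neg]; exact Subring.neg_mem _ (hs a)⟩

/-- The ideal generated by the variables. -/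
noncomputable def mm (σ : Type*) (K : Type*) [Field K] : Ideal (MvPowerSeries σ K) :=
  Ideal.span (Set.range X)

/-- The approximation property in `n` variables. -/
def Approx (K : Type*) [Field K] (n : ℕ) : Prop :=
  ∀ (ι : Type) [Finite ι] (y : ι → MvPowerSeries (Fin n) K) (c : ℕ),
    ∃ z : ι → MvPowerSeries (Fin n) K, (∀ i, z i ∈ fgc (Fin n) K) ∧
      (∀ i, z i - y i ∈ mm (Fin n) K ^ c) ∧
      ∀ f : MvPolynomial ι (MvPolynomial (Fin n) K),
        MvPolynomial.aeval y f = 0 → MvPolynomial.aeval z f = 0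

section Coord

variable {K : Type*} [Field K]

/-- `g` is regular in the variable `X 0`. -/
def RegX {n : ℕ} (g : MvPowerSeries (Fin (n + 1)) K) : Prop :=
  PowerSeries.map (MvPowerSeries.constantCoeff (σ := Fin n) (R := K))
    (MvPowerSeries.finSuccEquiv K n g) ≠ 0

/-- polynomials in `n + 1` variables as polynomials over power series in `n` variables. -/
noncomputable def polyEval (K : Type*) [Field K] (n : ℕ) :
    MvPolynomial (Fin (n + 1)) K →+* Polynomial (MvPowerSeries (Fin n) K) :=
  (Polynomial.mapRingHom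
    (algebraMap (MvPolynomial (Fin n) K) (MvPowerSeries (Fin n) K))).comp
    (MvPolynomial.finSuccEquiv K n).toRingHom

/-- polynomials over power series in `n` variables as power series in `n + 1` variables. -/
noncomputable def toPS (K : Type*) [Field K] (n : ℕ) :
    Polynomial (MvPowerSeries (Fin n) K) →+* MvPowerSeries (Fin (n + 1)) K :=
  (MvPowerSeries.finSuccEquiv K n).symm.toRingHom.comp Polynomial.coeToPowerSeries.ringHom

end Coord

end Vale.Agent.P202.CZ
end

section

/-!
Lemmas on power series whose coefficients lie in a finitely generated subring.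
-/

namespace Vale.Agent.P202.CZ

section Root

open Polynomial

/-- the root used for `fgc_hensel` -/
lemma fgc_root {R : Type*} [CommRing R] (I : Ideal R) [HenselianRing R I] (d : ℕ) (b : R)
    (hb : b ∈ I) (c : ℕ → R) :
    ∃ w : R, w + 1 ∈ I ∧
      w ^ (d + 2) + w ^ (d + 1) + ∑ k ∈ Finset.range d, c k * b ^ (k + 1) * w ^ (d - k) = 0 := by
  classical
  set S : R[X] := ∑ k ∈ Finset.range d, C (c k * b ^ (k + 1)) * X ^ (d - k) with hS
  set f : R[X] := X ^ (d + 2) + (X ^ (d + 1) + S) with hf
  have hdeg : (X ^ (d + 1) + S).degree < ((d + 2 : ℕ) : WithBot ℕ) := by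
    refine (degree_add_le _ _).trans_lt (max_lt ?_ ?_)
    · refine (degree_X_pow_le _).trans_lt ?_
      exact_mod_cast Nat.lt_succ_self (d + 1)
    · refine (degree_sum_le _ _).trans_lt ?_
      rw [Finset.sup_lt_iff (by exact_mod_cast WithBot.bot_lt_coe _)]
      intro k _
      refine (degree_C_mul_X_pow_le _ _).trans_lt ?_
      exact_mod_cast lt_of_le_of_lt (Nat.sub_le d k) (by omega)
  have hmonic : f.Monic := monic_X_pow_add hdeg
  have hSI : ∀ x : R, S.eval x ∈ I := by
    intro x
    rw [hS, eval_finsetSum]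
    refine Ideal.sum_mem _ fun k _ => ?_
    rw [eval_mul, eval_C, pow_succ, ← mul_assoc]
    exact Ideal.mul_mem_right _ _ (Ideal.mul_mem_left _ _ hb)
  have hSI' : ∀ x : R, (derivative S).eval x ∈ I := by
    intro x
    rw [hS, derivative_sum, eval_finsetSum]
    refine Ideal.sum_mem _ fun k _ => ?_
    rw [derivative_C_mul, eval_mul, eval_C, pow_succ, ← mul_assoc]
    exact Ideal.mul_mem_right _ _ (Ideal.mul_mem_left _ _ hb)
  have h0 : f.eval (-1) ∈ I := by
    rw [hf, eval_add, eval_add, eval_pow, eval_pow, eval_X, ← add_assoc]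
    have : (-1 : R) ^ (d + 2) + (-1) ^ (d + 1) = 0 := by ring
    rw [this, zero_add]
    exact hSI _
  have h1 : IsUnit (Ideal.Quotient.mk I (f.derivative.eval (-1))) := by
    have e1 : f.derivative.eval (-1) = (-1) ^ (d + 1) + (derivative S).eval (-1) := by
      rw [hf, derivative_add, derivative_add, derivative_X_pow, derivative_X_pow, eval_add,
        eval_add, eval_mul, eval_mul, eval_pow, eval_pow, eval_X, ← add_assoc]
      simp only [Nat.add_succ_sub_one, eval_natCast, map_natCast]
      push_cast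
      ring
    rw [e1, map_add, Ideal.Quotient.eq_zero_iff_mem.mpr (hSI' (-1)), add_zero, map_pow, map_neg,
      map_one]
    exact (isUnit_one.neg).pow _
  obtain ⟨w, hw1, hw2⟩ := HenselianRing.is_henselian (I := I) f hmonic (-1) h0 h1
  refine ⟨w, by rwa [sub_neg_eq_add] at hw2, ?_⟩
  have h2 : f.eval w = 0 := hw1
  rw [hf, eval_add, eval_add, eval_pow, eval_pow, eval_X, hS, eval_finsetSum, ← add_assoc] at h2
  rw [← h2]
  congr 1
  refine Finset.sum_congr rfl fun k _ => ?_
  rw [eval_mul, eval_C, eval_pow, eval_X]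

end Root

open MvPowerSeries

variable {K : Type*} [Field K]

/-! ### Description by power series over a subring -/

lemma fgc_exists_lift {σ : Type*} {D : Subring K} {f : MvPowerSeries σ K} (h : CoeffsIn D f) :
    ∃ g : MvPowerSeries σ D, MvPowerSeries.map D.subtype g = f := by
  refine ⟨(fun a => ⟨coeff a f, h a⟩ : MvPowerSeries σ D), ?_⟩
  ext a
  exact (coeff_map _ _ _).trans rfl

lemma fgc_coeffsIn_map {σ : Type*} {D : Subring K} (g : MvPowerSeries σ D) :
    CoeffsIn D (MvPowerSeries.map D.subtype g) := by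
  intro a
  rw [coeff_map]
  exact (coeff a g).2

lemma fgc_coeffsIn_mono {σ : Type*} {D D' : Subring K} (hD : D ≤ D') {f : MvPowerSeries σ K}
    (h : CoeffsIn D f) : CoeffsIn D' f := fun a => hD (h a)

lemma fgc_map_mem {σ : Type*} (s : Finset K)
    (g : MvPowerSeries σ (Subring.closure (s : Set K))) :
    MvPowerSeries.map (Subring.closure (s : Set K)).subtype g ∈ fgc σ K :=
  ⟨s, fgc_coeffsIn_map g⟩

/-- finitely many elements of `fgc` have coefficients in a common finitely generated subring -/
lemma fgc_common {σ ι : Type*} [Finite ι] (f : ι → MvPowerSeries σ K) (hf : ∀ i, f i ∈ fgc σ K) :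
    ∃ s : Finset K, ∀ i, CoeffsIn (Subring.closure (s : Set K)) (f i) := by
  classical
  have := Fintype.ofFinite ι
  choose s hs using hf
  refine ⟨Finset.univ.biUnion s, fun i => fgc_coeffsIn_mono (Subring.closure_mono ?_) (hs i)⟩
  exact_mod_cast Finset.subset_biUnion_of_mem s (Finset.mem_univ i)

/-- L4a: inverses. -/
theorem fgc_inv {σ : Type*} {u : MvPowerSeries σ K} (hu : u ∈ fgc σ K)
    (h0 : constantCoeff u ≠ 0) : ∃ v ∈ fgc σ K, u * v = 1 := by
  classical
  obtain ⟨s, hs⟩ := hu
  set t : Finset K := insert (constantCoeff u)⁻¹ s with ht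
  have hst : Subring.closure (s : Set K) ≤ Subring.closure (t : Set K) :=
    Subring.closure_mono (by rw [ht]; simp)
  obtain ⟨g, hg⟩ := fgc_exists_lift (fgc_coeffsIn_mono hst hs)
  have hinv : (constantCoeff u)⁻¹ ∈ Subring.closure (t : Set K) :=
    Subring.subset_closure (by rw [ht]; simp)
  have hgu : (Subring.closure (t : Set K)).subtype (constantCoeff g) = constantCoeff u := by
    rw [← hg, constantCoeff_map]
  have hunit : IsUnit g := by
    rw [isUnit_iff_constantCoeff, isUnit_iff_exists_inv]
    refine ⟨⟨_, hinv⟩, Subtype.ext ?_⟩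
    have : ((constantCoeff g : Subring.closure (t : Set K)) : K) = constantCoeff u := hgu
    rw [Subring.coe_mul, this]
    exact mul_inv_cancel₀ h0
  obtain ⟨w, hw⟩ := hunit.exists_right_inv
  refine ⟨MvPowerSeries.map (Subring.closure (t : Set K)).subtype w, fgc_map_mem t w, ?_⟩
  rw [← hg, ← map_mul, hw, map_one]

/-- power series without constant coefficient -/
lemma fgc_mem_span_X {σ R : Type*} [Finite σ] [CommRing R] (f : MvPowerSeries σ R)
    (hf : constantCoeff f = 0) : f ∈ Ideal.span (Set.range (X : σ → MvPowerSeries σ R)) := by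
  classical
  have := Fintype.ofFinite σ
  have hex : ∀ a : σ →₀ ℕ, ∃ o : Option σ, (o = none → a = 0) ∧ ∀ i, o = some i → a i ≠ 0 := by
    intro a
    by_cases ha : a = 0
    · exact ⟨none, fun _ => ha, fun i h => by simp at h⟩
    · obtain ⟨i, hi⟩ := Finsupp.ne_iff.mp ha
      exact ⟨some i, fun h => by simp at h, fun j hj => by
        rw [Option.some.injEq] at hj; subst hj; simpa using hi⟩
  choose o ho1 ho2 using hex
  let g : σ → MvPowerSeries σ R := fun i b =>
    if o (b + Finsupp.single i 1) = some i then coeff (b + Finsupp.single i 1) f else 0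
  have hg : ∀ i b, coeff b (g i) =
      if o (b + Finsupp.single i 1) = some i then coeff (b + Finsupp.single i 1) f else 0 :=
    fun i b => rfl
  have hfe : f = ∑ i, X i * g i := by
    ext a
    rw [map_sum]
    have h1 : ∀ i, coeff a (X i * g i) = if o a = some i then coeff a f else 0 := by
      intro i
      rw [X, coeff_monomial_mul, one_mul, hg]
      by_cases hi : Finsupp.single i 1 ≤ a
      · rw [if_pos hi, tsub_add_cancel_of_le hi]
      · rw [if_neg hi, if_neg]
        intro h
        apply hi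
        rw [Finsupp.single_le_iff]
        exact Nat.one_le_iff_ne_zero.mpr (ho2 a i h)
    simp only [h1]
    rcases h : o a with _ | j
    · have ha := ho1 a h
      subst ha
      simp only [reduceCtorEq, if_false, Finset.sum_const_zero]
      exact hf
    · rw [Finset.sum_eq_single j]
      · rw [if_pos rfl]
      · intro i _ hi
        rw [if_neg]
        intro h'
        exact hi (Option.some.inj h').symm
      · intro h'
        exact absurd (Finset.mem_univ _) h'
  rw [hfe]
  exact Ideal.sum_mem _ fun i _ => Ideal.mul_mem_right _ _ (Ideal.subset_span ⟨i, rfl⟩)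

lemma fgc_constantCoeff_of_mem {σ R : Type*} [CommRing R] {f : MvPowerSeries σ R}
    (hf : f ∈ Ideal.span (Set.range (X : σ → MvPowerSeries σ R))) : constantCoeff f = 0 := by
  have h : Ideal.span (Set.range (X : σ → MvPowerSeries σ R)) ≤
      RingHom.ker (constantCoeff (σ := σ) (R := R)) := by
    rw [Ideal.span_le]
    rintro _ ⟨i, rfl⟩
    simp [RingHom.mem_ker]
  exact h hf

/-- L4b: the Henselian property. -/
theorem fgc_hensel {σ : Type*} [Finite σ] (d : ℕ) (β : MvPowerSeries σ K) (hβ : β ∈ fgc σ K)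
    (hβ0 : constantCoeff β = 0) (c : ℕ → MvPowerSeries σ K) (hc : ∀ k, c k ∈ fgc σ K) :
    ∃ u ∈ fgc σ K, β + β * u + (β * u) ^ 2 * ∑ k ∈ Finset.range d, c k * (β * u) ^ k = 0 := by
  classical
  obtain ⟨s, hs⟩ := fgc_common (fun o : Option (Fin d) => o.elim β fun k => c k)
    (fun o => by rcases o with _ | k; exacts [hβ, hc k])
  set D := Subring.closure (s : Set K) with hD
  obtain ⟨b, hb⟩ := fgc_exists_lift (hs none)
  choose γ hγ using fun k : Fin d => fgc_exists_lift (hs (some k))
  simp only [Option.elim_none, Option.elim_some] at hb hγ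
  set e : ℕ → MvPowerSeries σ D := fun k => if h : k < d then γ ⟨k, h⟩ else 0 with he
  have hinj : Function.Injective D.subtype := Subtype.val_injective
  have hb0 : constantCoeff b = 0 := by
    apply hinj
    rw [← constantCoeff_map, hb, hβ0, map_zero]
  obtain ⟨w, hw1, hw2⟩ := fgc_root (Ideal.span (Set.range (X : σ → MvPowerSeries σ D))) d b
    (fgc_mem_span_X b hb0) e
  have hwu : IsUnit w := by
    rw [isUnit_iff_constantCoeff]
    have h1 := fgc_constantCoeff_of_mem hw1
    rw [map_add, map_one, ← eq_neg_iff_add_eq_zero] at h1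
    rw [h1]
    exact isUnit_one.neg
  obtain ⟨v, hv⟩ := hwu.exists_right_inv
  have key : b + b * v + (b * v) ^ 2 * ∑ k ∈ Finset.range d, e k * (b * v) ^ k = 0 := by
    have h1 : b * v ^ (d + 2) * (w ^ (d + 2) + w ^ (d + 1) +
        ∑ k ∈ Finset.range d, e k * b ^ (k + 1) * w ^ (d - k)) = 0 := by rw [hw2, mul_zero]
    rw [← h1, mul_add, mul_add, Finset.mul_sum, Finset.mul_sum]
    have hvw : ∀ m : ℕ, v ^ m * w ^ m = 1 := by
      intro m
      rw [← mul_pow, mul_comm v w, hv, one_pow]
    congr 1
    · congr 1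
      · rw [mul_assoc, hvw, mul_one]
      · rw [pow_succ v (d + 1), mul_comm (v ^ (d + 1)) v, mul_assoc, mul_assoc, hvw, mul_one]
    · refine Finset.sum_congr rfl fun k hk => ?_
      have hk' : k < d := Finset.mem_range.mp hk
      have h2 : v ^ (d + 2) = v ^ (k + 2) * v ^ (d - k) := by
        rw [← pow_add]; congr 1; omega
      rw [h2]
      calc (b * v) ^ 2 * (e k * (b * v) ^ k) = b * v ^ (k + 2) * 1 * (e k * b ^ (k + 1)) := by ring
        _ = b * v ^ (k + 2) * (v ^ (d - k) * w ^ (d - k)) * (e k * b ^ (k + 1)) := by rw [hvw]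
        _ = _ := by ring
  refine ⟨MvPowerSeries.map D.subtype v, fgc_map_mem s v, ?_⟩
  have h3 := congrArg (MvPowerSeries.map D.subtype) key
  simp only [map_add, map_mul, map_pow, map_sum, map_zero] at h3
  rw [hb] at h3
  rw [← h3]
  congr 2
  refine Finset.sum_congr rfl fun k hk => ?_
  have hk' : k < d := Finset.mem_range.mp hk
  congr 1
  rw [he]
  simp only [hk', dif_pos]
  exact (hγ ⟨k, hk'⟩).symm

/-- L4c: polynomials. -/
theorem coe_mem_fgc {σ : Type*} (p : MvPolynomial σ K) : (p : MvPowerSeries σ K) ∈ fgc σ K := by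
  classical
  refine ⟨p.support.image fun a => p.coeff a, fun a => ?_⟩
  rw [MvPolynomial.coeff_coe]
  by_cases ha : a ∈ p.support
  · exact Subring.subset_closure (Finset.mem_coe.mpr (Finset.mem_image_of_mem _ ha))
  · rw [MvPolynomial.notMem_support_iff.mp ha]
    exact Subring.zero_mem _

lemma fgc_coeff_toPS {n : ℕ} (p : Polynomial (MvPowerSeries (Fin n) K)) (k : ℕ)
    (x : Fin n →₀ ℕ) : coeff (x.cons k) (toPS K n p) = coeff x (p.coeff k) := by
  rw [← coeff_coeff_finSuccEquiv]
  have : finSuccEquiv K n (toPS K n p) = (p : PowerSeries (MvPowerSeries (Fin n) K)) := by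
    show finSuccEquiv K n ((finSuccEquiv K n).symm _) = _
    rw [AlgEquiv.apply_symm_apply]
    rfl
  rw [this, Polynomial.coeff_coe]

/-- L4d. -/
theorem toPS_mem_fgc {n : ℕ} (p : Polynomial (MvPowerSeries (Fin n) K))
    (hp : ∀ l, p.coeff l ∈ fgc (Fin n) K) : toPS K n p ∈ fgc (Fin (n + 1)) K := by
  classical
  obtain ⟨s, hs⟩ := fgc_common (fun l : Fin (p.natDegree + 1) => p.coeff l) (fun l => hp l)
  refine ⟨s, fun a => ?_⟩
  rw [← Finsupp.cons_tail a, fgc_coeff_toPS]
  by_cases h : a 0 < p.natDegree + 1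
  · exact hs ⟨a 0, h⟩ _
  · rw [Polynomial.coeff_eq_zero_of_natDegree_lt (by omega), map_zero]
    exact Subring.zero_mem _

theorem toPS_polyEval {n : ℕ} (p : MvPolynomial (Fin (n + 1)) K) :
    toPS K n (polyEval K n p) = (p : MvPowerSeries (Fin (n + 1)) K) := by
  have h : (toPS K n).comp (polyEval K n) = MvPolynomial.coeToMvPowerSeries.ringHom := by
    refine MvPolynomial.ringHom_ext (fun r => ?_) (fun i => ?_)
    · simp [toPS, polyEval, MvPolynomial.finSuccEquiv_apply, AlgEquiv.symm_apply_eq,
        MvPowerSeries.algebraMap_apply']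
    · refine Fin.cases ?_ (fun j => ?_) i
      · simp [toPS, polyEval, MvPolynomial.finSuccEquiv_X_zero, AlgEquiv.symm_apply_eq]
      · simp [toPS, polyEval, MvPolynomial.finSuccEquiv_X_succ, AlgEquiv.symm_apply_eq,
          MvPowerSeries.algebraMap_apply']
  exact RingHom.congr_fun h p

/-- L4e. -/
theorem toPS_mem_mm_pow {n : ℕ} (p : Polynomial (MvPowerSeries (Fin n) K)) (c : ℕ)
    (hp : ∀ l, p.coeff l ∈ mm (Fin n) K ^ c) : toPS K n p ∈ mm (Fin (n + 1)) K ^ c := by
  have hmap : (mm (Fin n) K).map ((toPS K n).comp Polynomial.C) ≤ mm (Fin (n + 1)) K := by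
    unfold mm
    rw [Ideal.map_span, Ideal.span_le]
    rintro _ ⟨_, ⟨j, rfl⟩, rfl⟩
    apply Ideal.subset_span
    refine ⟨j.succ, ?_⟩
    simp [toPS, AlgEquiv.eq_symm_apply]
  have hC : ∀ q ∈ mm (Fin n) K ^ c, toPS K n (Polynomial.C q) ∈ mm (Fin (n + 1)) K ^ c := by
    intro q hq
    have h1 := Ideal.mem_map_of_mem ((toPS K n).comp Polynomial.C) hq
    rw [Ideal.map_pow] at h1
    exact Ideal.pow_right_mono hmap c h1
  rw [p.as_sum_range_C_mul_X_pow, map_sum]
  refine Ideal.sum_mem _ fun l _ => ?_
  rw [map_mul]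
  exact Ideal.mul_mem_right _ _ (hC _ (hp l))

theorem approx_zero : Approx K 0 := by
  classical
  intro ι _ y c
  refine ⟨y, fun i => ⟨{coeff 0 (y i)}, fun a => ?_⟩, fun i => ?_, fun f hf => hf⟩
  · have : a = 0 := Subsingleton.elim _ _
    rw [this]
    exact Subring.subset_closure (by simp)
  · rw [sub_self]
    exact Submodule.zero_mem _

end Vale.Agent.P202.CZ
end

section

/-!
Powers of the ideal generated by the variables.
-/

namespace Vale.Agent.P202.CZ

open MvPowerSeries

variable {σ R : Type*} [CommRing R]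

lemma exists_le_degree_eq {c : ℕ} (β : σ →₀ ℕ) (h : c ≤ β.degree) :
    ∃ α ≤ β, α.degree = c := by
  classical
  induction c with
  | zero => exact ⟨0, zero_le, by simp⟩
  | succ c ih =>
    obtain ⟨α, hα, hc⟩ := ih (by omega)
    have hne : α ≠ β := by
      rintro rfl
      omega
    obtain ⟨i, hi⟩ : ∃ i, α i < β i := by
      by_contra h'
      push Not at h'
      exact hne (le_antisymm hα h')
    refine ⟨α + Finsupp.single i 1, ?_, ?_⟩
    · intro j
      by_cases hj : j = i
      · subst hj
        simp only [Finsupp.coe_add, Pi.add_apply, Finsupp.single_eq_same]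
        omega
      · simp only [Finsupp.coe_add, Pi.add_apply, Finsupp.single_apply, if_neg (Ne.symm hj),
          add_zero]
        exact hα j
    · rw [map_add, hc, Finsupp.degree_single]

lemma coeff_eq_zero_of_mem_pow {f : MvPowerSeries σ R} {c : ℕ}
    (hf : f ∈ (Ideal.span (Set.range X) : Ideal (MvPowerSeries σ R)) ^ c) (d : σ →₀ ℕ)
    (hd : d.degree < c) : coeff d f = 0 := by
  classical
  induction c generalizing f d with
  | zero => omega
  | succ c ih =>
    rw [pow_succ] at hf
    refine Submodule.mul_induction_on hf ?_ ?_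
    · intro a ha b hb
      rw [coeff_mul]
      refine Finset.sum_eq_zero ?_
      rintro ⟨p, q⟩ hpq
      rw [Finset.HasAntidiagonal.mem_antidiagonal] at hpq
      by_cases hp : p.degree < c
      · rw [ih ha p hp, zero_mul]
      · have hq : q = 0 := by
          have : p.degree + q.degree = d.degree := by rw [← map_add, hpq]
          have hq0 : q.degree = 0 := by omega
          exact (Finsupp.degree_eq_zero_iff q).mp hq0
        subst hq
        have hb0 : coeff (0 : σ →₀ ℕ) b = 0 := by
          refine Submodule.span_induction (p := fun b _ => coeff (0 : σ →₀ ℕ) b = 0)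
            ?_ ?_ ?_ ?_ hb
          · rintro _ ⟨i, rfl⟩
            simp
          · simp
          · intro x y _ _ hx hy
            rw [map_add, hx, hy, add_zero]
          · intro a x _ hx
            rw [smul_eq_mul, coeff_zero_eq_constantCoeff_apply, map_mul,
              ← coeff_zero_eq_constantCoeff_apply x, hx, mul_zero]
        simp only
        rw [hb0, mul_zero]
    · intro x y hx hy
      rw [map_add, hx, hy, add_zero]

lemma mem_pow_of_coeff_eq_zero [Finite σ] {f : MvPowerSeries σ R} {c : ℕ}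
    (hf : ∀ d : σ →₀ ℕ, d.degree < c → coeff d f = 0) :
    f ∈ (Ideal.span (Set.range X) : Ideal (MvPowerSeries σ R)) ^ c := by
  classical
  have := Fintype.ofFinite σ
  choose! cf hcf using (fun β (h : c ≤ Finsupp.degree β) => exists_le_degree_eq (σ := σ) β h)
  let S : Finset (σ →₀ ℕ) := Finset.finsuppAntidiag Finset.univ c
  have hS : ∀ α : σ →₀ ℕ, α ∈ S ↔ α.degree = c := by
    intro α
    simp [S, Finset.mem_finsuppAntidiag, Finsupp.degree_eq_sum]
  let g : (σ →₀ ℕ) → MvPowerSeries σ R := fun α γ =>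
    if cf (α + γ) = α then coeff (α + γ) f else 0
  have key : f = ∑ α ∈ S, monomial α (1 : R) * g α := by
    ext β
    rw [map_sum]
    have h1 : ∀ α ∈ S, coeff β (monomial α (1 : R) * g α) =
        if (α ≤ β ∧ cf β = α) then coeff β f else 0 := by
      intro α _
      rw [coeff_monomial_mul, one_mul]
      by_cases hα : α ≤ β
      · have h2 : coeff (β - α) (g α) = if cf β = α then coeff β f else 0 := by
          change g α (β - α) = _
          simp only [g, add_tsub_cancel_of_le hα]
        simp only [hα, true_and, if_true, h2]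
      · simp [hα]
    rw [Finset.sum_congr rfl h1]
    by_cases hβ : c ≤ β.degree
    · obtain ⟨h3, h4⟩ := hcf β hβ
      rw [Finset.sum_eq_single (cf β)]
      · simp [h3]
      · intro α _ hne
        rw [if_neg]
        rintro ⟨_, h⟩
        exact hne h.symm
      · intro h
        exact absurd ((hS _).mpr h4) h
    · rw [hf β (by omega), Finset.sum_eq_zero]
      intro α _
      split_ifs <;> rfl
  rw [key]
  refine Ideal.sum_mem _ fun α hα => Ideal.mul_mem_right _ _ ?_
  rw [hS] at hα
  have h5 : monomial α (1 : R) = ∏ i, (X i : MvPowerSeries σ R) ^ α i := by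
    have := MvPowerSeries.coeff_zero_one (R := R) (σ := σ)
    rw [MvPowerSeries.monomial_one_eq, Finsupp.prod_fintype]
    intro i
    simp
  rw [h5]
  have h6 : ∏ i, (X i : MvPowerSeries σ R) ^ α i ∈
      ∏ i, (Ideal.span (Set.range X) : Ideal (MvPowerSeries σ R)) ^ α i :=
    Ideal.prod_mem_prod fun i _ => Ideal.pow_mem_pow (Ideal.subset_span (Set.mem_range_self i)) _
  rw [Finset.prod_pow_eq_pow_sum] at h6
  rwa [show ∑ i, α i = c by rw [← hα, Finsupp.degree_eq_sum]] at h6

/-- membership in the powers of the ideal of the variables. -/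
theorem mem_pow_iff [Finite σ] {f : MvPowerSeries σ R} {c : ℕ} :
    f ∈ (Ideal.span (Set.range X) : Ideal (MvPowerSeries σ R)) ^ c ↔
      ∀ d : σ →₀ ℕ, d.degree < c → coeff d f = 0 :=
  ⟨fun h d hd => coeff_eq_zero_of_mem_pow h d hd, mem_pow_of_coeff_eq_zero⟩

theorem mem_span_X_iff [Finite σ] {f : MvPowerSeries σ R} :
    f ∈ (Ideal.span (Set.range X) : Ideal (MvPowerSeries σ R)) ↔ constantCoeff f = 0 := by
  rw [← pow_one (Ideal.span (Set.range X)), mem_pow_iff]
  constructor
  · intro h
    exact h 0 (by simp)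
  · intro h d hd
    have : d = 0 := (Finsupp.degree_eq_zero_iff d).mp (by omega)
    subst this
    exact h

section Field

variable {K : Type*} [Field K] [Finite σ]

theorem mem_mm_pow_iff {f : MvPowerSeries σ K} {c : ℕ} :
    f ∈ mm σ K ^ c ↔ ∀ d : σ →₀ ℕ, d.degree < c → coeff d f = 0 := mem_pow_iff

theorem mem_mm_iff {f : MvPowerSeries σ K} : f ∈ mm σ K ↔ constantCoeff f = 0 := mem_span_X_iff

theorem maximalIdeal_eq : IsLocalRing.maximalIdeal (MvPowerSeries σ K) = mm σ K := by
  ext f
  rw [mem_mm_iff, IsLocalRing.mem_maximalIdeal, mem_nonunits_iff, isUnit_iff_constantCoeff,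
    isUnit_iff_ne_zero, not_not]

instance : IsAdicComplete (IsLocalRing.maximalIdeal (MvPowerSeries σ K)) (MvPowerSeries σ K) := by
  rw [maximalIdeal_eq, mm]
  infer_instance

end Field

end Vale.Agent.P202.CZ
end

section

/-!
Taylor expansion with coefficients in a subring.
-/

namespace Vale.Agent.P202.CZ

open Polynomial

lemma eval_mem_subring {B : Type*} [CommRing B] (F0 : Subring B) (p : B[X])
    (hp : ∀ l, p.coeff l ∈ F0) {θ : B} (hθ : θ ∈ F0) : p.eval θ ∈ F0 := by
  rw [Polynomial.eval_eq_sum_range]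
  exact Subring.sum_mem _ fun i _ => Subring.mul_mem _ (hp i) (Subring.pow_mem _ hθ _)

lemma taylor_coeff_mem {B : Type*} [CommRing B] (F0 : Subring B) (p : B[X])
    (hp : ∀ l, p.coeff l ∈ F0) {θ : B} (hθ : θ ∈ F0) (k : ℕ) :
    (Polynomial.taylor θ p).coeff k ∈ F0 := by
  rw [Polynomial.taylor_coeff]
  refine eval_mem_subring F0 _ (fun l => ?_) hθ
  rw [Polynomial.hasseDeriv_coeff]
  exact Subring.mul_mem _ (natCast_mem _ _) (hp _)

theorem eval_add_expand {B : Type*} [CommRing B] (p : B[X]) (θ h : B) :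
    p.eval (θ + h) = p.eval θ + p.derivative.eval θ * h +
      h ^ 2 * ∑ k ∈ Finset.range (p.natDegree + 1), (Polynomial.taylor θ p).coeff (k + 2) * h ^ k := by
  have h1 : p.eval (θ + h) = (Polynomial.taylor θ p).eval h := by
    rw [Polynomial.taylor_eval, add_comm]
  rw [h1, Polynomial.eval_eq_sum_range' (n := p.natDegree + 3)
    (by rw [Polynomial.natDegree_taylor]; omega), Finset.sum_range_succ', Finset.sum_range_succ',
    Polynomial.taylor_coeff_zero, Polynomial.taylor_coeff_one, Finset.mul_sum]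
  have h2 : ∀ k ∈ Finset.range (p.natDegree + 1),
      (Polynomial.taylor θ p).coeff (k + 1 + 1) * h ^ (k + 1 + 1) =
      h ^ 2 * ((Polynomial.taylor θ p).coeff (k + 2) * h ^ k) := by
    intro k _
    ring
  rw [Finset.sum_congr rfl h2]
  ring

theorem eval_add_diff {B : Type*} [CommRing B] (F0 : Subring B) (p : B[X])
    (hp : ∀ l, p.coeff l ∈ F0) {θ h : B} (hθ : θ ∈ F0) (hh : h ∈ F0) :
    ∃ κ ∈ F0, p.eval (θ + h) = p.eval θ + h * κ := by
  refine ⟨p.derivative.eval θ + h * ∑ k ∈ Finset.range (p.natDegree + 1),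
    (Polynomial.taylor θ p).coeff (k + 2) * h ^ k, ?_, ?_⟩
  · refine Subring.add_mem _ ?_ (Subring.mul_mem _ hh (Subring.sum_mem _ fun i _ =>
      Subring.mul_mem _ (taylor_coeff_mem F0 p hp hθ _) (Subring.pow_mem _ hh _)))
    rw [← Polynomial.taylor_coeff_one]
    exact taylor_coeff_mem F0 p hp hθ _
  · rw [eval_add_expand]
    ring

end Vale.Agent.P202.CZ
end

section

/-!
Linear change of coordinates in power series rings.
-/

namespace Vale.Agent.P202.CZ

open MvPowerSeries

section General

variable {R : Type*} [CommRing R] {n : ℕ}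

/-- the linear forms `X i + lam i * X 0` -/
noncomputable def crdA (lam : Fin (n + 1) → R) : Fin (n + 1) → MvPowerSeries (Fin (n + 1)) R :=
  fun i => X i + C (lam i) * X 0

lemma crd_hasSubst (lam : Fin (n + 1) → R) : HasSubst (crdA lam) :=
  hasSubst_of_constantCoeff_zero fun i => by simp [crdA]

/-- the substitution -/
noncomputable def crdS (lam : Fin (n + 1) → R) :
    MvPowerSeries (Fin (n + 1)) R →ₐ[R] MvPowerSeries (Fin (n + 1)) R :=
  substAlgHom (crd_hasSubst lam)

lemma crdS_X (lam : Fin (n + 1) → R) (i : Fin (n + 1)) : crdS lam (X i) = crdA lam i :=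
  substAlgHom_X _ i

lemma crdS_apply (lam : Fin (n + 1) → R) (f : MvPowerSeries (Fin (n + 1)) R) :
    crdS lam f = subst (crdA lam) f := substAlgHom_apply _ f

lemma crdS_comp (lam mu : Fin (n + 1) → R) (h : ∀ i, mu i + lam i = 0) (h0 : mu 0 = 0)
    (f : MvPowerSeries (Fin (n + 1)) R) : crdS mu (crdS lam f) = f := by
  have h1 : crdS mu (crdS lam f) = subst (fun s => subst (crdA mu) (crdA lam s)) f := by
    rw [crdS_apply, crdS_apply, subst_comp_subst_apply (crd_hasSubst lam) (crd_hasSubst mu)]
  have h2 : (fun s => subst (crdA mu) (crdA lam s)) =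
      (X : Fin (n + 1) → MvPowerSeries (Fin (n + 1)) R) := by
    funext i
    have e1 : subst (crdA mu) (crdA lam i) = crdS mu (crdA lam i) := (crdS_apply _ _).symm
    have e2 : crdS mu (C (lam i)) = C (lam i) := by
      rw [crdS_apply, subst_C]
    rw [e1]
    show crdS mu (X i + C (lam i) * X 0) = X i
    rw [map_add, map_mul, crdS_X, crdS_X, e2]
    unfold crdA
    rw [h0, map_zero, zero_mul, add_zero, add_assoc, ← add_mul, ← map_add, h i, map_zero,
      zero_mul, add_zero]
  rw [h1, h2, subst_self]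
  rfl

/-- the substitution on polynomials -/
noncomputable def crdP (lam : Fin (n + 1) → R) :
    MvPolynomial (Fin (n + 1)) R →ₐ[R] MvPolynomial (Fin (n + 1)) R :=
  MvPolynomial.aeval fun i => MvPolynomial.X i + MvPolynomial.C (lam i) * MvPolynomial.X 0

lemma crdP_comp (lam mu : Fin (n + 1) → R) (h : ∀ i, mu i + lam i = 0) (h0 : mu 0 = 0) :
    (crdP mu).comp (crdP lam) = AlgHom.id R _ := by
  refine MvPolynomial.algHom_ext fun i => ?_
  have e2 : ∀ r : R, crdP mu (MvPolynomial.C r) = MvPolynomial.C r := fun r =>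
    (crdP mu).commutes r
  have e3 : ∀ (mu : Fin (n + 1) → R) (i : Fin (n + 1)), crdP mu (MvPolynomial.X i) =
      MvPolynomial.X i + MvPolynomial.C (mu i) * MvPolynomial.X 0 := by
    intro mu i
    unfold crdP
    rw [MvPolynomial.aeval_X]
  rw [AlgHom.comp_apply, e3, map_add, map_mul, e2, e3, e3, h0, map_zero, zero_mul, add_zero,
    add_assoc, ← add_mul, ← map_add, h i, map_zero, zero_mul, add_zero]
  rfl

lemma crdS_coe (lam : Fin (n + 1) → R) (p : MvPolynomial (Fin (n + 1)) R) :
    crdS lam (p : MvPowerSeries (Fin (n + 1)) R) = (crdP lam p :) := by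
  have h : ((crdS lam : MvPowerSeries (Fin (n + 1)) R →+* _)).comp
      MvPolynomial.coeToMvPowerSeries.ringHom =
      MvPolynomial.coeToMvPowerSeries.ringHom.comp
        (crdP lam : MvPolynomial (Fin (n + 1)) R →+* MvPolynomial (Fin (n + 1)) R) := by
    refine MvPolynomial.ringHom_ext (fun r => ?_) (fun i => ?_)
    · simp [crdS_apply, crdP]
    · simp [crdS_X, crdP, crdA]
  exact RingHom.congr_fun h p

end General

variable {K : Type*} [Field K] {n : ℕ}

lemma crdS_fgc (lam : Fin (n + 1) → K) (f : MvPowerSeries (Fin (n + 1)) K)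
    (hf : f ∈ fgc (Fin (n + 1)) K) : crdS lam f ∈ fgc (Fin (n + 1)) K := by
  classical
  obtain ⟨s, hs⟩ := hf
  set t : Finset K := s ∪ Finset.univ.image lam with ht
  have hst : Subring.closure (s : Set K) ≤ Subring.closure (t : Set K) :=
    Subring.closure_mono (by rw [ht]; simp)
  have hlam : ∀ i, lam i ∈ Subring.closure (t : Set K) := fun i =>
    Subring.subset_closure (by rw [ht]; simp)
  obtain ⟨g, hg⟩ := fgc_exists_lift (fgc_coeffsIn_mono hst hs)
  have h1 : crdS lam f = MvPowerSeries.map (Subring.closure (t : Set K)).subtype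
      (subst (crdA fun i => (⟨lam i, hlam i⟩ : Subring.closure (t : Set K))) g) := by
    rw [map_subst (crd_hasSubst _), hg, crdS_apply]
    congr 1
    funext i
    simp [crdA]
  rw [h1]
  exact fgc_map_mem t _

lemma crdS_mm (lam : Fin (n + 1) → K) (c : ℕ) (f : MvPowerSeries (Fin (n + 1)) K)
    (hf : f ∈ mm (Fin (n + 1)) K ^ c) : crdS lam f ∈ mm (Fin (n + 1)) K ^ c := by
  have hmap : (mm (Fin (n + 1)) K).map
      (crdS lam : MvPowerSeries (Fin (n + 1)) K →+* MvPowerSeries (Fin (n + 1)) K) ≤
      mm (Fin (n + 1)) K := by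
    unfold mm
    rw [Ideal.map_span, Ideal.span_le]
    rintro _ ⟨_, ⟨j, rfl⟩, rfl⟩
    show crdS lam (X j) ∈ _
    rw [crdS_X]
    exact Ideal.add_mem _ (Ideal.subset_span ⟨j, rfl⟩)
      (Ideal.mul_mem_left _ _ (Ideal.subset_span ⟨0, rfl⟩))
  have h1 := Ideal.mem_map_of_mem
    (crdS lam : MvPowerSeries (Fin (n + 1)) K →+* MvPowerSeries (Fin (n + 1)) K) hf
  rw [Ideal.map_pow] at h1
  exact Ideal.pow_right_mono hmap c h1

lemma crd_deg {P : MvPolynomial (Fin (n + 1)) K} {m : ℕ} (hP : P.IsHomogeneous m)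
    {d : Fin (n + 1) →₀ ℕ} (hd : P.coeff d ≠ 0) : ∑ i, d i = m := by
  have := hP hd
  rw [Finsupp.weight_apply, Finsupp.sum_fintype _ _ (by simp)] at this
  simpa using this

lemma crd_eval_smul {P : MvPolynomial (Fin (n + 1)) K} {m : ℕ} (hP : P.IsHomogeneous m) (c : K)
    (x : Fin (n + 1) → K) :
    MvPolynomial.eval (fun i => c * x i) P = c ^ m * MvPolynomial.eval x P := by
  rw [MvPolynomial.eval_eq', MvPolynomial.eval_eq', Finset.mul_sum]
  refine Finset.sum_congr rfl fun d hd => ?_
  have h1 : ∑ i, d i = m := by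
    exact crd_deg hP (MvPolynomial.mem_support_iff.mp hd)
  simp only [mul_pow, Finset.prod_mul_distrib, Finset.prod_pow_eq_pow_sum]
  rw [h1]
  ring

lemma crd_eval_e0 {Q : MvPolynomial (Fin (n + 1)) K} {m : ℕ} (hQ : Q.IsHomogeneous m) :
    MvPolynomial.eval (fun i => if i = 0 then 1 else 0) Q = Q.coeff (Finsupp.single 0 m) := by
  classical
  rw [MvPolynomial.eval_eq']
  have hdeg : ∀ d ∈ Q.support, ∑ i, d i = m := by
    intro d hd
    exact crd_deg hQ (MvPolynomial.mem_support_iff.mp hd)
  rw [Finset.sum_eq_single (Finsupp.single 0 m)]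
  · rw [Finset.prod_eq_one, mul_one]
    intro i _
    by_cases hi : i = 0
    · simp [hi]
    · simp [hi]
  · intro d hd hne
    have : ∃ i, i ≠ 0 ∧ d i ≠ 0 := by
      by_contra hcon
      push Not at hcon
      apply hne
      ext i
      by_cases hi : i = 0
      · subst hi
        rw [← hdeg d hd, Finset.sum_eq_single 0]
        · simp
        · intro j _ hj; exact hcon j hj
        · simp
      · rw [hcon i hi, Finsupp.single_apply, if_neg (Ne.symm hi)]
    obtain ⟨i, hi, hdi⟩ := this
    rw [Finset.prod_eq_zero (Finset.mem_univ i), mul_zero]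
    rw [if_neg hi, zero_pow hdi]
  · intro h
    rw [MvPolynomial.notMem_support_iff.mp h, zero_mul]

/-- L2: linear change of coordinates. -/
theorem exists_coord_change [Infinite K] {n : ℕ} (g : MvPowerSeries (Fin (n + 1)) K)
    (hg : g ≠ 0) :
    ∃ (σ : MvPowerSeries (Fin (n + 1)) K ≃ₐ[K] MvPowerSeries (Fin (n + 1)) K)
      (σ₀ : MvPolynomial (Fin (n + 1)) K ≃ₐ[K] MvPolynomial (Fin (n + 1)) K),
      (∀ p : MvPolynomial (Fin (n + 1)) K, σ (p : MvPowerSeries (Fin (n + 1)) K) = (σ₀ p :)) ∧
      (∀ f ∈ fgc (Fin (n + 1)) K, σ f ∈ fgc (Fin (n + 1)) K) ∧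
      (∀ f ∈ fgc (Fin (n + 1)) K, σ.symm f ∈ fgc (Fin (n + 1)) K) ∧
      (∀ (c : ℕ), ∀ f ∈ mm (Fin (n + 1)) K ^ c, σ f ∈ mm (Fin (n + 1)) K ^ c) ∧
      (∀ (c : ℕ), ∀ f ∈ mm (Fin (n + 1)) K ^ c, σ.symm f ∈ mm (Fin (n + 1)) K ^ c) ∧
      RegX (σ g) := by
  classical
  have hord : (g.order.toNat : ℕ∞) = g.order := ne_zero_iff_order_finite.mp hg
  set m := g.order.toNat with hm
  obtain ⟨d₀, hd₀, hd₀m⟩ := exists_coeff_ne_zero_and_order hord
  have hdm : d₀.degree = m := by
    rw [← hord] at hd₀m
    exact_mod_cast hd₀m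
  set P : MvPolynomial (Fin (n + 1)) K := truncTotal (m + 1) g with hP
  have hPc : ∀ x, P.coeff x = if x.degree < m + 1 then coeff x g else 0 := fun x =>
    coeff_truncTotal_eq_ite g
  have hlow : ∀ x : Fin (n + 1) →₀ ℕ, x.degree < m → coeff x g = 0 := by
    intro x hx
    apply coeff_of_lt_order
    rw [← hord]
    exact_mod_cast hx
  have hP0 : P ≠ 0 := by
    intro h
    apply hd₀
    have := hPc d₀
    rw [h, hdm, if_pos (Nat.lt_succ_self m), MvPolynomial.coeff_zero] at this
    exact this.symm
  have hPh : P.IsHomogeneous m := by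
    intro x hx
    rw [hPc] at hx
    have h1 : x.degree < m + 1 := by
      by_contra h
      exact hx (if_neg h)
    rw [if_pos h1] at hx
    have h2 : ¬ x.degree < m := fun h => hx (hlow x h)
    have h3 : x.degree = m := by omega
    rw [← h3, Finsupp.degree_eq_weight_one]
    rfl
  obtain ⟨x, hx⟩ : ∃ x : Fin (n + 1) → K, MvPolynomial.eval x (MvPolynomial.X 0 * P) ≠ 0 := by
    by_contra hcon
    push Not at hcon
    have : MvPolynomial.X 0 * P = 0 := MvPolynomial.funext fun x => by rw [hcon x, map_zero]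
    rcases mul_eq_zero.mp this with h | h
    · exact MvPolynomial.X_ne_zero 0 h
    · exact hP0 h
  rw [map_mul, MvPolynomial.eval_X] at hx
  have hx0 : x 0 ≠ 0 := left_ne_zero_of_mul hx
  have hxP : MvPolynomial.eval x P ≠ 0 := right_ne_zero_of_mul hx
  set lam : Fin (n + 1) → K := fun i => if i = 0 then 0 else (x 0)⁻¹ * x i with hlam
  have hl0 : lam 0 = 0 := by simp [hlam]
  refine ⟨AlgEquiv.ofAlgHom (crdS lam) (crdS fun i => - lam i)
      (AlgHom.ext fun f => crdS_comp _ _ (fun i => by simp) hl0 f)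
      (AlgHom.ext fun f => crdS_comp _ _ (fun i => by simp) (by simp [hl0]) f),
    AlgEquiv.ofAlgHom (crdP lam) (crdP fun i => - lam i)
      (crdP_comp _ _ (fun i => by simp) hl0) (crdP_comp _ _ (fun i => by simp) (by simp [hl0])),
    fun p => crdS_coe lam p, fun f hf => crdS_fgc _ f hf, fun f hf => crdS_fgc _ f hf,
    fun c f hf => crdS_mm _ c f hf, fun c f hf => crdS_mm _ c f hf, ?_⟩
  show RegX (crdS lam g)
  -- the leading coefficient
  have hlead : (crdP lam P).coeff (Finsupp.single 0 m) ≠ 0 := by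
    have hQ : (crdP lam P).IsHomogeneous m := by
      have := hPh.aeval (n := 1) (fun i => MvPolynomial.X i + MvPolynomial.C (lam i) *
        MvPolynomial.X 0 : Fin (n + 1) → MvPolynomial (Fin (n + 1)) K) (fun i => by
          refine (MvPolynomial.isHomogeneous_X _ _).add ?_
          simpa using (MvPolynomial.isHomogeneous_C (Fin (n + 1)) (lam i)).mul
            (MvPolynomial.isHomogeneous_X K (0 : Fin (n + 1))))
      rwa [one_mul] at this
    rw [← crd_eval_e0 hQ]
    have e1 : MvPolynomial.eval (fun i : Fin (n + 1) => if i = 0 then (1 : K) else 0)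
        (crdP lam P) = MvPolynomial.eval (fun i => (x 0)⁻¹ * x i) P := by
      have h1 : ∀ p : MvPolynomial (Fin (n + 1)) K,
          MvPolynomial.eval (fun i : Fin (n + 1) => if i = 0 then (1 : K) else 0) (crdP lam p) =
          MvPolynomial.eval (fun i => (x 0)⁻¹ * x i) p := by
        intro p
        have h2 : ((MvPolynomial.eval (fun i : Fin (n + 1) => if i = 0 then (1 : K) else 0))).comp
            (crdP lam : MvPolynomial (Fin (n + 1)) K →+* MvPolynomial (Fin (n + 1)) K) =
            MvPolynomial.eval (fun i => (x 0)⁻¹ * x i) := by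
          refine MvPolynomial.ringHom_ext (fun r => ?_) (fun i => ?_)
          · simp [crdP]
          · by_cases hi : i = 0
            · subst hi
              simp [crdP, hlam, hx0]
            · simp [crdP, hlam, hi]
        exact RingHom.congr_fun h2 p
      exact h1 P
    rw [e1, crd_eval_smul hPh]
    exact mul_ne_zero (pow_ne_zero _ (inv_ne_zero hx0)) hxP
  -- the remainder
  set r : MvPowerSeries (Fin (n + 1)) K := g - (P : MvPowerSeries (Fin (n + 1)) K) with hr
  have hrord : ((m + 1 : ℕ) : ℕ∞) ≤ r.order := by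
    apply nat_le_order
    intro d hd
    rw [hr, map_sub, MvPolynomial.coeff_coe, hPc, if_pos hd, sub_self]
  have hrs : ((m + 1 : ℕ) : ℕ∞) ≤ (crdS lam r).order := by
    rw [crdS_apply]
    refine le_trans ?_ (le_order_subst (crd_hasSubst lam) r)
    calc ((m + 1 : ℕ) : ℕ∞) = 1 * ((m + 1 : ℕ) : ℕ∞) := (one_mul _).symm
      _ ≤ (⨅ i, (crdA lam i).order) * r.order := by
        refine mul_le_mul' (le_iInf fun i => ?_) hrord
        rw [one_le_order_iff_constCoeff_eq_zero]
        simp [crdA]
  have hg' : crdS lam g = (crdP lam P : MvPowerSeries (Fin (n + 1)) K) + crdS lam r := by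
    rw [← crdS_coe, ← map_add, hr, add_sub_cancel]
  unfold RegX
  intro h
  have h1 := congrArg (PowerSeries.coeff m) h
  rw [PowerSeries.coeff_map, ← coeff_zero_eq_constantCoeff_apply, coeff_coeff_finSuccEquiv,
    map_zero, hg', map_add, MvPolynomial.coeff_coe] at h1
  have h2 : (Finsupp.cons m (0 : Fin n →₀ ℕ)) = Finsupp.single 0 m := by
    ext i
    refine Fin.cases ?_ (fun j => ?_) i
    · simp
    · simp
  rw [h2] at h1
  have h3 : coeff (Finsupp.single 0 m) (crdS lam r) = 0 := by
    apply coeff_of_lt_order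
    refine lt_of_lt_of_le ?_ hrs
    rw [Finsupp.degree_single]
    exact_mod_cast Nat.lt_succ_self m
  rw [h3, add_zero] at h1
  exact hlead h1

end Vale.Agent.P202.CZ
end

section

/-!
Primitive element data for a finitely generated extension of a unique factorization domain.
-/

namespace Vale.Agent.P202.CZ

open Polynomial

/-- Clearing denominators in an `adjoin`. -/
theorem clear_denom_adjoin {E L₀ F : Type*} [CommRing E] [IsDomain E] [Field L₀] [Algebra E L₀]
    [IsFractionRing E L₀] [Field F] [Algebra L₀ F] [Algebra E F] [IsScalarTower E L₀ F]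
    (s : Set F) (x : F) (hx : x ∈ Algebra.adjoin L₀ s) :
    ∃ e : E, e ≠ 0 ∧ algebraMap E F e * x ∈ Algebra.adjoin E s := by
  induction hx using Algebra.adjoin_induction with
  | mem x hx =>
    exact ⟨1, one_ne_zero, by rw [map_one, one_mul]; exact Algebra.subset_adjoin hx⟩
  | algebraMap r =>
    obtain ⟨a, b, hb, rfl⟩ := IsFractionRing.div_surjective (A := E) r
    have hb0 : b ≠ 0 := nonZeroDivisors.ne_zero hb
    refine ⟨b, hb0, ?_⟩
    have hb1 : algebraMap E L₀ b ≠ 0 :=
      (map_ne_zero_iff _ (IsFractionRing.injective E L₀)).mpr hb0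
    have : algebraMap E F b * algebraMap L₀ F (algebraMap E L₀ a / algebraMap E L₀ b)
        = algebraMap E F a := by
      rw [IsScalarTower.algebraMap_apply E L₀ F b, IsScalarTower.algebraMap_apply E L₀ F a,
        ← map_mul, mul_div_cancel₀ _ hb1]
    rw [this]
    exact Subalgebra.algebraMap_mem _ a
  | add x y _ _ hx hy =>
    obtain ⟨e₁, h₁, m₁⟩ := hx
    obtain ⟨e₂, h₂, m₂⟩ := hy
    refine ⟨e₁ * e₂, mul_ne_zero h₁ h₂, ?_⟩
    have : algebraMap E F (e₁ * e₂) * (x + y) =
        algebraMap E F e₂ * (algebraMap E F e₁ * x) +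
          algebraMap E F e₁ * (algebraMap E F e₂ * y) := by
      rw [map_mul]; ring
    rw [this]
    exact add_mem (mul_mem (Subalgebra.algebraMap_mem _ _) m₁)
      (mul_mem (Subalgebra.algebraMap_mem _ _) m₂)
  | mul x y _ _ hx hy =>
    obtain ⟨e₁, h₁, m₁⟩ := hx
    obtain ⟨e₂, h₂, m₂⟩ := hy
    refine ⟨e₁ * e₂, mul_ne_zero h₁ h₂, ?_⟩
    have : algebraMap E F (e₁ * e₂) * (x * y) =
        (algebraMap E F e₁ * x) * (algebraMap E F e₂ * y) := by
      rw [map_mul]; ring
    rw [this]
    exact mul_mem m₁ m₂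

/-- The primitive element theorem over an integral domain, with denominators cleared. -/
theorem primitive_aux {E B : Type*} [CommRing E] [IsDomain E] [CharZero E] [CommRing B]
    [IsDomain B] [Algebra E B] [FaithfulSMul E B] {ι : Type*} [Finite ι] (y : ι → B)
    (hy : ∀ i, IsAlgebraic E (y i)) :
    ∃ θ : B, IsIntegral E θ ∧ ∃ Q : E, Q ≠ 0 ∧ ∃ P : ι → E[X],
      ∀ i, algebraMap E B Q * y i = aeval θ (P i) := by
  classical
  let L₀ := FractionRing E
  let F := FractionRing B
  let _ : Algebra L₀ F := FractionRing.liftAlgebra E F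
  have : IsScalarTower E L₀ F := FractionRing.isScalarTower_liftAlgebra E F
  have : CharZero L₀ := charZero_of_injective_algebraMap (IsFractionRing.injective E L₀)
  have hBF : Function.Injective (algebraMap B F) := IsFractionRing.injective B F
  let y' : ι → F := fun i => algebraMap B F (y i)
  have hy' : ∀ i, IsAlgebraic L₀ (y' i) := fun i =>
    ((hy i).algebraMap (A := F)).extendScalars (IsFractionRing.injective E L₀)
  let s : Set F := Set.range y'
  have : Finite s := Set.finite_range y'
  let L : IntermediateField L₀ F := IntermediateField.adjoin L₀ s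
  have hfd : FiniteDimensional L₀ L :=
    IntermediateField.finiteDimensional_adjoin (by
      rintro x ⟨i, rfl⟩
      exact (hy' i).isIntegral)
  obtain ⟨α, hα⟩ := Field.exists_primitive_element L₀ L
  have hLs : (L.toSubalgebra : Subalgebra L₀ F) = Algebra.adjoin L₀ s := by
    apply IntermediateField.adjoin_toSubalgebra_of_isAlgebraic
    rintro x ⟨i, rfl⟩
    exact hy' i
  have hL : IntermediateField.adjoin L₀ {(α : F)} = L := by
    have h1 := congrArg (IntermediateField.map L.val) hα
    rw [IntermediateField.adjoin_map, Set.image_singleton, ← AlgHom.fieldRange_eq_map,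
      IntermediateField.fieldRange_val] at h1
    exact h1
  -- a multiple of alpha in B
  have hαL : (α : F) ∈ Algebra.adjoin L₀ s := by
    rw [← hLs]; exact α.2
  obtain ⟨e, he, hemem⟩ := clear_denom_adjoin (E := E) s (α : F) hαL
  have hsub : ∀ x ∈ Algebra.adjoin E s, ∃ b : B, algebraMap B F b = x := by
    intro x hx
    induction hx using Algebra.adjoin_induction with
    | mem x hx => obtain ⟨i, rfl⟩ := hx; exact ⟨y i, rfl⟩
    | algebraMap r => exact ⟨algebraMap E B r, (IsScalarTower.algebraMap_apply E B F r).symm⟩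
    | add x y _ _ hx hy =>
      obtain ⟨a, rfl⟩ := hx; obtain ⟨b, rfl⟩ := hy; exact ⟨a + b, map_add _ _ _⟩
    | mul x y _ _ hx hy =>
      obtain ⟨a, rfl⟩ := hx; obtain ⟨b, rfl⟩ := hy; exact ⟨a * b, map_mul _ _ _⟩
  obtain ⟨c, hc⟩ := hsub _ hemem
  have hαalg : IsAlgebraic L₀ (α : F) := by
    have h := Algebra.IsAlgebraic.isAlgebraic (R := L₀) α
    exact h.algebraMap (A := F)
  have hcalg : IsAlgebraic E c := by
    rw [← isAlgebraic_algebraMap_iff hBF, hc]
    rw [IsFractionRing.isAlgebraic_iff E L₀ F]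
    exact (IsAlgebraic.mul (by
      rw [IsScalarTower.algebraMap_apply E L₀ F]; exact isAlgebraic_algebraMap _) hαalg)
  obtain ⟨e', he', hint⟩ := hcalg.exists_integral_multiple
  set θ : B := e' • c with hθ
  have hθF : algebraMap B F θ = algebraMap E F (e' * e) * (α : F) := by
    rw [hθ, Algebra.smul_def, map_mul, hc, ← IsScalarTower.algebraMap_apply E B F, map_mul]
    ring
  have hee : algebraMap E F (e' * e) ≠ 0 := by
    rw [IsScalarTower.algebraMap_apply E L₀ F]
    exact (_root_.map_ne_zero _).mpr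
      ((map_ne_zero_iff _ (IsFractionRing.injective E L₀)).mpr (mul_ne_zero he' he))
  have hαθ : (α : F) ∈ IntermediateField.adjoin L₀ {algebraMap B F θ} := by
    have h1 : (α : F) = (algebraMap L₀ F (algebraMap E L₀ (e' * e)))⁻¹ * algebraMap B F θ := by
      rw [hθF, ← IsScalarTower.algebraMap_apply E L₀ F, inv_mul_cancel_left₀ hee]
    rw [h1]
    refine mul_mem (inv_mem (IntermediateField.algebraMap_mem _ _)) ?_
    exact IntermediateField.mem_adjoin_simple_self _ _
  have hθalg : IsAlgebraic L₀ (algebraMap B F θ) := by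
    rw [hθF]
    exact (IsAlgebraic.mul (by
      rw [IsScalarTower.algebraMap_apply E L₀ F]; exact isAlgebraic_algebraMap _) hαalg)
  have hyθ : ∀ i, y' i ∈ Algebra.adjoin L₀ {algebraMap B F θ} := by
    intro i
    rw [← IntermediateField.adjoin_simple_toSubalgebra_of_isAlgebraic hθalg]
    have h1 : y' i ∈ L := IntermediateField.subset_adjoin _ _ ⟨i, rfl⟩
    rw [← hL] at h1
    exact (IntermediateField.adjoin_simple_le_iff.mpr hαθ) h1
  have hQP : ∀ i, ∃ Q : E, Q ≠ 0 ∧ ∃ P : E[X], algebraMap E B Q * y i = aeval θ P := by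
    intro i
    obtain ⟨Q, hQ, hm⟩ := clear_denom_adjoin (E := E) _ _ (hyθ i)
    rw [Algebra.adjoin_singleton_eq_range_aeval] at hm
    obtain ⟨P, hP⟩ := hm
    refine ⟨Q, hQ, P, hBF ?_⟩
    rw [map_mul, ← IsScalarTower.algebraMap_apply E B F, ← aeval_algebraMap_apply]
    exact hP.symm
  choose Q hQ P hP using hQP
  cases nonempty_fintype ι
  refine ⟨θ, hint, ∏ i, Q i, Finset.prod_ne_zero_iff.mpr fun i _ => hQ i,
    fun i => C (∏ k ∈ Finset.univ.erase i, Q k) * P i, fun i => ?_⟩
  rw [map_mul, aeval_C, ← hP i, ← Finset.mul_prod_erase Finset.univ Q (Finset.mem_univ i),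
    map_mul]
  ring

/-- L1: primitive element data. -/
theorem exists_primitive_data {A B : Type*} [CommRing A] [IsDomain A]
    [UniqueFactorizationMonoid A] [CommRing B] [IsDomain B] [CharZero B] [Algebra A B]
    (hinj : Function.Injective (algebraMap A B)) {ι : Type} [Finite ι] (y : ι → B) :
    ∃ (m : ℕ) (t : Fin m → B) (θ : B) (f : Polynomial (MvPolynomial (Fin m) A))
      (Q : MvPolynomial (Fin m) A) (P : ι → Polynomial (MvPolynomial (Fin m) A)),
      f.Monic ∧
      (∀ F : Polynomial (MvPolynomial (Fin m) A),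
        F.eval₂ (MvPolynomial.aeval (R := A) t).toRingHom θ = 0 ↔ f ∣ F) ∧
      (Polynomial.derivative f).eval₂ (MvPolynomial.aeval (R := A) t).toRingHom θ ≠ 0 ∧
      MvPolynomial.aeval t Q ≠ 0 ∧
      ∀ i, MvPolynomial.aeval t Q * y i =
        (P i).eval₂ (MvPolynomial.aeval (R := A) t).toRingHom θ := by
  classical
  have : FaithfulSMul A B := (faithfulSMul_iff_algebraMap_injective A B).mpr hinj
  obtain ⟨s, hs⟩ := (AlgebraicIndependent.matroid A B).exists_isBasis (Set.range y)
    (by simp [AlgebraicIndependent.matroid_e])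
  obtain ⟨hind, hsub, halg⟩ := AlgebraicIndependent.matroid_isBasis_iff.mp hs
  have hfin : Finite s := (Set.finite_range y).subset hsub
  let m := Nat.card s
  let eqv : Fin m ≃ s := (Finite.equivFin s).symm
  let t : Fin m → B := fun k => (eqv k : B)
  have hrange : Set.range t = s := by
    ext x
    constructor
    · rintro ⟨k, rfl⟩; exact (eqv k).2
    · intro hx
      exact ⟨eqv.symm ⟨x, hx⟩, by simp [t]⟩
  have htind : AlgebraicIndependent A t := by
    have h1 : AlgebraicIndependent A ((↑) : s → B) := hind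
    exact h1.comp eqv eqv.injective
  let E := MvPolynomial (Fin m) A
  let φ : E →ₐ[A] B := MvPolynomial.aeval t
  have hφ : Function.Injective φ := htind
  let _ : Algebra E B := φ.toRingHom.toAlgebra
  have hmap : algebraMap E B = φ.toRingHom := rfl
  have hfaith : FaithfulSMul E B := (faithfulSMul_iff_algebraMap_injective E B).mpr hφ
  have hcharE : CharZero E := by
    refine ⟨fun a b hab => ?_⟩
    have h1 := congrArg (algebraMap E B) hab
    rw [map_natCast, map_natCast] at h1
    exact Nat.cast_injective h1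
  have hyalg : ∀ i, IsAlgebraic E (y i) := by
    intro i
    have h1 := halg (y i) ⟨i, rfl⟩
    let g : E →+* Algebra.adjoin A s :=
      (φ.toRingHom).codRestrict (Algebra.adjoin A s) (fun x => by
        have : φ x ∈ φ.range := ⟨x, rfl⟩
        rw [← Algebra.adjoin_range_eq_range_aeval, hrange] at this
        exact this)
    refine h1.of_ringHom_of_comp_eq g (RingHom.id B) ?_ Function.injective_id rfl
    rintro ⟨x, hx⟩
    rw [← hrange, Algebra.adjoin_range_eq_range_aeval] at hx
    obtain ⟨z, hz⟩ := hx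
    exact ⟨z, Subtype.ext hz⟩
  obtain ⟨θ, hint, Q, hQ, P, hP⟩ := primitive_aux (E := E) y hyalg
  have hdvd : ∀ F : E[X], F.eval₂ φ.toRingHom θ = 0 ↔ minpoly E θ ∣ F := fun F =>
    minpoly.isIntegrallyClosed_dvd_iff hint F
  refine ⟨m, t, θ, minpoly E θ, Q, P, minpoly.monic hint, hdvd, ?_, ?_, hP⟩
  · intro h0
    have h1 := (hdvd _).mp h0
    have hpos : 0 < (minpoly E θ).natDegree := minpoly.natDegree_pos hint
    refine (minpoly.monic hint).not_dvd_of_natDegree_lt ?_
      (Polynomial.natDegree_derivative_lt hpos.ne') h1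
    intro hd
    exact hpos.ne' (Polynomial.derivative_eq_zero.mp hd)
  · exact (map_ne_zero_iff φ hφ).mpr hQ

end Vale.Agent.P202.CZ
end

section

/-!
# Power series acting on complete local rings, coefficient fields in characteristic zero,
and finiteness over the power series ring.
-/

namespace Vale.Agent.P202.CZ

open MvPowerSeries IsLocalRing Filter Topology

universe u v

section Hom

variable {K S : Type*} [Field K] [CommRing S]

/-- evaluation of polynomials maps powers of the ideal of the variables to powers of `I`. -/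
theorem eval_mem_pow (I : Ideal S) (τ : K →+* S) {d : ℕ} (x : Fin d → S) (hx : ∀ i, x i ∈ I)
    (n : ℕ) {p : MvPolynomial (Fin d) K} (hp : p ∈ MvPolynomial.idealOfVars (Fin d) K ^ n) :
    MvPolynomial.eval₂Hom τ x p ∈ I ^ n := by
  have h1 : (MvPolynomial.idealOfVars (Fin d) K).map (MvPolynomial.eval₂Hom τ x) ≤ I := by
    rw [MvPolynomial.idealOfVars, Ideal.map_span, Ideal.span_le]
    rintro _ ⟨_, ⟨i, rfl⟩, rfl⟩
    simpa using hx i
  have h2 := Ideal.mem_map_of_mem (MvPolynomial.eval₂Hom τ x) hp
  rw [Ideal.map_pow] at h2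
  exact Ideal.pow_right_mono h1 n h2

/-- the truncated evaluation. -/
noncomputable def truncEval (I : Ideal S) (τ : K →+* S) {d : ℕ} (x : Fin d → S)
    (hx : ∀ i, x i ∈ I) (n : ℕ) : MvPowerSeries (Fin d) K →+* S ⧸ I ^ n :=
  (Ideal.Quotient.lift (MvPolynomial.idealOfVars (Fin d) K ^ n)
    ((Ideal.Quotient.mk (I ^ n)).comp (MvPolynomial.eval₂Hom τ x))
    (fun p hp => by
      rw [RingHom.comp_apply, Ideal.Quotient.eq_zero_iff_mem]
      exact eval_mem_pow I τ x hx n hp)).comp (truncTotalAlgHom (Fin d) K n).toRingHom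

theorem truncEval_apply (I : Ideal S) (τ : K →+* S) {d : ℕ} (x : Fin d → S)
    (hx : ∀ i, x i ∈ I) (n : ℕ) (p : MvPowerSeries (Fin d) K) :
    truncEval I τ x hx n p =
      Ideal.Quotient.mk (I ^ n) (MvPolynomial.eval₂Hom τ x (p.truncTotal n)) := by
  rfl

theorem truncEval_coe (I : Ideal S) (τ : K →+* S) {d : ℕ} (x : Fin d → S)
    (hx : ∀ i, x i ∈ I) (n : ℕ) (p : MvPolynomial (Fin d) K) :
    truncEval I τ x hx n (p : MvPowerSeries (Fin d) K) =
      Ideal.Quotient.mk (I ^ n) (MvPolynomial.eval₂Hom τ x p) := by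
  have h := (truncTotalAlgHom (Fin d) K n).commutes p
  have h2 : truncEval I τ x hx n (p : MvPowerSeries (Fin d) K) =
      (Ideal.Quotient.lift (MvPolynomial.idealOfVars (Fin d) K ^ n)
    ((Ideal.Quotient.mk (I ^ n)).comp (MvPolynomial.eval₂Hom τ x))
    (fun p hp => by
      rw [RingHom.comp_apply, Ideal.Quotient.eq_zero_iff_mem]
      exact eval_mem_pow I τ x hx n hp))
      (truncTotalAlgHom (Fin d) K n (algebraMap (MvPolynomial (Fin d) K)
        (MvPowerSeries (Fin d) K) p)) := rfl
  rw [h2, h]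
  rfl

/-- D10a: power series act on complete local rings. -/
theorem exists_powerSeries_hom (I : Ideal S)
    [IsAdicComplete I S] (τ : K →+* S) {d : ℕ} (x : Fin d → S) (hx : ∀ i, x i ∈ I) :
    ∃ φ : MvPowerSeries (Fin d) K →+* S, (∀ a, φ (C a) = τ a) ∧ ∀ i, φ (X i) = x i := by
  have hf : ∀ {m n : ℕ} (hle : m ≤ n),
      (Ideal.Quotient.factorPow I hle).comp (truncEval I τ x hx n) = truncEval I τ x hx m := by
    intro m n hle
    ext p
    rw [RingHom.comp_apply, truncEval_apply, truncEval_apply]
    change Ideal.Quotient.mk (I ^ m) _ = _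
    rw [Ideal.Quotient.eq, ← map_sub]
    exact eval_mem_pow I τ x hx m
      (truncTotal_sub_truncTotal_mem_pow_idealOfVars hle (le_refl _) _)
  refine ⟨IsAdicComplete.liftRingHom I (truncEval I τ x hx) hf, ?_, ?_⟩
  · intro a
    have hC : (C a : MvPowerSeries (Fin d) K) = ((MvPolynomial.C a : MvPolynomial (Fin d) K) :
        MvPowerSeries (Fin d) K) := (MvPolynomial.coe_C a).symm
    have : ∀ n : ℕ, Ideal.Quotient.mk (I ^ n)
        (IsAdicComplete.liftRingHom I (truncEval I τ x hx) hf (C a)) =
        Ideal.Quotient.mk (I ^ n) (τ a) := by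
      intro n
      rw [IsAdicComplete.mk_liftRingHom, hC, truncEval_coe]
      simp
    apply (IsHausdorff.eq_iff_smodEq (I := I)).2
    intro n
    rw [SModEq.sub_mem, smul_eq_mul, Ideal.mul_top, ← Ideal.Quotient.eq]
    exact this n
  · intro i
    have hC : (X i : MvPowerSeries (Fin d) K) = ((MvPolynomial.X i : MvPolynomial (Fin d) K) :
        MvPowerSeries (Fin d) K) := (MvPolynomial.coe_X i).symm
    have : ∀ n : ℕ, Ideal.Quotient.mk (I ^ n)
        (IsAdicComplete.liftRingHom I (truncEval I τ x hx) hf (X i)) =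
        Ideal.Quotient.mk (I ^ n) (x i) := by
      intro n
      rw [IsAdicComplete.mk_liftRingHom, hC, truncEval_coe]
      simp
    apply (IsHausdorff.eq_iff_smodEq (I := I)).2
    intro n
    rw [SModEq.sub_mem, smul_eq_mul, Ideal.mul_top, ← Ideal.Quotient.eq]
    exact this n

end Hom

section Coeff

/-- every field extension in characteristic zero is formally smooth. -/
theorem formallySmooth_of_charZero (k : Type v) (L : Type u) [Field k] [Field L] [CharZero k] [Algebra k L] :
    Algebra.FormallySmooth k L := by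
  obtain ⟨s, hs⟩ := exists_isTranscendenceBasis k L
  have halg : Algebra.IsAlgebraic (IntermediateField.adjoin k (Set.range ((↑) : s → L))) L :=
    hs.isAlgebraic_field
  have hsep : Algebra.IsSeparable (IntermediateField.adjoin k (Set.range ((↑) : s → L))) L :=
    inferInstance
  exact Algebra.FormallySmooth.of_algebraicIndependent_of_isSeparable hs.1

/-- lifting of a field of characteristic zero to a coefficient field. -/
theorem exists_coefficient_field_over {k : Type v} {S : Type u} [Field k] [CharZero k] [CommRing S]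
    [IsLocalRing S] [IsAdicComplete (maximalIdeal S) S] (f : k →+* S) :
    ∃ σ : ResidueField S →+* S, (∀ a, residue S (σ a) = a) ∧
      ∀ a, σ (residue S (f a)) = f a := by
  let : Algebra k S := f.toAlgebra
  let : Field (S ⧸ maximalIdeal S) := Ideal.Quotient.field _
  have : Algebra.FormallySmooth k (S ⧸ maximalIdeal S) :=
    formallySmooth_of_charZero k (S ⧸ maximalIdeal S)
  obtain ⟨g, hg⟩ := Algebra.FormallySmooth.exists_mkₐ_comp_eq_of_isAdicComplete
    (R := k) (A := S ⧸ maximalIdeal S) (I := maximalIdeal S) (AlgHom.id k (S ⧸ maximalIdeal S))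
  refine ⟨g.toRingHom, fun a => ?_, fun a => ?_⟩
  · exact congr($hg a)
  · exact g.commutes a

/-- D10b: coefficient fields in characteristic zero. -/
theorem exists_coefficient_fields {R S : Type u} [CommRing R] [IsLocalRing R]
    [IsAdicComplete (maximalIdeal R) R] [CommRing S] [IsLocalRing S]
    [IsAdicComplete (maximalIdeal S) S] [Algebra R S] [IsLocalHom (algebraMap R S)]
    [Algebra ℚ R] :
    ∃ (σR : ResidueField R →+* R) (σS : ResidueField S →+* S),
      (∀ a, residue R (σR a) = a) ∧ (∀ a, residue S (σS a) = a) ∧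
      ∀ a, algebraMap R S (σR a) = σS (ResidueField.map (algebraMap R S) a) := by
  obtain ⟨σR, h1, -⟩ := exists_coefficient_field_over (k := ℚ) (S := R) (algebraMap ℚ R)
  have : CharZero (ResidueField R) := by
    have h : Function.Injective ((residue R).comp (algebraMap ℚ R)) := RingHom.injective _
    exact charZero_of_injective_ringHom h
  obtain ⟨σS, h2, h3⟩ := exists_coefficient_field_over (k := ResidueField R) (S := S)
    ((algebraMap R S).comp σR)
  refine ⟨σR, σS, h1, h2, fun a => ?_⟩
  have h4 := h3 a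
  rw [RingHom.comp_apply] at h4
  rw [← h4]
  congr 1
  conv_rhs => rw [← h1 a]
  rw [ResidueField.map_residue]

end Coeff

section Fin

/-- finite free modules over precomplete rings are precomplete. -/
theorem isPrecomplete_pi {L : Type*} [CommRing L] (I : Ideal L) [IsPrecomplete I L] (n : ℕ) :
    IsPrecomplete I (Fin n → L) := by
  have key : ∀ (m : ℕ) (v : Fin n → L),
      v ∈ (I ^ m • (⊤ : Submodule L (Fin n → L))) ↔ ∀ i, v i ∈ I ^ m := by
    intro m v
    constructor
    · intro h i
      have h2 : (LinearMap.proj i : (Fin n → L) →ₗ[L] L) v ∈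
          Submodule.map (LinearMap.proj i : (Fin n → L) →ₗ[L] L)
            (I ^ m • (⊤ : Submodule L (Fin n → L))) := Submodule.mem_map_of_mem h
      rw [Submodule.map_smul''] at h2
      have h3 := Submodule.smul_mono (le_refl (I ^ m)) (le_top : Submodule.map (LinearMap.proj i :
        (Fin n → L) →ₗ[L] L) (⊤ : Submodule L (Fin n → L)) ≤ ⊤) h2
      simpa using h3
    · intro h
      have h2 : v = ∑ i, v i • (Pi.single i (1 : L) : Fin n → L) := by
        ext j
        simp [Finset.sum_apply, Pi.single_apply]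
      rw [h2]
      exact Submodule.sum_mem _ fun i _ => Submodule.smul_mem_smul (h i) trivial
  refine ⟨fun f hf => ?_⟩
  have h1 : ∀ i, ∃ l : L, ∀ m, f m i ≡ l [SMOD (I ^ m • ⊤ : Submodule L L)] := by
    intro i
    refine IsPrecomplete.prec ‹_› (f := fun m => f m i) fun {m m'} hm => ?_
    have h2 := hf hm
    rw [SModEq.sub_mem, key] at h2
    rw [SModEq.sub_mem, smul_eq_mul, Ideal.mul_top]
    exact h2 i
  choose l hl using h1
  refine ⟨l, fun m => ?_⟩
  rw [SModEq.sub_mem, key]
  intro i
  have h2 := hl i m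
  rw [SModEq.sub_mem, smul_eq_mul, Ideal.mul_top] at h2
  exact h2

/-- D10c: finiteness over the power series ring. -/
theorem finite_over_powerSeries {K S : Type*} [Field K] [CommRing S] [IsLocalRing S]
    [IsNoetherianRing S] [IsAdicComplete (maximalIdeal S) S] {d : ℕ}
    [Algebra (MvPowerSeries (Fin d) K) S]
    (hK : ∀ z : S, ∃ a : K, z - algebraMap (MvPowerSeries (Fin d) K) S (C a) ∈ maximalIdeal S)
    (hx : ∀ i, algebraMap (MvPowerSeries (Fin d) K) S (X i) ∈ maximalIdeal S)
    {M : ℕ} (hM : maximalIdeal S ^ M ≤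
      Ideal.span (Set.range fun i => algebraMap (MvPowerSeries (Fin d) K) S (X i))) :
    Module.Finite (MvPowerSeries (Fin d) K) S := by
  set L := MvPowerSeries (Fin d) K with hL
  set I : Ideal L := Ideal.span (Set.range X) with hI
  have hIS : I.map (algebraMap L S) =
      Ideal.span (Set.range fun i => algebraMap (MvPowerSeries (Fin d) K) S (X i)) := by
    rw [hI, Ideal.map_span, ← Set.range_comp]
    rfl
  have hIm : I.map (algebraMap L S) ≤ maximalIdeal S := by
    rw [hIS, Ideal.span_le]
    rintro _ ⟨i, rfl⟩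
    exact hx i
  -- powers of the maximal ideal
  have step : ∀ m : ℕ, ∃ N : Submodule L S, N.FG ∧
      ∀ z : S, ∃ w ∈ N, z - w ∈ maximalIdeal S ^ m := by
    intro m
    induction m with
    | zero => exact ⟨⊥, Submodule.fg_bot, fun z => ⟨0, by simp, by simp⟩⟩
    | succ m ih =>
      obtain ⟨N, hN, h⟩ := ih
      obtain ⟨T, hT⟩ := (IsNoetherian.noetherian (maximalIdeal S ^ m) : (maximalIdeal S ^ m).FG)
      refine ⟨N ⊔ Submodule.span L (T : Set S), hN.sup ⟨T, rfl⟩, fun z => ?_⟩
      obtain ⟨w, hw, hzw⟩ := h z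
      rw [← hT] at hzw
      obtain ⟨c, -, hc⟩ := Submodule.mem_span_finset.1 hzw
      choose a ha using hK
      refine ⟨w + ∑ t ∈ T, (C (a (c t)) : L) • t, ?_, ?_⟩
      · refine Submodule.add_mem_sup hw (Submodule.sum_mem _ fun t ht => ?_)
        exact Submodule.smul_mem _ _ (Submodule.subset_span ht)
      · have h2 : z - (w + ∑ t ∈ T, (C (a (c t)) : L) • t) =
            ∑ t ∈ T, (c t - algebraMap L S (C (a (c t)))) * t := by
          rw [← sub_sub, ← hc, ← Finset.sum_sub_distrib]
          refine Finset.sum_congr rfl fun t _ => ?_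
          rw [smul_eq_mul, sub_mul, Algebra.smul_def]
        rw [h2, pow_succ']
        refine Ideal.sum_mem _ fun t ht => Ideal.mul_mem_mul (ha _) ?_
        rw [← hT]
        exact Submodule.subset_span ht
  obtain ⟨N, ⟨T, hT⟩, h⟩ := step M
  -- the surjection
  obtain ⟨n, g, hg⟩ : ∃ (n : ℕ) (g : Fin n → S), Set.range g = (T : Set S) := by
    obtain ⟨n, ⟨e⟩⟩ := Finite.exists_equiv_fin (T : Set S)
    exact ⟨n, fun i => (e.symm i : S), by
      ext z
      constructor
      · rintro ⟨i, rfl⟩
        exact (e.symm i).2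
      · intro hz
        exact ⟨e ⟨z, hz⟩, by simp⟩⟩
  have := isPrecomplete_pi I n
  have : IsHausdorff (I.map (algebraMap L S)) S :=
    IsHausdorff.of_le_jacobson _ _ (hIm.trans (maximalIdeal_le_jacobson _))
  have : IsHausdorff I S := IsHausdorff.map_algebraMap_iff.1 this
  have hsurj : Function.Surjective (Fintype.linearCombination L g) := by
    apply surjective_of_mkQ_comp_surjective (I := I)
    intro z
    obtain ⟨z, rfl⟩ := Submodule.mkQ_surjective _ z
    obtain ⟨w, hw, hzw⟩ := h z
    rw [← hT, ← hg, ← Fintype.range_linearCombination] at hw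
    obtain ⟨v, rfl⟩ := hw
    refine ⟨v, ?_⟩
    rw [LinearMap.comp_apply, ← sub_eq_zero, ← map_sub, Submodule.mkQ_apply,
      Submodule.Quotient.mk_eq_zero, Ideal.smul_top_eq_map, Submodule.restrictScalars_mem, hIS]
    rw [← neg_mem_iff, neg_sub]
    exact hM hzw
  exact Module.Finite.of_surjective _ hsurj

end Fin

end Vale.Agent.P202.CZ
end

section

/-!
P202-ARBK: every field of characteristic `p` is formally smooth over the prime field.
-/

namespace Vale.Agent.P202.CharP.ArbK

open Polynomial

universe u v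

section fs

variable (p : ℕ) [hp : Fact p.Prime]

/-- sections of square-zero extensions of a field in characteristic `p`. -/
theorem exists_section_of_sq_zero {T : Type*} {k : Type*} [CommRing T] [CharP T p] [Field k]
    (π : T →+* k) (hπ : Function.Surjective π) (hN : ∀ a b, π a = 0 → π b = 0 → a * b = 0) :
    ∃ s : k →+* T, π.comp s = RingHom.id k := by
  have hkp : CharP k p := by
    rw [CharP.charP_iff_prime_eq_zero hp.out]
    have h1 : ((p : ℕ) : T) = 0 := CharP.cast_eq_zero T p
    have h2 := congr(π $h1)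
    rwa [map_natCast, map_zero] at h2
  have hN2 : ∀ a, π a = 0 → a ^ p = 0 := by
    intro a ha
    obtain ⟨m, hm⟩ := Nat.exists_eq_add_of_le hp.out.two_le
    rw [hm, pow_add, pow_two, hN a a ha ha, zero_mul]
  -- the set of subfields
  let F : Set (Subring T) := {G | IsField G ∧ ∀ t : T, t ^ p ∈ G}
  have hker : ∀ G ∈ F, ∀ a ∈ G, π a = 0 → a = 0 := by
    intro G hG a ha h0
    by_contra hne
    obtain ⟨b, hb⟩ := hG.1.mul_inv_cancel (a := ⟨a, ha⟩) (fun h => hne congr(($h : T)))
    have h1 : a * (b : T) = 1 := congr(($hb : T))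
    have h2 := congr(π $h1)
    rw [map_mul, h0, zero_mul, map_one] at h2
    exact zero_ne_one h2
  obtain ⟨G, -, hG⟩ : ∃ G, ((frobenius T p).range) ≤ G ∧ Maximal (· ∈ F) G := by
    refine zorn_le_nonempty₀ F ?_ _ ?_
    · intro c hc hchain y hy
      refine ⟨sSup c, ⟨⟨⟨0, 1, fun h => ?_⟩, mul_comm, ?_⟩, ?_⟩, fun z hz => le_sSup hz⟩
      · have h1 : (0 : T) = 1 := congr(($h : T))
        have h2 := congr(π $h1)
        rw [map_zero, map_one] at h2
        exact zero_ne_one h2
      · rintro ⟨a, ha⟩ hne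
        rw [← SetLike.mem_coe, Subring.coe_sSup_of_directedOn ⟨y, hy⟩ hchain.directedOn,
          Set.mem_iUnion₂] at ha
        obtain ⟨G, hG, ha⟩ := ha
        obtain ⟨b, hb⟩ := (hc hG).1.mul_inv_cancel (a := ⟨a, ha⟩) (fun h => hne (by
          have h1 : a = 0 := congr(($h : T))
          exact Subtype.ext h1))
        refine ⟨⟨b, le_sSup hG b.2⟩, ?_⟩
        have h1 : a * (b : T) = 1 := congr(($hb : T))
        exact Subtype.ext h1
      · intro t
        exact le_sSup hy ((hc hy).2 t)
    · refine ⟨⟨⟨0, 1, fun h => ?_⟩, mul_comm, ?_⟩, fun t => ⟨t, rfl⟩⟩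
      · have h1 : (0 : T) = 1 := congr(($h : T))
        have h2 := congr(π $h1)
        rw [map_zero, map_one] at h2
        exact zero_ne_one h2
      · rintro ⟨_, t, rfl⟩ hne
        have h0 : π t ≠ 0 := by
          intro h
          refine hne (Subtype.ext ?_)
          change t ^ p = 0
          exact hN2 t h
        obtain ⟨u, hu⟩ := hπ (π t)⁻¹
        refine ⟨⟨frobenius T p u, u, rfl⟩, Subtype.ext ?_⟩
        change t ^ p * u ^ p = 1
        have h1 : π (t * u - 1) = 0 := by
          rw [map_sub, map_mul, hu, mul_inv_cancel₀ h0, map_one, sub_self]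
        have h2 := hN2 _ h1
        rw [sub_pow_char, one_pow, mul_pow] at h2
        exact sub_eq_zero.mp h2
  have hGF := hG.prop
  -- maximality
  have hsurj : ∀ b : k, ∃ a ∈ G, π a = b := by
    intro b
    by_contra hb
    push Not at hb
    obtain ⟨t, rfl⟩ := hπ b
    let _ : Field G := hGF.1.toField
    let β : G := ⟨t ^ p, hGF.2 t⟩
    have hirr : Irreducible (X ^ p - C β : G[X]) := by
      refine X_pow_sub_C_irreducible_of_prime hp.out fun c hc => ?_
      refine hb c c.2 ?_
      have h1 : ((c : T)) ^ p = t ^ p := congr(($hc : T))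
      have h2 := congr(π $h1)
      rw [map_pow, map_pow] at h2
      exact frobenius_inj k p h2
    have : Fact (Irreducible (X ^ p - C β : G[X])) := ⟨hirr⟩
    let φ : AdjoinRoot (X ^ p - C β : G[X]) →+* T := AdjoinRoot.lift G.subtype t (by
      rw [eval₂_sub, eval₂_pow, eval₂_X, eval₂_C]
      exact sub_self _)
    have hφ : Function.Injective φ := by
      have : Nontrivial T := ⟨⟨1, 0, fun h => by
        have h2 := congr(π $h)
        rw [map_zero, map_one] at h2
        exact one_ne_zero h2⟩⟩
      exact RingHom.injective φ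
    let e : φ.range ≃+* AdjoinRoot (X ^ p - C β : G[X]) :=
      (RingEquiv.ofBijective φ.rangeRestrict ⟨fun a b hab => hφ (congrArg Subtype.val hab),
        φ.rangeRestrict_surjective⟩).symm
    have h1 : IsField φ.range := e.toMulEquiv.isField (Field.toIsField _)
    have h2 : G ≤ φ.range := by
      intro g hg
      refine ⟨AdjoinRoot.of _ ⟨g, hg⟩, ?_⟩
      rw [AdjoinRoot.lift_of]
      rfl
    have h3 : φ.range ≤ G := hG.le_of_ge ⟨h1, fun a => h2 (hGF.2 a)⟩ h2
    have h4 : t ∈ φ.range := ⟨AdjoinRoot.root _, AdjoinRoot.lift_root _⟩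
    exact hb t (h3 h4) rfl
  let ψ : G →+* k := π.comp G.subtype
  have hψ : Function.Bijective ψ := by
    constructor
    · rw [injective_iff_map_eq_zero]
      intro a ha
      exact Subtype.ext (hker G hGF a a.2 ha)
    · intro b
      obtain ⟨a, ha, hab⟩ := hsurj b
      exact ⟨⟨a, ha⟩, hab⟩
  let e := RingEquiv.ofBijective ψ hψ
  refine ⟨G.subtype.comp e.symm, ?_⟩
  ext b
  exact e.apply_symm_apply b

/-- every field of characteristic `p` is formally smooth over the prime field. -/
theorem formallySmooth_zmod (k : Type v) [Field k] [Algebra (ZMod p) k] :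
    Algebra.FormallySmooth (ZMod p) k := by
  rw [Algebra.FormallySmooth.iff_comp_surjective]
  intro B _ _ I hI f
  -- the fibre product
  let T : Subring (k × B) := RingHom.eqLocus
    ((f : k →+* B ⧸ I).comp (RingHom.fst k B)) ((Ideal.Quotient.mk I).comp (RingHom.snd k B))
  have hT : ∀ z : k × B, z ∈ T ↔ f z.1 = Ideal.Quotient.mk I z.2 := fun z => Iff.rfl
  let π : T →+* k := (RingHom.fst k B).comp T.subtype
  have hπ : Function.Surjective π := by
    intro a
    obtain ⟨b, hb⟩ := Ideal.Quotient.mk_surjective (f a)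
    exact ⟨⟨(a, b), hb.symm⟩, rfl⟩
  have hN : ∀ a b, π a = 0 → π b = 0 → a * b = 0 := by
    rintro ⟨⟨a, u⟩, hu⟩ ⟨⟨b, v⟩, hv⟩ ha hb
    have ha' : a = 0 := ha
    have hb' : b = 0 := hb
    subst ha' hb'
    rw [hT, map_zero] at hu hv
    have h1 : u * v ∈ I ^ 2 := by
      rw [pow_two]
      exact Ideal.mul_mem_mul (Ideal.Quotient.eq_zero_iff_mem.mp hu.symm)
        (Ideal.Quotient.eq_zero_iff_mem.mp hv.symm)
    rw [hI] at h1
    refine Subtype.ext (Prod.ext ?_ h1)
    exact mul_zero _
  have : Nontrivial T := ⟨⟨1, 0, fun h => by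
    have h2 := congr(π $h)
    rw [map_zero, map_one] at h2
    exact one_ne_zero h2⟩⟩
  have hTp : CharP T p := by
    rw [CharP.charP_iff_prime_eq_zero hp.out]
    refine Subtype.ext (Prod.ext ?_ ?_)
    · change ((p : ℕ) : k) = 0
      rw [← map_natCast (algebraMap (ZMod p) k), CharP.cast_eq_zero, map_zero]
    · change ((p : ℕ) : B) = 0
      rw [← map_natCast (algebraMap (ZMod p) B), CharP.cast_eq_zero, map_zero]
  obtain ⟨s, hs⟩ := exists_section_of_sq_zero p π hπ hN
  let g : k →+* B := (RingHom.snd k B).comp (T.subtype.comp s)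
  refine ⟨{ g with commutes' := fun r => ?_ }, ?_⟩
  · exact RingHom.congr_fun (Subsingleton.elim (g.comp (algebraMap (ZMod p) k))
      (algebraMap (ZMod p) B)) r
  · ext a
    have h1 := (s a).2
    rw [hT] at h1
    have h2 : ((s a : k × B)).1 = a := congr($hs a)
    rw [h2] at h1
    exact h1.symm

end fs

end Vale.Agent.P202.CharP.ArbK
end

section

/-!
P202 MIX, M4a (helper768): a flatness criterion for a nilpotent element.
-/

namespace Vale.Agent.P202.Mix

universe u

/-- The equational criterion modulo `a ^ k`. -/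
def FlatMod {R M : Type u} [CommRing R] [AddCommGroup M] [Module R M] (a : R) (k : ℕ)
    (_ : M) : Prop :=
  ∀ (ι : Type) [Fintype ι] (b : ι → R) (m : ι → M), (∃ e : M, ∑ i, b i • m i = a ^ k • e) →
    ∃ (κ : Type) (_ : Fintype κ) (r : ι → κ → R) (n : κ → M) (m' : ι → M) (s : κ → R),
      (∀ i, m i = ∑ j, r i j • n j + a ^ k • m' i) ∧ ∀ j, ∑ i, b i * r i j = a ^ k * s j

theorem flatMod_succ {R M : Type u} [CommRing R] [AddCommGroup M] [Module R M] (a : R) (N : ℕ)
    (htor : ∀ m : M, a • m = 0 → ∃ m' : M, m = a ^ (N - 1) • m') (x : M)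
    (h1 : FlatMod a 1 x) (k : ℕ) (hk : k + 1 ≤ N) (ih : FlatMod a k x) :
    FlatMod a (k + 1) x := by
  intro ι _ b m he
  obtain ⟨e, he⟩ := he
  obtain ⟨κ, _, r, n, m', s, hm, hs⟩ := h1 ι b m ⟨a ^ k • e, by rw [he, smul_smul]; ring_nf⟩
  simp only [pow_one] at hm hs
  -- the new relation
  have hX : ∃ e' : M, ∑ j, s j • n j + ∑ i, b i • m' i = a ^ k • e' := by
    have h2 : a • (∑ j, s j • n j + ∑ i, b i • m' i) = a ^ (k + 1) • e := by
      rw [← he, smul_add, Finset.smul_sum, Finset.smul_sum]
      have h3 : ∑ i, b i • m i = ∑ i, ∑ j, (b i * r i j) • n j + ∑ i, a • b i • m' i := by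
        rw [← Finset.sum_add_distrib]
        refine Finset.sum_congr rfl fun i _ => ?_
        conv_lhs => rw [hm i]
        rw [smul_add, Finset.smul_sum, smul_comm a (b i)]
        congr 1
        exact Finset.sum_congr rfl fun j _ => smul_smul _ _ _
      rw [h3, Finset.sum_comm]
      congr 1
      refine Finset.sum_congr rfl fun j _ => ?_
      rw [← Finset.sum_smul, hs j, smul_smul]
    have h4 : a • (∑ j, s j • n j + ∑ i, b i • m' i - a ^ k • e) = 0 := by
      rw [smul_sub, h2, smul_smul, ← pow_succ', sub_self]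
    obtain ⟨z, hz⟩ := htor _ h4
    refine ⟨e + a ^ (N - 1 - k) • z, ?_⟩
    rw [smul_add, smul_smul, ← pow_add, show k + (N - 1 - k) = N - 1 by omega, ← hz]
    abel
  obtain ⟨e', he'⟩ := hX
  obtain ⟨Λ, _, r', n', m'', s', hm2, hs2⟩ := ih (κ ⊕ ι) (Sum.elim s b) (Sum.elim n m')
    ⟨e', by rw [Fintype.sum_sum_type]; exact he'⟩
  have hn2 : ∀ j, n j = ∑ l, r' (Sum.inl j) l • n' l + a ^ k • m'' (Sum.inl j) :=
    fun j => hm2 (Sum.inl j)
  have hm3 : ∀ i, m' i = ∑ l, r' (Sum.inr i) l • n' l + a ^ k • m'' (Sum.inr i) :=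
    fun i => hm2 (Sum.inr i)
  have hs3 : ∀ l, ∑ j, s j * r' (Sum.inl j) l + ∑ i, b i * r' (Sum.inr i) l = a ^ k * s' l := by
    intro l
    rw [← hs2 l, Fintype.sum_sum_type]
    rfl
  refine ⟨Λ ⊕ κ, inferInstance,
    fun i => Sum.elim (fun l => ∑ j, r i j * r' (Sum.inl j) l + a * r' (Sum.inr i) l)
      (fun j => a ^ k * r i j),
    Sum.elim n' (fun j => m'' (Sum.inl j)), fun i => m'' (Sum.inr i),
    Sum.elim s' s, fun i => ?_, fun q => ?_⟩
  · rw [Fintype.sum_sum_type]
    simp only [Sum.elim_inl, Sum.elim_inr]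
    have e1 : ∑ l, (∑ j, r i j * r' (Sum.inl j) l + a * r' (Sum.inr i) l) • n' l =
        ∑ j, r i j • ∑ l, r' (Sum.inl j) l • n' l + a • ∑ l, r' (Sum.inr i) l • n' l := by
      rw [Finset.smul_sum]
      simp_rw [Finset.smul_sum, add_smul, Finset.sum_smul, smul_smul]
      rw [Finset.sum_add_distrib, Finset.sum_comm]
    have e2 : ∑ j, (a ^ k * r i j) • m'' (Sum.inl j) =
        ∑ j, r i j • a ^ k • m'' (Sum.inl j) :=
      Finset.sum_congr rfl fun j _ => by rw [smul_smul, mul_comm]
    have e3 : a ^ (k + 1) • m'' (Sum.inr i) = a • a ^ k • m'' (Sum.inr i) := by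
      rw [smul_smul, pow_succ']
    have e4 : ∑ j, r i j • n j = ∑ j, r i j • ∑ l, r' (Sum.inl j) l • n' l +
        ∑ j, r i j • a ^ k • m'' (Sum.inl j) := by
      rw [← Finset.sum_add_distrib]
      refine Finset.sum_congr rfl fun j _ => ?_
      rw [← smul_add, ← hn2 j]
    have e5 : a • m' i = a • ∑ l, r' (Sum.inr i) l • n' l + a • a ^ k • m'' (Sum.inr i) := by
      rw [← smul_add, ← hm3 i]
    rw [e1, e2, e3, hm i, e4, e5]
    abel
  · rcases q with l | j
    · simp only [Sum.elim_inl]
      have e1 : ∑ i, b i * (∑ j, r i j * r' (Sum.inl j) l + a * r' (Sum.inr i) l) =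
          ∑ j, (∑ i, b i * r i j) * r' (Sum.inl j) l + a * ∑ i, b i * r' (Sum.inr i) l := by
        simp_rw [mul_add, Finset.mul_sum, Finset.sum_mul]
        rw [Finset.sum_add_distrib, Finset.sum_comm]
        congr 1
        · exact Finset.sum_congr rfl fun j _ => Finset.sum_congr rfl fun i _ => by ring
        · exact Finset.sum_congr rfl fun i _ => by ring
      rw [e1, pow_succ', mul_assoc, ← hs3 l, mul_add]
      congr 1
      rw [Finset.mul_sum]
      exact Finset.sum_congr rfl fun j _ => by rw [hs j, mul_assoc]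
    · simp only [Sum.elim_inr]
      have e1 : ∑ i, b i * (a ^ k * r i j) = a ^ k * ∑ i, b i * r i j := by
        rw [Finset.mul_sum]
        exact Finset.sum_congr rfl fun i _ => by ring
      rw [e1, hs j, pow_succ, mul_assoc]

end Vale.Agent.P202.Mix
end

section

/-!
P202, mixed characteristic: the limits `e → ∞` and `b → ∞` in the final assembly.
-/

namespace Vale.Agent.P202.Mix

open scoped ENNReal Topology

/-- The limit `e → ∞`. -/
theorem arith_limit {P : Type} [Fintype P] (W W' bj bL t0 lT a a1 s s1 : ℝ≥0∞)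
    (_ : W ≠ ⊤) (hW' : W' ≠ ⊤) (hbj : bj ≠ ⊤) (hbL : bL ≠ ⊤) (_ : t0 ≠ ⊤) (hlT : lT ≠ ⊤)
    (Q Z Pj M T ζ : ℕ → P → ℝ≥0∞) (hZ : ∀ e π, Z e π = t0 * ζ e π)
    (hT : ∀ e π, T e π = lT * ζ e π)
    (h1 : ∀ ε : ℝ≥0∞, ε ≠ 0 → ∀ π, ∀ᶠ e in Filter.atTop, W * Z e π ≤ Q e π + ε)
    (h2 : ∀ ε : ℝ≥0∞, ε ≠ 0 → ∀ π, ∀ᶠ e in Filter.atTop, bj * Q e π ≤ Pj e π + ε)
    (h3 : ∀ e π, M e π ≤ bL * (W' * T e π))
    (h4 : ∀ᶠ e in Filter.atTop, a ≤ ∑ π, M e π + a1)
    (h5 : ∀ᶠ e in Filter.atTop, ∑ π, Pj e π ≤ s + s1) :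
    bj * W * t0 * a ≤ bL * W' * lT * (s + s1) + bj * W * t0 * a1 := by
  set K : ℝ≥0∞ := bL * W' * lT * (Fintype.card P * (1 + bj)) + 1 with hK
  have hK0 : K ≠ 0 := by
    rw [hK]
    exact (lt_of_lt_of_le one_pos le_add_self).ne'
  have hKt : K ≠ ⊤ := by
    rw [hK]
    refine ENNReal.add_ne_top.mpr ⟨ENNReal.mul_ne_top (ENNReal.mul_ne_top (ENNReal.mul_ne_top
      hbL hW') hlT) (ENNReal.mul_ne_top (ENNReal.natCast_ne_top _)
      (ENNReal.add_ne_top.mpr ⟨ENNReal.one_ne_top, hbj⟩)), ENNReal.one_ne_top⟩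
  refine ENNReal.le_of_forall_pos_le_add fun δ hδ _ => ?_
  have hδ0 : (δ : ℝ≥0∞) ≠ 0 := by
    exact_mod_cast hδ.ne'
  set ε : ℝ≥0∞ := δ / K with hε
  have hε0 : ε ≠ 0 := ENNReal.div_ne_zero.mpr ⟨hδ0, hKt⟩
  have hKε : bL * W' * lT * (Fintype.card P * (1 + bj)) * ε ≤ δ := by
    calc bL * W' * lT * (Fintype.card P * (1 + bj)) * ε ≤ K * ε :=
          mul_le_mul_left (le_self_add) _
      _ ≤ δ := ENNReal.mul_div_le
  have e1 := Filter.eventually_all.mpr (h1 ε hε0)
  have e2 := Filter.eventually_all.mpr (h2 ε hε0)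
  obtain ⟨e, ⟨⟨⟨g1, g2⟩, g4⟩, g5⟩⟩ := (((e1.and e2).and h4).and h5).exists
  have k1 : ∀ π, bj * W * t0 * ζ e π ≤ Pj e π + (1 + bj) * ε := by
    intro π
    calc bj * W * t0 * ζ e π = bj * (W * Z e π) := by rw [hZ]; ring
      _ ≤ bj * (Q e π + ε) := mul_le_mul_right (g1 π) _
      _ = bj * Q e π + bj * ε := by ring
      _ ≤ (Pj e π + ε) + bj * ε := add_le_add_left (g2 π) _
      _ = Pj e π + (1 + bj) * ε := by ring
  have k2 : bj * W * t0 * ∑ π, M e π ≤ bL * W' * lT * (s + s1) + δ := by
    calc bj * W * t0 * ∑ π, M e π ≤ bj * W * t0 * ∑ π, bL * (W' * T e π) :=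
          mul_le_mul_right (Finset.sum_le_sum fun π _ => h3 e π) _
      _ = bL * W' * lT * ∑ π, bj * W * t0 * ζ e π := by
          rw [Finset.mul_sum, Finset.mul_sum]
          refine Finset.sum_congr rfl fun π _ => ?_
          rw [hT]
          ring
      _ ≤ bL * W' * lT * ∑ π, (Pj e π + (1 + bj) * ε) :=
          mul_le_mul_right (Finset.sum_le_sum fun π _ => k1 π) _
      _ = bL * W' * lT * (∑ π, Pj e π) +
          bL * W' * lT * (Fintype.card P * (1 + bj)) * ε := by
          rw [Finset.sum_add_distrib, Finset.sum_const, Finset.card_univ, nsmul_eq_mul]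
          ring
      _ ≤ bL * W' * lT * (s + s1) + δ :=
          add_le_add (mul_le_mul_right g5 _) hKε
  calc bj * W * t0 * a ≤ bj * W * t0 * (∑ π, M e π + a1) := mul_le_mul_right g4 _
    _ = bj * W * t0 * ∑ π, M e π + bj * W * t0 * a1 := by ring
    _ ≤ (bL * W' * lT * (s + s1) + δ) + bj * W * t0 * a1 := add_le_add_left k2 _
    _ = bL * W' * lT * (s + s1) + bj * W * t0 * a1 + δ := by ring

/-- The limit `b → ∞`. -/
theorem arith_final (p : ℕ) (hp : 2 ≤ p) (r bj bL t0 lT a a1 s s1 : ℕ) (hlT : 1 ≤ lT)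
    (h : ∀ b : ℕ, 1 ≤ p ^ b - (r + 1) - 1 - (r + 1) →
      (bj : ℝ≥0∞) * (((p ^ b - (r + 1) - 1 - (r + 1) : ℕ) : ℝ≥0∞)) ^ (r + 1) * t0 * (lT * a) ≤
        bL * ((p ^ b : ℕ) : ℝ≥0∞) ^ (r + 1) * lT * (s + s1) +
          bj * (((p ^ b - (r + 1) - 1 - (r + 1) : ℕ) : ℝ≥0∞)) ^ (r + 1) * t0 * (lT * a1)) :
    bj * t0 * a ≤ bL * (s + s1) + bj * t0 * a1 := by
  have hnat : ∀ b : ℕ, 1 ≤ p ^ b - (r + 1) - 1 - (r + 1) →
      bj * (p ^ b - (r + 1) - 1 - (r + 1)) ^ (r + 1) * t0 * a ≤
        bL * (p ^ b) ^ (r + 1) * (s + s1) +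
          bj * (p ^ b - (r + 1) - 1 - (r + 1)) ^ (r + 1) * t0 * a1 := by
    intro b hb
    have h1 := h b hb
    have h2 : bj * (p ^ b - (r + 1) - 1 - (r + 1)) ^ (r + 1) * t0 * (lT * a) ≤
        bL * (p ^ b) ^ (r + 1) * lT * (s + s1) +
          bj * (p ^ b - (r + 1) - 1 - (r + 1)) ^ (r + 1) * t0 * (lT * a1) := by
      exact_mod_cast h1
    refine le_of_mul_le_mul_left (a := lT) ?_ (by omega : 0 < lT)
    calc lT * (bj * (p ^ b - (r + 1) - 1 - (r + 1)) ^ (r + 1) * t0 * a)
        = bj * (p ^ b - (r + 1) - 1 - (r + 1)) ^ (r + 1) * t0 * (lT * a) := by ring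
      _ ≤ _ := h2
      _ = _ := by ring
  -- pass to the limit in `ℝ`
  set c : ℕ := (r + 1) + 1 + (r + 1) with hc
  have hpb : Filter.Tendsto (fun b : ℕ => p ^ b) Filter.atTop Filter.atTop :=
    tendsto_pow_atTop_atTop_of_one_lt (by omega : 1 < p)
  have hpR : Filter.Tendsto (fun b : ℕ => ((p ^ b : ℕ) : ℝ)) Filter.atTop Filter.atTop :=
    tendsto_natCast_atTop_atTop.comp hpb
  have hq : Filter.Tendsto (fun b : ℕ => (1 - (c : ℝ) / ((p ^ b : ℕ) : ℝ)) ^ (r + 1))
      Filter.atTop (𝓝 1) := by
    have h1 : Filter.Tendsto (fun b : ℕ => 1 - (c : ℝ) / ((p ^ b : ℕ) : ℝ))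
        Filter.atTop (𝓝 (1 - 0)) :=
      tendsto_const_nhds.sub (Filter.Tendsto.const_div_atTop hpR _)
    have h2 := h1.pow (r + 1)
    simpa using h2
  have hL : Filter.Tendsto (fun b : ℕ => (bj : ℝ) * (1 - (c : ℝ) / ((p ^ b : ℕ) : ℝ)) ^ (r + 1) *
      t0 * a) Filter.atTop (𝓝 ((bj : ℝ) * 1 * t0 * a)) :=
    ((hq.const_mul _).mul_const _).mul_const _
  have hR : Filter.Tendsto (fun b : ℕ => (bL : ℝ) * (s + s1) +
      (bj : ℝ) * (1 - (c : ℝ) / ((p ^ b : ℕ) : ℝ)) ^ (r + 1) * t0 * a1) Filter.atTop
      (𝓝 ((bL : ℝ) * (s + s1) + (bj : ℝ) * 1 * t0 * a1)) :=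
    tendsto_const_nhds.add (((hq.const_mul _).mul_const _).mul_const _)
  have key : (bj : ℝ) * 1 * t0 * a ≤ (bL : ℝ) * (s + s1) + (bj : ℝ) * 1 * t0 * a1 := by
    refine le_of_tendsto_of_tendsto hL hR ?_
    filter_upwards [hpb.eventually_ge_atTop (c + 1)] with b hb
    have hb1 : 1 ≤ p ^ b - (r + 1) - 1 - (r + 1) := by omega
    have h1 := hnat b hb1
    have h2 : p ^ b - (r + 1) - 1 - (r + 1) = p ^ b - c := by omega
    rw [h2] at h1
    have hpos : (0 : ℝ) < ((p ^ b : ℕ) : ℝ) := by
      exact_mod_cast (by omega : 0 < p ^ b)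
    have h3 : (bj : ℝ) * ((p ^ b - c : ℕ) : ℝ) ^ (r + 1) * t0 * a ≤
        (bL : ℝ) * ((p ^ b : ℕ) : ℝ) ^ (r + 1) * (s + s1) +
          (bj : ℝ) * ((p ^ b - c : ℕ) : ℝ) ^ (r + 1) * t0 * a1 := by
      exact_mod_cast h1
    have h4 : ((p ^ b - c : ℕ) : ℝ) = ((p ^ b : ℕ) : ℝ) * (1 - (c : ℝ) / ((p ^ b : ℕ) : ℝ)) := by
      rw [Nat.cast_sub (by omega)]
      field_simp
    rw [h4, mul_pow] at h3
    have hN : (0 : ℝ) < ((p ^ b : ℕ) : ℝ) ^ (r + 1) := pow_pos hpos _
    refine le_of_mul_le_mul_left ?_ hN
    calc ((p ^ b : ℕ) : ℝ) ^ (r + 1) *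
        ((bj : ℝ) * (1 - (c : ℝ) / ((p ^ b : ℕ) : ℝ)) ^ (r + 1) * t0 * a)
        = (bj : ℝ) * (((p ^ b : ℕ) : ℝ) ^ (r + 1) *
          (1 - (c : ℝ) / ((p ^ b : ℕ) : ℝ)) ^ (r + 1)) * t0 * a := by ring
      _ ≤ _ := h3
      _ = _ := by ring
  have key2 : (bj : ℝ) * t0 * a ≤ (bL : ℝ) * (s + s1) + (bj : ℝ) * t0 * a1 := by
    simpa using key
  exact_mod_cast key2

end Vale.Agent.P202.Mix
end

section

/-!
P202-CHARP, task M2: the toggle homotopy.
-/

namespace Vale.Agent.P202.CharP

namespace TogM

open Finset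

variable {r : ℕ} {V : Type*} [AddCommGroup V]

theorem sg_mul_self (i : Fin r) (J : Finset (Fin r)) : sg i J * sg i J = 1 := by
  unfold sg
  rw [← pow_add, ← two_mul, pow_mul]
  simp

theorem sg_erase_self (i : Fin r) (J : Finset (Fin r)) : sg i (J.erase i) = sg i J := by
  unfold sg
  congr 2
  ext x
  simp only [mem_filter, mem_erase]
  constructor
  · rintro ⟨⟨_, h⟩, h'⟩; exact ⟨h, h'⟩
  · rintro ⟨h, h'⟩; exact ⟨⟨h'.ne, h⟩, h'⟩

theorem sg_insert_self (i : Fin r) (J : Finset (Fin r)) : sg i (insert i J) = sg i J := by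
  unfold sg
  congr 2
  ext x
  simp only [mem_filter, mem_insert]
  constructor
  · rintro ⟨h | h, h'⟩
    · exact absurd h h'.ne
    · exact ⟨h, h'⟩
  · rintro ⟨h, h'⟩; exact ⟨Or.inr h, h'⟩

theorem sg_erase_of_le {i j : Fin r} (J : Finset (Fin r)) (h : i ≤ j) :
    sg i (J.erase j) = sg i J := by
  unfold sg
  congr 2
  ext x
  simp only [mem_filter, mem_erase]
  constructor
  · rintro ⟨⟨_, h1⟩, h'⟩; exact ⟨h1, h'⟩
  · rintro ⟨h1, h'⟩; exact ⟨⟨(h'.trans_le h).ne, h1⟩, h'⟩

theorem sg_erase_of_lt {i j : Fin r} {J : Finset (Fin r)} (hj : j ∈ J) (h : j < i) :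
    sg i (J.erase j) = - sg i J := by
  unfold sg
  have e : ((J.erase j).filter (· < i)) = (J.filter (· < i)).erase j := by
    ext x; simp only [mem_filter, mem_erase]; tauto
  have hm : j ∈ (J.filter (· < i)) := by simp [hj, h]
  have hc := card_erase_add_one hm
  rw [e, ← hc, pow_succ]
  ring

theorem sg_insert_of_le {i j : Fin r} (J : Finset (Fin r)) (h : i ≤ j) :
    sg i (insert j J) = sg i J := by
  unfold sg
  congr 2
  ext x
  simp only [mem_filter, mem_insert]
  constructor
  · rintro ⟨h1 | h1, h'⟩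
    · exact absurd (h1 ▸ h') (not_lt.2 h)
    · exact ⟨h1, h'⟩
  · rintro ⟨h1, h'⟩; exact ⟨Or.inr h1, h'⟩

theorem sg_insert_of_lt {i j : Fin r} {J : Finset (Fin r)} (hj : j ∉ J) (h : j < i) :
    sg i (insert j J) = - sg i J := by
  have := sg_erase_of_lt (i := i) (mem_insert_self j J) h
  rw [erase_insert hj] at this
  rw [this]; ring

/-- wedge with the sum of all basis vectors. -/
def wdd (f : Finset (Fin r) → V) (J : Finset (Fin r)) : V :=
  ∑ i ∈ J, sg i J • f (J.erase i)

/-- contraction with the `i`-th dual basis vector. -/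
def wcc (i : Fin r) (f : Finset (Fin r) → V) (J : Finset (Fin r)) : V :=
  if i ∈ J then 0 else sg i J • f (insert i J)

theorem wdd_wcc (i : Fin r) (f : Finset (Fin r) → V) (J : Finset (Fin r)) :
    wdd (wcc i f) J + wcc i (wdd f) J = f J := by
  by_cases hi : i ∈ J
  · have h2 : wcc i (wdd f) J = 0 := by simp [wcc, hi]
    rw [h2, add_zero]
    unfold wdd
    rw [sum_eq_single i]
    · simp only [wcc, mem_erase, ne_eq, not_true_eq_false, false_and, if_false]
      rw [insert_erase hi, sg_erase_self, smul_smul, sg_mul_self, one_smul]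
    · intro j hj hji
      have : i ∈ J.erase j := mem_erase.2 ⟨Ne.symm hji, hi⟩
      simp [wcc, this]
    · intro h; exact absurd hi h
  · have h2 : wcc i (wdd f) J =
        f J + ∑ j ∈ J, (sg i J * sg j (insert i J)) • f (insert i (J.erase j)) := by
      simp only [wcc, hi, if_false, wdd]
      rw [sum_insert hi, smul_add, smul_smul, erase_insert hi, sg_insert_self, sg_mul_self,
        one_smul, smul_sum]
      congr 1
      refine sum_congr rfl ?_
      intro j hj
      have : j ≠ i := fun e => hi (e ▸ hj)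
      rw [smul_smul, erase_insert_of_ne this.symm]
    have h1 : wdd (wcc i f) J =
        ∑ j ∈ J, (sg j J * sg i (J.erase j)) • f (insert i (J.erase j)) := by
      unfold wdd
      refine sum_congr rfl ?_
      intro j hj
      have : i ∉ J.erase j := fun h => hi (mem_of_mem_erase h)
      simp only [wcc, this, if_false]
      rw [smul_smul]
    rw [h1, h2, add_comm, add_assoc, ← sum_add_distrib]
    rw [sum_eq_zero, add_zero]
    intro j hj
    have hne : j ≠ i := fun e => hi (e ▸ hj)
    rw [← add_smul]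
    rcases lt_or_gt_of_ne hne with h | h
    · rw [sg_erase_of_lt hj h, sg_insert_of_le J h.le]
      have : sg i J * sg j J + sg j J * -sg i J = 0 := by ring
      rw [this, zero_smul]
    · rw [sg_insert_of_lt hi h, sg_erase_of_le J h.le]
      have : sg i J * -sg j J + sg j J * sg i J = 0 := by ring
      rw [this, zero_smul]

variable {κ : Type*} [Field κ]

/-- the coefficient at `g` as a linear map. -/
noncomputable def cfL (κ : Type*) [Field κ] {r : ℕ} (g : Gx r) : Lau κ r →ₗ[κ] κ where
  toFun f := cf f g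
  map_add' f f' := cf_add f f' g
  map_smul' _ _ := rfl

lemma cfL_apply (g : Gx r) (f : Lau κ r) : cfL κ g f = cf f g := rfl

lemma cf_ext {f f' : Lau κ r} (h : ∀ g, cf f g = cf f' g) : f = f' :=
  AddMonoidAlgebra.ext (Finsupp.ext h)

lemma cf_smul (c : κ) (f : Lau κ r) (g : Gx r) : cf (c • f) g = c * cf f g := rfl

lemma cf_zsmul (c : ℤ) (f : Lau κ r) (g : Gx r) : cf (c • f) g = c • cf f g := by
  rw [← cfL_apply, map_zsmul, cfL_apply]

lemma cf_sum {ι : Type*} (s : Finset ι) (F : ι → Lau κ r) (g : Gx r) :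
    cf (∑ i ∈ s, F i) g = ∑ i ∈ s, cf (F i) g := by
  rw [← cfL_apply, map_sum]; rfl

/-- restriction of the support to a set of exponents. -/
noncomputable def cut (κ : Type*) [Field κ] {r : ℕ} (p : Gx r → Prop) : Lau κ r →ₗ[κ] Lau κ r := by
  classical
  exact
  { toFun := fun f => (AddMonoidAlgebra.ofCoeff (Finsupp.filter p f.coeff) :
      AddMonoidAlgebra κ (Gx r))
    map_add' := fun f f' => by
      apply cf_ext
      intro g
      show Finsupp.filter p (f + f').coeff g = Finsupp.filter p f.coeff g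
        + Finsupp.filter p f'.coeff g
      rw [Finsupp.filter_apply, Finsupp.filter_apply, Finsupp.filter_apply]
      split_ifs
      · exact cf_add f f' g
      · rw [add_zero]
    map_smul' := fun c f => by
      apply cf_ext
      intro g
      show Finsupp.filter p (c • f).coeff g = c * Finsupp.filter p f.coeff g
      rw [Finsupp.filter_apply, Finsupp.filter_apply]
      split_ifs
      · exact cf_smul c f g
      · rw [mul_zero] }

open Classical in
lemma cf_cut (p : Gx r → Prop) (f : Lau κ r) (g : Gx r) :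
    cf (cut κ p f) g = if p g then cf f g else 0 := by
  show Finsupp.filter p f.coeff g = _
  rw [Finsupp.filter_apply]
  rfl

open Classical in
/-- the chosen index. -/
noncomputable def i0 (a : Fin r → ℤ) (g : Gx r) : Option (Fin r) :=
  if h : ∃ i, 0 ≤ g.1 i ∧ a i + g.2 < g.1 i then some h.choose else none

lemma i0_some {a : Fin r → ℤ} {g : Gx r} {i : Fin r} (h : i0 a g = some i) :
    0 ≤ g.1 i ∧ a i + g.2 < g.1 i := by
  unfold i0 at h
  split_ifs at h with h'
  have := h'.choose_spec
  rw [Option.some.inj h] at this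
  exact this

lemma i0_none {a : Fin r → ℤ} {g : Gx r} (h : i0 a g = none) (i : Fin r) :
    g.1 i < 0 ∨ g.1 i ≤ a i + g.2 := by
  unfold i0 at h
  split_ifs at h with h'
  by_contra hc
  rw [not_or, not_lt, not_le] at hc
  exact h' ⟨i, hc⟩

/-- the homotopy. -/
noncomputable def hM (κ : Type*) [Field κ] {r : ℕ} (a : Fin r → ℤ) : Lam κ r →ₗ[κ] Lam κ r where
  toFun f J := ∑ i : Fin r, cut κ (fun g => i0 a g = some i) (wcc i f J)
  map_add' f f' := by
    funext J
    rw [Pi.add_apply, ← Finset.sum_add_distrib]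
    refine Finset.sum_congr rfl fun i _ => ?_
    rw [← map_add]
    congr 1
    unfold wcc
    split_ifs
    · rw [add_zero]
    · rw [Pi.add_apply, smul_add]
  map_smul' c f := by
    funext J
    rw [Pi.smul_apply, RingHom.id_apply, Finset.smul_sum]
    refine Finset.sum_congr rfl fun i _ => ?_
    rw [← map_smul]
    congr 1
    unfold wcc
    split_ifs
    · rw [smul_zero]
    · rw [Pi.smul_apply, smul_comm]

lemma cf_wcc (i : Fin r) (f : Lam κ r) (J : Finset (Fin r)) (g : Gx r) :
    cf (wcc i f J) g = wcc i (fun K => cf (f K) g) J := by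
  unfold wcc
  split_ifs
  · exact cf_zero g
  · exact cf_zsmul _ _ _

lemma cf_hM_some (a : Fin r → ℤ) (f : Lam κ r) (J : Finset (Fin r)) (g : Gx r) (i : Fin r)
    (h : i0 a g = some i) : cf (hM κ a f J) g = wcc i (fun K => cf (f K) g) J := by
  show cf (∑ i : Fin r, cut κ (fun g => i0 a g = some i) (wcc i f J)) g = _
  rw [cf_sum, Finset.sum_eq_single i]
  · rw [cf_cut, if_pos h, cf_wcc]
  · intro j _ hj
    rw [cf_cut, if_neg]
    rw [h]
    intro h2
    exact hj (Option.some.inj h2).symm
  · intro h2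
    exact absurd (Finset.mem_univ i) h2

lemma cf_hM_none (a : Fin r → ℤ) (f : Lam κ r) (J : Finset (Fin r)) (g : Gx r)
    (h : i0 a g = none) : cf (hM κ a f J) g = 0 := by
  show cf (∑ i : Fin r, cut κ (fun g => i0 a g = some i) (wcc i f J)) g = _
  rw [cf_sum]
  refine Finset.sum_eq_zero fun i _ => ?_
  rw [cf_cut, if_neg]
  rw [h]
  simp

lemma cf_dC (f : Lam κ r) (J : Finset (Fin r)) (g : Gx r) :
    cf (dC κ r f J) g = wdd (fun K => cf (f K) g) J := by
  show cf (∑ i ∈ J, sg i J • f (J.erase i)) g = _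
  rw [cf_sum]
  exact Finset.sum_congr rfl fun i _ => cf_zsmul _ _ _

/-- the projection. -/
noncomputable def piM (κ : Type*) [Field κ] {r : ℕ} (a : Fin r → ℤ) :
    Lam κ r →ₗ[κ] Lam κ r where
  toFun f J := cut κ (fun g => i0 a g = none) (f J)
  map_add' f f' := by
    funext J
    rw [Pi.add_apply, Pi.add_apply, map_add]
  map_smul' c f := by
    funext J
    rw [Pi.smul_apply, RingHom.id_apply, Pi.smul_apply, map_smul]

lemma cf_piM (a : Fin r → ℤ) (f : Lam κ r) (J : Finset (Fin r)) (g : Gx r) [Decidable (i0 a g = none)] :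
    cf (piM κ a f J) g = if i0 a g = none then cf (f J) g else 0 := by
  classical
  show cf (cut κ (fun g => i0 a g = none) (f J)) g = _
  rw [cf_cut]
  congr

end TogM

open TogM in
/-- TASK M2: the toggle homotopy. For a monomial `Z^s τ^j` having an index `i` with
`0 ≤ s i` and `a i + j < s i`, choose one such `i` (depending only on `(s, j)`) and remove it from
the slot; `π` is the projection on the remaining monomials. -/
theorem exists_homotopy {κ : Type*} [Field κ] {r : ℕ} (a : Fin r → ℤ) :
    ∃ h π : Lam κ r →ₗ[κ] Lam κ r,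
    (∀ f, f = dC κ r (h f) + h (dC κ r f) + π f) ∧
    (∀ f I g, cf (h f I) g ≠ 0 →
      ∃ i, i ∉ I ∧ cf (f (insert i I)) g ≠ 0 ∧ 0 ≤ g.1 i ∧ a i + g.2 < g.1 i) ∧
    (∀ f I g, cf (π f I) g ≠ 0 → cf (f I) g ≠ 0 ∧ ∀ i, g.1 i < 0 ∨ g.1 i ≤ a i + g.2) := by
  classical
  refine ⟨hM κ a, piM κ a, ?_, ?_, ?_⟩
  · intro f
    funext J
    apply cf_ext
    intro g
    rw [Pi.add_apply, Pi.add_apply, cf_add, cf_add, cf_dC]
    rcases h : i0 a g with _ | i
    · rw [cf_hM_none a _ J g h, cf_piM, if_pos h]
      have : (fun K => cf (hM κ a f K) g) = fun _ => 0 := by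
        funext K
        exact cf_hM_none a f K g h
      rw [this]
      simp [wdd]
    · rw [cf_hM_some a _ J g i h, cf_piM, if_neg (by rw [h]; simp), add_zero]
      have h1 : (fun K => cf (hM κ a f K) g) = wcc i (fun K => cf (f K) g) := by
        funext K
        exact cf_hM_some a f K g i h
      have h2 : (fun K => cf (dC κ r f K) g) = wdd (fun K => cf (f K) g) := by
        funext K
        exact cf_dC f K g
      rw [h1, h2, wdd_wcc]
  · intro f I g hne
    rcases h : i0 a g with _ | i
    · exact absurd (cf_hM_none a f I g h) hne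
    · rw [cf_hM_some a f I g i h] at hne
      unfold wcc at hne
      split_ifs at hne with hi
      · exact absurd rfl hne
      · exact ⟨i, hi, fun h0 => hne (by
          show sg i I • cf (f (insert i I)) g = 0
          rw [h0, smul_zero]), i0_some h⟩
  · intro f I g hne
    rw [cf_piM] at hne
    split_ifs at hne with h
    · exact ⟨hne, i0_none h⟩
    · exact absurd rfl hne

end Vale.Agent.P202.CharP
end

section

/-!
P202-CHARP, task M6: `X_p` is bijective on `F^p / G^p`; exhaustion.
-/

namespace Vale.Agent.P202.CharP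

open Submodule TensorProduct

namespace BijX

variable {κ : Type*} [Field κ] {r : ℕ}

lemma cf_sum {ι : Type*} (s : Finset ι) (f : ι → Lau κ r) (g : Gx r) :
    cf (∑ i ∈ s, f i) g = ∑ i ∈ s, cf (f i) g := by
  classical
  induction s using Finset.induction_on with
  | empty => simp [cf_zero]
  | insert a s ha ih => rw [Finset.sum_insert ha, Finset.sum_insert ha, cf_add, ih]

lemma cf_neg (f : Lau κ r) (g : Gx r) : cf (-f) g = - cf f g := rfl

lemma cf_sub (f f' : Lau κ r) (g : Gx r) : cf (f - f') g = cf f g - cf f' g := by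
  rw [sub_eq_add_neg, cf_add, cf_neg, sub_eq_add_neg]

lemma cf_smul (c : κ) (f : Lau κ r) (g : Gx r) : cf (c • f) g = c * cf f g := rfl

lemma cf_mono (m : Gx r) (c : κ) (g : Gx r) [Decidable (m = g)] :
    cf (mono m c) g = if m = g then c else 0 := by
  unfold cf mono
  exact Finsupp.single_apply

lemma cf_mono_mul (m : Gx r) (c : κ) (f : Lau κ r) (g : Gx r) :
    cf (mono m c * f) g = c * cf f (g - m) := by
  have := AddMonoidAlgebra.coeff_single_mul_eq_mul_coeff (x := (f : AddMonoidAlgebra κ (Gx r)))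
    (r := c) (m := m) (m₁ := g) (g - m) (by
      intro m' _
      constructor
      · rintro rfl; abel
      · rintro rfl; abel)
  exact this

lemma cf_xl_mul (l : Fin (r + 1)) (f : Lau κ r) (g : Gx r) :
    cf (xl κ l * f) g = ∑ L ∈ (Finset.univ : Finset (Fin r)).powersetCard l, cf f (g - ex L) := by
  unfold xl
  rw [Finset.sum_mul, cf_sum]
  refine Finset.sum_congr rfl fun L _ => ?_
  rw [cf_mono_mul, one_mul]

lemma X_smul (l : Fin (r + 1)) (f : Lau κ r) :
    (MvPolynomial.X l : PP κ r) • f = xl κ l * f := by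
  rw [Algebra.smul_def, algebraMap_X]

lemma C_smul (c : κ) (f : Lau κ r) : (MvPolynomial.C c : PP κ r) • f = c • f := by
  rw [Algebra.smul_def, Algebra.smul_def]
  congr 1
  exact MvPolynomial.aeval_C _ _

lemma mem_Mon' {E : Set (Finset (Fin r) × Gx r)} (hE : Up E) (f : Lam κ r) :
    f ∈ Mon κ E ↔ ∀ I g, cf (f I) g ≠ 0 → (I, g) ∈ E := by
  constructor
  · intro h I g hg
    refine h 1 I g ?_
    rwa [one_smul]
  · intro h q
    induction q using MvPolynomial.induction_on with
    | C c =>
      intro I g hg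
      rw [C_smul, cf_smul] at hg
      exact h I g (right_ne_zero_of_mul hg)
    | add p q hp hq =>
      intro I g hg
      rw [add_smul, cf_add] at hg
      by_cases h1 : cf (p • f I) g = 0
      · rw [h1, zero_add] at hg
        exact hq I g hg
      · exact hp I g h1
    | mul_X p l hp =>
      intro I g hg
      rw [mul_comm, mul_smul, X_smul, cf_xl_mul] at hg
      obtain ⟨L, _, hL⟩ := Finset.exists_ne_zero_of_sum_ne_zero hg
      have := hE I _ L (hp I _ hL)
      rwa [sub_add_cancel] at this

lemma up_SF' : Up (SF r) := by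
  intro I g L h i hi
  have := h i hi
  simp only [ex, Prod.fst_add, Pi.add_apply] at this ⊢
  split_ifs
  · exact add_nonneg this zero_le_one
  · simpa using this

lemma up_SG' (a : Fin r → ℤ) : Up (SG a) := by
  intro I g L h
  refine ⟨up_SF' I g L h.1, ?_⟩
  obtain ⟨i, hi, hi'⟩ := h.2
  refine ⟨i, hi, ?_⟩
  simp only [ex, Prod.fst_add, Pi.add_apply, Prod.snd_add] at hi' ⊢
  split_ifs <;> omega

lemma up_SW' (a : Fin r → ℤ) (Q k : ℕ) : Up (SW a Q k) := by
  rintro I g L (h | h)
  · exact Or.inl (up_SG' a I g L h)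
  · refine Or.inr ⟨up_SF' I g L h.1, ?_⟩
    have := h.2
    simp only [ex, Prod.snd_add] at this ⊢
    omega

lemma up_grd' {E : Set (Finset (Fin r) × Gx r)} (hE : Up E) (p : ℤ) : Up (grd E p) :=
  fun I g L h => ⟨hE I g L h.1, h.2⟩

lemma mem_MF {E : Set (Finset (Fin r) × Gx r)} (hE : Up E) (p : ℤ) (f : Lam κ r) :
    f ∈ MF κ E p ↔ ∀ I g, cf (f I) g ≠ 0 → (I, g) ∈ E ∧ (I.card : ℤ) = p :=
  mem_Mon' (up_grd' hE p) f

/-- the measure. -/
def mu (a : Fin r → ℤ) (I : Finset (Fin r)) (g : Gx r) : ℤ := ∑ i ∈ I, (g.1 i - a i - g.2)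

lemma mu_shift (a : Fin r → ℤ) (I L : Finset (Fin r)) (g : Gx r) :
    mu a I (g + ex I - ex L) = mu a I g + (I \ L).card := by
  unfold mu
  have h1 : ((I \ L).card : ℤ) = ∑ i ∈ I, (if i ∈ L then (0 : ℤ) else 1) := by
    rw [Finset.card_eq_sum_ones, Finset.sdiff_eq_filter, Finset.sum_filter]
    push_cast
    refine Finset.sum_congr rfl fun i _ => ?_
    by_cases h : i ∈ L <;> simp [h]
  rw [h1, ← Finset.sum_add_distrib]
  refine Finset.sum_congr rfl fun i hi => ?_
  simp only [ex, Prod.fst_sub, Prod.fst_add, Pi.sub_apply, Pi.add_apply, Prod.snd_sub,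
    Prod.snd_add, if_pos hi]
  split_ifs <;> ring

lemma mu_shift' (a : Fin r → ℤ) (I L : Finset (Fin r)) (g : Gx r) :
    mu a I (g - ex I + ex L) = mu a I g - (I \ L).card := by
  have := mu_shift a I L (g - ex I + ex L)
  have h : g - ex I + ex L + ex I - ex L = g := by abel
  rw [h] at this
  omega

lemma card_sdiff_pos {I L : Finset (Fin r)} (hc : L.card = I.card) (hne : L ≠ I) :
    0 < (I \ L).card := by
  rw [Finset.card_pos, Finset.sdiff_nonempty]
  intro h
  exact hne (Finset.eq_of_subset_of_card_le h hc.le).symm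

/-- good monomials for the slot `I`. -/
def EE (a : Fin r → ℤ) (I : Finset (Fin r)) : Set (Gx r) :=
  {g | (∀ i ∉ I, 0 ≤ g.1 i) ∧ ∀ i ∈ I, a i + g.2 < g.1 i}

lemma mem_EE_iff {a : Fin r → ℤ} {I : Finset (Fin r)} {g : Gx r} :
    g ∈ EE a I ↔ (I, g) ∈ SF r ∧ (I, g) ∉ SG a := by
  constructor
  · intro h
    refine ⟨h.1, fun h' => ?_⟩
    obtain ⟨i, hi, hi'⟩ := h'.2
    exact absurd (h.2 i hi) (not_lt.mpr hi')
  · rintro ⟨h1, h2⟩
    refine ⟨h1, fun i hi => ?_⟩
    by_contra h3
    exact h2 ⟨h1, i, hi, not_lt.mp h3⟩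

lemma EE_shift {a : Fin r → ℤ} {I : Finset (Fin r)} {g : Gx r} (L : Finset (Fin r))
    (hg : g ∈ EE a I) (h : (I, g + ex I - ex L) ∈ SF r) : g + ex I - ex L ∈ EE a I := by
  refine ⟨h, fun i hi => ?_⟩
  have := hg.2 i hi
  simp only [ex, Prod.fst_sub, Prod.fst_add, Pi.sub_apply, Pi.add_apply, Prod.snd_sub,
    Prod.snd_add, if_pos hi]
  split_ifs <;> omega

lemma EE_add {a : Fin r → ℤ} {I : Finset (Fin r)} {g : Gx r} (hg : g ∈ EE a I) :
    g + ex I ∈ EE a I := by
  refine ⟨fun i hi => ?_, fun i hi => ?_⟩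
  · have := hg.1 i hi
    simpa [ex, hi] using this
  · have := hg.2 i hi
    simp only [ex, Prod.fst_add, Pi.add_apply, Prod.snd_add, if_pos hi]
    omega

lemma EE_sub {a : Fin r → ℤ} {I : Finset (Fin r)} {g : Gx r} (hg : g ∈ EE a I) :
    g - ex I ∈ EE a I := by
  refine ⟨fun i hi => ?_, fun i hi => ?_⟩
  · have := hg.1 i hi
    simpa [ex, hi] using this
  · have := hg.2 i hi
    simp only [ex, Prod.fst_sub, Pi.sub_apply, Prod.snd_sub, if_pos hi]
    omega

/-- injectivity for one slot. -/
lemma inj_slot (a : Fin r → ℤ) (p : Fin (r + 1)) (I : Finset (Fin r)) (hI : I.card = p)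
    (v : Lau κ r) (hv : ∀ g, cf v g ≠ 0 → (I, g) ∈ SF r)
    (h : ∀ g, cf (xl κ p * v) g ≠ 0 → (I, g) ∈ SG a) :
    ∀ g, cf v g ≠ 0 → (I, g) ∈ SG a := by
  classical
  by_contra hcon
  push Not at hcon
  obtain ⟨g₀, hg₀, hg₀'⟩ := hcon
  -- the finite set of bad monomials
  let B : Finset (Gx r) := (AddMonoidAlgebra.coeff v).support.filter fun g => g ∈ EE a I
  have hB : ∀ g, g ∈ B ↔ cf v g ≠ 0 ∧ g ∈ EE a I := by
    intro g
    simp only [B, Finset.mem_filter, Finsupp.mem_support_iff]
    rfl
  have hne : B.Nonempty := ⟨g₀, (hB g₀).2 ⟨hg₀, mem_EE_iff.2 ⟨hv g₀ hg₀, hg₀'⟩⟩⟩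
  obtain ⟨g, hgB, hmax⟩ := B.exists_max_image (mu a I) hne
  obtain ⟨hg1, hg2⟩ := (hB g).1 hgB
  have hmem : I ∈ (Finset.univ : Finset (Fin r)).powersetCard p := by
    simp [hI]
  have key : cf (xl κ p * v) (g + ex I) = cf v g := by
    rw [cf_xl_mul, Finset.sum_eq_single I]
    · rw [add_sub_cancel_right]
    · intro L hL hLI
      by_contra hne0
      have hLc : L.card = I.card := by
        rw [Finset.mem_powersetCard] at hL
        rw [hL.2, hI]
      have hin : g + ex I - ex L ∈ B := by
        rw [hB]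
        exact ⟨hne0, EE_shift L hg2 (hv _ hne0)⟩
      have h1 := hmax _ hin
      rw [mu_shift] at h1
      have h2 := card_sdiff_pos hLc hLI
      omega
    · intro h'
      exact absurd hmem h'
  have h3 := h (g + ex I) (by rw [key]; exact hg1)
  exact (mem_EE_iff.1 (EE_add hg2)).2 h3

/-- surjectivity for one slot, monomials. -/
lemma surj_mono (a : Fin r → ℤ) (p : Fin (r + 1)) (I : Finset (Fin r)) (hI : I.card = p) (n : ℕ) :
    ∀ (g : Gx r) (c : κ), (I, g) ∈ SF r → mu a I g < n → ∃ v' : Lau κ r,
      (∀ g', cf v' g' ≠ 0 → (I, g') ∈ SF r) ∧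
      ∀ g', cf (mono g c - xl κ p * v') g' ≠ 0 → (I, g') ∈ SG a := by
  classical
  induction n with
  | zero =>
    intro g c hg hmu
    refine ⟨0, fun g' h => absurd (cf_zero g') h, fun g' h => ?_⟩
    rw [mul_zero, sub_zero, cf_mono] at h
    split_ifs at h with h1
    · subst h1
      by_contra h2
      have h3 := mem_EE_iff.2 ⟨hg, h2⟩
      have h4 : 0 ≤ mu a I g := Finset.sum_nonneg fun i hi => by
        have := h3.2 i hi
        omega
      simp only [Nat.cast_zero] at hmu
      omega
    · exact absurd rfl h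
  | succ n ih =>
    intro g c hg hmu
    by_cases hgG : (I, g) ∈ SG a
    · refine ⟨0, fun g' h => absurd (cf_zero g') h, fun g' h => ?_⟩
      rw [mul_zero, sub_zero, cf_mono] at h
      split_ifs at h with h1
      · subst h1
        exact hgG
      · exact absurd rfl h
    · have hgE := mem_EE_iff.2 ⟨hg, hgG⟩
      have hg0 := EE_sub hgE
      -- the other monomials
      have hstep : ∀ L ∈ ((Finset.univ : Finset (Fin r)).powersetCard p).erase I, ∃ v' : Lau κ r,
          (∀ g', cf v' g' ≠ 0 → (I, g') ∈ SF r) ∧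
          ∀ g', cf (mono (g - ex I + ex L) c - xl κ p * v') g' ≠ 0 → (I, g') ∈ SG a := by
        intro L hL
        rw [Finset.mem_erase, Finset.mem_powersetCard] at hL
        have hLc : L.card = I.card := by rw [hL.2.2, hI]
        refine ih _ c (up_SF' I _ L hg0.1) ?_
        rw [mu_shift']
        have := card_sdiff_pos hLc hL.1
        push_cast at hmu
        omega
      choose! V hV1 hV2 using hstep
      refine ⟨mono (g - ex I) c - ∑ L ∈ ((Finset.univ : Finset (Fin r)).powersetCard p).erase I,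
        V L, ?_, ?_⟩
      · intro g' h
        rw [cf_sub, cf_sum] at h
        by_cases h1 : cf (mono (g - ex I) c) g' = 0
        · rw [h1, zero_sub, neg_ne_zero] at h
          obtain ⟨L, hL, hL'⟩ := Finset.exists_ne_zero_of_sum_ne_zero h
          exact hV1 L hL g' hL'
        · rw [cf_mono] at h1
          split_ifs at h1 with h2
          · rw [← h2]
            exact hg0.1
          · exact absurd rfl h1
      · intro g' h
        have hI' : I ∈ (Finset.univ : Finset (Fin r)).powersetCard p := by simp [hI]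
        have hmm : ∀ m m' : Gx r, (mono m 1 : Lau κ r) * mono m' c = mono (m' + m) c := by
          intro m m'
          apply AddMonoidAlgebra.coeff_injective
          ext g''
          have := cf_mono_mul m 1 (mono m' c) g''
          unfold cf at this
          change AddMonoidAlgebra.coeff ((mono m 1 : Lau κ r) * mono m' c) g'' = _
          rw [this, one_mul]
          change cf (mono m' c) (g'' - m) = cf (mono (m' + m) c) g''
          rw [cf_mono, cf_mono]
          have : (m' = g'' - m) ↔ (m' + m = g'') := eq_sub_iff_add_eq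
          simp only [this]
        have hx : xl κ p * mono (g - ex I) c = mono g c +
            ∑ L ∈ ((Finset.univ : Finset (Fin r)).powersetCard p).erase I,
              mono (g - ex I + ex L) c := by
          unfold xl
          rw [Finset.sum_mul, ← Finset.add_sum_erase _ _ hI', hmm, sub_add_cancel]
          congr 1
          exact Finset.sum_congr rfl fun L _ => hmm _ _
        have hy : mono g c - xl κ p * (mono (g - ex I) c -
            ∑ L ∈ ((Finset.univ : Finset (Fin r)).powersetCard p).erase I, V L) =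
            - ∑ L ∈ ((Finset.univ : Finset (Fin r)).powersetCard p).erase I,
              (mono (g - ex I + ex L) c - xl κ p * V L) := by
          rw [mul_sub, hx, Finset.mul_sum, Finset.sum_sub_distrib]
          abel
        rw [hy, cf_neg, neg_ne_zero, cf_sum] at h
        obtain ⟨L, hL, hL'⟩ := Finset.exists_ne_zero_of_sum_ne_zero h
        exact hV2 L hL g' hL'

/-- surjectivity for one slot. -/
lemma surj_slot (a : Fin r → ℤ) (p : Fin (r + 1)) (I : Finset (Fin r)) (hI : I.card = p)
    (v : Lau κ r) (hv : ∀ g, cf v g ≠ 0 → (I, g) ∈ SF r) :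
    ∃ v' : Lau κ r, (∀ g, cf v' g ≠ 0 → (I, g) ∈ SF r) ∧
      ∀ g, cf (v - xl κ p * v') g ≠ 0 → (I, g) ∈ SG a := by
  classical
  have hstep : ∀ g ∈ (AddMonoidAlgebra.coeff v).support, ∃ v' : Lau κ r,
      (∀ g', cf v' g' ≠ 0 → (I, g') ∈ SF r) ∧
      ∀ g', cf (mono g (cf v g) - xl κ p * v') g' ≠ 0 → (I, g') ∈ SG a := by
    intro g hg
    rw [Finsupp.mem_support_iff] at hg
    refine surj_mono a p I hI ((mu a I g).toNat + 1) g (cf v g) (hv g hg) ?_
    have := Int.self_le_toNat (mu a I g)
    push_cast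
    omega
  choose! V hV1 hV2 using hstep
  refine ⟨∑ g ∈ (AddMonoidAlgebra.coeff v).support, V g, ?_, ?_⟩
  · intro g' h
    rw [cf_sum] at h
    obtain ⟨g, hg, hg'⟩ := Finset.exists_ne_zero_of_sum_ne_zero h
    exact hV1 g hg g' hg'
  · intro g' h
    have hsum : v = ∑ g ∈ (AddMonoidAlgebra.coeff v).support, mono g (cf v g) := by
      apply AddMonoidAlgebra.coeff_injective
      ext g''
      change cf v g'' = cf (∑ g ∈ (AddMonoidAlgebra.coeff v).support, mono g (cf v g)) g''
      rw [cf_sum]
      simp only [cf_mono]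
      rw [Finset.sum_ite_eq']
      split_ifs with h1
      · rfl
      · rw [Finsupp.mem_support_iff, not_not] at h1
        exact h1
    have hy : v - xl κ p * ∑ g ∈ (AddMonoidAlgebra.coeff v).support, V g =
        ∑ g ∈ (AddMonoidAlgebra.coeff v).support, (mono g (cf v g) - xl κ p * V g) := by
      rw [Finset.mul_sum, Finset.sum_sub_distrib, ← hsum]
    rw [hy, cf_sum] at h
    obtain ⟨g, hg, hg'⟩ := Finset.exists_ne_zero_of_sum_ne_zero h
    exact hV2 g hg g' hg'

end BijX

variable {κ : Type*} [Field κ] {r : ℕ}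

open BijX in
/-- TASK M6: `X_p` is bijective on `F^p / G^p`. -/
theorem bij_X (a : Fin r → ℤ) (p : Fin (r + 1)) :
    (∀ v ∈ MF κ (SF r) (p : ℕ), (MvPolynomial.X p : PP κ r) • v ∈ MF κ (SG a) (p : ℕ) →
      v ∈ MF κ (SG a) (p : ℕ)) ∧
    (∀ v ∈ MF κ (SF r) (p : ℕ), ∃ v' ∈ MF κ (SF r) (p : ℕ),
      v - (MvPolynomial.X p : PP κ r) • v' ∈ MF κ (SG a) (p : ℕ)) := by
  classical
  constructor
  · intro v hv hXv
    rw [mem_MF up_SF'] at hv
    rw [mem_MF (up_SG' a)] at hXv ⊢
    intro I g hg
    have hc := (hv I g hg).2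
    refine ⟨?_, hc⟩
    refine inj_slot a p I (by exact_mod_cast hc) (v I) (fun g' hg' => (hv I g' hg').1) ?_ g hg
    intro g' hg'
    refine (hXv I g' ?_).1
    rwa [Pi.smul_apply, X_smul]
  · intro v hv
    rw [mem_MF up_SF'] at hv
    have hstep : ∀ I : Finset (Fin r), ∃ v' : Lau κ r, (∀ g, cf v' g ≠ 0 → (I, g) ∈ SF r ∧
        (I.card : ℤ) = ((p : ℕ) : ℤ)) ∧
        ∀ g, cf (v I - xl κ p * v') g ≠ 0 → (I, g) ∈ SG a ∧ (I.card : ℤ) = ((p : ℕ) : ℤ) := by
      intro I
      by_cases hI : I.card = p
      · obtain ⟨v', h1, h2⟩ := surj_slot a p I hI (v I) (fun g hg => (hv I g hg).1)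
        exact ⟨v', fun g hg => ⟨h1 g hg, by exact_mod_cast hI⟩,
          fun g hg => ⟨h2 g hg, by exact_mod_cast hI⟩⟩
      · refine ⟨0, fun g hg => absurd (cf_zero g) hg, fun g hg => ?_⟩
        rw [mul_zero, sub_zero] at hg
        exact absurd (by exact_mod_cast (hv I g hg).2) hI
    choose V hV1 hV2 using hstep
    refine ⟨V, ?_, ?_⟩
    · rw [mem_MF up_SF']
      intro I g hg
      exact hV1 I g hg
    · rw [mem_MF (up_SG' a)]
      intro I g hg
      rw [Pi.sub_apply, Pi.smul_apply, X_smul] at hg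
      exact hV2 I g hg

end Vale.Agent.P202.CharP
end

section

/-!
P202-CHARP, the modules `N_a`: monotonicity, shifting, generation of the Ulrich module, finite
generation.
-/

namespace Vale.Agent.P202.CharP

open Submodule TensorProduct

namespace NMod

variable {κ : Type*} [Field κ] {r : ℕ}

/-! ### coefficients and monomials -/

lemma mono_mul (g g' : Gx r) (c c' : κ) :
    (mono g c * mono g' c' : Lau κ r) = mono (g + g') (c * c') := by
  show (AddMonoidAlgebra.single g c * AddMonoidAlgebra.single g' c' : AddMonoidAlgebra κ (Gx r)) = _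
  rw [AddMonoidAlgebra.single_mul_single]
  rfl

lemma cf_mono (g k : Gx r) (c : κ) : cf (mono g c : Lau κ r) k = if g = k then c else 0 := by
  classical
  unfold cf mono
  rw [AddMonoidAlgebra.coeff_single, Finsupp.single_apply]

lemma cf_mono_mul (g : Gx r) (f : Lau κ r) (k : Gx r) :
    cf (mono g 1 * f) k = cf f (k - g) := by
  have := AddMonoidAlgebra.coeff_single_mul_eq_mul_coeff (x := (f : AddMonoidAlgebra κ (Gx r)))
    (r := (1 : κ)) (m := g) (m₁ := k) (k - g) (by
      intro m' _
      constructor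
      · rintro rfl; abel
      · rintro rfl; abel)
  rw [one_mul] at this
  exact this

lemma cf_smul (c : κ) (f : Lau κ r) (k : Gx r) : cf (c • f) k = c * cf f k := rfl

lemma cf_sum {ι : Type*} (s : Finset ι) (f : ι → Lau κ r) (k : Gx r) :
    cf (∑ i ∈ s, f i) k = ∑ i ∈ s, cf (f i) k := by
  classical
  induction s using Finset.induction_on with
  | empty => simp only [Finset.sum_empty]; exact cf_zero k
  | insert i s hi ih => rw [Finset.sum_insert hi, Finset.sum_insert hi, cf_add, ih]

lemma cf_sub (f f' : Lau κ r) (k : Gx r) : cf (f - f') k = cf f k - cf f' k := rfl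

lemma ext_cf {f f' : Lau κ r} (h : ∀ k, cf f k = cf f' k) : f = f' := by
  have : (AddMonoidAlgebra.coeff f : Gx r →₀ κ) = AddMonoidAlgebra.coeff f' := Finsupp.ext h
  exact AddMonoidAlgebra.coeffAddEquiv.injective this

/-- decomposition into monomials -/
lemma exists_sum_mono (f : Lau κ r) :
    f = ∑ g ∈ (AddMonoidAlgebra.coeff f : Gx r →₀ κ).support, mono g (cf f g) := by
  classical
  apply ext_cf
  intro k
  rw [cf_sum]
  simp only [cf_mono]
  rw [Finset.sum_ite_eq']
  split_ifs with h
  · rfl
  · exact Finsupp.notMem_support_iff.1 h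

lemma X_smul (l : Fin (r + 1)) (f : Lau κ r) :
    (MvPolynomial.X l : PP κ r) • f = xl κ l * f := by
  rw [Algebra.smul_def, algebraMap_X]

lemma C_smul (c : κ) (f : Lau κ r) : (MvPolynomial.C c : PP κ r) • f = c • f := by
  rw [Algebra.smul_def, Algebra.smul_def]
  congr 1
  exact MvPolynomial.aeval_C _ _

lemma cf_X_smul (l : Fin (r + 1)) (f : Lau κ r) (k : Gx r) :
    cf ((MvPolynomial.X l : PP κ r) • f) k =
      ∑ L ∈ (Finset.univ : Finset (Fin r)).powersetCard l, cf f (k - ex L) := by
  rw [X_smul]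
  unfold xl
  rw [Finset.sum_mul, cf_sum]
  exact Finset.sum_congr rfl fun L _ => cf_mono_mul _ _ _

noncomputable instance : IsScalarTower κ (PP κ r) (Lau κ r) where
  smul_assoc c q f := by
    rw [MvPolynomial.smul_eq_C_mul, mul_smul, C_smul]

/-! ### membership -/

lemma supp_of_mem {E : Set (Gx r)} {f : Lau κ r} (hf : f ∈ NMon κ E) {g : Gx r}
    (h : cf f g ≠ 0) : g ∈ E := by
  refine hf 1 g ?_
  rwa [one_smul]

lemma mem_of_supp {E : Set (Gx r)} (hE : NUp E) {f : Lau κ r} (hf : ∀ g, cf f g ≠ 0 → g ∈ E) :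
    f ∈ NMon κ E := by
  intro q
  induction q using MvPolynomial.induction_on generalizing f with
  | C c =>
    intro g h
    rw [C_smul, cf_smul] at h
    exact hf g (right_ne_zero_of_mul h)
  | add p q hp hq =>
    intro g h
    rw [add_smul, cf_add] at h
    by_cases h1 : cf (p • f) g = 0
    · rw [h1, zero_add] at h
      exact hq hf g h
    · exact hp hf g h1
  | mul_X p l hp =>
    intro g h
    rw [mul_smul] at h
    refine hp ?_ g h
    intro k hk
    rw [cf_X_smul] at hk
    obtain ⟨L, _, hL⟩ := Finset.exists_ne_zero_of_sum_ne_zero hk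
    have := hE _ L (hf _ hL)
    rwa [sub_add_cancel] at this

lemma nup_SN' (a : Fin r → ℤ) : NUp (SN a) := by
  intro g L hg
  refine ⟨?_, fun i => ?_⟩
  · show 0 ≤ g.2 + 1
    have := hg.1
    omega
  · have h := hg.2 i
    show 0 ≤ g.1 i + (if i ∈ L then 1 else 0) ∧ g.1 i + (if i ∈ L then 1 else 0) ≤ a i + (g.2 + 1)
    split_ifs <;> omega

lemma nup_SNge (a : Fin r → ℤ) (c : ℤ) : NUp (SN a ∩ {g | c ≤ g.2}) := by
  intro g L hg
  refine ⟨nup_SN' a g L hg.1, ?_⟩
  show c ≤ g.2 + 1
  have : c ≤ g.2 := hg.2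
  omega

lemma nmon_mono {E E' : Set (Gx r)} (h : E ⊆ E') : NMon κ E ≤ NMon κ E' :=
  fun _ hf q g hg => h (hf q g hg)

end NMod

open NMod

variable {κ : Type*} [Field κ] {r : ℕ}

/-- TASK M7: monotonicity and finite generation of the modules `N_a`. -/
theorem NMon_mono {a a' : Fin r → ℤ} (h : ∀ i, a i ≤ a' i) :
    NMon κ (SN a) ≤ NMon κ (SN a') := by
  refine nmon_mono fun g hg => ⟨hg.1, fun i => ⟨(hg.2 i).1, ?_⟩⟩
  have := (hg.2 i).2
  have := h i
  omega

namespace NMod

/-- multiplication by `τ^c` -/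
noncomputable def tauMul (κ : Type*) [Field κ] (r : ℕ) (c : ℤ) : Lau κ r →ₗ[PP κ r] Lau κ r :=
  LinearMap.mulLeft (PP κ r) (mono ((0, c) : Gx r) 1)

lemma cf_tauMul (c : ℤ) (f : Lau κ r) (k : Gx r) :
    cf (tauMul κ r c f) k = cf f (k - (0, c)) := cf_mono_mul _ _ _

lemma tauMul_tauMul (c : ℤ) (f : Lau κ r) : tauMul κ r c (tauMul κ r (-c) f) = f := by
  apply ext_cf
  intro k
  rw [cf_tauMul, cf_tauMul]
  congr 1
  ext i
  · simp
  · simp

lemma tauMul_tauMul' (c : ℤ) (f : Lau κ r) : tauMul κ r (-c) (tauMul κ r c f) = f := by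
  have := tauMul_tauMul (-c) f
  rwa [neg_neg] at this

lemma tauMul_mem {E E' : Set (Gx r)} {c : ℤ} (h : ∀ g, g - (0, c) ∈ E → g ∈ E') {f : Lau κ r}
    (hf : f ∈ NMon κ E) : tauMul κ r c f ∈ NMon κ E' := by
  intro q g hg
  rw [← map_smul, cf_tauMul] at hg
  exact h g (hf q _ hg)

lemma mX_smul_le (a : Fin r → ℤ) (c : ℤ) :
    mX κ r • NMon κ (SN a ∩ {g | c ≤ g.2}) ≤ NMon κ (SN a ∩ {g | c + 1 ≤ g.2}) := by
  rw [mX, Submodule.span_smul_eq]
  refine Submodule.set_smul_le _ _ _ ?_
  rintro _ f ⟨l, rfl⟩ hf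
  refine mem_of_supp (nup_SNge a (c + 1)) fun g hg => ?_
  rw [cf_X_smul] at hg
  obtain ⟨L, _, hL⟩ := Finset.exists_ne_zero_of_sum_ne_zero hg
  have h1 := supp_of_mem hf hL
  have h2 := nup_SN' a _ L h1.1
  rw [sub_add_cancel] at h2
  refine ⟨h2, ?_⟩
  have h3 : c ≤ (g - ex L).2 := h1.2
  have h4 : (g - ex L).2 = g.2 - 1 := rfl
  show c + 1 ≤ g.2
  omega

lemma mX_pow_smul_le (a : Fin r → ℤ) (c : ℕ) :
    (mX κ r) ^ c • NMon κ (SN a) ≤ NMon κ (SN a ∩ {g | (c : ℤ) ≤ g.2}) := by
  induction c with
  | zero =>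
    rw [pow_zero, Ideal.one_eq_top, Submodule.top_smul]
    exact nmon_mono fun g hg => ⟨hg, by simpa using hg.1⟩
  | succ c ih =>
    rw [pow_succ', Submodule.mul_smul]
    refine (Submodule.smul_mono le_rfl ih).trans ?_
    push_cast
    exact mX_smul_le a c

/-- the finite set of monomials of `N_a` in `τ`-degree below `c` -/
lemma finite_low (a : Fin r → ℤ) (c : ℤ) : (SN a ∩ {g : Gx r | g.2 < c}).Finite := by
  have h1 : (Set.univ.pi (fun i : Fin r => Set.Icc (0 : ℤ) (a i + c)) ×ˢ Set.Icc (0 : ℤ) c).Finite :=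
    (Set.Finite.pi fun i => Set.finite_Icc _ _).prod (Set.finite_Icc _ _)
  refine h1.subset ?_
  rintro g ⟨hg, hg'⟩
  have hg'' : g.2 < c := hg'
  refine ⟨fun i _ => ?_, hg.1, hg''.le⟩
  have := hg.2 i
  exact ⟨this.1, by omega⟩

end NMod

/-- TASK M9: shifting a twist vector. -/
theorem NMon_shift (a : Fin r → ℤ) (c : ℕ) :
    ∃ ψ : ↥(NMon κ (SN fun i => a i + c)) →ₗ[PP κ r] ↥(NMon κ (SN a)),
      Function.Injective ψ ∧ (mX κ r) ^ c • (⊤ : Submodule (PP κ r) ↥(NMon κ (SN a))) ≤
        LinearMap.range ψ ∧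
      Module.length (PP κ r) (↥(NMon κ (SN a)) ⧸ LinearMap.range ψ) ≠ ⊤ := by
  classical
  let ψ : ↥(NMon κ (SN fun i => a i + c)) →ₗ[PP κ r] ↥(NMon κ (SN a)) :=
    (tauMul κ r c).restrict (fun f hf => tauMul_mem (c := (c : ℤ)) (fun g hg => by
      refine ⟨?_, fun i => ?_⟩
      · have h1 : 0 ≤ g.2 - c := hg.1
        omega
      · have h1 : 0 ≤ g.1 i - 0 ∧ g.1 i - 0 ≤ a i + c + (g.2 - c) := hg.2 i
        omega) hf)
  have hψ : ∀ f, ((ψ f : ↥(NMon κ (SN a))) : Lau κ r) = tauMul κ r c f := fun f => rfl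
  have hrange : ∀ f : ↥(NMon κ (SN a)), (∀ g, cf (f : Lau κ r) g ≠ 0 → (c : ℤ) ≤ g.2) →
      f ∈ LinearMap.range ψ := by
    intro f hf
    refine ⟨⟨tauMul κ r (-c) f, ?_⟩, ?_⟩
    · refine mem_of_supp (nup_SN' _) fun g hg => ?_
      rw [cf_tauMul] at hg
      have h1 := supp_of_mem f.2 hg
      have h2 := hf _ hg
      have h3 : (c : ℤ) ≤ g.2 - -c := h2
      have h4 : ∀ i, 0 ≤ g.1 i - 0 ∧ g.1 i - 0 ≤ a i + (g.2 - -c) := h1.2
      refine ⟨by omega, fun i => ?_⟩
      have := h4 i
      show 0 ≤ g.1 i ∧ g.1 i ≤ a i + c + g.2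
      omega
    · apply Subtype.ext
      rw [hψ]
      exact tauMul_tauMul _ _
  refine ⟨ψ, ?_, ?_, ?_⟩
  · intro f f' h
    have h1 : tauMul κ r c f = tauMul κ r c f' := congrArg Subtype.val h
    have h2 := congrArg (tauMul κ r (-c)) h1
    rw [tauMul_tauMul', tauMul_tauMul'] at h2
    exact Subtype.ext h2
  · intro f hf
    apply hrange
    have h1 : (f : Lau κ r) ∈ (mX κ r) ^ c • NMon κ (SN a) := by
      have h2 := Submodule.mem_map_of_mem (f := (NMon κ (SN a)).subtype) hf
      rw [Submodule.map_smul'', Submodule.map_top, Submodule.range_subtype] at h2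
      exact h2
    intro g hg
    exact (supp_of_mem (mX_pow_smul_le a c h1) hg).2
  · -- the quotient is finite dimensional over the field
    have hfin := finite_low a (c : ℤ)
    have : Fintype ↥(SN a ∩ {g : Gx r | g.2 < c}) := hfin.fintype
    let Q := ↥(NMon κ (SN a)) ⧸ LinearMap.range ψ
    have : IsScalarTower κ (PP κ r) Q := inferInstance
    have hfd : Module.Finite κ Q := by
      let T := ↥(SN a ∩ {g : Gx r | g.2 < c})
      let sec : (T → κ) →ₗ[κ] ↥(NMon κ (SN a)) :=
        { toFun := fun v => ⟨∑ t : T, mono t.1 (v t), mem_of_supp (nup_SN' _) fun g hg => by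
            rw [cf_sum] at hg
            obtain ⟨t, _, ht⟩ := Finset.exists_ne_zero_of_sum_ne_zero hg
            rw [cf_mono] at ht
            split_ifs at ht with h
            · rw [← h]
              exact t.2.1
            · exact absurd rfl ht⟩
          map_add' := fun v v' => by
            apply Subtype.ext
            apply ext_cf
            intro k
            show cf (∑ t : T, mono t.1 ((v + v') t)) k =
              cf (∑ t : T, mono t.1 (v t) + ∑ t : T, mono t.1 (v' t)) k
            rw [cf_add, cf_sum, cf_sum, cf_sum, ← Finset.sum_add_distrib]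
            refine Finset.sum_congr rfl fun t _ => ?_
            rw [cf_mono, cf_mono, cf_mono]
            split_ifs
            · rfl
            · rw [add_zero]
          map_smul' := fun x v => by
            apply Subtype.ext
            apply ext_cf
            intro k
            show cf (∑ t : T, mono t.1 ((x • v) t)) k = cf (x • ∑ t : T, mono t.1 (v t)) k
            rw [cf_smul, cf_sum, cf_sum, Finset.mul_sum]
            refine Finset.sum_congr rfl fun t _ => ?_
            rw [cf_mono, cf_mono]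
            split_ifs
            · rfl
            · rw [mul_zero] }
      let pr : ↥(NMon κ (SN a)) →ₗ[κ] Q := ((LinearMap.range ψ).mkQ).restrictScalars κ
      refine Module.Finite.of_surjective (pr.comp sec) ?_
      intro x
      obtain ⟨f, rfl⟩ := Submodule.mkQ_surjective _ x
      refine ⟨fun t => cf (f : Lau κ r) t.1, ?_⟩
      show (LinearMap.range ψ).mkQ (sec fun t => cf (f : Lau κ r) t.1) = (LinearMap.range ψ).mkQ f
      rw [← sub_eq_zero, ← map_sub, Submodule.mkQ_apply, Submodule.Quotient.mk_eq_zero]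
      apply hrange
      intro g hg
      by_contra hlt
      push Not at hlt
      apply hg
      show cf ((∑ t : T, mono t.1 (cf (f : Lau κ r) t.1)) - (f : Lau κ r)) g = 0
      rw [cf_sub, cf_sum]
      simp only [cf_mono]
      by_cases hf : cf (f : Lau κ r) g = 0
      · rw [hf, sub_zero]
        refine Finset.sum_eq_zero fun t _ => ?_
        split_ifs with h
        · rw [h, hf]
        · rfl
      · have hgT : g ∈ SN a ∩ {g : Gx r | g.2 < c} := ⟨supp_of_mem f.2 hf, hlt⟩
        rw [Finset.sum_eq_single (⟨g, hgT⟩ : T)]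
        · simp
        · intro t _ ht
          rw [if_neg]
          intro h
          exact ht (Subtype.ext h)
        · intro h
          exact absurd (Finset.mem_univ _) h
    have : IsNoetherian (PP κ r) Q := isNoetherian_of_tower κ inferInstance
    have : IsArtinian (PP κ r) Q := isArtinian_of_tower κ inferInstance
    rw [Module.length_ne_top_iff, isFiniteLength_iff_isNoetherian_isArtinian]
    exact ⟨inferInstance, inferInstance⟩


namespace NMod

/-! ### generation -/

section gen

variable {R : Type*} [CommRing R]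

/-- elementary symmetric polynomials of the elements `z 0, .., z (n - 1)` -/
def es (R : Type*) [CommRing R] (n : ℕ) (z : Fin n → R) (l : ℕ) : R :=
  ((List.ofFn z : Multiset R)).esymm l

lemma esymm_cons (x : R) (s : Multiset R) (l : ℕ) :
    (x ::ₘ s).esymm (l + 1) = s.esymm (l + 1) + x * s.esymm l := by
  unfold Multiset.esymm
  rw [Multiset.powersetCard_cons, Multiset.map_add, Multiset.sum_add, Multiset.map_map]
  congr 1
  simp only [Function.comp_def, Multiset.prod_cons]
  rw [Multiset.sum_map_mul_left]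

lemma es_succ (n : ℕ) (z : Fin (n + 1) → R) (l : ℕ) :
    es R (n + 1) z (l + 1) = es R n (fun i => z i.succ) (l + 1) + z 0 * es R n (fun i => z i.succ) l := by
  unfold es
  rw [List.ofFn_succ, ← Multiset.cons_coe, esymm_cons]

lemma es_zero (n : ℕ) (z : Fin n → R) : es R n z 0 = 1 := by
  unfold es
  simp [Multiset.esymm]

lemma es_big (n : ℕ) (z : Fin n → R) (l : ℕ) (h : n < l) : es R n z l = 0 := by
  unfold es Multiset.esymm
  rw [Multiset.powersetCard_eq_empty]
  · simp
  · simpa using h

lemma es_eq (n : ℕ) (z : Fin n → R) (l : ℕ) :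
    es R n z l = ∑ L ∈ (Finset.univ : Finset (Fin n)).powersetCard l, ∏ i ∈ L, z i := by
  unfold es
  rw [← Finset.esymm_map_val, Fin.univ_val_map]

variable {κ : Type*} [Field κ] [Algebra κ R]

/-- span of the monomials with bounded exponents -/
def Sp (κ : Type*) [Field κ] [Algebra κ R] {n : ℕ} (z : Fin n → R) (b : Fin n → ℕ) :
    Submodule κ R :=
  Submodule.span κ {x | ∃ s : Fin n → ℕ, (∀ i, s i ≤ b i) ∧ x = ∏ i, z i ^ s i}

/-- the right hand side of the generation statement -/
def Om (κ : Type*) [Field κ] [Algebra κ R] {n : ℕ} (z : Fin n → R) (b : Fin n → ℕ) :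
    Submodule κ R :=
  Submodule.span κ {x | ∃ l ≤ n, ∃ f ∈ Sp κ z b, x = es R n z l * f}

lemma Sp_cons {n : ℕ} (z : Fin (n + 1) → R) (b : Fin (n + 1) → ℕ) {t : ℕ} (ht : t ≤ b 0) {f : R}
    (hf : f ∈ Sp κ (fun i => z i.succ) (fun i => b i.succ)) : z 0 ^ t * f ∈ Sp κ z b := by
  unfold Sp at hf
  induction hf using Submodule.span_induction with
  | mem x hx =>
    obtain ⟨s, hs, rfl⟩ := hx
    refine Submodule.subset_span ⟨Fin.cons t s, ?_, ?_⟩
    · intro i
      refine Fin.cases ?_ (fun j => ?_) i
      · simpa using ht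
      · simpa using hs j
    · rw [Fin.prod_univ_succ]
      simp
  | zero => rw [mul_zero]; exact Submodule.zero_mem _
  | add x y _ _ hx hy => rw [mul_add]; exact Submodule.add_mem _ hx hy
  | smul c x _ hx => rw [mul_smul_comm]; exact Submodule.smul_mem _ _ hx

lemma Om_es {n : ℕ} (z : Fin n → R) (b : Fin n → ℕ) (l : ℕ) {f : R} (hf : f ∈ Sp κ z b) :
    es R n z l * f ∈ Om κ z b := by
  by_cases h : l ≤ n
  · exact Submodule.subset_span ⟨l, h, f, hf, rfl⟩
  · rw [es_big n z l (by omega), zero_mul]
    exact Submodule.zero_mem _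

/-- the main generation lemma -/
theorem Sp_le_Om : ∀ (n : ℕ) (z : Fin n → R) (b : Fin n → ℕ), (∀ i : Fin n, n ≤ b i + 1 + i) →
    Sp κ z (fun i => b i + 1) ≤ Om κ z b := by
  intro n
  induction n with
  | zero =>
    intro z b _
    refine Submodule.span_le.2 ?_
    rintro x ⟨s, _, rfl⟩
    have h : (∏ i, z i ^ s i) ∈ Sp κ z b :=
      Submodule.subset_span ⟨s, fun i => i.elim0, rfl⟩
    have h2 := Om_es z b 0 h
    rwa [es_zero, one_mul] at h2
  | succ n ih =>
    intro z b hb
    have hb0 : n ≤ b 0 := by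
      have := hb 0
      simp at this
      omega
    have ih' := ih (fun i => z i.succ) (fun i => b i.succ) (fun i => by
      have := hb i.succ
      simp only [Fin.val_succ] at this
      omega)
    set e' : ℕ → R := es R n (fun i => z i.succ) with he'
    -- the elements below the diagonal
    have hlow : ∀ l t, t + l ≤ b 0 → ∀ f ∈ Sp κ (fun i => z i.succ) (fun i => b i.succ),
        e' l * f * z 0 ^ t ∈ Om κ z b := by
      intro l
      induction l with
      | zero =>
        intro t ht f hf
        have h1 := Om_es z b 0 (Sp_cons z b (t := t) (by omega) hf)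
        rw [es_zero, one_mul] at h1
        rw [he', es_zero, one_mul, mul_comm]
        exact h1
      | succ l ihl =>
        intro t ht f hf
        have h1 := Om_es z b (l + 1) (Sp_cons z b (t := t) (by omega) hf)
        have h2 := ihl (t + 1) (by omega) f hf
        have h3 := Submodule.sub_mem _ h1 h2
        have h4 : es R (n + 1) z (l + 1) * (z 0 ^ t * f) - e' l * f * z 0 ^ (t + 1) =
            e' (l + 1) * f * z 0 ^ t := by
          rw [es_succ]
          simp only [he']
          ring
        rwa [h4] at h3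
    -- the elements above the diagonal
    have hhigh : ∀ m l t, l + m = n → n + 1 ≤ t + l → t ≤ b 0 + 1 →
        ∀ f ∈ Sp κ (fun i => z i.succ) (fun i => b i.succ), e' l * f * z 0 ^ t ∈ Om κ z b := by
      intro m
      induction m with
      | zero =>
        intro l t hl ht htb f hf
        obtain ⟨t, rfl⟩ : ∃ t', t = t' + 1 := ⟨t - 1, by omega⟩
        have h1 := Om_es z b (l + 1) (Sp_cons z b (t := t) (by omega) hf)
        have h4 : es R (n + 1) z (l + 1) * (z 0 ^ t * f) = e' l * f * z 0 ^ (t + 1) := by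
          rw [es_succ, es_big n _ (l + 1) (by omega)]
          simp only [he']
          ring
        rwa [h4] at h1
      | succ m ihm =>
        intro l t hl ht htb f hf
        obtain ⟨t, rfl⟩ : ∃ t', t = t' + 1 := ⟨t - 1, by omega⟩
        have h1 := Om_es z b (l + 1) (Sp_cons z b (t := t) (by omega) hf)
        have h2 := ihm (l + 1) t (by omega) (by omega) (by omega) f hf
        have h3 := Submodule.sub_mem _ h1 h2
        have h4 : es R (n + 1) z (l + 1) * (z 0 ^ t * f) - e' (l + 1) * f * z 0 ^ t =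
            e' l * f * z 0 ^ (t + 1) := by
          rw [es_succ]
          simp only [he']
          ring
        rwa [h4] at h3
    have hall : ∀ l t, l ≤ n → t ≤ b 0 + 1 →
        ∀ f ∈ Sp κ (fun i => z i.succ) (fun i => b i.succ), e' l * f * z 0 ^ t ∈ Om κ z b := by
      intro l t hl ht f hf
      by_cases h : t + l ≤ b 0
      · exact hlow l t h f hf
      · exact hhigh (n - l) l t (by omega) (by omega) ht f hf
    -- all elements of `Om' z_0^t`
    have hOm : ∀ t, t ≤ b 0 + 1 → ∀ x ∈ Om κ (fun i => z i.succ) (fun i => b i.succ),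
        x * z 0 ^ t ∈ Om κ z b := by
      intro t ht x hx
      unfold Om at hx
      induction hx using Submodule.span_induction with
      | mem x hx =>
        obtain ⟨l, hl, f, hf, rfl⟩ := hx
        exact hall l t hl ht f hf
      | zero => rw [zero_mul]; exact Submodule.zero_mem _
      | add x y _ _ hx hy => rw [add_mul]; exact Submodule.add_mem _ hx hy
      | smul c x _ hx => rw [smul_mul_assoc]; exact Submodule.smul_mem _ _ hx
    refine Submodule.span_le.2 ?_
    rintro x ⟨s, hs, rfl⟩
    rw [Fin.prod_univ_succ, mul_comm]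
    refine hOm (s 0) (hs 0) _ (ih' ?_)
    exact Submodule.subset_span ⟨fun i => s i.succ, fun i => hs i.succ, rfl⟩

end gen

variable {κ : Type*} [Field κ] {r : ℕ}

/-- the variables `Z_i` -/
noncomputable def zv (κ : Type*) [Field κ] (r : ℕ) (i : Fin r) : Lau κ r :=
  mono (Pi.single i 1, 0) 1

lemma prod_zv (L : Finset (Fin r)) :
    ∏ i ∈ L, zv κ r i = mono ((fun i => if i ∈ L then 1 else 0, 0) : Gx r) 1 := by
  classical
  induction L using Finset.induction_on with
  | empty =>
    rw [Finset.prod_empty]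
    simp only [Finset.notMem_empty, if_false]
    rfl
  | insert i L hi ih =>
    rw [Finset.prod_insert hi, ih, zv, mono_mul, one_mul]
    congr 1
    ext j
    · show (Pi.single i 1 : Fin r → ℤ) j + (if j ∈ L then 1 else 0) =
        if j ∈ insert i L then 1 else 0
      rcases eq_or_ne j i with rfl | h
      · simp [hi]
      · simp [h]
    · rfl

lemma zv_pow (i : Fin r) (m : ℕ) : zv κ r i ^ m = mono ((m : ℤ) • (Pi.single i 1, 0)) 1 := by
  induction m with
  | zero => rw [pow_zero, Nat.cast_zero, zero_smul]; rfl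
  | succ m ih =>
    rw [pow_succ, ih, zv, mono_mul, one_mul]
    congr 1
    rw [Nat.cast_succ, add_smul, one_smul]

lemma prod_zv_pow (s : Fin r → ℕ) :
    ∏ i, zv κ r i ^ s i = mono ((fun i => (s i : ℤ), 0) : Gx r) 1 := by
  classical
  have h : ∀ L : Finset (Fin r), ∏ i ∈ L, zv κ r i ^ s i =
      mono ((fun i => if i ∈ L then (s i : ℤ) else 0, 0) : Gx r) 1 := by
    intro L
    induction L using Finset.induction_on with
    | empty =>
      rw [Finset.prod_empty]
      simp only [Finset.notMem_empty, if_false]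
      rfl
    | insert i L hi ih =>
      rw [Finset.prod_insert hi, ih, zv_pow, mono_mul, one_mul]
      congr 1
      ext j
      · show (s i : ℤ) • (Pi.single i 1 : Fin r → ℤ) j + (if j ∈ L then (s j : ℤ) else 0) =
          if j ∈ insert i L then (s j : ℤ) else 0
        rcases eq_or_ne j i with rfl | h
        · simp [hi]
        · simp [h]
      · show (s i : ℤ) • (0 : ℤ) + 0 = 0
        simp
  rw [h]
  simp

lemma xl_eq (l : Fin (r + 1)) :
    xl κ l = es (Lau κ r) r (zv κ r) l * mono ((0, 1) : Gx r) 1 := by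
  rw [es_eq, Finset.sum_mul]
  unfold xl
  refine Finset.sum_congr rfl fun L _ => ?_
  rw [prod_zv, mono_mul, one_mul]
  congr 1
  ext j
  · show (if j ∈ L then (1 : ℤ) else 0) = (if j ∈ L then (1 : ℤ) else 0) + 0
    rw [add_zero]
  · rfl

/-- the twist vector of the Ulrich module -/
def ul (r : ℕ) (i : Fin r) : ℤ := (r : ℤ) - 1 - (i : ℕ)

/-- exponents of the generators -/
abbrev GI (r : ℕ) : Type := ∀ i : Fin r, Fin (r - i)

lemma card_GI (r : ℕ) : Fintype.card (GI r) = r.factorial := by
  rw [Fintype.card_pi]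
  simp only [Fintype.card_fin]
  rw [Fin.prod_univ_eq_prod_range (fun i => r - i) r, ← Nat.descFactorial_self,
    Nat.descFactorial_eq_prod_range]

/-- the generators -/
noncomputable def gn (κ : Type*) [Field κ] (r : ℕ) (s : GI r) : Lau κ r :=
  mono ((fun i => ((s i : ℕ) : ℤ), 0) : Gx r) 1

lemma gn_mem (s : GI r) : gn κ r s ∈ NMon κ (SN (ul r)) := by
  refine mem_of_supp (nup_SN' _) fun g hg => ?_
  rw [gn, cf_mono] at hg
  split_ifs at hg with h
  · rw [← h]
    refine ⟨le_rfl, fun i => ?_⟩
    show (0 : ℤ) ≤ ((s i : ℕ) : ℤ) ∧ ((s i : ℕ) : ℤ) ≤ ul r i + 0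
    have h1 := (s i).isLt
    have h2 := i.isLt
    unfold ul
    omega
  · exact absurd rfl hg

/-- the submodule generated by the generators -/
noncomputable def GG (κ : Type*) [Field κ] (r : ℕ) : Submodule (PP κ r) (Lau κ r) :=
  Submodule.span (PP κ r) (Set.range (gn κ r))

lemma mono_smul (g : Gx r) (c : κ) : (mono g c : Lau κ r) = (MvPolynomial.C c : PP κ r) • mono g 1 := by
  rw [C_smul]
  apply ext_cf
  intro k
  rw [cf_smul, cf_mono, cf_mono]
  split_ifs
  · rw [mul_one]
  · rw [mul_zero]

lemma mono_mem_GG (j : ℕ) : ∀ s : Fin r → ℕ, (∀ i, (s i : ℤ) ≤ ul r i + j) →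
    (mono ((fun i => (s i : ℤ), (j : ℤ)) : Gx r) 1 : Lau κ r) ∈ GG κ r := by
  induction j with
  | zero =>
    intro s hs
    refine Submodule.subset_span ⟨fun i => ⟨s i, ?_⟩, ?_⟩
    · have h1 := hs i
      have h2 := i.isLt
      unfold ul at h1
      omega
    · rfl
  | succ j ih =>
    intro s hs
    -- the bounds of the previous level
    set b : Fin r → ℕ := fun i => (ul r i + j).toNat with hb
    have hbz : ∀ i, (b i : ℤ) = ul r i + j := by
      intro i
      have h2 := i.isLt
      simp only [hb]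
      unfold ul
      omega
    have h1 : (∏ i, zv κ r i ^ s i) ∈ Sp κ (zv κ r) (fun i => b i + 1) := by
      refine Submodule.subset_span ⟨s, fun i => ?_, rfl⟩
      have h3 := hs i
      have h4 := hbz i
      push_cast at h3
      show s i ≤ b i + 1
      omega
    have h2 := Sp_le_Om (κ := κ) r (zv κ r) b (fun i => by
      have h4 := hbz i
      unfold ul at h4
      omega) h1
    -- elements of the previous level times `τ^j`
    have h3 : ∀ f ∈ Sp κ (zv κ r) b, f * mono ((0, (j : ℤ)) : Gx r) 1 ∈ GG κ r := by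
      intro f hf
      unfold Sp at hf
      induction hf using Submodule.span_induction with
      | mem x hx =>
        obtain ⟨s', hs', rfl⟩ := hx
        rw [prod_zv_pow, mono_mul, one_mul]
        have h5 := ih s' (fun i => by
          have := hs' i
          have := hbz i
          omega)
        have h6 : (((fun i => (s' i : ℤ), 0) : Gx r) + ((0, (j : ℤ)) : Gx r)) =
            (fun i => (s' i : ℤ), (j : ℤ)) := by
          ext i
          · show (s' i : ℤ) + 0 = s' i
            rw [add_zero]
          · show (0 : ℤ) + j = j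
            rw [zero_add]
        rw [h6]
        exact h5
      | zero => rw [zero_mul]; exact Submodule.zero_mem _
      | add x y _ _ hx hy => rw [add_mul]; exact Submodule.add_mem _ hx hy
      | smul c x _ hx =>
        rw [smul_mul_assoc, ← C_smul]
        exact Submodule.smul_mem _ _ hx
    have h4 : ∀ x ∈ Om κ (zv κ r) b, x * mono ((0, (j : ℤ) + 1) : Gx r) 1 ∈ GG κ r := by
      intro x hx
      unfold Om at hx
      induction hx using Submodule.span_induction with
      | mem x hx =>
        obtain ⟨l, hl, f, hf, rfl⟩ := hx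
        have h5 := Submodule.smul_mem (GG κ r)
          (MvPolynomial.X (⟨l, by omega⟩ : Fin (r + 1)) : PP κ r) (h3 f hf)
        rw [X_smul, xl_eq] at h5
        have h6 : es (Lau κ r) r (zv κ r) ((⟨l, by omega⟩ : Fin (r + 1)) : ℕ) *
            mono ((0, 1) : Gx r) 1 * (f * mono ((0, (j : ℤ)) : Gx r) 1) =
            es (Lau κ r) r (zv κ r) l * f * mono ((0, (j : ℤ) + 1) : Gx r) 1 := by
          have h7 : (mono ((0, (j : ℤ) + 1) : Gx r) 1 : Lau κ r) =
              mono ((0, 1) : Gx r) 1 * mono ((0, (j : ℤ)) : Gx r) 1 := by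
            rw [mono_mul, one_mul]
            congr 1
            ext i
            · rfl
            · show (j : ℤ) + 1 = 1 + j
              ring
          rw [h7]
          ring
        rw [h6] at h5
        exact h5
      | zero => rw [zero_mul]; exact Submodule.zero_mem _
      | add x y _ _ hx hy => rw [add_mul]; exact Submodule.add_mem _ hx hy
      | smul c x _ hx =>
        rw [smul_mul_assoc, ← C_smul]
        exact Submodule.smul_mem _ _ hx
    have h5 := h4 _ h2
    rw [prod_zv_pow, mono_mul, one_mul] at h5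
    have h6 : (((fun i => (s i : ℤ), 0) : Gx r) + ((0, (j : ℤ) + 1) : Gx r)) =
        (fun i => (s i : ℤ), ((j + 1 : ℕ) : ℤ)) := by
      ext i
      · show (s i : ℤ) + 0 = s i
        rw [add_zero]
      · show (0 : ℤ) + (j + 1) = ((j + 1 : ℕ) : ℤ)
        push_cast
        ring
    rw [h6] at h5
    exact h5

lemma NMon_ul_le : NMon κ (SN (ul r)) ≤ GG κ r := by
  intro f hf
  rw [exists_sum_mono f]
  refine Submodule.sum_mem _ fun g hg => ?_
  rw [mono_smul]
  refine Submodule.smul_mem _ _ ?_
  have h1 := supp_of_mem hf (Finsupp.mem_support_iff.1 hg)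
  have h2 := mono_mem_GG (κ := κ) g.2.toNat (fun i => (g.1 i).toNat) (fun i => by
    have h3 := h1.2 i
    have h4 := h1.1
    omega)
  have h5 : ((fun i => (((g.1 i).toNat : ℕ) : ℤ), ((g.2.toNat : ℕ) : ℤ)) : Gx r) = g := by
    ext i
    · show (((g.1 i).toNat : ℕ) : ℤ) = g.1 i
      have h3 := h1.2 i
      omega
    · show ((g.2.toNat : ℕ) : ℤ) = g.2
      have h4 := h1.1
      omega
  rw [h5] at h2
  exact h2

lemma gen_ul (κ : Type*) [Field κ] (r : ℕ) : ∃ φ : (Fin r.factorial → PP κ r) →ₗ[PP κ r]
    ↥(NMon κ (SN (ul r))), Function.Surjective φ := by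
  classical
  let e : Fin r.factorial ≃ GI r := (Fintype.equivFinOfCardEq (card_GI r)).symm
  let v : Fin r.factorial → ↥(NMon κ (SN (ul r))) := fun k => ⟨gn κ r (e k), gn_mem _⟩
  refine ⟨Fintype.linearCombination (PP κ r) v, ?_⟩
  rw [← LinearMap.range_eq_top, Fintype.range_linearCombination]
  rw [eq_top_iff]
  intro f _
  have h1 : (f : Lau κ r) ∈ (Submodule.span (PP κ r) (Set.range v)).map
      (NMon κ (SN (ul r))).subtype := by
    rw [Submodule.map_span, ← Set.range_comp]
    have h2 : Set.range ((NMon κ (SN (ul r))).subtype ∘ v) = Set.range (gn κ r) := by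
      have : ((NMon κ (SN (ul r))).subtype ∘ v) = gn κ r ∘ e := rfl
      rw [this, e.surjective.range_comp]
    rw [h2]
    exact NMon_ul_le f.2
  obtain ⟨f', hf', h⟩ := h1
  have : f' = f := Subtype.ext h
  rw [← this]
  exact hf'

end NMod

/-- TASK M8: the Ulrich module is generated by `r!` elements. -/
theorem NMon_ul_gen : ∃ φ : (Fin r.factorial → PP κ r) →ₗ[PP κ r]
    ↥(NMon κ (SN (fun i : Fin r => (r : ℤ) - 1 - (i : ℕ)))), Function.Surjective φ :=
  gen_ul κ r

/-- TASK M7. -/
theorem NMon_fg (a : Fin r → ℤ) : Module.Finite (PP κ r) ↥(NMon κ (SN a)) := by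
  obtain ⟨φ, hφ⟩ := NMon_ul_gen (κ := κ) (r := r)
  have hfin : Module.Finite (PP κ r)
      ↥(NMon κ (SN (fun i : Fin r => (r : ℤ) - 1 - (i : ℕ)))) := Module.Finite.of_surjective φ hφ
  have hN : IsNoetherian (PP κ r)
      ↥(NMon κ (SN (fun i : Fin r => (r : ℤ) - 1 - (i : ℕ)))) := inferInstance
  obtain ⟨c, hc⟩ : ∃ c : ℕ, ∀ i, a i ≤ (r : ℤ) - 1 - (i : ℕ) + c := by
    refine ⟨∑ i, (a i).natAbs, fun i => ?_⟩
    have h1 : (a i).natAbs ≤ ∑ i, (a i).natAbs :=
      Finset.single_le_sum (f := fun i => (a i).natAbs) (fun _ _ => Nat.zero_le _)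
        (Finset.mem_univ i)
    have h2 := i.isLt
    omega
  obtain ⟨ψ, hψ, -, -⟩ := NMon_shift (κ := κ) (fun i : Fin r => (r : ℤ) - 1 - (i : ℕ)) c
  have hN' : IsNoetherian (PP κ r)
      ↥(NMon κ (SN (fun i : Fin r => (r : ℤ) - 1 - (i : ℕ) + c))) :=
    isNoetherian_of_injective ψ hψ
  have hN'' : IsNoetherian (PP κ r) ↥(NMon κ (SN a)) :=
    isNoetherian_of_injective (Submodule.inclusion (NMon_mono hc)) (Submodule.inclusion_injective _)
  infer_instance

end Vale.Agent.P202.CharP
end

section

/-!
P202-CHARP, task Z1: numerics of the windows.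
-/

namespace Vale.Agent.P202.CharP

open Finset

section Numerics

variable {r : ℕ}

/-- the mixed product: shifted below `m`. -/
def mixp (a : Fin (r + 1) → ℤ) (m : Fin (r + 1)) (i : Fin (r + 1)) : ℤ :=
  if i < m then a i - 1 else a i

lemma prod_tele (a : Fin (r + 1) → ℤ) :
    ∏ i, a i - ∏ i, (a i - 1) = ∑ m : Fin (r + 1), ∏ i : Fin r, mixp a m (m.succAbove i) := by
  rw [prod_sub_ordered]
  simp only [sub_sub_cancel, one_mul]
  apply sum_congr rfl
  intro m _
  have h1 : ∏ i : Fin (r + 1), (if i = m then 1 else mixp a m i) =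
      ∏ i : Fin r, mixp a m (m.succAbove i) := by
    rw [Fin.prod_univ_succAbove _ m, if_pos rfl, one_mul]
    apply prod_congr rfl
    intro i _
    rw [if_neg (Fin.succAbove_ne m i)]
  rw [← h1, ← prod_filter_mul_prod_filter_not univ (fun j : Fin (r + 1) => j < m)
    (fun i => if i = m then 1 else mixp a m i)]
  congr 1
  · apply prod_congr rfl
    intro i hi
    have h2 : i < m := (mem_filter.mp hi).2
    rw [if_neg h2.ne, mixp, if_pos h2]
  · symm
    rw [← prod_subset (s₁ := univ.filter (fun j : Fin (r + 1) => m < j))]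
    · apply prod_congr rfl
      intro i hi
      have h2 : m < i := (mem_filter.mp hi).2
      rw [if_neg h2.ne', mixp, if_neg (not_lt.mpr h2.le)]
    · intro i hi
      have h2 : m < i := (mem_filter.mp hi).2
      exact mem_filter.mpr ⟨mem_univ _, not_lt.mpr h2.le⟩
    · intro i hi hi'
      have h2 : ¬ i < m := (mem_filter.mp hi).2
      have h3 : ¬ m < i := fun h => hi' (mem_filter.mpr ⟨mem_univ _, h⟩)
      have h4 : i = m := le_antisymm (not_lt.mp h3) (not_lt.mp h2)
      rw [if_pos h4]

lemma abs_prod_sub_prod_le {ι : Type*} [DecidableEq ι] (s : Finset ι) (a b : ι → ℤ) (M : ℤ)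
    (hM : 1 ≤ M) (ha : ∀ i ∈ s, |a i| ≤ M) (hb : ∀ i ∈ s, |b i| ≤ M)
    (hab : ∀ i ∈ s, |a i - b i| ≤ 1) :
    |∏ i ∈ s, a i - ∏ i ∈ s, b i| ≤ s.card * M ^ (s.card - 1) := by
  induction s using Finset.induction_on with
  | empty => simp
  | insert i s hi ih =>
    have ih' := ih (fun j hj => ha j (mem_insert_of_mem hj)) (fun j hj => hb j (mem_insert_of_mem hj))
      (fun j hj => hab j (mem_insert_of_mem hj))
    rw [prod_insert hi, prod_insert hi, card_insert_of_notMem hi]
    have h1 : a i * ∏ j ∈ s, a j - b i * ∏ j ∈ s, b j =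
        (a i - b i) * ∏ j ∈ s, a j + b i * (∏ j ∈ s, a j - ∏ j ∈ s, b j) := by ring
    have h2 : |∏ j ∈ s, a j| ≤ M ^ s.card := by
      rw [abs_prod]
      calc ∏ j ∈ s, |a j| ≤ ∏ _j ∈ s, M :=
            prod_le_prod (fun j _ => abs_nonneg _) fun j hj => ha j (mem_insert_of_mem hj)
        _ = M ^ s.card := by rw [prod_const]
    have h3 : |(a i - b i) * ∏ j ∈ s, a j| ≤ M ^ s.card := by
      rw [abs_mul]
      calc |a i - b i| * |∏ j ∈ s, a j| ≤ 1 * M ^ s.card :=
            mul_le_mul (hab i (mem_insert_self i s)) h2 (abs_nonneg _) (by norm_num)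
        _ = _ := one_mul _
    have h4 : |b i * (∏ j ∈ s, a j - ∏ j ∈ s, b j)| ≤ s.card * M ^ s.card := by
      rw [abs_mul]
      rcases Nat.eq_zero_or_pos s.card with h0 | h0
      · have hs : s = ∅ := card_eq_zero.mp h0
        subst hs
        simp
      · calc |b i| * |∏ j ∈ s, a j - ∏ j ∈ s, b j| ≤ M * (s.card * M ^ (s.card - 1)) :=
              mul_le_mul (hb i (mem_insert_self i s)) ih' (abs_nonneg _) (by linarith)
          _ = s.card * M ^ s.card := by
            rw [show M ^ s.card = M * M ^ (s.card - 1) by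
              rw [← pow_succ', Nat.sub_add_cancel h0]]
            ring
    rw [h1, Nat.add_sub_cancel]
    refine (abs_add_le _ _).trans ?_
    push_cast
    linarith

/-- the arithmetic progression of the factors -/
def ap (r Q j u : ℕ) (i : Fin (r + 1)) : ℤ := ((i : ℕ) : ℤ) * Q - (j : ℤ) * Q + u + 1

lemma wc_eq (m : Fin (r + 1)) (Q j : ℕ) :
    (wc m Q j : ℤ) = ∑ u ∈ range Q, ∏ i : Fin r, |ap r Q j u (m.succAbove i)| := by
  unfold wc am ap
  push_cast
  rfl

/-- TASK Z1a -/
theorem wc_zero (r Q : ℕ) : (r + 1).factorial * Q ^ (r + 1) ≤ ∑ m : Fin (r + 1), wc m Q 0 := by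
  have key : (((r + 1).factorial * Q ^ (r + 1) : ℕ) : ℤ) ≤
      ((∑ m : Fin (r + 1), wc m Q 0 : ℕ) : ℤ) := by
    push_cast
    have hP : ∀ n : ℕ, ∑ u ∈ range n, (∏ i, ap r Q 0 u i - ∏ i, (ap r Q 0 u i - 1)) =
        ∏ i : Fin (r + 1), (((i : ℕ) : ℤ) * Q + n) - ∏ i : Fin (r + 1), (((i : ℕ) : ℤ) * Q) := by
      intro n
      induction n with
      | zero => simp
      | succ n ih =>
        rw [sum_range_succ, ih]
        have h1 : ∏ i, ap r Q 0 n i = ∏ i : Fin (r + 1), (((i : ℕ) : ℤ) * Q + (n + 1 : ℕ)) := by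
          apply prod_congr rfl
          intro i _
          unfold ap
          push_cast
          ring
        have h2 : ∏ i, (ap r Q 0 n i - 1) = ∏ i : Fin (r + 1), (((i : ℕ) : ℤ) * Q + n) := by
          apply prod_congr rfl
          intro i _
          unfold ap
          push_cast
          ring
        rw [h1, h2]
        ring
    have h0 : ∏ i : Fin (r + 1), (((i : ℕ) : ℤ) * Q) = 0 :=
      prod_eq_zero (mem_univ (0 : Fin (r + 1))) (by simp)
    have h1 : ∏ i : Fin (r + 1), (((i : ℕ) : ℤ) * Q + Q) = (r + 1).factorial * Q ^ (r + 1) := by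
      have h2 : ∀ i : Fin (r + 1), (((i : ℕ) : ℤ) * Q + Q) = (((i : ℕ) + 1 : ℕ) : ℤ) * Q := by
        intro i; push_cast; ring
      rw [prod_congr rfl fun i _ => h2 i, prod_mul_distrib, prod_const, card_univ, Fintype.card_fin]
      congr 1
      rw [← Nat.cast_prod]
      congr 1
      rw [Fin.prod_univ_eq_prod_range (fun i => i + 1) (r + 1), prod_range_add_one_eq_factorial]
    have h2 := hP Q
    rw [h0, h1, sub_zero] at h2
    rw [← h2, sum_congr rfl fun m _ => wc_eq m Q 0, sum_comm]
    apply sum_le_sum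
    intro u _
    rw [prod_tele]
    apply sum_le_sum
    intro m _
    have hap : ∀ i : Fin (r + 1), 1 ≤ ap r Q 0 u i := by
      intro i
      unfold ap
      have h3 : (0 : ℤ) ≤ ((i : ℕ) : ℤ) * Q := by positivity
      have h4 : (0 : ℤ) ≤ (u : ℤ) := by positivity
      push_cast
      linarith
    apply prod_le_prod
    · intro i _
      unfold mixp
      have := hap (m.succAbove i)
      split_ifs <;> linarith
    · intro i _
      unfold mixp
      have := hap (m.succAbove i)
      have h5 := le_abs_self (ap r Q 0 u (m.succAbove i))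
      split_ifs <;> linarith
  exact_mod_cast key

/-- the sign of a factor -/
def sgf (j : ℕ) (k : Fin (r + 1)) : ℤ := if (k : ℕ) < j then -1 else 1

lemma sgf_sq (j : ℕ) (k : Fin (r + 1)) : sgf j k * sgf j k = 1 := by
  unfold sgf
  split_ifs <;> norm_num

lemma prod_sgf (j : ℕ) (hj : j ≤ r + 1) : ∏ k : Fin (r + 1), sgf j k = (-1) ^ j := by
  unfold sgf
  rw [Fin.prod_univ_eq_prod_range (fun k => if k < j then (-1 : ℤ) else 1) (r + 1),
    ← prod_subset (range_subset_range.mpr hj)]
  · rw [prod_congr rfl fun k hk => if_pos (mem_range.mp hk), prod_const, card_range]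
  · intro k _ hk
    rw [if_neg]
    rwa [mem_range] at hk

lemma prod_sgf_succAbove (j : ℕ) (hj : j ≤ r + 1) (m : Fin (r + 1)) :
    ∏ i : Fin r, sgf j (m.succAbove i) = sgf j m * (-1) ^ j := by
  have h1 := prod_sgf (r := r) j hj
  rw [Fin.prod_univ_succAbove _ m] at h1
  rw [← h1, ← mul_assoc, sgf_sq, one_mul]

lemma abs_ap {Q j u : ℕ} (hu : u < Q) (k : Fin (r + 1)) :
    |ap r Q j u k| = sgf j k * ap r Q j u k := by
  have hu' : (u : ℤ) + 1 ≤ Q := by exact_mod_cast hu
  unfold sgf
  split_ifs with h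
  · have h1 : ap r Q j u k ≤ 0 := by
      unfold ap
      have h2 : ((k : ℕ) : ℤ) + 1 ≤ j := by exact_mod_cast h
      have h3 : (0 : ℤ) ≤ (Q : ℤ) := by positivity
      nlinarith
    rw [abs_of_nonpos h1]
    ring
  · have h1 : 0 ≤ ap r Q j u k := by
      unfold ap
      have h2 : (j : ℤ) ≤ ((k : ℕ) : ℤ) := by exact_mod_cast not_lt.mp h
      have h3 : (0 : ℤ) ≤ (Q : ℤ) := by positivity
      have h4 : (0 : ℤ) ≤ (u : ℤ) := by positivity
      nlinarith
    rw [abs_of_nonneg h1]
    ring

lemma wc_sign {Q j : ℕ} (hj : j ≤ r + 1) (m : Fin (r + 1)) :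
    (if j ≤ (m : ℕ) then (wc m Q j : ℤ) else -(wc m Q j : ℤ)) =
      (-1) ^ j * ∑ u ∈ range Q, ∏ i : Fin r, ap r Q j u (m.succAbove i) := by
  have h1 : (wc m Q j : ℤ) = sgf j m * (-1) ^ j *
      ∑ u ∈ range Q, ∏ i : Fin r, ap r Q j u (m.succAbove i) := by
    rw [wc_eq, mul_sum]
    apply sum_congr rfl
    intro u hu
    rw [prod_congr rfl fun i _ => abs_ap (mem_range.mp hu) (m.succAbove i), prod_mul_distrib,
      prod_sgf_succAbove j hj m]
  have h2 : (if j ≤ (m : ℕ) then (wc m Q j : ℤ) else -(wc m Q j : ℤ)) =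
      sgf j m * (wc m Q j : ℤ) := by
    unfold sgf
    by_cases h : j ≤ (m : ℕ)
    · rw [if_pos h, if_neg (not_lt.mpr h), one_mul]
    · rw [if_neg h, if_pos (not_le.mp h)]
      ring
  rw [h2, h1, ← mul_assoc, ← mul_assoc, sgf_sq, one_mul]

/-- TASK Z1b -/
theorem wc_cancel (r : ℕ) : ∃ C : ℕ, ∀ Q : ℕ, 1 ≤ Q → ∀ j : ℕ, 1 ≤ j → j ≤ r →
    |(∑ m : Fin (r + 1), if j ≤ (m : ℕ) then (wc m Q j : ℤ) else -(wc m Q j : ℤ))| ≤
      (C : ℤ) * (Q : ℤ) ^ r := by
  refine ⟨(r + 1) * (r * (r + 1) ^ (r - 1)), ?_⟩
  intro Q hQ j hj1 hjr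
  have hQ' : (1 : ℤ) ≤ Q := by exact_mod_cast hQ
  rw [sum_congr rfl fun m _ => wc_sign (Q := Q) (by omega : j ≤ r + 1) m, ← mul_sum, abs_mul,
    abs_pow, abs_neg, abs_one, one_pow, one_mul, sum_comm]
  -- the telescoping sum vanishes
  have hP : ∀ n : ℕ, ∑ u ∈ range n, (∏ i, ap r Q j u i - ∏ i, (ap r Q j u i - 1)) =
      ∏ i : Fin (r + 1), (((i : ℕ) : ℤ) * Q - j * Q + n) -
        ∏ i : Fin (r + 1), (((i : ℕ) : ℤ) * Q - j * Q) := by
    intro n
    induction n with
    | zero => simp
    | succ n ih =>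
      rw [sum_range_succ, ih]
      have h1 : ∏ i, ap r Q j n i =
          ∏ i : Fin (r + 1), (((i : ℕ) : ℤ) * Q - j * Q + (n + 1 : ℕ)) := by
        apply prod_congr rfl
        intro i _
        unfold ap
        push_cast
        ring
      have h2 : ∏ i, (ap r Q j n i - 1) =
          ∏ i : Fin (r + 1), (((i : ℕ) : ℤ) * Q - j * Q + n) := by
        apply prod_congr rfl
        intro i _
        unfold ap
        ring
      rw [h1, h2]
      ring
  have h0 : ∏ i : Fin (r + 1), (((i : ℕ) : ℤ) * Q - j * Q) = 0 :=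
    prod_eq_zero (mem_univ (⟨j, by omega⟩ : Fin (r + 1))) (by simp)
  have h1 : ∏ i : Fin (r + 1), (((i : ℕ) : ℤ) * Q - j * Q + Q) = 0 := by
    apply prod_eq_zero (mem_univ (⟨j - 1, by omega⟩ : Fin (r + 1)))
    have h2 : (((j - 1 : ℕ)) : ℤ) = (j : ℤ) - 1 := by
      rw [Nat.cast_sub hj1]; simp
    simp only [h2]
    ring
  have h2 := hP Q
  rw [h0, h1, sub_zero, sum_congr rfl fun u _ => prod_tele (ap r Q j u)] at h2
  have h3 : ∑ u ∈ range Q, ∑ m : Fin (r + 1), ∏ i : Fin r, ap r Q j u (m.succAbove i) =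
      ∑ u ∈ range Q, ∑ m : Fin (r + 1), (∏ i : Fin r, ap r Q j u (m.succAbove i) -
        ∏ i : Fin r, mixp (ap r Q j u) m (m.succAbove i)) := by
    simp only [sum_sub_distrib]
    rw [h2, sub_zero]
  rw [h3]
  have hb : ∀ u ∈ range Q, ∀ m : Fin (r + 1),
      |∏ i : Fin r, ap r Q j u (m.succAbove i) -
        ∏ i : Fin r, mixp (ap r Q j u) m (m.succAbove i)| ≤
      (r : ℤ) * (((r : ℤ) + 1) * Q) ^ (r - 1) := by
    intro u hu m
    have hu' : (u : ℤ) + 1 ≤ Q := by exact_mod_cast mem_range.mp hu
    have hu0 : (0 : ℤ) ≤ u := by positivity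
    have hap : ∀ k : Fin (r + 1), |ap r Q j u k| ≤ r * Q := by
      intro k
      have hk : ((k : ℕ) : ℤ) ≤ r := by exact_mod_cast Nat.lt_succ_iff.mp k.2
      have hk0 : (0 : ℤ) ≤ ((k : ℕ) : ℤ) := by positivity
      have hj' : (j : ℤ) ≤ r := by exact_mod_cast hjr
      have hj0 : (1 : ℤ) ≤ j := by exact_mod_cast hj1
      unfold ap
      rw [abs_le]
      constructor
      · nlinarith
      · nlinarith
    have h4 := abs_prod_sub_prod_le (univ : Finset (Fin r)) (fun i => ap r Q j u (m.succAbove i))
      (fun i => mixp (ap r Q j u) m (m.succAbove i)) (((r : ℤ) + 1) * Q) (by nlinarith) ?_ ?_ ?_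
    · rw [card_univ, Fintype.card_fin] at h4
      exact h4
    · intro i _
      have := hap (m.succAbove i)
      linarith
    · intro i _
      have h5 := hap (m.succAbove i)
      unfold mixp
      split_ifs
      · have h6 := abs_sub (ap r Q j u (m.succAbove i)) 1
        rw [abs_one] at h6
        linarith
      · linarith
    · intro i _
      unfold mixp
      split_ifs <;> simp
  calc |∑ u ∈ range Q, ∑ m : Fin (r + 1), (∏ i : Fin r, ap r Q j u (m.succAbove i) -
        ∏ i : Fin r, mixp (ap r Q j u) m (m.succAbove i))| ≤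
      ∑ u ∈ range Q, ∑ m : Fin (r + 1), |∏ i : Fin r, ap r Q j u (m.succAbove i) -
        ∏ i : Fin r, mixp (ap r Q j u) m (m.succAbove i)| := by
        refine (abs_sum_le_sum_abs _ _).trans ?_
        apply sum_le_sum
        intro u _
        exact abs_sum_le_sum_abs _ _
    _ ≤ ∑ u ∈ range Q, ∑ m : Fin (r + 1), (r : ℤ) * (((r : ℤ) + 1) * Q) ^ (r - 1) := by
        apply sum_le_sum
        intro u hu
        exact sum_le_sum fun m _ => hb u hu m
    _ = (((r + 1) * (r * (r + 1) ^ (r - 1)) : ℕ) : ℤ) * (Q : ℤ) ^ r := by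
        rw [sum_const, sum_const, card_range, card_univ, Fintype.card_fin]
        have h5 : (Q : ℤ) ^ r = Q * Q ^ (r - 1) := by
          rw [← pow_succ', Nat.sub_add_cancel (by omega)]
        rw [h5, mul_pow]
        simp only [nsmul_eq_mul]
        push_cast
        ring

/-- TASK Z1: numerics. -/
theorem numerics (r : ℕ) (t0 : ℕ) (rr : ℤ → ℤ) : ∃ C : ℕ, ∀ Q : ℕ, 1 ≤ Q →
    ((r + 1).factorial : ℤ) * (Q : ℤ) ^ (r + 1) * t0 - (C : ℤ) * (Q : ℤ) ^ r ≤
      ∑ m : Fin (r + 1), ((wc m Q 0 : ℤ) * t0 +
        ∑ j ∈ Finset.Icc 1 (m : ℕ), (wc m Q j : ℤ) * rr (j + 1) -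
        ∑ j ∈ Finset.Icc ((m : ℕ) + 1) r, (wc m Q j : ℤ) * rr (j + 1)) := by
  obtain ⟨C, hC⟩ := wc_cancel r
  refine ⟨∑ j ∈ Icc 1 r, (rr (j + 1)).natAbs * C, ?_⟩
  intro Q hQ
  have h1 : ∑ m : Fin (r + 1), ((wc m Q 0 : ℤ) * t0 +
        ∑ j ∈ Finset.Icc 1 (m : ℕ), (wc m Q j : ℤ) * rr (j + 1) -
        ∑ j ∈ Finset.Icc ((m : ℕ) + 1) r, (wc m Q j : ℤ) * rr (j + 1)) =
      (∑ m : Fin (r + 1), (wc m Q 0 : ℤ)) * t0 + ∑ j ∈ Icc 1 r, rr (j + 1) *
        ∑ m : Fin (r + 1), (if j ≤ (m : ℕ) then (wc m Q j : ℤ) else -(wc m Q j : ℤ)) := by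
    have h2 : ∀ m : Fin (r + 1), ((wc m Q 0 : ℤ) * t0 +
        ∑ j ∈ Finset.Icc 1 (m : ℕ), (wc m Q j : ℤ) * rr (j + 1) -
        ∑ j ∈ Finset.Icc ((m : ℕ) + 1) r, (wc m Q j : ℤ) * rr (j + 1)) =
        (wc m Q 0 : ℤ) * t0 + ∑ j ∈ Icc 1 r, rr (j + 1) *
          (if j ≤ (m : ℕ) then (wc m Q j : ℤ) else -(wc m Q j : ℤ)) := by
      intro m
      have hm : (m : ℕ) ≤ r := Nat.lt_succ_iff.mp m.2
      rw [add_sub_assoc]
      congr 1
      have h3 : Icc 1 r = Icc 1 (m : ℕ) ∪ Icc ((m : ℕ) + 1) r := by
        ext j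
        simp only [mem_union, mem_Icc]
        omega
      have h4 : Disjoint (Icc 1 (m : ℕ)) (Icc ((m : ℕ) + 1) r) := by
        rw [disjoint_left]
        intro j h5 h6
        simp only [mem_Icc] at h5 h6
        omega
      rw [h3, sum_union h4, sub_eq_add_neg, ← sum_neg_distrib]
      congr 1
      · apply sum_congr rfl
        intro j hj
        rw [if_pos (mem_Icc.mp hj).2]
        ring
      · apply sum_congr rfl
        intro j hj
        rw [if_neg (by have := (mem_Icc.mp hj).1; omega)]
        ring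
    rw [sum_congr rfl fun m _ => h2 m, sum_add_distrib, ← sum_mul, sum_comm]
    congr 1
    apply sum_congr rfl
    intro j _
    rw [mul_sum]
  rw [h1]
  have h2 : ((r + 1).factorial : ℤ) * (Q : ℤ) ^ (r + 1) ≤ ∑ m : Fin (r + 1), (wc m Q 0 : ℤ) := by
    exact_mod_cast wc_zero r Q
  have h3 : ((r + 1).factorial : ℤ) * (Q : ℤ) ^ (r + 1) * t0 ≤
      (∑ m : Fin (r + 1), (wc m Q 0 : ℤ)) * t0 :=
    mul_le_mul_of_nonneg_right h2 (by positivity)
  have h4 : -(((∑ j ∈ Icc 1 r, (rr (j + 1)).natAbs * C : ℕ) : ℤ) * (Q : ℤ) ^ r) ≤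
      ∑ j ∈ Icc 1 r, rr (j + 1) *
        ∑ m : Fin (r + 1), (if j ≤ (m : ℕ) then (wc m Q j : ℤ) else -(wc m Q j : ℤ)) := by
    have h5 : |∑ j ∈ Icc 1 r, rr (j + 1) *
        ∑ m : Fin (r + 1), (if j ≤ (m : ℕ) then (wc m Q j : ℤ) else -(wc m Q j : ℤ))| ≤
        ((∑ j ∈ Icc 1 r, (rr (j + 1)).natAbs * C : ℕ) : ℤ) * (Q : ℤ) ^ r := by
      refine (abs_sum_le_sum_abs _ _).trans ?_
      rw [Nat.cast_sum, sum_mul]
      apply sum_le_sum
      intro j hj
      rw [abs_mul, Nat.cast_mul, Int.natCast_natAbs, mul_assoc]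
      exact mul_le_mul_of_nonneg_left (hC Q hQ j (mem_Icc.mp hj).1 (mem_Icc.mp hj).2)
        (abs_nonneg _)
    exact (abs_le.mp h5).1
  linarith

end Numerics

end Vale.Agent.P202.CharP
end
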