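import Vale.Agent.P202.MathlibUsed
import Vale.Agent.P202.Bdl.B2
import Vale.Agent.P202.Bdl.B1
import Vale.Agent.P202.Bdl.B3
import Vale.Agent.P202.Bdl.B4
attribute [-instance] DenselyNormedField.toNontriviallyNormedField DenselyNormedField.toNormedField NontriviallyNormedField.toNormedField RCLike.toDenselyNormedField NormedField.toField NormedField.toNormedDivisionRing NormedDivisionRing.toDivisionRing IdemCommSemiring.toCommSemiring KleeneAlgebra.toIdemSemiring DivisionRing.toDivisionSemiring SemiRingCat.instSemiringObjForgetRingHomCarrier NormedField.toNormedCommRing CommSemiRingCat.instCommSemiringObjForgetRingHomCarrier NormedCommRing.toNormedRing NormedDivisionRing.toNormedRing NormedCommRing.toSeminormedCommRing NormedRing.toSeminormedRing SeminormedCommRing.toSeminormedRing EuclideanDomain.toCommRing NormedCommRing.toCommRing SeminormedCommRing.toCommRing NormedRing.toRing SeminormedRing.toRing CommSemiring.toNonAssocCommSemiring NonAssocCommRing.toNonAssocCommSemiring NonAssocCommSemiring.toNonAssocSemiring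 NonUnitalNormedCommRing.toNonUnitalNormedRing NormedCommRing.toNonUnitalNormedCommRing NormedRing.toNonUnitalNormedRing CommRing.toAddCommGroupWithOne NonAssocRing.toAddCommGroupWithOne LinearOrderedAddCommGroupWithTop.instLinearOrderedAddCommMonoidWithTop NonUnitalNormedCommRing.toNonUnitalSeminormedCommRing NonUnitalNormedRing.toNonUnitalSeminormedRing NonUnitalSeminormedCommRing.toNonUnitalSeminormedRing SeminormedCommRing.toNonUnitalSeminormedCommRing SeminormedRing.toNonUnitalSeminormedRing AddCommGroupWithOne.toAddCommMonoidWithOne LinearOrderedAddCommGroupWithTop.toAddCommMonoid SemimoduleCat.isAddCommMonoid NonUnitalCommRing.toNonUnitalRing NonUnitalNormedCommRing.toNonUnitalCommRing NonUnitalNormedRing.toNonUnitalRing NonUnitalSeminormedCommRing.toNonUnitalCommRing NonUnitalSeminormedRing.toNonUnitalRing Ring.toNonUnitalRing NonAssocCommRing.toNonUnitalNonAssocCommRing NonUnitalRing.toNonUnitalNonAssocRing NonUnitalRing.toNonUnitalSemiring Semiring.toNonUnitalSemiring NonAssocCommSemiring.toNonUnitalNonAssocCommSemiring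 NonUnitalCommSemiring.toNonUnitalNonAssocCommSemiring NonUnitalNonAssocCommSemiring.toNonUnitalNonAssocSemiring NonUnitalSemiring.toNonUnitalNonAssocSemiring AddCommMonoidWithOne.toAddCommMonoid TopologicalSpace.Compacts.instSetLike Pi.nonUnitalNonAssocSemiring RingCat.instRingObjForgetRingHomCarrier instCoeT instCoeTOfCoeDep AbsoluteValue.funLike Pi.addMonoidWithOne Pi.nonAssocSemiring ModuleCat.isModule Pi.instTopForall LinearOrderedAddCommGroupWithTop.toSubNegMonoid Pi.seminormedAddCommGroup LieRing.toAddCommGroup AddMonCat.addMonoidObj AddCommGroupWithOne.toAddGroupWithOne CompleteAtomicBooleanAlgebra.toCompletelyDistribLattice LinearOrderedCommGroupWithZero.toLinearOrderedCommMonoidWithZero instCoeTC Filter.instMembership CompleteBooleanAlgebra.toCompleteDistribLattice CompletelyDistribLattice.toCompleteDistribLattice NormedCommGroup.toNormedGroup CompleteDistribLattice.toCoframe CompleteDistribLattice.toFrame NormedCommGroup.toSeminormedCommGroup NormedGroup.toSeminormedGroup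 SeminormedCommGroup.toSeminormedGroup instCoeTCOfCoe MulSemiringAction.toDistribMulAction LinearOrderedCommGroupWithZero.toCommGroupWithZero CommGroupWithZero.toGroupWithZero instCoeHTC instCoeHTCT CompleteLinearOrder.toCompleteLattice Order.Coframe.toCompleteLattice Order.Frame.toCompleteLattice MonCat.monoidObj CommGroup.toGroup NormedCommGroup.toCommGroup NormedGroup.toGroup SeminormedCommGroup.toCommGroup SeminormedGroup.toGroup instNonUnitalAlgHomClassOfNonUnitalAlgEquivClass ModuleCat.instAddCommGroupCarrierMkOfSMul' SubfieldClass.toNormedField ChainCompletePartialOrder.instOfCompleteLattice ChainCompletePartialOrder.instOmegaCompletePartialOrder ChainCompletePartialOrder.toPartialOrder CompletePartialOrder.toOmegaCompletePartialOrder OmegaCompletePartialOrder.toPartialOrder CommGroupWithZero.toCommMonoidWithZero LinearOrderedCommMonoidWithZero.toCommMonoidWithZero NonUnitalNormedRing.toNormedAddCommGroup TwoSidedIdeal.instIsTwoSidedCoeOrderHomIdealAsIdeal CommMonoidWithZero.toMonoidWithZero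 Std.DTreeMap.Raw.instSingletonSigma MonoidWithZero.toSemigroupWithZero SemigroupWithZero.toMulZeroClass SubfieldClass.toField Pi.preorder instRingHomSurjectiveForallEvalRingHom AddGrpCat.str SubfieldClass.toDivisionRing SetLike.GradeZero.instCommSemiring CompleteBooleanAlgebra.toBooleanAlgebra instDistribSMul NonUnitalNonAssocSemiring.toDistribSMul instSMulZeroClass CompleteLinearOrder.toConditionallyCompleteLinearOrderBot NonUnitalSeminormedRing.toSeminormedAddCommGroup NormedAddCommGroup.toSeminormedAddCommGroup SetLike.GradeZero.instSemiring BooleanAlgebra.toBiheytingAlgebra CompleteDistribLattice.toBiheytingAlgebra CompleteLinearOrder.toBiheytingAlgebra CompletelyDistribLattice.toBiheytingAlgebra ConditionallyCompleteLinearOrderBot.toConditionallyCompleteLinearOrder LieAlgebra.toModule NormedSpace.toModule GradedMonoid.GradeZero.smul AddOpposite.instAddZero NormedAlgebra.toAlgebra LinearOrderedCommMonoidWithZero.toIsBotZeroClass Pi.nonUnitalSemiring CompleteLinearOrder.toLinearOrder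 ConditionallyCompleteLinearOrder.toLinearOrder LinearOrderedAddCommGroupWithTop.toLinearOrder LinearOrderedCommMonoidWithZero.toLinearOrder NormedAddCommGroup.toNormedAddGroup Torsor.toMulAction GradedMonoid.GradeZero.mulAction Pi.partialOrder OrderAddMonoidHom.instAddMonoidHomClass AbsoluteValue.mulHomClass NormedAlgebra.id Invertible.toNeZero NeZero.of_gt' Nat.AtLeastTwo.toNeZero BiheytingAlgebra.toCoheytingAlgebra BiheytingAlgebra.toHeytingAlgebra BooleanAlgebra.toGeneralizedBooleanAlgebra Order.Coframe.toCoheytingAlgebra Order.Frame.toHeytingAlgebra OrderRingHom.instRingHomClass AbsoluteValue.zeroHomClass Nat.instNontrivial Nat.instOne Nat.Prime.one_lt' Pi.instBotForall instSubsingleton Pi.subtractionMonoid CoheytingAlgebra.toGeneralizedCoheytingAlgebra GeneralizedBooleanAlgebra.toGeneralizedCoheytingAlgebra HeytingAlgebra.toGeneralizedHeytingAlgebra MulSemiringActionSemiHomClass.toDistribMulActionSemiHomClass ContinuousAddMonoidHom.instCoeOutOfAddMonoidHomClassOfContinuousMapClass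 ContinuousMonoidHom.instCoeOutOfMonoidHomClassOfContinuousMapClass HomeomorphClass.instCoeOutHomeomorph IsometryClass.instCoeOutIsometryEquiv OrderDual.instDivisionRing OrderDual.instDivisionSemiring Pi.mulZeroOneClass Std.Time.WallTime.instHAddOffset_1 IsEmpty.instSubsingleton NormedAddGroup.toSeminormedAddGroup SeminormedAddCommGroup.toSeminormedAddGroup Field.henselian HenselianLocalRing.toIsLocalRing instConditionallyCompletePartialOrderSup CompleteLattice.toCompleteSemilatticeSup ConditionallyCompletePartialOrder.toConditionallyCompletePartialOrderInf ContinuousSemilinearEquivClass.continuousSemilinearMapClass ContinuousSemilinearMapClass.toSemilinearMapClass RingHomClass.toLinearMapClassNNRat RingHomClass.toLinearMapClassRat SemilinearIsometryClass.toContinuousSemilinearMapClass SemilinearIsometryClass.toSemilinearMapClass BooleanAlgebra.toDistribLattice CompleteLattice.toLattice CompleteLattice.toPartialOrder' CompleteSemilatticeSup.toPartialOrder ConditionallyCompletePartialOrderInf.toPartialOrder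 GeneralizedBooleanAlgebra.toDistribLattice GeneralizedCoheytingAlgebra.toDistribLattice GeneralizedCoheytingAlgebra.toLattice GeneralizedHeytingAlgebra.toDistribLattice GeneralizedHeytingAlgebra.toLattice LinearOrder.toLattice Order.Coframe.toDistribLattice Order.Frame.toDistribLattice ValuationClass.toMonoidWithZeroHomClass EMetricSpace.toPseudoEMetricSpace MetricSpace.toEMetricSpace MetricSpace.toPseudoMetricSpace NonUnitalNormedRing.toMetricSpace NonUnitalSeminormedRing.toPseudoMetricSpace NormedAddCommGroup.toMetricSpace NormedAddGroup.toMetricSpace NormedCommGroup.toMetricSpace NormedDivisionRing.toMetricSpace NormedField.toMetricSpace NormedGroup.toMetricSpace NormedRing.toMetricSpace PseudoEMetricSpace.toUniformSpace PseudoMetricSpace.toPseudoEMetricSpace PseudoMetricSpace.toUniformSpace SeminormedAddCommGroup.toPseudoMetricSpace SeminormedAddGroup.toPseudoMetricSpace SeminormedCommGroup.toPseudoMetricSpace SeminormedGroup.toPseudoMetricSpace SeminormedRing.toPseudoMetricSpace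 Valued.toUniformSpace WithIdeal.instUniformSpace FiniteDimensional.finiteDimensional_quotient UniformSpace.toTopologicalSpace WithIdeal.instTopologicalSpace AlgHomClass.linearMapClass NonUnitalAlgHomClass.instSemilinearMapClassOfNonUnitalAlgSemiHomClassToMonoidHomRingHom Pi.instSemilatticeSup AddCommGroupWithOne.toAddCommGroup NormedAddCommGroup.toAddCommGroup NormedAddGroup.toAddGroup SeminormedAddCommGroup.toAddCommGroup SeminormedAddGroup.toAddGroup instFiniteProp ENormedAddCommMonoid.toESeminormedAddCommMonoid NormedAddCommGroup.toENormedAddCommMonoid boolToProp AddCancelCommMonoid.toAddCancelMonoid AddCancelCommMonoid.toAddCommMonoid AddCancelCommMonoid.toAddLeftCancelMonoid AddCancelMonoid.toAddLeftCancelMonoid AddCancelMonoid.toAddRightCancelMonoid AddCommGroup.toAddCancelCommMonoid AddGroup.toAddCancelMonoid AddLeftCancelMonoid.toAddMonoid AddRightCancelMonoid.toAddMonoid ENormedAddCommMonoid.toENormedAddMonoid ENormedAddMonoid.toESeminormedAddMonoid ESeminormedAddCommMonoid.toAddCommMonoid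 ESeminormedAddCommMonoid.toESeminormedAddMonoid ESeminormedAddMonoid.toAddMonoid LinearOrderedAddCommGroupWithTop.toSubtractionMonoid NormedAddGroup.toENormedAddMonoid FloorSemiring.instCharZero IsStrictOrderedRing.toCharZero NumberField.to_charZero RCLike.charZero_rclike coePNatNat Nat.Primes.coeNat Nat.Primes.coePNat NonUnitalAlgHomClass.toNonUnitalRingHomClass RingEquivClass.toNonUnitalRingHomClass NumberField.instFiniteDimensional Algebra.Extension.commRing Pi.smulZeroClass' Pi.semigroup SetLike.GradeZero.instCommRing WithTop.linearOrderedAddCommMonoidWithTop Field.instIsLocalRing ValuationRing.isLocalRing SubringClass.toNormedCommRing SubringClass.toSeminormedCommRing Prod.instSubsingletonAddUnits instMulActionSemiHomClassMulActionHom Pi.commMagma Pi.mulZeroClass instIsSimpleModule instCoeHTCOfCoeHeadOfCoeOTC instCoeHTCTOfCoeTailOfCoeHTC instCoeOutOfCoeFun instCoeTailIntOfIntCast instCoeTailNatOfNatCast instCoeTailRatOfRatCast instNatCastNat AddGroupWithOne.toIntCast DivisionRing.toNNRatCast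 DivisionRing.toRatCast DivisionSemiring.toNNRatCast LinearMapClass.instCoeToLinearMap NNRatCast.toCoeTail NonUnitalStarRingHomClass.instCoeHeadNonUnitalStarRingHom SemilinearMapClass.instCoeToSemilinearMap StarAlgEquivClass.instCoeHead StarRingEquivClass.instCoeHead Pi.mulOneClass instIsDedekindDomainOfIsDomainOfIsDedekindRing IsDedekindDomainDvr.isDedekindDomain instNontrivialOfCharZero DivisionRing.toNontrivial IsSimpleOrder.toNontrivial LinearOrderedAddCommGroupWithTop.toNontrivial Pi.nonAssocRing Pi.instOrderTop Ideal.Quotient.normedCommRing Ideal.Quotient.semiNormedCommRing AddHom.addHomClass instIsDomain DivisionRing.isDomain EuclideanDomain.instIsDomain Field.isDomain IsDedekindDomain.toIsDomain IsStrictOrderedRing.isDomain Pi.commRing Pi.normedCommutativeRing Pi.seminormedCommRing Pi.instMaxForall_mathlib RCLike.toDecidableEq MulZeroClass.toSMulWithZero Pi.subNegZeroMonoid Pi.commSemiring Pi.instIdemCommSemiringForall MulEquivClass.toMonoidWithZeroHomClass MulRingSeminormClass.toMonoidWithZeroHomClass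 SubalgebraClass.normedRing SubalgebraClass.seminormedRing SubringClass.toNormedRing SubringClass.toSeminormedRing Algebra.Generators.instRing Fin.completeLinearOrder Pi.instOne MonoidWithZero.toMulActionWithZero instIsSemisimpleModuleOfIsSimpleModule instIsSemisimpleRingOfSubsingleton IsSemisimpleRing.isSemisimpleModule instInfiniteOfUncountable instInhabitedOfMonad instNonemptyOfInhabited instNonemptyOfMonad CategoryTheory.isConnected_of_nonempty_and_subsingleton CharZero.infinite Denumerable.instInfinite ENormedCommMonoid.toESeminormedCommMonoid Group.instTorsor GroupWithZero.toNontrivial Infinite.instNontrivial IsAlgClosed.instInfinite IsOrderedRing.toIsStrictOrderedRing IsSimpleAddGroup.toNontrivial IsSimpleGroup.toNontrivial IsSimpleRing.instNontrivial IsStrictOrderedRing.toNontrivial NoMaxOrder.infinite NoMinOrder.infinite Nontrivial.to_nonempty NontriviallyNormedField.infinite NormedCommGroup.toENormedCommMonoid Preorder.smallCategory Torsor.nonempty Unique.instInhabited CategoryTheory.Groupoid.toCategory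 CategoryTheory.IsConnected.is_nonempty CategoryTheory.StrictBicategory.category SubringClass.toNegMemClass SemilinearIsometryEquivClass.toSemilinearIsometryClass Part.ofOptionDecidable FiniteDimensional.finiteDimensional_pi' MulCharClass.toMonoidHomClass MulDistribMulActionSemiHomClass.toMonoidHomClass Pi.instIdemSemiring Pi.instKleeneAlgebraForall Pi.normedRing Pi.seminormedRing Pi.semiring SetLike.GradeZero.instRing MonomialOrder.orderBot bot_nonempty infSet_to_nonempty supSet_to_nonempty top_nonempty AddCommGroup.toGrindIntModule AddCommMonoid.toGrindNatModule BooleanAlgebra.toBot BooleanAlgebra.toBoundedOrder BooleanAlgebra.toTop BoundedOrder.toOrderBot BoundedOrder.toOrderTop CancelCommMonoid.toCancelMonoid CancelCommMonoid.toCommMonoid CancelCommMonoid.toLeftCancelMonoid CancelMonoid.toLeftCancelMonoid CancelMonoid.toRightCancelMonoid CoheytingAlgebra.toBoundedOrder CoheytingAlgebra.toOrderTop CommGroup.toCancelCommMonoid CommGroup.toCommMonoid CommGroup.toDivisionCommMonoid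 CommMonoidWithZero.toCommMonoid CommRing.toGrindCommRing CommSemiring.toGrindCommSemiring CompletePartialOrder.toOrderBot CompletePartialOrder.toSupSet CompleteSemilatticeInf.toInfSet CompleteSemilatticeSup.toSupSet ConditionallyCompleteLattice.toInfSet ConditionallyCompleteLattice.toSupSet ConditionallyCompleteLinearOrderBot.toOrderBot ConditionallyCompletePartialOrderInf.toInfSet ConditionallyCompletePartialOrderSup.toSupSet ConnectedSpace.toNonempty DivInvMonoid.toMonoid DivInvOneMonoid.toDivInvMonoid DivisionCommMonoid.toCommMonoid DivisionMonoid.toDivInvMonoid DivisionRing.toDivInvMonoid ENormedCommMonoid.toENormedMonoid ENormedMonoid.toESeminormedMonoid ESeminormedCommMonoid.toCommMonoid ESeminormedCommMonoid.toESeminormedMonoid ESeminormedMonoid.toMonoid Field.toGrindField GeneralizedBooleanAlgebra.toBot GeneralizedBooleanAlgebra.toOrderBot GeneralizedCoheytingAlgebra.toOrderBot GeneralizedHeytingAlgebra.toOrderTop Group.toCancelMonoid Group.toDivInvMonoid Group.toDivisionMonoid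 GroupWithZero.toDivisionMonoid HeytingAlgebra.toBoundedOrder HeytingAlgebra.toOrderBot IdemSemiring.toOrderBot InvOneClass.toOne IrreducibleSpace.connectedSpace IrreducibleSpace.toNonempty LeftCancelMonoid.toMonoid LinearOrderedAddCommGroupWithTop.toOrderTop LinearOrderedCommMonoidWithZero.toOrderBot MonoidWithZero.toMonoid MulZeroClass.negZeroClass NormedGroup.toENormedMonoid One.instNonempty One.ofOfNat1 PathConnectedSpace.connectedSpace RightCancelMonoid.toMonoid Ring.toGrindRing Semiring.toGrindSemiring Zero.instNonempty Zero.ofOfNat0 GradedMonoid.GradeZero.commMonoid GradedMonoid.GradeZero.monoid GradedMonoid.GradeZero.one Pi.instSubtractionCommMonoid AdicCompletion.instIsHausdorff IsStrictOrderedRing.noZeroDivisors NormMulClass.toNoZeroDivisors decidableEq_of_subsingleton AlgHom.instRingHomCompTripleComp instIsNoetherianRingOfIsArtinianRing IsDedekindDomainDvr.toIsNoetherian IsDedekindRing.toIsNoetherian IsRegularLocalRing.toIsNoetherian IsSimpleModule.instIsNoetherian Ring.HasFiniteQuotients.instIsNoetherianRing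 instIsEmptyForallOfNonempty Pi.subNegMonoid instNontrivialCarrierObjModuleCatOfFullOfFaithful Fin.instBiheytingAlgebra -- iprune

set_option linter.all false

section

/-!
P202-CHARP, K1 and K2: Koszul homology in degree zero, vanishing outside `[0, n]`, finiteness,
additivity and invariance of the Koszul Euler characteristic.
-/

namespace Vale.Agent.P202.CharP

open Submodule

section KB

variable {B : Type*} [CommRing B]

/-- the index of degree `0`. -/
def kz : ∀ n, KIdx n
  | 0 => PUnit.unit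
  | n + 1 => Sum.inl (kz n)

theorem kdeg_kz : ∀ n, kdeg n (kz n) = 0
  | 0 => rfl
  | n + 1 => kdeg_kz n

theorem eq_kz : ∀ (n : ℕ) (a : KIdx n), kdeg n a = 0 → a = kz n
  | 0, _, _ => rfl
  | n + 1, Sum.inl a, h => congrArg Sum.inl (eq_kz n a h)
  | n + 1, Sum.inr a, h => by
    have h1 : kdeg n a + 1 = 0 := h
    have h2 := (kdeg_range n a).1
    omega

theorem kos_kz_mem : ∀ (n : ℕ) (y : Fin n → B) (b : KIdx n),
    kos n y (kz n) b ∈ Ideal.span (Set.range y)
  | 0, y, b => by
    have h : kos 0 y (kz 0) b = 0 := rfl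
    rw [h]
    exact Ideal.zero_mem _
  | n + 1, y, Sum.inl b => by
    have h := kos_kz_mem n (fun i => y i.succ) b
    refine Ideal.span_mono ?_ h
    rintro _ ⟨i, rfl⟩
    exact ⟨i.succ, rfl⟩
  | n + 1, y, Sum.inr b => by
    have h : kos (n + 1) y (kz (n + 1)) (Sum.inr b) =
      (y 0 • (1 : Matrix (KIdx n) (KIdx n) B)) (kz n) b := rfl
    rw [h, Matrix.smul_apply, smul_eq_mul]
    exact Ideal.mul_mem_right _ _ (Ideal.subset_span ⟨0, rfl⟩)

theorem exists_kos_kz : ∀ (n : ℕ) (y : Fin n → B) (l : Fin n),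
    ∃ b : KIdx n, kdeg n b = 1 ∧ kos n y (kz n) b = y l
  | 0, _, l => l.elim0
  | n + 1, y, l => by
    refine Fin.cases ?_ (fun l => ?_) l
    · refine ⟨Sum.inr (kz n), ?_, ?_⟩
      · change kdeg n (kz n) + 1 = 1
        rw [kdeg_kz, zero_add]
      · change (y 0 • (1 : Matrix (KIdx n) (KIdx n) B)) (kz n) (kz n) = y 0
        rw [Matrix.smul_apply, Matrix.one_apply_eq, smul_eq_mul, mul_one]
    · obtain ⟨b, h1, h2⟩ := exists_kos_kz n (fun i => y i.succ) l
      exact ⟨Sum.inl b, h1, h2⟩

variable {M : Type*} [AddCommGroup M] [Module B M]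

/-- boundaries in degree zero. -/
theorem mem_bb_zero {n : ℕ} (y : Fin n → B) (f : KIdx n → M)
    (hf : ∀ a, kdeg n a - 0 ≠ 0 → f a = 0) :
    f ∈ bb (tot (kdeg n) (kos n y) (0 : M →ₗ[B] M)) (lift (kdeg n) (conc ⊤))
      (lift (kdeg n) (conc ⊥)) 0 ↔ f (kz n) ∈ Ideal.span (Set.range y) • (⊤ : Submodule B M) := by
  rw [mem_bb_kh]
  constructor
  · rintro ⟨g, -, rfl⟩
    rw [tot_zero_apply]
    exact Submodule.sum_mem _ fun b _ => Submodule.smul_mem_smul (kos_kz_mem n y b) trivial
  · intro h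
    have key : ∀ m ∈ Ideal.span (Set.range y) • (⊤ : Submodule B M),
        ∃ g : KIdx n → M, (∀ a, kdeg n a - (0 + 1) ≠ 0 → g a = 0) ∧
          ∑ b, kos n y (kz n) b • g b = m := by
      intro m hm
      let ev : (KIdx n → M) →ₗ[B] M := (LinearMap.proj (kz n)).comp (act (kos n y) M)
      have h1 : Ideal.span (Set.range y) • (⊤ : Submodule B M) ≤
          (lift (kdeg n) (conc (⊤ : Submodule B M)) (0 + 1)).map ev := by
        rw [Submodule.smul_le]
        intro r hr x _
        refine Submodule.span_induction ?_ ?_ ?_ ?_ hr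
        · rintro _ ⟨l, rfl⟩
          obtain ⟨b, hb1, hb2⟩ := exists_kos_kz n y l
          refine ⟨Pi.single b x, ?_, ?_⟩
          · rw [SetLike.mem_coe, mem_lift_conc_top]
            intro a ha
            have hab : a ≠ b := by
              rintro rfl
              exact ha (by rw [hb1]; ring)
            rw [Pi.single_eq_of_ne hab]
          · change ∑ c, kos n y (kz n) c • (Pi.single b x : KIdx n → M) c = y l • x
            rw [Finset.sum_eq_single b]
            · rw [Pi.single_eq_same, hb2]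
            · intro c _ hc
              rw [Pi.single_eq_of_ne hc, smul_zero]
            · intro hb
              exact absurd (Finset.mem_univ b) hb
        · rw [zero_smul]; exact Submodule.zero_mem _
        · intro r1 r2 _ _ h1 h2
          rw [add_smul]; exact Submodule.add_mem _ h1 h2
        · intro c r1 _ h1
          rw [smul_eq_mul, mul_smul]; exact Submodule.smul_mem _ _ h1
      obtain ⟨g, hg1, hg2⟩ := h1 hm
      rw [SetLike.mem_coe, mem_lift_conc_top] at hg1
      exact ⟨g, hg1, hg2⟩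
    obtain ⟨g, hg1, hg2⟩ := key _ h
    refine ⟨g, hg1, ?_⟩
    ext a
    rw [tot_zero_apply]
    by_cases ha : kdeg n a = 0
    · rw [eq_kz n a ha, hg2]
    · rw [hf a (by rwa [sub_zero])]
      refine Finset.sum_eq_zero fun b _ => ?_
      by_cases hab : kos n y a b = 0
      · rw [hab, zero_smul]
      · have h1 := (kos_isCx n y).deg_eq a b hab
        rw [hg1 b (by rw [h1]; omega), smul_zero]

/-- TASK K1: degrees. -/
theorem kk_zero {n : ℕ} (y : Fin n → B) (M : Type*) [AddCommGroup M] [Module B M] :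
    kk y M 0 = Module.length B (M ⧸ (Ideal.span (Set.range y) • (⊤ : Submodule B M))) := by
  unfold kk kh khs hh
  refine rl_eq_length_of_surjective (((Submodule.mkQ _).comp (LinearMap.proj (kz n))).comp
    (Submodule.subtype _)) ?_ ?_
  · intro q
    obtain ⟨m, rfl⟩ := Submodule.Quotient.mk_surjective _ q
    refine ⟨⟨Pi.single (kz n) m, ?_⟩, ?_⟩
    · rw [mem_zz_kh]
      refine ⟨fun a ha => ?_, ?_⟩
      · have hab : a ≠ kz n := by
          rintro rfl
          exact ha (by rw [kdeg_kz, sub_zero])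
        rw [Pi.single_eq_of_ne hab]
      · ext a
        rw [tot_zero_apply, Pi.zero_apply]
        refine Finset.sum_eq_zero fun b _ => ?_
        by_cases hab : kos n y a b = 0
        · rw [hab, zero_smul]
        · have h1 := (kos_isCx n y).deg_eq a b hab
          have h2 := (kdeg_range n a).1
          have hb : b ≠ kz n := by
            rintro rfl
            rw [kdeg_kz] at h1
            omega
          rw [Pi.single_eq_of_ne hb, smul_zero]
    · change Submodule.Quotient.mk ((Pi.single (kz n) m : KIdx n → M) (kz n)) = _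
      rw [Pi.single_eq_same]
  · ext ⟨f, hf⟩
    have h1 := (mem_zz_kh.1 hf).1
    have h2 : (⟨f, hf⟩ : ↥(zz (tot (kdeg n) (kos n y) (0 : M →ₗ[B] M)) (lift (kdeg n) (conc ⊤))
      (lift (kdeg n) (conc ⊥)) 0)) ∈ Submodule.submoduleOf (bb (tot (kdeg n) (kos n y)
      (0 : M →ₗ[B] M)) (lift (kdeg n) (conc ⊤)) (lift (kdeg n) (conc ⊥)) 0) _ ↔
      f ∈ bb (tot (kdeg n) (kos n y) (0 : M →ₗ[B] M)) (lift (kdeg n) (conc ⊤))
      (lift (kdeg n) (conc ⊥)) 0 := Iff.rfl
    rw [h2, mem_bb_zero y f h1, LinearMap.mem_ker]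
    change Submodule.Quotient.mk (f (kz n)) = _ ↔ _
    rw [Submodule.Quotient.mk_eq_zero]

/-- TASK K1. -/
theorem kk_out {n : ℕ} (y : Fin n → B) (M : Type*) [AddCommGroup M] [Module B M] (i : ℤ)
    (hi : i < 0 ∨ (n : ℤ) < i) : kk y M i = 0 := by
  unfold kk kh khs hh
  rw [rl_eq_zero_iff]
  intro f hf
  have h1 := (mem_zz_kh.1 hf).1
  have h2 : f = 0 := by
    ext a
    refine h1 a ?_
    have h3 := kdeg_range n a
    omega
  rw [h2]
  exact Submodule.zero_mem _

/-- primes in the support of a module of finite length are maximal. -/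
theorem isMaximal_of_support {N : Type*} [AddCommGroup N] [Module B N]
    (h : Module.length B N ≠ ⊤) (P : PrimeSpectrum B) (hP : P ∈ Module.support B N) :
    P.asIdeal.IsMaximal := by
  obtain ⟨m, hm⟩ := Module.mem_support_iff_exists_annihilator.mp hP
  have hN : IsArtinian B N :=
    (isFiniteLength_iff_isNoetherian_isArtinian.mp (Module.length_ne_top_iff.mp h)).2
  have hle : LinearMap.ker (LinearMap.toSpanSingleton B N m) ≤ P.asIdeal := by
    intro x hx
    refine hm ?_
    rw [Submodule.mem_annihilator_span_singleton]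
    exact hx
  have h1 : IsArtinian B (B ⧸ LinearMap.ker (LinearMap.toSpanSingleton B N m)) :=
    isArtinian_of_linearEquiv (LinearMap.toSpanSingleton B N m).quotKerEquivRange.symm
  have h2 : IsArtinian B (B ⧸ P.asIdeal) :=
    isArtinian_of_surjective _ (Submodule.factor hle) (Submodule.factor_surjective hle)
  have h3 : IsArtinianRing (B ⧸ P.asIdeal) := isArtinian_of_tower B h2
  have h4 : (⊥ : Ideal (B ⧸ P.asIdeal)).IsMaximal := IsArtinianRing.isMaximal_of_isPrime _
  exact Ideal.bot_quotient_isMaximal_iff P.asIdeal |>.mp h4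

/-- a finite module killed by an ideal with Artinian quotient ring has finite length. -/
theorem length_ne_top_of_quot (J : Ideal B) [IsNoetherianRing B] [hJ : IsArtinianRing (B ⧸ J)]
    {Q : Type*} [AddCommGroup Q] [Module B Q] [Module.Finite B Q]
    (h : ∀ a ∈ J, ∀ v : Q, a • v = 0) : Module.length B Q ≠ ⊤ := by
  have ht : Module.IsTorsionBySet B Q (J : Set B) := by
    intro v a
    exact h a.1 a.2 v
  let _ : Module (B ⧸ J) Q := ht.module
  have : IsScalarTower B (B ⧸ J) Q := ht.isScalarTower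
  have : Module.Finite (B ⧸ J) Q := Module.Finite.of_restrictScalars_finite B _ _
  have : IsArtinian (B ⧸ J) Q := inferInstance
  have : IsArtinian B Q :=
    isArtinian_of_surjective_algebraMap (R := B ⧸ J) (S := B)
      (Ideal.Quotient.mk_surjective)
  have : IsNoetherian B Q := inferInstance
  exact Module.length_ne_top

/-- TASK K1: finiteness. -/
theorem kk_ne_top [IsNoetherianRing B] {n : ℕ} (y : Fin n → B) (M : Type*) [AddCommGroup M]
    [Module B M] [Module.Finite B M]
    (h : Module.length B (M ⧸ (Ideal.span (Set.range y) • (⊤ : Submodule B M))) ≠ ⊤) (i : ℤ) :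
    kk y M i ≠ ⊤ := by
  set J := Module.annihilator B M ⊔ Ideal.span (Set.range y) with hJdef
  have hJ : IsArtinianRing (B ⧸ J) := by
    rw [isArtinianRing_iff_krullDimLE_zero, Ring.krullDimLE_zero_iff]
    intro P hP
    set P' := P.comap (Ideal.Quotient.mk J) with hP'
    have hP'p : P'.IsPrime := Ideal.comap_isPrime _ _
    have hle : J ≤ P' := by
      intro x hx
      rw [hP', Ideal.mem_comap, Ideal.Quotient.eq_zero_iff_mem.mpr hx]
      exact P.zero_mem
    have h1 : (⟨P', hP'p⟩ : PrimeSpectrum B) ∈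
        Module.support B (M ⧸ (Ideal.span (Set.range y) • (⊤ : Submodule B M))) := by
      rw [Module.support_quotient]
      refine ⟨?_, ?_⟩
      · rw [Module.mem_support_iff_of_finite]
        exact le_sup_left.trans hle
      · exact le_sup_right.trans hle
    have h2 : P'.IsMaximal := isMaximal_of_support h _ h1
    have h3 : P = P'.map (Ideal.Quotient.mk J) :=
      (Ideal.map_comap_of_surjective _ Ideal.Quotient.mk_surjective P).symm
    rcases Ideal.map_eq_top_or_isMaximal_of_surjective (Ideal.Quotient.mk J)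
      Ideal.Quotient.mk_surjective h2 with h4 | h4
    · rw [← h3] at h4
      exact absurd h4 hP.ne_top
    · rwa [← h3] at h4
  unfold kk kh khs hh rl
  refine length_ne_top_of_quot J ?_
  intro a ha v
  obtain ⟨v, rfl⟩ := Submodule.Quotient.mk_surjective _ v
  rw [← Submodule.Quotient.mk_smul, Submodule.Quotient.mk_eq_zero]
  obtain ⟨v, hv⟩ := v
  change a • v ∈ bb (tot (kdeg n) (kos n y) (0 : M →ₗ[B] M)) (lift (kdeg n) (conc ⊤))
      (lift (kdeg n) (conc ⊥)) i
  have hv' := mem_zz_kh.1 hv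
  obtain ⟨a1, ha1, a2, ha2, rfl⟩ := Submodule.mem_sup.1 ha
  rw [add_smul]
  refine Submodule.add_mem _ ?_ ?_
  · have : a1 • v = 0 := by
      ext b
      rw [Pi.smul_apply, Pi.zero_apply]
      exact Module.mem_annihilator.1 ha1 (v b)
    rw [this]
    exact Submodule.zero_mem _
  · refine Submodule.span_induction ?_ ?_ ?_ ?_ ha2
    · rintro _ ⟨l, rfl⟩
      obtain ⟨hm, h1, h2⟩ := kos_homotopy n y l
      rw [mem_bb_kh]
      refine ⟨act hm M v, ?_, ?_⟩
      · intro b hb
        rw [act_apply]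
        refine Finset.sum_eq_zero fun c _ => ?_
        by_cases hbc : hm b c = 0
        · rw [hbc, zero_smul]
        · have h3 := h1 b c hbc
          rw [hv'.1 c (by omega), smul_zero]
      · have h3 : act (kos n y * hm + hm * kos n y) M v = y l • v := by
          rw [h2, act_smul, act_one]
        rw [act_add, act_mul, act_mul] at h3
        have h4 : act (kos n y) M v = 0 := by
          have h5 := hv'.2
          ext b
          have h6 := congrFun h5 b
          rw [tot_zero_apply] at h6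
          exact h6
        rw [h4, map_zero, add_zero] at h3
        rw [← h3]
        ext b
        rw [tot_zero_apply, act_apply]
    · rw [zero_smul]; exact Submodule.zero_mem _
    · intro r1 r2 _ _ h1 h2
      rw [add_smul]; exact Submodule.add_mem _ h1 h2
    · intro c r1 _ h1
      rw [smul_eq_mul, mul_smul]; exact Submodule.smul_mem _ _ h1

/-- TASK K2. -/
theorem kk_congr {n : ℕ} (y : Fin n → B) {M N : Type*} [AddCommGroup M] [Module B M]
    [AddCommGroup N] [Module B N] (e : M ≃ₗ[B] N) (i : ℤ) : kk y M i = kk y N i :=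
  kh_congr (kdeg n) (kos n y) e i

/-- TASK K2. -/
theorem kchi_congr {n : ℕ} (y : Fin n → B) {M N : Type*} [AddCommGroup M] [Module B M]
    [AddCommGroup N] [Module B N] (e : M ≃ₗ[B] N) : kchi y M = kchi y N := by
  unfold kchi
  exact Finset.sum_congr rfl fun i _ => by rw [kk_congr y e]

/-- alternating sums along a long exact sequence of finite lengths. -/
theorem kb_alt (n : ℕ) (h1 h2 h3 α β γ : ℤ → ℕ) (e2 : ∀ δ, h2 δ = α δ + β δ)
    (e3 : ∀ δ, h3 δ = β δ + γ (δ - 1)) (e1 : ∀ δ, h1 δ = γ δ + α δ) (g0 : γ (-1) = 0)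
    (gn : γ n = 0) :
    ∑ i ∈ Finset.range (n + 1), (-1 : ℤ) ^ i * ((h2 i : ℕ) : ℤ) =
      ∑ i ∈ Finset.range (n + 1), (-1 : ℤ) ^ i * ((h1 i : ℕ) : ℤ) +
      ∑ i ∈ Finset.range (n + 1), (-1 : ℤ) ^ i * ((h3 i : ℕ) : ℤ) := by
  have key : ∀ k : ℕ, ∑ i ∈ Finset.range (k + 1), (-1 : ℤ) ^ i * ((h1 i : ℕ) : ℤ) +
      ∑ i ∈ Finset.range (k + 1), (-1 : ℤ) ^ i * ((h3 i : ℕ) : ℤ) =
      ∑ i ∈ Finset.range (k + 1), (-1 : ℤ) ^ i * ((h2 i : ℕ) : ℤ) + (-1 : ℤ) ^ k * (γ k : ℤ) := by
    intro k
    induction k with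
    | zero =>
      have a1 := e1 0
      have a2 := e2 0
      have a3 := e3 0
      rw [zero_sub, g0] at a3
      simp only [zero_add, Finset.sum_range_one, pow_zero, one_mul, Nat.cast_zero]
      rw [a1, a2, a3]
      push_cast
      ring
    | succ k ih =>
      rw [Finset.sum_range_succ, Finset.sum_range_succ _ (k + 1), Finset.sum_range_succ _ (k + 1)]
      have a1 := e1 ((k + 1 : ℕ) : ℤ)
      have a2 := e2 ((k + 1 : ℕ) : ℤ)
      have a3 := e3 ((k + 1 : ℕ) : ℤ)
      have hk : ((k + 1 : ℕ) : ℤ) - 1 = (k : ℤ) := by push_cast; ring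
      rw [hk] at a3
      rw [a1, a2, a3]
      push_cast at ih ⊢
      rw [pow_succ]
      linarith
  have h := key n
  rw [gn] at h
  simp only [Nat.cast_zero, mul_zero, add_zero] at h
  exact h.symm

/-- TASK K2: additivity. -/
theorem kchi_add {n : ℕ} (y : Fin n → B) {M₁ M₂ M₃ : Type*} [AddCommGroup M₁] [Module B M₁]
    [AddCommGroup M₂] [Module B M₂] [AddCommGroup M₃] [Module B M₃]
    (f : M₁ →ₗ[B] M₂) (g : M₂ →ₗ[B] M₃) (hf : Function.Injective f)
    (hg : Function.Surjective g) (hfg : Function.Exact f g)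
    (h1 : ∀ i, kk y M₁ i ≠ ⊤) (h2 : ∀ i, kk y M₂ i ≠ ⊤) (h3 : ∀ i, kk y M₃ i ≠ ⊤) :
    kchi y M₂ = kchi y M₁ + kchi y M₃ := by
  have hQ := kos_isCx n y
  set D : (KIdx n → M₂) →ₗ[B] (KIdx n → M₂) := tot (kdeg n) (kos n y) (0 : M₂ →ₗ[B] M₂) with hD
  set X := lift (kdeg n) (conc (⊥ : Submodule B M₂)) with hX
  set Y := lift (kdeg n) (conc (LinearMap.range f)) with hY
  set Z := lift (kdeg n) (conc (⊤ : Submodule B M₂)) with hZ
  have hDD : ∀ x, D (D x) = 0 := tot_tot _ _ hQ _ (fun _ => rfl)
  have sX : Stab D X := lift_conc_stab _ _ hQ _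
  have sY : Stab D Y := lift_conc_stab _ _ hQ _
  have sZ : Stab D Z := lift_conc_stab _ _ hQ _
  have hXY : ∀ δ, X δ ≤ Y δ := lift_mono _ (conc_mono bot_le)
  have hYZ : ∀ δ, Y δ ≤ Z δ := lift_mono _ (conc_mono le_top)
  have les := hh_les D hDD X Y Z sX sY sZ hXY hYZ
  have k2 : ∀ i, hh D Z X i = kk y M₂ i := fun i => rfl
  have k1 : ∀ i, hh D Y X i = kk y M₁ i := by
    intro i
    symm
    refine khs_map_eq (kdeg n) (kos n y) hQ f ⊤ ⊥ (LinearMap.range f) ⊥ bot_le ?_ ?_ i
    · rw [Submodule.map_top]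
    · intro x _
      rw [Submodule.mem_bot, Submodule.mem_bot]
      exact map_eq_zero_iff f hf
  have k3 : ∀ i, hh D Z Y i = kk y M₃ i := by
    intro i
    refine khs_map_eq (kdeg n) (kos n y) hQ g ⊤ (LinearMap.range f) ⊤ ⊥ le_top ?_ ?_ i
    · rw [Submodule.map_top, LinearMap.range_eq_top.mpr hg]
    · intro x _
      rw [Submodule.mem_bot]
      exact hfg x
  set α : ℤ → ℕ∞ := fun δ => rl (bb D Z X δ) (zz D Y X δ ⊔ bb D Z X δ) with hα
  set β : ℤ → ℕ∞ := fun δ => rl (bb D Z Y δ) (zz D Z X δ ⊔ bb D Z Y δ) with hβ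
  set γ : ℤ → ℕ∞ := fun δ => rl (bb D Y X δ) ((zz D Z Y (δ + 1)).map D ⊔ bb D Y X δ) with hγ
  have e2 : ∀ δ, kk y M₂ δ = α δ + β δ := fun δ => by rw [← k2, (les δ).1]
  have e3 : ∀ δ, kk y M₃ δ = β δ + γ (δ - 1) := fun δ => by
    rw [← k3, (les δ).2.1, hγ]
    simp only [sub_add_cancel]
    rfl
  have e1 : ∀ δ, kk y M₁ δ = γ δ + α δ := fun δ => by rw [← k1, (les δ).2.2]
  have fα : ∀ δ, α δ ≠ ⊤ := fun δ h => h2 δ (by rw [e2, h, top_add])
  have fβ : ∀ δ, β δ ≠ ⊤ := fun δ h => h2 δ (by rw [e2, h, add_top])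
  have fγ : ∀ δ, γ δ ≠ ⊤ := fun δ h => h1 δ (by rw [e1, h, top_add])
  refine kb_alt n (fun i => (kk y M₁ i).toNat) (fun i => (kk y M₂ i).toNat)
    (fun i => (kk y M₃ i).toNat) (fun i => (α i).toNat) (fun i => (β i).toNat)
    (fun i => (γ i).toNat) ?_ ?_ ?_ ?_ ?_
  · intro δ
    rw [e2, ENat.toNat_add (fα δ) (fβ δ)]
  · intro δ
    rw [e3, ENat.toNat_add (fβ δ) (fγ _)]
  · intro δ
    rw [e1, ENat.toNat_add (fγ δ) (fα δ)]
  · have h := e1 (-1)
    rw [kk_out y M₁ (-1) (Or.inl (by norm_num))] at h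
    have h' : γ (-1) = 0 := (add_eq_zero.mp h.symm).1
    simp only [h', ENat.toNat_zero]
  · have h := e3 ((n : ℤ) + 1)
    rw [kk_out y M₃ _ (Or.inr (by omega)), add_sub_cancel_right] at h
    have h' : γ (n : ℤ) = 0 := (add_eq_zero.mp h.symm).2
    simp only [h', ENat.toNat_zero]

end KB

end Vale.Agent.P202.CharP
end

section

/-!
P202-CHARP, K3: peeling off the first element of a Koszul complex.
-/

namespace Vale.Agent.P202.CharP

open Submodule

section Peel

/-! ### shifting and negating -/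

section

variable {S 𝕋 : Type*} [CommRing S] [AddCommGroup 𝕋] [Module S 𝕋]

lemma kp_hh_shift (D : 𝕋 →ₗ[S] 𝕋) (Y X : ℤ → Submodule S 𝕋) (i : ℤ) :
    hh (-D) (fun δ => Y (δ - 1)) (fun δ => X (δ - 1)) i = hh D Y X (i - 1) := by
  unfold hh zz bb
  rw [Submodule.map_neg, Submodule.comap_neg]
  have e : i + 1 - 1 = i - 1 + 1 := by ring
  simp only [e]

/-- excision: an exact top quotient does not change the homology. -/
lemma kp_hh_exc (D : 𝕋 →ₗ[S] 𝕋) (hD : ∀ x, D (D x) = 0) (X Y Z : ℤ → Submodule S 𝕋)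
    (hX : Stab D X) (hY : Stab D Y) (hZ : Stab D Z) (hXY : ∀ δ, X δ ≤ Y δ)
    (hYZ : ∀ δ, Y δ ≤ Z δ) (h0 : ∀ δ, hh D Z Y δ = 0) (δ : ℤ) :
    hh D Z X δ = hh D Y X δ := by
  obtain ⟨h1, h2, h3⟩ := hh_les D hD X Y Z hX hY hZ hXY hYZ δ
  obtain ⟨-, h2', -⟩ := hh_les D hD X Y Z hX hY hZ hXY hYZ (δ + 1)
  rw [h0, eq_comm, add_eq_zero] at h2 h2'
  have h4 := h2'.2
  rw [add_sub_cancel_right] at h4
  rw [h1, h3, h2.1, h4, zero_add, add_zero]

end

/-! ### the block complex -/

section

variable {S : Type*} [CommRing S] {ι : Type*} [Fintype ι] [DecidableEq ι] {M : Type*}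
  [AddCommGroup M] [Module S M]

/-- degrees of the cone. -/
def kpdeg (deg : ι → ℤ) : ι ⊕ ι → ℤ := Sum.elim deg (fun a => deg a + 1)

/-- matrix of the cone of the multiplication by `c`. -/
def kpQ (Q : Matrix ι ι S) (c : S) : Matrix (ι ⊕ ι) (ι ⊕ ι) S :=
  Matrix.fromBlocks Q (c • (1 : Matrix ι ι S)) 0 (-Q)

omit [DecidableEq ι] in
lemma kp_tot (deg : ι → ℤ) (Q : Matrix ι ι S) (f : ι → M) (a : ι) :
    tot deg Q (0 : M →ₗ[S] M) f a = ∑ b, Q a b • f b := by
  simp [tot_apply]

lemma kp_isCx (deg : ι → ℤ) (Q : Matrix ι ι S) (hQ : IsCx deg Q) (c : S) :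
    IsCx (kpdeg deg) (kpQ Q c) := by
  refine ⟨?_, ?_⟩
  · rintro (a | a) (b | b) h
    · exact hQ.deg_eq a b h
    · by_cases hab : a = b
      · subst hab; rfl
      · refine absurd ?_ h
        change (c • (1 : Matrix ι ι S)) a b = 0
        simp [hab]
    · exact absurd rfl h
    · have h' : Q a b ≠ 0 := by
        intro h0
        refine h ?_
        change (-Q) a b = 0
        rw [Matrix.neg_apply, h0, neg_zero]
      have := hQ.deg_eq a b h'
      change deg b + 1 = deg a + 1 + 1
      rw [this]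
  · unfold kpQ
    rw [Matrix.fromBlocks_multiply, hQ.sq]
    simp [hQ.sq]

lemma kp_inl (deg : ι → ℤ) (Q : Matrix ι ι S) (c : S) (f : ι ⊕ ι → M) (a : ι) :
    tot (kpdeg deg) (kpQ Q c) (0 : M →ₗ[S] M) f (Sum.inl a) =
      tot deg Q (0 : M →ₗ[S] M) (fun b => f (Sum.inl b)) a + c • f (Sum.inr a) := by
  rw [kp_tot, kp_tot, Fintype.sum_sum_type]
  congr 1
  have : ∀ b : ι, kpQ Q c (Sum.inl a) (Sum.inr b) • f (Sum.inr b) =
      if b = a then c • f (Sum.inr b) else 0 := by
    intro b
    change (c • (1 : Matrix ι ι S)) a b • f (Sum.inr b) = _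
    by_cases h : b = a
    · subst h; simp
    · have h' : ¬ a = b := fun e => h e.symm
      simp [h, h']
  simp only [this]
  simp

lemma kp_inr (deg : ι → ℤ) (Q : Matrix ι ι S) (c : S) (f : ι ⊕ ι → M) (a : ι) :
    tot (kpdeg deg) (kpQ Q c) (0 : M →ₗ[S] M) f (Sum.inr a) =
      - tot deg Q (0 : M →ₗ[S] M) (fun b => f (Sum.inr b)) a := by
  rw [kp_tot, kp_tot, Fintype.sum_sum_type, ← Finset.sum_neg_distrib]
  have h1 : ∀ b : ι, kpQ Q c (Sum.inr a) (Sum.inl b) • f (Sum.inl b) = 0 := by
    intro b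
    change (0 : S) • f (Sum.inl b) = _
    rw [zero_smul]
  have h2 : ∀ b : ι, kpQ Q c (Sum.inr a) (Sum.inr b) • f (Sum.inr b) =
      - (Q a b • f (Sum.inr b)) := by
    intro b
    change (-Q) a b • f (Sum.inr b) = _
    rw [Matrix.neg_apply, neg_smul]
  simp only [h1, h2]
  simp

/-- projection to the first block modulo `c`. -/
def kpF (c : S) (M : Type*) [AddCommGroup M] [Module S M] (ι : Type*) :
    (ι ⊕ ι → M) →ₗ[S] (ι → M ⧸ (LinearMap.range (LinearMap.lsmul S M c))) where
  toFun f a := Submodule.Quotient.mk (f (Sum.inl a))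
  map_add' f g := by ext a; rfl
  map_smul' r f := by ext a; rfl

/-- inclusion of the kernel in the second block. -/
def kpG (c : S) (M : Type*) [AddCommGroup M] [Module S M] (ι : Type*) :
    (ι → ↥(LinearMap.ker (LinearMap.lsmul S M c))) →ₗ[S] (ι ⊕ ι → M) where
  toFun g := Sum.elim (fun _ => 0) (fun a => (g a : M))
  map_add' f g := by ext (a | a) <;> simp
  map_smul' r f := by ext (a | a) <;> simp

lemma kpF_comm (deg : ι → ℤ) (Q : Matrix ι ι S) (c : S) (f : ι ⊕ ι → M) :
    tot deg Q (0 : (M ⧸ (LinearMap.range (LinearMap.lsmul S M c))) →ₗ[S] _) (kpF c M ι f) =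
      kpF c M ι (tot (kpdeg deg) (kpQ Q c) (0 : M →ₗ[S] M) f) := by
  ext a
  rw [kp_tot]
  change _ = (Submodule.Quotient.mk (tot (kpdeg deg) (kpQ Q c) (0 : M →ₗ[S] M) f (Sum.inl a)) :
    M ⧸ (LinearMap.range (LinearMap.lsmul S M c)))
  rw [kp_inl, Submodule.Quotient.mk_add, kp_tot]
  have h1 : (Submodule.Quotient.mk (c • f (Sum.inr a)) :
      M ⧸ (LinearMap.range (LinearMap.lsmul S M c))) = 0 := by
    rw [Submodule.Quotient.mk_eq_zero]
    exact ⟨f (Sum.inr a), rfl⟩
  rw [h1, add_zero]
  have h2 : (Submodule.Quotient.mk (∑ b, Q a b • f (Sum.inl b)) :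
      M ⧸ (LinearMap.range (LinearMap.lsmul S M c))) =
      ∑ b, Q a b • (Submodule.Quotient.mk (f (Sum.inl b)) :
        M ⧸ (LinearMap.range (LinearMap.lsmul S M c))) := by
    have := map_sum (Submodule.mkQ (LinearMap.range (LinearMap.lsmul S M c)))
      (fun b => Q a b • f (Sum.inl b)) Finset.univ
    exact this
  rw [h2]
  rfl

lemma kpG_comm (deg : ι → ℤ) (Q : Matrix ι ι S) (c : S)
    (g : ι → ↥(LinearMap.ker (LinearMap.lsmul S M c))) :
    tot (kpdeg deg) (kpQ Q c) (0 : M →ₗ[S] M) (kpG c M ι g) =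
      kpG c M ι ((-(tot deg Q (0 : ↥(LinearMap.ker (LinearMap.lsmul S M c)) →ₗ[S] _))) g) := by
  ext (a | a)
  · rw [kp_inl, kp_tot]
    change ∑ b, Q a b • (0 : M) + c • ((g a : M)) = 0
    have h1 : c • ((g a : M)) = 0 := (g a).2
    rw [h1]
    simp
  · rw [kp_inr, kp_tot]
    change -∑ b, Q a b • (g b : M) = ((-(tot deg Q (0 : ↥(LinearMap.ker
      (LinearMap.lsmul S M c)) →ₗ[S] _) g a) : ↥(LinearMap.ker (LinearMap.lsmul S M c))) : M)
    rw [kp_tot]
    simp

omit [Fintype ι] [DecidableEq ι] in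
lemma kpG_mem {c : S} {f : ι ⊕ ι → M} {g : ι → ↥(LinearMap.ker (LinearMap.lsmul S M c))}
    (h1 : ∀ a, f (Sum.inl a) = 0) (h2 : ∀ a, (g a : M) = f (Sum.inr a)) : kpG c M ι g = f := by
  ext (a | a)
  · rw [h1]; rfl
  · rw [← h2]; rfl

/-- the middle family: first block in `c M`. -/
def kpY (deg : ι → ℤ) (c : S) (M : Type*) [AddCommGroup M] [Module S M] (δ : ℤ) :
    Submodule S (ι ⊕ ι → M) :=
  lift (kpdeg deg) (conc (⊤ : Submodule S M)) δ ⊓ LinearMap.ker (kpF c M ι)

/-- the bottom family: second block in the kernel of `c`. -/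
def kpX (deg : ι → ℤ) (c : S) (M : Type*) [AddCommGroup M] [Module S M] (δ : ℤ) :
    Submodule S (ι ⊕ ι → M) :=
  (lift deg (conc (⊤ : Submodule S ↥(LinearMap.ker (LinearMap.lsmul S M c)))) (δ - 1)).map
    (kpG c M ι)

omit [Fintype ι] [DecidableEq ι] in
lemma kp_mem_top {deg : ι → ℤ} {δ : ℤ} {f : ι ⊕ ι → M} :
    f ∈ lift (kpdeg deg) (conc (⊤ : Submodule S M)) δ ↔
      (∀ a, deg a - δ ≠ 0 → f (Sum.inl a) = 0) ∧
      (∀ a, deg a - (δ - 1) ≠ 0 → f (Sum.inr a) = 0) := by
  rw [mem_lift_conc_top]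
  constructor
  · intro h
    refine ⟨fun a ha => h (Sum.inl a) ha, fun a ha => h (Sum.inr a) ?_⟩
    intro h0
    apply ha
    change deg a + 1 - δ = 0 at h0
    linarith
  · rintro ⟨h1, h2⟩ (a | a) ha
    · exact h1 a ha
    · refine h2 a fun h0 => ha ?_
      change deg a + 1 - δ = 0
      linarith

omit [Fintype ι] [DecidableEq ι] in
lemma kp_mem_Y {deg : ι → ℤ} {c : S} {δ : ℤ} {f : ι ⊕ ι → M} :
    f ∈ kpY deg c M δ ↔
      ((∀ a, deg a - δ ≠ 0 → f (Sum.inl a) = 0) ∧
      (∀ a, deg a - (δ - 1) ≠ 0 → f (Sum.inr a) = 0)) ∧ ∀ a, ∃ x, f (Sum.inl a) = c • x := by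
  unfold kpY
  rw [Submodule.mem_inf, kp_mem_top, LinearMap.mem_ker, funext_iff]
  refine and_congr_right fun _ => forall_congr' fun a => ?_
  change (Submodule.Quotient.mk (f (Sum.inl a)) : M ⧸ (LinearMap.range (LinearMap.lsmul S M c)))
    = 0 ↔ _
  rw [Submodule.Quotient.mk_eq_zero]
  constructor
  · rintro ⟨x, hx⟩; exact ⟨x, hx.symm⟩
  · rintro ⟨x, hx⟩; exact ⟨x, hx.symm⟩

omit [Fintype ι] [DecidableEq ι] in
lemma kp_mem_X {deg : ι → ℤ} {c : S} {δ : ℤ} {f : ι ⊕ ι → M} :
    f ∈ kpX deg c M δ ↔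
      (∀ a, f (Sum.inl a) = 0) ∧ (∀ a, c • f (Sum.inr a) = 0) ∧
      (∀ a, deg a - (δ - 1) ≠ 0 → f (Sum.inr a) = 0) := by
  unfold kpX
  constructor
  · rintro ⟨g, hg, rfl⟩
    rw [SetLike.mem_coe, mem_lift_conc_top] at hg
    refine ⟨fun a => rfl, fun a => (g a).2, fun a ha => ?_⟩
    change ((g a : ↥(LinearMap.ker (LinearMap.lsmul S M c))) : M) = 0
    rw [hg a ha]; rfl
  · rintro ⟨h1, h2, h3⟩
    refine ⟨fun a => ⟨f (Sum.inr a), h2 a⟩, ?_, ?_⟩
    · rw [SetLike.mem_coe, mem_lift_conc_top]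
      intro a ha
      exact Subtype.ext (h3 a ha)
    · exact kpG_mem h1 fun a => rfl

lemma kpY_stab (deg : ι → ℤ) (Q : Matrix ι ι S) (hQ : IsCx deg Q) (c : S) :
    Stab (tot (kpdeg deg) (kpQ Q c) (0 : M →ₗ[S] M)) (kpY deg c M) := by
  intro δ f hf
  obtain ⟨h1, h2⟩ := hf
  refine ⟨lift_conc_stab (kpdeg deg) (kpQ Q c) (kp_isCx deg Q hQ c) ⊤ δ f h1, ?_⟩
  change kpF c M ι _ = 0
  rw [← kpF_comm]
  have h3 : kpF c M ι f = 0 := h2
  rw [h3, map_zero]

lemma kpX_stab (deg : ι → ℤ) (Q : Matrix ι ι S) (hQ : IsCx deg Q) (c : S) :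
    Stab (tot (kpdeg deg) (kpQ Q c) (0 : M →ₗ[S] M)) (kpX deg c M) := by
  rintro δ _ ⟨g, hg, rfl⟩
  rw [kpG_comm]
  refine ⟨_, ?_, rfl⟩
  rw [LinearMap.neg_apply]
  exact Submodule.neg_mem _ (lift_conc_stab deg Q hQ ⊤ (δ - 1) g hg)

omit [Fintype ι] [DecidableEq ι] in
lemma kpX_le_Y (deg : ι → ℤ) (c : S) (δ : ℤ) : kpX deg c M δ ≤ kpY deg c M δ := by
  intro f hf
  rw [kp_mem_X] at hf
  rw [kp_mem_Y]
  exact ⟨⟨fun a _ => hf.1 a, hf.2.2⟩, fun a => ⟨0, by rw [hf.1 a, smul_zero]⟩⟩

/-- the top quotient. -/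
lemma kp_hh_top (deg : ι → ℤ) (Q : Matrix ι ι S) (hQ : IsCx deg Q) (c : S) (i : ℤ) :
    hh (tot (kpdeg deg) (kpQ Q c) (0 : M →ₗ[S] M))
      (lift (kpdeg deg) (conc (⊤ : Submodule S M))) (kpY deg c M) i =
    kh deg Q (M ⧸ (LinearMap.range (LinearMap.lsmul S M c))) i := by
  unfold kh khs
  refine hh_map_eq _ _ (kpF c M ι) (fun x => kpF_comm deg Q c x) _ _ _ _ ?_
    (lift_conc_stab (kpdeg deg) (kpQ Q c) (kp_isCx deg Q hQ c) ⊤) ?_ ?_ i
  · intro δ
    exact inf_le_left
  · intro δ
    ext f'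
    constructor
    · rintro ⟨f, hf, rfl⟩
      rw [SetLike.mem_coe, kp_mem_top] at hf
      rw [mem_lift_conc_top]
      intro a ha
      change (Submodule.Quotient.mk (f (Sum.inl a)) :
        M ⧸ (LinearMap.range (LinearMap.lsmul S M c))) = 0
      rw [hf.1 a ha, Submodule.Quotient.mk_zero]
    · intro hf'
      rw [mem_lift_conc_top] at hf'
      have h2 : ∀ a, ∃ x, (deg a - δ ≠ 0 → x = 0) ∧ (Submodule.Quotient.mk x :
        M ⧸ (LinearMap.range (LinearMap.lsmul S M c))) = f' a := by
        intro a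
        by_cases h : deg a - δ = 0
        · obtain ⟨x, hx⟩ := Submodule.Quotient.mk_surjective _ (f' a)
          exact ⟨x, fun h' => absurd h h', hx⟩
        · exact ⟨0, fun _ => rfl, by rw [Submodule.Quotient.mk_zero, hf' a h]⟩
      choose f hf hff using h2
      refine ⟨Sum.elim f 0, ?_, ?_⟩
      · rw [SetLike.mem_coe, kp_mem_top]
        exact ⟨hf, fun a _ => rfl⟩
      · ext a; exact hff a
  · intro δ f hf
    rw [lift_conc_bot, Submodule.mem_bot]
    unfold kpY
    rw [Submodule.mem_inf, LinearMap.mem_ker]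
    exact ⟨fun h => ⟨hf, h⟩, fun h => h.2⟩

/-- the bottom quotient. -/
lemma kp_hh_bot (deg : ι → ℤ) (Q : Matrix ι ι S) (hQ : IsCx deg Q) (c : S) (i : ℤ) :
    hh (tot (kpdeg deg) (kpQ Q c) (0 : M →ₗ[S] M))
      (kpX deg c M) (lift (kpdeg deg) (conc (⊥ : Submodule S M))) i =
    kh deg Q ↥(LinearMap.ker (LinearMap.lsmul S M c)) (i - 1) := by
  unfold kh khs
  rw [← kp_hh_shift]
  symm
  refine hh_map_eq _ _ (kpG c M ι) (fun x => kpG_comm deg Q c x) _ _ _ _ ?_ ?_ ?_ ?_ i
  · intro δ
    rw [lift_conc_bot]; exact bot_le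
  · intro δ g hg
    rw [LinearMap.neg_apply]
    exact Submodule.neg_mem _ (lift_conc_stab deg Q hQ ⊤ (δ - 1) g hg)
  · intro δ; rfl
  · intro δ g hg
    rw [lift_conc_bot, lift_conc_bot, Submodule.mem_bot, Submodule.mem_bot]
    constructor
    · intro h
      ext a
      exact congrFun h (Sum.inr a)
    · rintro rfl
      exact map_zero _

/-- the middle quotient is exact. -/
lemma kp_hh_mid (deg : ι → ℤ) (Q : Matrix ι ι S) (hQ : IsCx deg Q) (c : S) (i : ℤ) :
    hh (tot (kpdeg deg) (kpQ Q c) (0 : M →ₗ[S] M)) (kpY deg c M) (kpX deg c M) i = 0 := by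
  unfold hh
  rw [rl_eq_zero_iff]
  intro f hf
  obtain ⟨h1, h2⟩ := Submodule.mem_inf.mp hf
  rw [kp_mem_Y] at h1
  rw [Submodule.mem_comap, kp_mem_X] at h2
  obtain ⟨⟨h3, h4⟩, h5⟩ := h1
  obtain ⟨h6, -, -⟩ := h2
  have h7 : ∀ a, ∃ x, (deg a - i ≠ 0 → x = 0) ∧ f (Sum.inl a) = c • x := by
    intro a
    by_cases h : deg a - i = 0
    · obtain ⟨x, hx⟩ := h5 a
      exact ⟨x, fun h' => absurd h h', hx⟩
    · exact ⟨0, fun _ => rfl, by rw [h3 a h, smul_zero]⟩
  choose g hg1 hg2 using h7
  have hw : (Sum.elim (0 : ι → M) g : ι ⊕ ι → M) ∈ kpY deg c M (i + 1) := by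
    rw [kp_mem_Y]
    refine ⟨⟨fun a _ => rfl, fun a ha => ?_⟩, fun a => ⟨0, by rw [smul_zero]; rfl⟩⟩
    rw [add_sub_cancel_right] at ha
    exact hg1 a ha
  have hKg : ∀ a, deg a - (i - 1) ≠ 0 → tot deg Q (0 : M →ₗ[S] M) g a = 0 := by
    have := lift_conc_stab deg Q hQ (⊤ : Submodule S M) i g (mem_lift_conc_top.mpr hg1)
    exact mem_lift_conc_top.mp this
  have hD : ∀ a, c • tot deg Q (0 : M →ₗ[S] M) g a =
      tot deg Q (0 : M →ₗ[S] M) (fun b => f (Sum.inl b)) a := by
    intro a
    rw [kp_tot, kp_tot, Finset.smul_sum]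
    refine Finset.sum_congr rfl fun b _ => ?_
    rw [hg2, smul_comm]
  have hrest : f - tot (kpdeg deg) (kpQ Q c) (0 : M →ₗ[S] M) (Sum.elim (0 : ι → M) g) ∈
      kpX deg c M i := by
    rw [kp_mem_X]
    have e1 : ∀ a, (f - tot (kpdeg deg) (kpQ Q c) (0 : M →ₗ[S] M) (Sum.elim (0 : ι → M) g))
        (Sum.inr a) = f (Sum.inr a) + tot deg Q (0 : M →ₗ[S] M) g a := by
      intro a
      rw [Pi.sub_apply, kp_inr, sub_neg_eq_add]
      rfl
    refine ⟨fun a => ?_, fun a => ?_, fun a ha => ?_⟩
    · rw [Pi.sub_apply, kp_inl, hg2]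
      change c • g a - (tot deg Q (0 : M →ₗ[S] M) (fun b => 0) a + c • g a) = 0
      rw [kp_tot]
      simp
    · rw [e1, smul_add, hD, add_comm, ← kp_inl]
      exact h6 a
    · rw [e1, h4 a ha, hKg a ha, add_zero]
  rw [← sub_add_cancel f (tot (kpdeg deg) (kpQ Q c) (0 : M →ₗ[S] M) (Sum.elim (0 : ι → M) g))]
  exact Submodule.add_mem _ (Submodule.mem_sup_right hrest)
    (Submodule.mem_sup_left (Submodule.mem_map_of_mem hw))

/-- the long exact sequence of the cone of `c`. -/
theorem kp_les (deg : ι → ℤ) (Q : Matrix ι ι S) (hQ : IsCx deg Q) (c : S)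
    (M : Type*) [AddCommGroup M] [Module S M] :
    ∃ al be ga : ℤ → ℕ∞, ∀ i, kh (kpdeg deg) (kpQ Q c) M i = al i + be i ∧
      kh deg Q (M ⧸ (LinearMap.range (LinearMap.lsmul S M c))) i = be i + ga (i - 1) ∧
      kh deg Q ↥(LinearMap.ker (LinearMap.lsmul S M c)) (i - 1) = ga i + al i := by
  have hcx := kp_isCx deg Q hQ c
  have hD : ∀ x, tot (kpdeg deg) (kpQ Q c) (0 : M →ₗ[S] M)
      (tot (kpdeg deg) (kpQ Q c) (0 : M →ₗ[S] M) x) = 0 :=
    tot_tot _ _ hcx _ (fun x => rfl)
  have hZ := lift_conc_stab (M := M) (kpdeg deg) (kpQ Q c) hcx ⊤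
  have h0 := lift_conc_stab (M := M) (kpdeg deg) (kpQ Q c) hcx ⊥
  have hY := kpY_stab (M := M) deg Q hQ c
  have hX := kpX_stab (M := M) deg Q hQ c
  have h0X : ∀ δ, lift (kpdeg deg) (conc (⊥ : Submodule S M)) δ ≤ kpX deg c M δ := by
    intro δ; rw [lift_conc_bot]; exact bot_le
  have hXY := kpX_le_Y (M := M) deg c
  have hYZ : ∀ δ, kpY deg c M δ ≤ lift (kpdeg deg) (conc (⊤ : Submodule S M)) δ :=
    fun δ => inf_le_left
  have hexc := kp_hh_exc _ hD _ _ _ h0 hX hY h0X hXY (kp_hh_mid deg Q hQ c)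
  have hles := hh_les _ hD _ _ _ h0 hY hZ (fun δ => (h0X δ).trans (hXY δ)) hYZ
  generalize hDD : tot (kpdeg deg) (kpQ Q c) (0 : M →ₗ[S] M) = D at *
  refine ⟨fun i => rl (bb D (lift (kpdeg deg) (conc ⊤)) (lift (kpdeg deg) (conc ⊥)) i)
      (zz D (kpY deg c M) (lift (kpdeg deg) (conc ⊥)) i ⊔
        bb D (lift (kpdeg deg) (conc ⊤)) (lift (kpdeg deg) (conc ⊥)) i),
    fun i => rl (bb D (lift (kpdeg deg) (conc ⊤)) (kpY deg c M) i)
      (zz D (lift (kpdeg deg) (conc ⊤)) (lift (kpdeg deg) (conc ⊥)) i ⊔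
        bb D (lift (kpdeg deg) (conc ⊤)) (kpY deg c M) i),
    fun i => rl (bb D (kpY deg c M) (lift (kpdeg deg) (conc ⊥)) i)
      ((zz D (lift (kpdeg deg) (conc ⊤)) (kpY deg c M) (i + 1)).map D ⊔
        bb D (kpY deg c M) (lift (kpdeg deg) (conc ⊥)) i), fun i => ?_⟩
  obtain ⟨h1, h2, h3⟩ := hles i
  have ht := kp_hh_top (M := M) deg Q hQ c i
  have hb := kp_hh_bot (M := M) deg Q hQ c i
  rw [hDD] at ht hb
  refine ⟨?_, ?_, ?_⟩
  · rw [← h1, ← hDD]; rfl
  · rw [← ht, h2]
    simp only [sub_add_cancel]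
  · rw [← hb, ← hexc, h3]

end

/-! ### numerics -/

lemma kp_num (n : ℕ) (al be ga b c a : ℤ → ℕ∞)
    (h : ∀ i, b i = al i + be i ∧ c i = be i + ga (i - 1) ∧ a (i - 1) = ga i + al i)
    (hb : ∀ i, b i ≠ ⊤) (hc : ∀ i, c i ≠ ⊤) (hcn : ∀ i : ℤ, (n : ℤ) < i → c i = 0)
    (ha0 : ∀ i : ℤ, i < 0 → a i = 0) :
    ∑ i ∈ Finset.range (n + 1 + 1), (-1 : ℤ) ^ i * ((b (i : ℤ)).toNat : ℤ) =
      ∑ i ∈ Finset.range (n + 1), (-1 : ℤ) ^ i * ((c (i : ℤ)).toNat : ℤ) -
      ∑ i ∈ Finset.range (n + 1), (-1 : ℤ) ^ i * ((a (i : ℤ)).toNat : ℤ) := by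
  have hal : ∀ i, al i ≠ ⊤ := fun i h0 => hb i (by rw [(h i).1, h0, top_add])
  have hbe : ∀ i, be i ≠ ⊤ := fun i h0 => hb i (by rw [(h i).1, h0, add_top])
  have hga : ∀ i, ga i ≠ ⊤ := fun i h0 => hc (i + 1) (by
    rw [(h (i + 1)).2.1, add_sub_cancel_right, h0, add_top])
  have e1 : ∀ i, ((b i).toNat : ℤ) = (al i).toNat + (be i).toNat := by
    intro i
    rw [(h i).1, ENat.toNat_add (hal i) (hbe i)]
    push_cast; rfl
  have e2 : ∀ i, ((c i).toNat : ℤ) = (be i).toNat + (ga (i - 1)).toNat := by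
    intro i
    rw [(h i).2.1, ENat.toNat_add (hbe i) (hga _)]
    push_cast; rfl
  have e3 : ∀ i, ((a i).toNat : ℤ) = (ga (i + 1)).toNat + (al (i + 1)).toNat := by
    intro i
    have := (h (i + 1)).2.2
    rw [add_sub_cancel_right] at this
    rw [this, ENat.toNat_add (hga _) (hal _)]
    push_cast; rfl
  have g1 : ga (-1) = 0 := by
    have h1 := (h (-1)).2.2
    rw [ha0 _ (by norm_num), eq_comm, add_eq_zero] at h1
    exact h1.1
  have a1 : ga 0 + al 0 = 0 := by
    have h1 := (h 0).2.2
    rw [ha0 _ (by norm_num)] at h1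
    exact h1.symm
  have gn : ga ((n + 1 : ℕ) : ℤ) = 0 := by
    have h1 := (h ((n + 1 : ℕ) + 1 : ℤ)).2.1
    rw [hcn _ (by push_cast; linarith), add_sub_cancel_right, eq_comm, add_eq_zero] at h1
    exact h1.2
  have key : ∀ N : ℕ, ∑ i ∈ Finset.range (N + 1), (-1 : ℤ) ^ i * ((b (i : ℤ)).toNat : ℤ) =
      ∑ i ∈ Finset.range (N + 1), (-1 : ℤ) ^ i * ((c (i : ℤ)).toNat : ℤ) -
      ∑ i ∈ Finset.range N, (-1 : ℤ) ^ i * ((a (i : ℤ)).toNat : ℤ) -
      (-1 : ℤ) ^ N * ((ga (N : ℤ)).toNat : ℤ) := by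
    intro N
    induction N with
    | zero =>
      rw [add_eq_zero] at a1
      simp [e1, e2, g1, a1.1, a1.2]
    | succ N ih =>
      have h1 : ((N + 1 : ℕ) : ℤ) - 1 = (N : ℤ) := by push_cast; ring
      have h2 : ((N + 1 : ℕ) : ℤ) = (N : ℤ) + 1 := by push_cast; ring
      have f1 := e1 ((N + 1 : ℕ) : ℤ)
      have f2 := e2 ((N + 1 : ℕ) : ℤ)
      have f3 := e3 (N : ℤ)
      rw [h1] at f2
      rw [← h2] at f3
      rw [Finset.sum_range_succ, ih,
        Finset.sum_range_succ (fun i => (-1 : ℤ) ^ i * ((c (i : ℤ)).toNat : ℤ)) (N + 1),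
        Finset.sum_range_succ (fun i => (-1 : ℤ) ^ i * ((a (i : ℤ)).toNat : ℤ)) N, f1, f2, f3,
        pow_succ]
      ring
  rw [key (n + 1), gn, Finset.sum_range_succ _ (n + 1), hcn ((n + 1 : ℕ) : ℤ) (by push_cast; linarith)]
  simp

/-! ### the theorem -/

section

variable {B : Type*} [CommRing B]

lemma kp_kk {n : ℕ} (y : Fin (n + 1) → B) (M : Type*) [AddCommGroup M] [Module B M] (i : ℤ) :
    kk y M i = kh (kpdeg (kdeg n)) (kpQ (kos n fun i => y i.succ) (y 0)) M i := by
  have h1 : (kdeg (n + 1) : KIdx n ⊕ KIdx n → ℤ) = kpdeg (kdeg n) := by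
    ext (a | a) <;> rfl
  unfold kk
  rw [← h1]
  rfl

/-- peeling, with the finiteness hypotheses made explicit. -/
theorem kchi_succ_of_finite {n : ℕ} (y : Fin (n + 1) → B) (M : Type*) [AddCommGroup M] [Module B M]
    (hM : ∀ i, kk y M i ≠ ⊤)
    (hQ : ∀ i, kk (fun i => y i.succ) (M ⧸ (LinearMap.range (LinearMap.lsmul B M (y 0)))) i ≠ ⊤)
    (hQn : ∀ i : ℤ, (n : ℤ) < i →
      kk (fun i => y i.succ) (M ⧸ (LinearMap.range (LinearMap.lsmul B M (y 0)))) i = 0)
    (hK0 : ∀ i : ℤ, i < 0 →
      kk (fun i => y i.succ) ↥(LinearMap.ker (LinearMap.lsmul B M (y 0))) i = 0) :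
    kchi y M = kchi (fun i => y i.succ) (M ⧸ (LinearMap.range (LinearMap.lsmul B M (y 0)))) -
      kchi (fun i => y i.succ) ↥(LinearMap.ker (LinearMap.lsmul B M (y 0))) := by
  obtain ⟨al, be, ga, h⟩ := kp_les (kdeg n) (kos n fun i => y i.succ) (kos_isCx n _) (y 0) M
  unfold kchi
  refine kp_num n al be ga (fun i => kk y M i) _ _ (fun i => ?_) hM hQ hQn hK0
  refine ⟨?_, (h i).2.1, (h i).2.2⟩
  rw [← (h i).1]
  exact kp_kk y M i

/-- TASK K3: peeling off the first element. -/
theorem kchi_succ [IsNoetherianRing B] {n : ℕ} (y : Fin (n + 1) → B) (M : Type*) [AddCommGroup M]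
    [Module B M] [Module.Finite B M]
    (h : Module.length B (M ⧸ (Ideal.span (Set.range y) • (⊤ : Submodule B M))) ≠ ⊤) :
    kchi y M = kchi (fun i => y i.succ) (M ⧸ (LinearMap.range (LinearMap.lsmul B M (y 0)))) -
      kchi (fun i => y i.succ) ↥(LinearMap.ker (LinearMap.lsmul B M (y 0))) := by
  refine kchi_succ_of_finite y M (kk_ne_top y M h) (kk_ne_top _ _ ?_)
    (fun i hi => kk_out _ _ _ (Or.inr hi)) (fun i hi => kk_out _ _ _ (Or.inl hi))
  let f : M →ₗ[B] ((M ⧸ (LinearMap.range (LinearMap.lsmul B M (y 0)))) ⧸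
      (Ideal.span (Set.range fun i : Fin n => y i.succ) •
        (⊤ : Submodule B (M ⧸ (LinearMap.range (LinearMap.lsmul B M (y 0))))))) :=
    (Submodule.mkQ _).comp (Submodule.mkQ _)
  have hf : Function.Surjective f :=
    (Submodule.mkQ_surjective _).comp (Submodule.mkQ_surjective _)
  have hann : Ideal.span (Set.range y) ≤ Module.annihilator B
      ((M ⧸ (LinearMap.range (LinearMap.lsmul B M (y 0)))) ⧸
      (Ideal.span (Set.range fun i : Fin n => y i.succ) •
        (⊤ : Submodule B (M ⧸ (LinearMap.range (LinearMap.lsmul B M (y 0))))))) := by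
    rw [Ideal.span_le]
    rintro _ ⟨i, rfl⟩
    rw [SetLike.mem_coe, Module.mem_annihilator]
    intro q
    obtain ⟨m, rfl⟩ := hf q
    refine Fin.cases ?_ (fun i => ?_) i
    · rw [← map_smul]
      change Submodule.Quotient.mk (Submodule.Quotient.mk (y 0 • m)) = _
      have : (Submodule.Quotient.mk (y 0 • m) :
          M ⧸ (LinearMap.range (LinearMap.lsmul B M (y 0)))) = 0 := by
        rw [Submodule.Quotient.mk_eq_zero]
        exact ⟨m, rfl⟩
      rw [this, Submodule.Quotient.mk_zero]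
    · change Submodule.Quotient.mk (y i.succ • Submodule.Quotient.mk m) = _
      rw [Submodule.Quotient.mk_eq_zero]
      exact Submodule.smul_mem_smul (Ideal.subset_span ⟨i, rfl⟩) Submodule.mem_top
  have hle : Ideal.span (Set.range y) • (⊤ : Submodule B M) ≤ LinearMap.ker f := by
    rw [Submodule.smul_le]
    intro r hr m _
    rw [LinearMap.mem_ker, map_smul]
    exact Module.mem_annihilator.mp (hann hr) _
  have hsurj : Function.Surjective (Submodule.liftQ _ f hle) := by
    intro q
    obtain ⟨m, rfl⟩ := hf q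
    exact ⟨Submodule.Quotient.mk m, rfl⟩
  exact ne_top_of_le_ne_top h (Module.length_le_of_surjective _ hsurj)

end

end Peel

end Vale.Agent.P202.CharP
end

section

/-!
P202-CHARP, tasks K4 - K7: Koszul Euler characteristics of finitely generated modules over a
Noetherian local ring.
-/

set_option linter.unusedSectionVars false
set_option linter.style.haveILetI false
set_option linter.unusedVariables false

namespace Vale.Agent.P202.CharP

open Submodule IsLocalRing

universe u v

section PF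

variable {B : Type u} [CommRing B] [IsNoetherianRing B] [IsLocalRing B]

/-- the sequence `y` is a multiplicity system for `M`, formulated with the annihilator. -/
def PF {n : ℕ} (y : Fin n → B) (M : Type*) [AddCommGroup M] [Module B M] : Prop :=
  ∃ s, maximalIdeal B ^ s ≤ Module.annihilator B M ⊔ Ideal.span (Set.range y)

variable {n : ℕ} {y : Fin n → B}

theorem PF.of_injective {M N : Type*} [AddCommGroup M] [Module B M] [AddCommGroup N]
    [Module B N] (h : PF y M) (f : N →ₗ[B] M) (hf : Function.Injective f) : PF y N := by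
  obtain ⟨s, hs⟩ := h
  exact ⟨s, hs.trans (sup_le_sup_right (LinearMap.annihilator_le_of_injective f hf) _)⟩

theorem PF.of_surjective {M N : Type*} [AddCommGroup M] [Module B M] [AddCommGroup N]
    [Module B N] (h : PF y M) (f : M →ₗ[B] N) (hf : Function.Surjective f) : PF y N := by
  obtain ⟨s, hs⟩ := h
  exact ⟨s, hs.trans (sup_le_sup_right (LinearMap.annihilator_le_of_surjective f hf) _)⟩

theorem pf_of_subsingleton {M : Type*} [AddCommGroup M] [Module B M] [Subsingleton M] :
    PF y M := by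
  refine ⟨0, ?_⟩
  rw [Module.annihilator_eq_top_iff.2 inferInstance, top_sup_eq]
  exact le_top

/-- a finitely generated module killed by a power of the maximal ideal has finite length -/
theorem length_ne_top_of_pow_le {M : Type*} [AddCommGroup M] [Module B M] [Module.Finite B M]
    {s : ℕ} (h : maximalIdeal B ^ s ≤ Module.annihilator B M) : Module.length B M ≠ ⊤ := by
  have hart : IsArtinianRing (B ⧸ maximalIdeal B ^ s) := isArtinianRing_quot le_rfl
  letI : Module (B ⧸ maximalIdeal B ^ s) M := Module.IsTorsionBySet.module (R := B) (M := M)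
    (I := maximalIdeal B ^ s) (fun m a => Module.mem_annihilator.1 (h a.2) m)
  haveI : IsScalarTower B (B ⧸ maximalIdeal B ^ s) M := Module.IsTorsionBySet.isScalarTower _
  haveI : Module.Finite (B ⧸ maximalIdeal B ^ s) M :=
    Module.Finite.of_restrictScalars_finite B _ M
  have e : Module.length B M = Module.length (B ⧸ maximalIdeal B ^ s) M :=
    Module.length_eq_of_surjective Ideal.Quotient.mk_surjective
  rw [e]
  exact Module.length_ne_top

/-- conversely -/
theorem exists_pow_le_of_length_ne_top {M : Type*} [AddCommGroup M] [Module B M]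
    (h : Module.length B M ≠ ⊤) : ∃ s, maximalIdeal B ^ s ≤ Module.annihilator B M := by
  have h1 := isFiniteLength_iff_isNoetherian_isArtinian.1 (Module.length_ne_top_iff.1 h)
  haveI := h1.1
  haveI := h1.2
  obtain ⟨s, hs⟩ := IsArtinian.monotone_stabilizes (R := B) (M := M)
    ⟨fun k => OrderDual.toDual ((maximalIdeal B) ^ k • (⊤ : Submodule B M)), fun a b hab =>
      Submodule.smul_mono_left (Ideal.pow_le_pow_right hab)⟩
  refine ⟨s, fun a ha => Module.mem_annihilator.2 fun m => ?_⟩
  have h2 : (maximalIdeal B) ^ s • (⊤ : Submodule B M) =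
      (maximalIdeal B) ^ (s + 1) • (⊤ : Submodule B M) := hs (s + 1) (Nat.le_succ s)
  have h3 : (maximalIdeal B) ^ s • (⊤ : Submodule B M) = ⊥ := by
    refine Submodule.eq_bot_of_le_smul_of_le_jacobson_bot (maximalIdeal B) _
      (IsNoetherian.noetherian _) ?_ (maximalIdeal_le_jacobson _)
    rw [← Submodule.smul_assoc, smul_eq_mul, ← pow_succ', ← h2]
  have h4 : a • m ∈ (maximalIdeal B) ^ s • (⊤ : Submodule B M) :=
    Submodule.smul_mem_smul ha mem_top
  rw [h3] at h4
  exact (Submodule.mem_bot B).1 h4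

theorem PF.length_ne_top {M : Type*} [AddCommGroup M] [Module B M] [Module.Finite B M]
    (h : PF y M) :
    Module.length B (M ⧸ (Ideal.span (Set.range y) • (⊤ : Submodule B M))) ≠ ⊤ := by
  obtain ⟨s, hs⟩ := h
  refine length_ne_top_of_pow_le (s := s) (hs.trans (sup_le ?_ ?_))
  · exact LinearMap.annihilator_le_of_surjective _ (Submodule.mkQ_surjective _)
  · rw [Submodule.annihilator_quotient]
    exact fun x hx => Submodule.mem_colon.mpr fun p hp => Submodule.smul_mem_smul hx hp

theorem pf_of_length_ne_top {M : Type*} [AddCommGroup M] [Module B M] [Module.Finite B M]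
    (h : Module.length B (M ⧸ (Ideal.span (Set.range y) • (⊤ : Submodule B M))) ≠ ⊤) :
    PF y M := by
  obtain ⟨s, hs⟩ := exists_pow_le_of_length_ne_top h
  have h1 := Module.support_quotient (R := B) (M := M) (Ideal.span (Set.range y))
  rw [Module.support_eq_zeroLocus, Module.support_eq_zeroLocus, ← PrimeSpectrum.zeroLocus_sup]
    at h1
  have h2 : maximalIdeal B ≤
      (Module.annihilator B M ⊔ Ideal.span (Set.range y)).radical := by
    rw [← PrimeSpectrum.vanishingIdeal_zeroLocus_eq_radical, ← h1,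
      PrimeSpectrum.vanishingIdeal_zeroLocus_eq_radical]
    intro a ha
    exact ⟨s, hs (Ideal.pow_mem_pow ha s)⟩
  exact Ideal.exists_pow_le_of_le_radical_of_fg h2 (IsNoetherian.noetherian _)

theorem PF.kk_ne_top {M : Type*} [AddCommGroup M] [Module B M] [Module.Finite B M]
    (h : PF y M) (i : ℤ) : kk y M i ≠ ⊤ := _root_.Vale.Agent.P202.CharP.kk_ne_top y M h.length_ne_top i

/-- additivity -/
theorem PF.kchi_add {M₁ M₂ M₃ : Type*} [AddCommGroup M₁] [Module B M₁]
    [AddCommGroup M₂] [Module B M₂] [AddCommGroup M₃] [Module B M₃] [Module.Finite B M₂]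
    (f : M₁ →ₗ[B] M₂) (g : M₂ →ₗ[B] M₃) (hf : Function.Injective f)
    (hg : Function.Surjective g) (hfg : Function.Exact f g) (h : PF y M₂) :
    kchi y M₂ = kchi y M₁ + kchi y M₃ := by
  haveI : Module.Finite B M₁ := Module.Finite.of_injective f hf
  haveI : Module.Finite B M₃ := Module.Finite.of_surjective g hg
  exact _root_.Vale.Agent.P202.CharP.kchi_add y f g hf hg hfg (h.of_injective f hf).kk_ne_top h.kk_ne_top
    (h.of_surjective g hg).kk_ne_top

theorem kchi_of_subsingleton (y : Fin n → B) {M : Type*} [AddCommGroup M] [Module B M]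
    [Subsingleton M] : kchi y M = 0 := by
  haveI : Module.Finite B M := inferInstance
  have h := PF.kchi_add (y := y) (M₁ := M) (M₂ := M) (M₃ := M) LinearMap.id 0
    Function.injective_id (Function.surjective_to_subsingleton _)
    (fun x => ⟨fun _ => ⟨x, rfl⟩, fun _ => rfl⟩) pf_of_subsingleton
  linarith

/-- the tail of the sequence is a multiplicity system of a module killed by the first element -/
theorem PF.tail {y : Fin (n + 1) → B} {M : Type*} [AddCommGroup M] [Module B M] (h : PF y M)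
    (h0 : y 0 ∈ Module.annihilator B M) : PF (fun i => y i.succ) M := by
  obtain ⟨s, hs⟩ := h
  refine ⟨s, hs.trans (sup_le le_sup_left ?_)⟩
  rw [Ideal.span_le]
  rintro _ ⟨i, rfl⟩
  refine Fin.cases ?_ (fun j => ?_) i
  · exact (le_sup_left (a := Module.annihilator B M)) h0
  · exact Ideal.mem_sup_right (Ideal.subset_span ⟨j, rfl⟩)

theorem mem_ann_coker (a : B) (M : Type*) [AddCommGroup M] [Module B M] :
    a ∈ Module.annihilator B (M ⧸ LinearMap.range (LinearMap.lsmul B M a)) := by
  rw [Module.mem_annihilator]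
  intro m
  obtain ⟨m, rfl⟩ := Submodule.Quotient.mk_surjective _ m
  rw [← Submodule.Quotient.mk_smul, Submodule.Quotient.mk_eq_zero]
  exact ⟨m, rfl⟩

theorem mem_ann_ker (a : B) (M : Type*) [AddCommGroup M] [Module B M] :
    a ∈ Module.annihilator B ↥(LinearMap.ker (LinearMap.lsmul B M a)) := by
  rw [Module.mem_annihilator]
  intro m
  exact Subtype.ext m.2

theorem PF.tail_coker {y : Fin (n + 1) → B} {M : Type*} [AddCommGroup M] [Module B M]
    (h : PF y M) : PF (fun i => y i.succ) (M ⧸ LinearMap.range (LinearMap.lsmul B M (y 0))) :=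
  (h.of_surjective _ (Submodule.mkQ_surjective _)).tail (mem_ann_coker _ _)

theorem PF.tail_ker {y : Fin (n + 1) → B} {M : Type*} [AddCommGroup M] [Module B M]
    (h : PF y M) : PF (fun i => y i.succ) ↥(LinearMap.ker (LinearMap.lsmul B M (y 0))) :=
  (h.of_injective _ (Submodule.injective_subtype _)).tail (mem_ann_ker _ _)

theorem kchi_mem {y : Fin (n + 1) → B} {M : Type*} [AddCommGroup M] [Module B M]
    [Module.Finite B M] (h : PF y M) (h0 : y 0 ∈ Module.annihilator B M) : kchi y M = 0 := by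
  have hz : LinearMap.lsmul B M (y 0) = 0 := by
    ext m
    exact Module.mem_annihilator.1 h0 m
  rw [_root_.Vale.Agent.P202.CharP.kchi_succ y M h.length_ne_top]
  have e1 : kchi (fun i => y i.succ) (M ⧸ LinearMap.range (LinearMap.lsmul B M (y 0))) =
      kchi (fun i => y i.succ) M := by
    refine _root_.Vale.Agent.P202.CharP.kchi_congr _ (Submodule.quotEquivOfEqBot _ ?_)
    rw [hz, LinearMap.range_zero]
  have e2 : kchi (fun i => y i.succ) ↥(LinearMap.ker (LinearMap.lsmul B M (y 0))) =
      kchi (fun i => y i.succ) M := by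
    refine _root_.Vale.Agent.P202.CharP.kchi_congr _ (LinearEquiv.ofTop _ ?_)
    rw [hz, LinearMap.ker_zero]
  rw [e1, e2, sub_self]

theorem kchi_reg {y : Fin (n + 1) → B} {M : Type*} [AddCommGroup M] [Module B M]
    [Module.Finite B M] (h : PF y M) (h0 : Function.Injective (LinearMap.lsmul B M (y 0))) :
    kchi y M = kchi (fun i => y i.succ) (M ⧸ LinearMap.range (LinearMap.lsmul B M (y 0))) := by
  rw [_root_.Vale.Agent.P202.CharP.kchi_succ y M h.length_ne_top]
  haveI : Subsingleton ↥(LinearMap.ker (LinearMap.lsmul B M (y 0))) := by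
    rw [Submodule.subsingleton_iff_eq_bot]
    exact LinearMap.ker_eq_bot.2 h0
  rw [kchi_of_subsingleton (M := ↥(LinearMap.ker (LinearMap.lsmul B M (y 0)))), sub_zero]

theorem lsmul_injective_of_notMem {p : Ideal B} [p.IsPrime] {M : Type*} [AddCommGroup M]
    [Module B M] (e : M ≃ₗ[B] B ⧸ p) {a : B} (ha : a ∉ p) :
    Function.Injective (LinearMap.lsmul B M a) := by
  rw [injective_iff_map_eq_zero]
  intro m hm
  have h1 : a • e m = 0 := by
    rw [← map_smul]
    change e (LinearMap.lsmul B M a m) = 0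
    rw [hm, map_zero]
  obtain ⟨b, hb⟩ := Ideal.Quotient.mk_surjective (e m)
  rw [← hb] at h1
  have h2 : Ideal.Quotient.mk p (a * b) = 0 := h1
  rw [Ideal.Quotient.eq_zero_iff_mem] at h2
  rcases Ideal.IsPrime.mem_or_mem ‹_› h2 with h3 | h3
  · exact absurd h3 ha
  · rw [← Ideal.Quotient.eq_zero_iff_mem, hb] at h3
    exact e.map_eq_zero_iff.1 h3

theorem ann_of_equiv {p : Ideal B} {M : Type*} [AddCommGroup M]
    [Module B M] (e : M ≃ₗ[B] B ⧸ p) : Module.annihilator B M = p := by
  rw [e.annihilator_eq, Ideal.annihilator_quotient]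

end PF

section K4

variable {B : Type u} [CommRing B] [IsNoetherianRing B] [IsLocalRing B]

theorem PF.kchi_nonneg : ∀ {n : ℕ} {y : Fin n → B} {M : Type v} [AddCommGroup M] [Module B M]
    [Module.Finite B M], PF y M → 0 ≤ kchi y M := by
  intro n
  induction n with
  | zero =>
    intro y M _ _ _ _
    unfold kchi
    simp
  | succ n ih =>
    intro y M _ _ _ h
    induction ‹Module.Finite B M› using
      IsNoetherianRing.induction_on_isQuotientEquivQuotientPrime B with
    | subsingleton N => rw [kchi_of_subsingleton]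
    | quotient N p f =>
      haveI := p.2
      by_cases h0 : y 0 ∈ p.1
      · rw [kchi_mem h (by rw [ann_of_equiv f]; exact h0)]
      · rw [kchi_reg h (lsmul_injective_of_notMem f h0)]
        exact ih h.tail_coker
    | exact N₁ N₂ N₃ f g hf hg hfg h₁ h₃ =>
      rw [PF.kchi_add f g hf hg hfg h]
      exact add_nonneg (h₁ (h.of_injective f hf)) (h₃ (h.of_surjective g hg))

/-- TASK K4: nonnegativity. -/
theorem kchi_nonneg {n : ℕ} (y : Fin n → B) (hy : ∀ i, y i ∈ maximalIdeal B)
    (M : Type*) [AddCommGroup M] [Module B M] [Module.Finite B M]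
    (h : Module.length B (M ⧸ (Ideal.span (Set.range y) • (⊤ : Submodule B M))) ≠ ⊤) :
    0 ≤ kchi y M := (pf_of_length_ne_top h).kchi_nonneg

open Pointwise in
/-- the cokernel of multiplication as `QuotSMulTop` -/
noncomputable def cokerEquiv (a : B) (M : Type*) [AddCommGroup M] [Module B M] :
    (M ⧸ LinearMap.range (LinearMap.lsmul B M a)) ≃ₗ[B] QuotSMulTop a M :=
  Submodule.quotEquivOfEq _ _ (by
    ext m
    rw [LinearMap.mem_range, Submodule.mem_smul_pointwise_iff_exists]
    constructor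
    · rintro ⟨b, rfl⟩
      exact ⟨b, mem_top, rfl⟩
    · rintro ⟨b, -, rfl⟩
      exact ⟨b, rfl⟩)

theorem supportDim_coker {a : B} (ha : a ∈ maximalIdeal B) {M : Type*} [AddCommGroup M]
    [Module B M] [Module.Finite B M] (h0 : Function.Injective (LinearMap.lsmul B M a)) :
    Module.supportDim B (M ⧸ LinearMap.range (LinearMap.lsmul B M a)) + 1 =
      Module.supportDim B M := by
  rw [Module.supportDim_eq_of_equiv (cokerEquiv a M)]
  exact Module.supportDim_quotSMulTop_succ_eq_supportDim h0 ha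

theorem PF.kchi_eq_zero : ∀ {n : ℕ} {y : Fin n → B} (_ : ∀ i, y i ∈ maximalIdeal B)
    {M : Type v} [AddCommGroup M] [Module B M] [Module.Finite B M], PF y M →
    Module.supportDim B M < n → kchi y M = 0 := by
  intro n
  induction n with
  | zero =>
    intro y _ M _ _ _ _ hd
    have h1 : Module.supportDim B M = ⊥ := by
      by_contra h2
      haveI := (Module.supportDim_ne_bot_iff_nontrivial B M).1 h2
      have h3 : (0 : WithBot ℕ∞) ≤ Module.supportDim B M := by
        unfold Module.supportDim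
        haveI : Nonempty (Module.support B M) :=
          Module.nonempty_support_of_nontrivial.to_subtype
        exact Order.krullDim_nonneg
      exact absurd hd (not_lt.2 (by simpa using h3))
    haveI := (Module.supportDim_eq_bot_iff_subsingleton B M).1 h1
    exact kchi_of_subsingleton y
  | succ n ih =>
    intro y hy M _ _ _ h hd
    induction ‹Module.Finite B M› using
      IsNoetherianRing.induction_on_isQuotientEquivQuotientPrime B with
    | subsingleton N => exact kchi_of_subsingleton y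
    | quotient N p f =>
      haveI := p.2
      by_cases h0 : y 0 ∈ p.1
      · rw [kchi_mem h (by rw [ann_of_equiv f]; exact h0)]
      · have hinj := lsmul_injective_of_notMem f h0
        rw [kchi_reg h hinj]
        refine ih (fun i => hy i.succ) h.tail_coker ?_
        rw [← supportDim_coker (hy 0) hinj] at hd
        revert hd
        generalize Module.supportDim B (N ⧸ LinearMap.range (LinearMap.lsmul B N (y 0))) = a
        intro hd
        induction a with
        | bot => exact WithBot.bot_lt_coe _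
        | coe a =>
          have h5 : ((a + 1 : ℕ∞) : WithBot ℕ∞) < ((n + 1 : ℕ) : ℕ∞) := by exact_mod_cast hd
          have h6 : a + 1 < ((n + 1 : ℕ) : ℕ∞) := WithBot.coe_lt_coe.1 h5
          have h7 : a < (n : ℕ∞) := by
            push_cast at h6
            exact (ENat.add_lt_add_iff_right (by simp)).1 h6
          exact_mod_cast WithBot.coe_lt_coe.2 h7
    | exact N₁ N₂ N₃ f g hf hg hfg h₁ h₃ =>
      rw [PF.kchi_add f g hf hg hfg h, h₁ (h.of_injective f hf)
        ((Module.supportDim_le_of_injective f hf).trans_lt hd),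
        h₃ (h.of_surjective g hg) ((Module.supportDim_le_of_surjective g hg).trans_lt hd),
        add_zero]

/-- TASK K5: vanishing when the dimension is smaller than the number of elements. -/
theorem kchi_eq_zero {n : ℕ} (y : Fin n → B) (hy : ∀ i, y i ∈ maximalIdeal B)
    (M : Type*) [AddCommGroup M] [Module B M] [Module.Finite B M]
    (h : Module.length B (M ⧸ (Ideal.span (Set.range y) • (⊤ : Submodule B M))) ≠ ⊤)
    (hd : ringKrullDim (B ⧸ Module.annihilator B M) < n) :
    kchi y M = 0 := by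
  rw [← Module.supportDim_eq_ringKrullDim_quotient_annihilator] at hd
  exact (pf_of_length_ne_top h).kchi_eq_zero hy hd

end K4

section K6

variable {B : Type u} [CommRing B] [IsNoetherianRing B] [IsLocalRing B]

theorem PF.supportDim_le : ∀ {n : ℕ} {y : Fin n → B} (_ : ∀ i, y i ∈ maximalIdeal B)
    {M : Type v} [AddCommGroup M] [Module B M] [Module.Finite B M], PF y M →
    Module.supportDim B M ≤ n := by
  intro n
  induction n with
  | zero =>
    intro y _ M _ _ _ h
    obtain ⟨s, hs⟩ := h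
    have h1 : Ideal.span (Set.range y) = ⊥ := by
      rw [Set.range_eq_empty, Ideal.span_empty]
    rw [h1, sup_bot_eq] at hs
    haveI := isArtinianRing_quot hs
    rw [Module.supportDim_eq_ringKrullDim_quotient_annihilator]
    exact (Ring.krullDimLE_iff (n := 0)).1 inferInstance
  | succ n ih =>
    intro y hy M _ _ _ h
    have h1 := Module.supportDim_le_supportDim_quotSMulTop_succ (R := B) (M := M) (hy 0)
    have h2 : Module.supportDim B (M ⧸ LinearMap.range (LinearMap.lsmul B M (y 0))) ≤ n :=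
      ih (fun i => hy i.succ) h.tail_coker
    rw [Module.supportDim_eq_of_equiv (cokerEquiv (y 0) M)] at h2
    refine h1.trans ?_
    push_cast
    gcongr

theorem PF.kchi_pos : ∀ {n : ℕ} {y : Fin n → B} (_ : ∀ i, y i ∈ maximalIdeal B)
    {𝔭 : Ideal B} [𝔭.IsPrime], PF y (B ⧸ 𝔭) → Module.supportDim B (B ⧸ 𝔭) = n →
    0 < kchi y (B ⧸ 𝔭) := by
  intro n
  induction n with
  | zero =>
    intro y _ 𝔭 _ h _
    have h1 : Ideal.span (Set.range y) = ⊥ := by
      rw [Set.range_eq_empty, Ideal.span_empty]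
    have h2 := h.kk_ne_top 0
    have h3 : kk y (B ⧸ 𝔭) 0 ≠ 0 := by
      rw [_root_.Vale.Agent.P202.CharP.kk_zero, h1, Submodule.bot_smul]
      haveI : Nontrivial ((B ⧸ 𝔭) ⧸ (⊥ : Submodule B (B ⧸ 𝔭))) :=
        Submodule.Quotient.nontrivial_iff.2 bot_ne_top
      exact Module.length_pos.ne'
    unfold kchi
    have h4 : 0 < (kk y (B ⧸ 𝔭) 0).toNat := by
      rw [Nat.pos_iff_ne_zero]
      intro h5
      rcases ENat.toNat_eq_zero.1 h5 with h6 | h6
      · exact h3 h6
      · exact h2 h6
    simpa using h4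
  | succ n ih =>
    intro y hy 𝔭 _ h hd
    have h0 : y 0 ∉ 𝔭 := by
      intro h0
      have h1 : PF (fun i => y i.succ) (B ⧸ 𝔭) :=
        h.tail (by rw [Ideal.annihilator_quotient]; exact h0)
      have h2 := h1.supportDim_le (fun i => hy i.succ)
      rw [hd] at h2
      have h3 : n + 1 ≤ n := by exact_mod_cast h2
      omega
    have hinj := lsmul_injective_of_notMem (LinearEquiv.refl B (B ⧸ 𝔭)) h0
    rw [kchi_reg h hinj]
    have hdim := supportDim_coker (hy 0) hinj
    rw [hd] at hdim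
    have hdim' : Module.supportDim B
        ((B ⧸ 𝔭) ⧸ LinearMap.range (LinearMap.lsmul B (B ⧸ 𝔭) (y 0))) = n := by
      revert hdim
      generalize Module.supportDim B
        ((B ⧸ 𝔭) ⧸ LinearMap.range (LinearMap.lsmul B (B ⧸ 𝔭) (y 0))) = a
      intro hdim
      induction a with
      | bot =>
        exfalso
        rw [WithBot.bot_add] at hdim
        exact WithBot.coe_ne_bot hdim.symm
      | coe a =>
        have h5 : ((a + 1 : ℕ∞) : WithBot ℕ∞) = ((n + 1 : ℕ) : ℕ∞) := by exact_mod_cast hdim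
        have h6 : a + 1 = ((n + 1 : ℕ) : ℕ∞) := WithBot.coe_inj.1 h5
        have h7 : a = (n : ℕ∞) := by
          induction a using ENat.recTopCoe with
          | top =>
            exfalso
            rw [top_add] at h6
            exact ENat.natCast_ne_top _ h6.symm
          | coe a =>
            have h8 : a + 1 = n + 1 := by exact_mod_cast h6
            have h9 : a = n := by omega
            rw [h9]
        rw [h7]
        rfl
    have hPF := h.tail_coker
    obtain ⟨D, hD⟩ : ∃ D : Submodule B (B ⧸ 𝔭),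
        D = LinearMap.range (LinearMap.lsmul B (B ⧸ 𝔭) (y 0)) := ⟨_, rfl⟩
    rw [← hD] at hdim' hPF ⊢
    obtain ⟨l, hl⟩ := Order.le_krullDim_iff.1
      (le_of_eq hdim'.symm : (n : WithBot ℕ∞) ≤ Order.krullDim (Module.support B ((B ⧸ 𝔭) ⧸ D)))
    have hmem : Module.annihilator B ((B ⧸ 𝔭) ⧸ D) ≤ l.head.1.asIdeal :=
      Module.mem_support_iff_of_finite.1 l.head.2
    have h𝔭 : 𝔭 ≤ l.head.1.asIdeal := by
      refine le_trans ?_ hmem
      have h3 := LinearMap.annihilator_le_of_surjective D.mkQ D.mkQ_surjective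
      rwa [Ideal.annihilator_quotient] at h3
    have hy0 : y 0 ∈ l.head.1.asIdeal := by
      refine hmem ?_
      rw [hD]
      exact mem_ann_coker _ _
    haveI := l.head.1.isPrime
    have hDle : D ≤ LinearMap.ker (Submodule.factor h𝔭) := by
      intro x hx
      rw [hD] at hx
      obtain ⟨m, rfl⟩ := hx
      rw [LinearMap.mem_ker]
      obtain ⟨b, rfl⟩ := Submodule.Quotient.mk_surjective _ m
      change Submodule.Quotient.mk (y 0 * b) = (0 : B ⧸ l.head.1.asIdeal)
      rw [Submodule.Quotient.mk_eq_zero]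
      exact Ideal.mul_mem_right _ _ hy0
    let g : ((B ⧸ 𝔭) ⧸ D) →ₗ[B] (B ⧸ l.head.1.asIdeal) :=
      D.liftQ (Submodule.factor h𝔭) hDle
    have hg : Function.Surjective g := by
      intro b
      obtain ⟨b, rfl⟩ := Submodule.Quotient.mk_surjective _ b
      exact ⟨Submodule.Quotient.mk (Submodule.Quotient.mk b), rfl⟩
    rw [PF.kchi_add (LinearMap.ker g).subtype g (Submodule.injective_subtype _) hg
      (LinearMap.exact_subtype_ker_map g) hPF]
    have hdim2 : Module.supportDim B (B ⧸ l.head.1.asIdeal) = n := by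
      refine le_antisymm ((Module.supportDim_le_of_surjective g hg).trans hdim'.le) ?_
      refine Order.le_krullDim_iff.2 ⟨⟨l.length, fun i => ⟨(l i).1, ?_⟩, fun i => ?_⟩, hl⟩
      · rw [Module.mem_support_iff_of_finite, Ideal.annihilator_quotient]
        exact l.monotone (Fin.zero_le i)
      · exact l.step i
    have h8 : 0 ≤ kchi (fun i => y i.succ) ↥(LinearMap.ker g) :=
      (hPF.of_injective _ (Submodule.injective_subtype _)).kchi_nonneg
    have h9 : 0 < kchi (fun i => y i.succ) (B ⧸ l.head.1.asIdeal) :=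
      ih (fun i => hy i.succ) (hPF.of_surjective g hg) hdim2
    exact add_pos_of_nonneg_of_pos h8 h9

/-- TASK K6: positivity. -/
theorem kchi_pos {n : ℕ} (y : Fin n → B) (hy : ∀ i, y i ∈ maximalIdeal B)
    (𝔭 : Ideal B) [𝔭.IsPrime]
    (h : Module.length B (B ⧸ (𝔭 ⊔ Ideal.span (Set.range y))) ≠ ⊤)
    (hd : ringKrullDim (B ⧸ 𝔭) = n) : 0 < kchi y (B ⧸ 𝔭) := by
  obtain ⟨s, hs⟩ := exists_pow_le_of_length_ne_top h
  rw [Ideal.annihilator_quotient] at hs
  refine PF.kchi_pos hy ⟨s, ?_⟩ (by rw [Module.supportDim_quotient_eq_ringKrullDim, hd])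
  rwa [Ideal.annihilator_quotient]

end K6

section K7

variable {B : Type u} [CommRing B] [IsNoetherianRing B] [IsLocalRing B]

theorem pf_iff_radical {n : ℕ} {y : Fin n → B} {M : Type*} [AddCommGroup M] [Module B M] :
    PF y M ↔ maximalIdeal B ≤
      (Module.annihilator B M ⊔ Ideal.span (Set.range y)).radical := by
  constructor
  · rintro ⟨s, hs⟩ a ha
    exact ⟨s, hs (Ideal.pow_mem_pow ha s)⟩
  · intro h
    exact Ideal.exists_pow_le_of_le_radical_of_fg h (IsNoetherian.noetherian _)

theorem PF.pow {n : ℕ} {y : Fin n → B} {M : Type*} [AddCommGroup M] [Module B M] (h : PF y M)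
    (q : Fin n → ℕ) : PF (fun i => y i ^ q i) M := by
  rw [pf_iff_radical] at h ⊢
  refine h.trans ?_
  rw [← Ideal.radical_idem (Module.annihilator B M ⊔ Ideal.span (Set.range fun i => y i ^ q i))]
  refine Ideal.radical_mono (sup_le ?_ ?_)
  · exact le_sup_left.trans Ideal.le_radical
  · rw [Ideal.span_le]
    rintro _ ⟨i, rfl⟩
    exact ⟨q i, Ideal.mem_sup_right (Ideal.subset_span ⟨i, rfl⟩)⟩

theorem PF.cons_mul {n : ℕ} {a b : B} {y : Fin n → B} {M : Type*} [AddCommGroup M] [Module B M]
    (ha : PF (Fin.cons a y : Fin (n + 1) → B) M) (hb : PF (Fin.cons b y : Fin (n + 1) → B) M) :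
    PF (Fin.cons (a * b) y : Fin (n + 1) → B) M := by
  obtain ⟨s, hs⟩ := ha
  obtain ⟨t, ht⟩ := hb
  refine ⟨s + t, ?_⟩
  rw [pow_add]
  refine (Ideal.mul_mono hs ht).trans ?_
  simp only [Fin.range_cons, Ideal.span_insert]
  rw [Ideal.mul_le]
  intro u hu v hv
  obtain ⟨u1, hu1, u', hu', rfl⟩ := Submodule.mem_sup.1 hu
  obtain ⟨u2, hu2, u3, hu3, rfl⟩ := Submodule.mem_sup.1 hu'
  obtain ⟨v1, hv1, v', hv', rfl⟩ := Submodule.mem_sup.1 hv
  obtain ⟨v2, hv2, v3, hv3, rfl⟩ := Submodule.mem_sup.1 hv'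
  obtain ⟨c, rfl⟩ := Ideal.mem_span_singleton'.1 hu2
  obtain ⟨d, rfl⟩ := Ideal.mem_span_singleton'.1 hv2
  have e : (u1 + (c * a + u3)) * (v1 + (d * b + v3)) =
      (u1 * (v1 + (d * b + v3)) + (c * a + u3) * v1) +
        (c * d * (a * b) + (u3 * (d * b + v3) + c * a * v3)) := by ring
  rw [e]
  refine Submodule.add_mem_sup ?_ (Submodule.add_mem_sup ?_ ?_)
  · exact Ideal.add_mem _ (Ideal.mul_mem_right _ _ hu1) (Ideal.mul_mem_left _ _ hv1)
  · exact Ideal.mem_span_singleton'.2 ⟨c * d, rfl⟩
  · exact Ideal.add_mem _ (Ideal.mul_mem_right _ _ hu3) (Ideal.mul_mem_left _ _ hv3)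

/-- if multiplication by `b` is injective on `N` and the tail is already a multiplicity system,
the Euler characteristic of the cokernel vanishes -/
theorem kchi_coker_of_injective {n : ℕ} {y : Fin n → B} {N : Type*} [AddCommGroup N]
    [Module B N] [Module.Finite B N] (h : PF y N) {b : B}
    (hb : Function.Injective (LinearMap.lsmul B N b)) :
    kchi y (N ⧸ LinearMap.range (LinearMap.lsmul B N b)) = 0 := by
  have h1 := PF.kchi_add (LinearMap.lsmul B N b)
    (LinearMap.range (LinearMap.lsmul B N b)).mkQ hb (Submodule.mkQ_surjective _)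
    (LinearMap.exact_map_mkQ_range _) h
  linarith

theorem kchi_cons_mul {n : ℕ} {a b : B} {y : Fin n → B} {M : Type v} [AddCommGroup M]
    [Module B M] [Module.Finite B M]
    (ha : PF (Fin.cons a y : Fin (n + 1) → B) M) (hb : PF (Fin.cons b y : Fin (n + 1) → B) M) :
    kchi (Fin.cons (a * b) y : Fin (n + 1) → B) M =
      kchi (Fin.cons a y : Fin (n + 1) → B) M + kchi (Fin.cons b y : Fin (n + 1) → B) M := by
  have hab := ha.cons_mul hb
  induction ‹Module.Finite B M› using
    IsNoetherianRing.induction_on_isQuotientEquivQuotientPrime B with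
  | subsingleton N => simp only [kchi_of_subsingleton, add_zero]
  | quotient N p f =>
    haveI := p.2
    have hann : Module.annihilator B N = p.1 := ann_of_equiv f
    have key : ∀ c : B, PF y N → PF (Fin.cons c y : Fin (n + 1) → B) N →
        kchi (Fin.cons c y : Fin (n + 1) → B) N = 0 := by
      intro c h1 h2
      by_cases hc : c ∈ p.1
      · exact kchi_mem h2 (by rw [hann]; exact hc)
      · rw [kchi_reg h2 (lsmul_injective_of_notMem f hc)]
        exact kchi_coker_of_injective h1 (lsmul_injective_of_notMem f hc)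
    by_cases h1 : a ∈ p.1
    · have h2 : PF y N := ha.tail (by rw [hann]; exact h1)
      rw [key _ h2 hab, key _ h2 ha, key _ h2 hb, add_zero]
    · by_cases h3 : b ∈ p.1
      · have h2 : PF y N := hb.tail (by rw [hann]; exact h3)
        rw [key _ h2 hab, key _ h2 ha, key _ h2 hb, add_zero]
      · have h4 : a * b ∉ p.1 := fun h5 => by
          rcases Ideal.IsPrime.mem_or_mem ‹_› h5 with h6 | h6
          · exact h1 h6
          · exact h3 h6
        have ia := lsmul_injective_of_notMem f h1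
        have ib := lsmul_injective_of_notMem f h3
        have e1 : kchi (Fin.cons (a * b) y : Fin (n + 1) → B) N =
            kchi y (N ⧸ LinearMap.range (LinearMap.lsmul B N (a * b))) :=
          kchi_reg hab (lsmul_injective_of_notMem f h4)
        have e2 : kchi (Fin.cons a y : Fin (n + 1) → B) N =
            kchi y (N ⧸ LinearMap.range (LinearMap.lsmul B N a)) := kchi_reg ha ia
        have e3 : kchi (Fin.cons b y : Fin (n + 1) → B) N =
            kchi y (N ⧸ LinearMap.range (LinearMap.lsmul B N b)) := kchi_reg hb ib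
        have hPF : PF y (N ⧸ LinearMap.range (LinearMap.lsmul B N (a * b))) := hab.tail_coker
        rw [e1, e2, e3]
        let F : (N ⧸ LinearMap.range (LinearMap.lsmul B N a)) →ₗ[B]
            (N ⧸ LinearMap.range (LinearMap.lsmul B N (a * b))) :=
          Submodule.mapQ _ _ (LinearMap.lsmul B N b) (by
            rintro _ ⟨m, rfl⟩
            refine ⟨m, ?_⟩
            change (a * b) • m = b • (a • m)
            rw [mul_comm, mul_smul])
        let G : (N ⧸ LinearMap.range (LinearMap.lsmul B N (a * b))) →ₗ[B]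
            (N ⧸ LinearMap.range (LinearMap.lsmul B N b)) :=
          Submodule.factor (by
            rintro _ ⟨m, rfl⟩
            refine ⟨a • m, ?_⟩
            change b • (a • m) = (a * b) • m
            rw [mul_comm, mul_smul])
        refine PF.kchi_add F G ?_ (Submodule.factor_surjective _) ?_ hPF
        · rw [injective_iff_map_eq_zero]
          intro z hz
          obtain ⟨z, rfl⟩ := Submodule.Quotient.mk_surjective _ z
          have hz' : Submodule.Quotient.mk (b • z) =
              (0 : N ⧸ LinearMap.range (LinearMap.lsmul B N (a * b))) := hz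
          rw [Submodule.Quotient.mk_eq_zero] at hz' ⊢
          obtain ⟨m, hm⟩ := hz'
          refine ⟨m, ib ?_⟩
          change b • (a • m) = b • z
          rw [← mul_smul, mul_comm]
          exact hm
        · rw [LinearMap.exact_iff]
          ext z
          obtain ⟨z, rfl⟩ := Submodule.Quotient.mk_surjective _ z
          constructor
          · intro hz
            have hz' : Submodule.Quotient.mk z =
                (0 : N ⧸ LinearMap.range (LinearMap.lsmul B N b)) := hz
            rw [Submodule.Quotient.mk_eq_zero] at hz'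
            obtain ⟨m, hm⟩ := hz'
            exact ⟨Submodule.Quotient.mk m, by rw [← hm]; rfl⟩
          · rintro ⟨c, hc⟩
            obtain ⟨c, rfl⟩ := Submodule.Quotient.mk_surjective _ c
            rw [← hc]
            change Submodule.Quotient.mk (b • c) =
              (0 : N ⧸ LinearMap.range (LinearMap.lsmul B N b))
            rw [Submodule.Quotient.mk_eq_zero]
            exact ⟨c, rfl⟩
  | exact N₁ N₂ N₃ f g hf hg hfg h₁ h₃ =>
    rw [PF.kchi_add f g hf hg hfg hab, PF.kchi_add f g hf hg hfg ha,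
      PF.kchi_add f g hf hg hfg hb,
      h₁ (ha.of_injective f hf) (hb.of_injective f hf) (hab.of_injective f hf),
      h₃ (ha.of_surjective g hg) (hb.of_surjective g hg) (hab.of_surjective g hg)]
    ring

theorem PF.cons_pow {n : ℕ} {a : B} {y : Fin n → B} {M : Type*} [AddCommGroup M] [Module B M]
    (ha : PF (Fin.cons a y : Fin (n + 1) → B) M) (q : ℕ) :
    PF (Fin.cons (a ^ q) y : Fin (n + 1) → B) M := by
  have h := ha.pow (Fin.cons q fun _ => 1 : Fin (n + 1) → ℕ)
  have e : (fun i => (Fin.cons a y : Fin (n + 1) → B) i ^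
      (Fin.cons q fun _ => 1 : Fin (n + 1) → ℕ) i) = (Fin.cons (a ^ q) y : Fin (n + 1) → B) := by
    funext i
    refine Fin.cases rfl (fun j => ?_) i
    simp
  rwa [e] at h

theorem kchi_cons_pow {n : ℕ} {a : B} {y : Fin n → B} {M : Type v} [AddCommGroup M]
    [Module B M] [Module.Finite B M] (ha : PF (Fin.cons a y : Fin (n + 1) → B) M)
    {q : ℕ} (hq : 1 ≤ q) :
    kchi (Fin.cons (a ^ q) y : Fin (n + 1) → B) M =
      (q : ℤ) * kchi (Fin.cons a y : Fin (n + 1) → B) M := by
  induction q, hq using Nat.le_induction with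
  | base => simp
  | succ q hq ih =>
    rw [pow_succ, kchi_cons_mul (ha.cons_pow q) ha, ih]
    push_cast
    ring

theorem PF.kchi_pow {q : ℕ} (hq : 1 ≤ q) : ∀ {n : ℕ} {y : Fin n → B}
    {M : Type v} [AddCommGroup M] [Module B M] [Module.Finite B M], PF y M →
    kchi (fun i => y i ^ q) M = (q : ℤ) ^ n * kchi y M := by
  intro n
  induction n with
  | zero =>
    intro y M _ _ _ _
    have e : (fun i => y i ^ q) = y := by
      funext i
      exact i.elim0
    rw [e, pow_zero, one_mul]
  | succ n ih =>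
    intro y M _ _ _ h
    have e1 : (fun i => y i ^ q) =
        (Fin.cons (y 0 ^ q) (fun i => y i.succ ^ q) : Fin (n + 1) → B) := by
      funext i
      refine Fin.cases rfl (fun j => rfl) i
    have h2 : PF (Fin.cons (y 0) (fun i => y i.succ ^ q) : Fin (n + 1) → B) M := by
      have h3 := h.pow (Fin.cons 1 fun _ => q : Fin (n + 1) → ℕ)
      have e : (fun i => y i ^ (Fin.cons 1 fun _ => q : Fin (n + 1) → ℕ) i) =
          (Fin.cons (y 0) (fun i => y i.succ ^ q) : Fin (n + 1) → B) := by
        funext i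
        refine Fin.cases ?_ (fun j => rfl) i
        simp
      rwa [e] at h3
    rw [e1, kchi_cons_pow h2 hq, _root_.Vale.Agent.P202.CharP.kchi_succ _ M h2.length_ne_top]
    have h4 : kchi (fun i : Fin n => (Fin.cons (y 0) (fun i => y i.succ ^ q) : Fin (n + 1) → B)
        i.succ) (M ⧸ LinearMap.range (LinearMap.lsmul B M
        ((Fin.cons (y 0) (fun i => y i.succ ^ q) : Fin (n + 1) → B) 0))) =
        (q : ℤ) ^ n * kchi (fun i => y i.succ)
          (M ⧸ LinearMap.range (LinearMap.lsmul B M (y 0))) := ih h.tail_coker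
    have h5 : kchi (fun i : Fin n => (Fin.cons (y 0) (fun i => y i.succ ^ q) : Fin (n + 1) → B)
        i.succ) ↥(LinearMap.ker (LinearMap.lsmul B M
        ((Fin.cons (y 0) (fun i => y i.succ ^ q) : Fin (n + 1) → B) 0))) =
        (q : ℤ) ^ n * kchi (fun i => y i.succ)
          ↥(LinearMap.ker (LinearMap.lsmul B M (y 0))) := ih h.tail_ker
    rw [h4, h5, _root_.Vale.Agent.P202.CharP.kchi_succ y M h.length_ne_top]
    ring

/-- TASK K7: powers. -/
theorem kchi_pow {n : ℕ} (y : Fin n → B) (hy : ∀ i, y i ∈ maximalIdeal B)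
    (q : ℕ) (hq : 1 ≤ q) (M : Type*) [AddCommGroup M] [Module B M] [Module.Finite B M]
    (h : Module.length B (M ⧸ (Ideal.span (Set.range y) • (⊤ : Submodule B M))) ≠ ⊤) :
    kchi (fun i => y i ^ q) M = (q : ℤ) ^ n * kchi y M :=
  (pf_of_length_ne_top h).kchi_pow hq

end K7

end Vale.Agent.P202.CharP
end

section

/-!
P202, mixed characteristic: Cohen rings inside Witt vectors.
-/

namespace Vale.Agent.P202.Mix

open IsLocalRing

universe u

/-- abstract properties: a complete discrete valuation ring with uniformizer `p`. -/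
theorem dvr_of_p_complete (p : ℕ) [hp : Fact p.Prime] {Λ k : Type*} [CommRing Λ] [IsDomain Λ]
    [Field k] [CharP k p] [IsAdicComplete (Ideal.span {(p : Λ)}) Λ] (hp0 : (p : Λ) ≠ 0)
    (π : Λ →+* k) (hπs : Function.Surjective π) (hπ : ∀ x, π x = 0 → ∃ y, x = p * y) :
    ∃ (_ : IsDiscreteValuationRing Λ), maximalIdeal Λ = Ideal.span {(p : Λ)} ∧ CharZero Λ := by
  have hker : ∀ x, π x = 0 ↔ x ∈ Ideal.span {(p : Λ)} := by
    intro x
    rw [Ideal.mem_span_singleton]
    constructor
    · exact hπ x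
    · rintro ⟨y, rfl⟩
      rw [map_mul, map_natCast, CharP.cast_eq_zero, zero_mul]
  have hu : ∀ x, π x ≠ 0 → IsUnit x := by
    intro x hx
    obtain ⟨y, hy⟩ := hπs (π x)⁻¹
    have h1 : x * y - 1 ∈ Ideal.span {(p : Λ)} := by
      rw [← hker, map_sub, map_mul, hy, mul_inv_cancel₀ hx, map_one, sub_self]
    have h2 := IsAdicComplete.le_jacobson_bot (Ideal.span {(p : Λ)}) h1
    rw [Ideal.mem_jacobson_bot] at h2
    have h3 := h2 1
    rw [mul_one, sub_add_cancel] at h3
    exact isUnit_of_mul_isUnit_left h3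
  have hnu : ∀ x, π x = 0 → ¬ IsUnit x := by
    intro x hx h
    have := h.map π
    rw [hx] at this
    exact not_isUnit_zero this
  have hloc : IsLocalRing Λ := by
    refine IsLocalRing.of_nonunits_add fun a b ha hb => ?_
    have h1 : π a = 0 := by by_contra h; exact ha (hu a h)
    have h2 : π b = 0 := by by_contra h; exact hb (hu b h)
    exact hnu _ (by rw [map_add, h1, h2, add_zero])
  have hmax : maximalIdeal Λ = Ideal.span {(p : Λ)} := by
    ext x
    rw [IsLocalRing.mem_maximalIdeal, mem_nonunits_iff, ← hker]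
    constructor
    · intro h
      by_contra h1
      exact h (hu x h1)
    · exact hnu x
  have hprime : Prime (p : Λ) := by
    rw [← Ideal.span_singleton_prime hp0, ← hmax]
    exact (maximalIdeal.isMaximal Λ).isPrime
  have hfac : IsDiscreteValuationRing.HasUnitMulPowIrreducibleFactorization Λ := by
    refine ⟨p, hprime.irreducible, fun {x} hx => ?_⟩
    have h1 : ∃ n, x ∉ Ideal.span {(p : Λ)} ^ n := by
      by_contra h
      push Not at h
      refine hx (IsHausdorff.haus (I := Ideal.span {(p : Λ)}) inferInstance x fun n => ?_)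
      rw [SModEq.zero, smul_eq_mul, Ideal.mul_top]
      exact h n
    classical
    have h2 := Nat.find_spec h1
    have h3 : Nat.find h1 ≠ 0 := by
      intro h0
      rw [h0, pow_zero, Ideal.one_eq_top] at h2
      exact h2 trivial
    obtain ⟨n, hn⟩ := Nat.exists_eq_succ_of_ne_zero h3
    have h4 : x ∈ Ideal.span {(p : Λ)} ^ n := by
      by_contra h
      exact Nat.find_min h1 (by omega) h
    rw [Ideal.span_singleton_pow, Ideal.mem_span_singleton] at h4
    obtain ⟨y, hy⟩ := h4
    refine ⟨n, ?_⟩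
    have h5 : IsUnit y := by
      refine hu y fun h0 => h2 ?_
      obtain ⟨z, hz⟩ := hπ y h0
      rw [hn, Ideal.span_singleton_pow, Ideal.mem_span_singleton]
      exact ⟨z, by rw [hy, hz, pow_succ, mul_assoc]⟩
    exact ⟨h5.unit, by rw [hy]; rfl⟩
  refine ⟨IsDiscreteValuationRing.ofHasUnitMulPowIrreducibleFactorization hfac, hmax, ?_⟩
  -- characteristic zero
  obtain ⟨q, hq⟩ := CharP.exists Λ
  rcases CharP.char_is_prime_or_zero Λ q with hqp | rfl
  · exfalso
    have h1 : (q : k) = 0 := by rw [← map_natCast π, CharP.cast_eq_zero, map_zero]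
    have h2 : p ∣ q := (CharP.cast_eq_zero_iff k p q).mp h1
    have h3 : p = q := (Nat.prime_dvd_prime_iff_eq hp.out hqp).mp h2
    rw [h3] at hp0
    exact hp0 (CharP.cast_eq_zero Λ q)
  · exact CharP.charP_to_charZero Λ

/-- Cohen rings inside the Witt vectors of a perfect field. -/
theorem exists_cohenRing (p : ℕ) [hp : Fact p.Prime] {k K : Type u} [Field k] [CharP k p]
    [Field K] [CharP K p] [PerfectRing K p] (j : k →+* K) {ι : Type*} {b : ι → k}
    (hb : IsQBasis p b) :
    ∃ (Λ : Type u) (_ : CommRing Λ) (_ : IsDomain Λ) (_ : IsDiscreteValuationRing Λ)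
      (_ : CharZero Λ) (_ : IsAdicComplete (maximalIdeal Λ) Λ) (π : Λ →+* k)
      (w : Λ →+* WittVector p K) (β : ι → Λ),
      maximalIdeal Λ = Ideal.span {(p : Λ)} ∧ Function.Surjective π ∧
      (∀ x, π x = 0 → ∃ y, x = p * y) ∧ Function.Injective w ∧
      (∀ x, (w x).coeff 0 = j (π x)) ∧ (∀ i, w (β i) = WittVector.teichmuller p (j (b i))) := by
  have htf : ∀ x : WittVector p K, (p : WittVector p K) * x = 0 → x = 0 := fun x hx =>
    WittVector.eq_zero_of_p_mul_eq_zero x (by rwa [mul_comm] at hx)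
  obtain ⟨Λ, h1, h2, h3, h4, h5⟩ := exists_cohen_subring (p := p) (W := WittVector p K) (j := j)
    (π := WittVector.constantCoeff) (B := fun i => WittVector.teichmuller p (j (b i)))
    (WittVector.constantCoeff_surjective p) (fun x hx => by
      have h : x ∈ Ideal.span {(p : WittVector p K)} :=
        (WittVector.mem_span_p_iff_coeff_zero_eq_zero x).mpr hx
      exact Ideal.mem_span_singleton.mp h) htf hb (fun i => WittVector.teichmuller_coeff_zero p _)
  -- divisibility by powers of `p`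
  have h6 : ∀ n : ℕ, ∀ z : WittVector p K, (p : WittVector p K) ^ n * z ∈ Λ → z ∈ Λ := by
    intro n
    induction n with
    | zero => intro z hz; rwa [pow_zero, one_mul] at hz
    | succ n ih =>
      intro z hz
      rw [pow_succ', mul_assoc] at hz
      obtain ⟨y, hy, hyz⟩ := h3 _ hz (by
        change WittVector.constantCoeff _ = 0
        rw [map_mul, map_natCast, CharP.cast_eq_zero, zero_mul])
      have h7 : (p : WittVector p K) ^ n * z = y := by
        refine sub_eq_zero.mp (htf _ ?_)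
        rw [mul_sub, hyz, sub_self]
      rw [← h7] at hy
      exact ih z hy
  have hspan : ∀ n : ℕ, ∀ x : Λ, x ∈ Ideal.span {(p : Λ)} ^ n ↔
      (x : WittVector p K) ∈ Ideal.span {(p : WittVector p K)} ^ n := by
    intro n x
    rw [Ideal.span_singleton_pow, Ideal.mem_span_singleton, Ideal.span_singleton_pow,
      Ideal.mem_span_singleton]
    constructor
    · rintro ⟨y, rfl⟩
      exact ⟨y, rfl⟩
    · rintro ⟨y, hy⟩
      refine ⟨⟨y, h6 n y (by rw [← hy]; exact x.2)⟩, Subtype.ext hy⟩
  have hcomp : IsAdicComplete (Ideal.span {(p : Λ)}) Λ :=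
    { haus' := by
        intro x hx
        refine Subtype.ext (IsHausdorff.haus (I := Ideal.span {(p : WittVector p K)})
          inferInstance (x : WittVector p K) fun n => ?_)
        have h7 := hx n
        rw [SModEq.zero, smul_eq_mul, Ideal.mul_top] at h7 ⊢
        exact (hspan n x).mp h7
      prec' := by
        intro f hf
        obtain ⟨y, hy⟩ := IsPrecomplete.prec (I := Ideal.span {(p : WittVector p K)})
          (M := WittVector p K) inferInstance (f := fun n => (f n : WittVector p K))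
          (fun {m n} hmn => by
            have h7 := hf hmn
            rw [SModEq.sub_mem, smul_eq_mul, Ideal.mul_top] at h7 ⊢
            exact (hspan m _).mp h7)
        have hy' : y ∈ Λ := by
          refine h5 y fun n => ?_
          have h7 := hy n
          rw [SModEq.sub_mem, smul_eq_mul, Ideal.mul_top, Ideal.span_singleton_pow,
            Ideal.mem_span_singleton] at h7
          obtain ⟨z, hz⟩ := h7
          exact ⟨f n, (f n).2, -z, by rw [mul_neg, ← hz]; ring⟩
        refine ⟨⟨y, hy'⟩, fun n => ?_⟩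
        have h7 := hy n
        rw [SModEq.sub_mem, smul_eq_mul, Ideal.mul_top] at h7 ⊢
        exact (hspan n _).mpr h7 }
  -- the residue map
  have hbij : Function.Bijective j.rangeRestrict :=
    ⟨fun x y hxy => j.injective (congrArg Subtype.val hxy), j.rangeRestrict_surjective⟩
  let e : k ≃+* j.range := RingEquiv.ofBijective _ hbij
  let f : Λ →+* k := (e.symm : j.range →+* k).comp
    ((WittVector.constantCoeff.comp Λ.subtype).codRestrict j.range fun x => h1 x x.2)
  have hf : ∀ x : Λ, j (f x) = WittVector.constantCoeff (x : WittVector p K) := by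
    intro x
    have h1 : (e (f x) : K) = WittVector.constantCoeff (x : WittVector p K) := by
      change ((e (e.symm _) : j.range) : K) = _
      rw [RingEquiv.apply_symm_apply]
      rfl
    exact h1
  have hfs : Function.Surjective f := by
    intro a
    obtain ⟨x, hx, hxa⟩ := h2 a
    exact ⟨⟨x, hx⟩, j.injective (by rw [hf]; exact hxa)⟩
  have hfk : ∀ x, f x = 0 → ∃ y, x = p * y := by
    intro x hx
    obtain ⟨y, hy, hxy⟩ := h3 x x.2 (by rw [← hf, hx, map_zero])
    exact ⟨⟨y, hy⟩, Subtype.ext hxy⟩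
  have hp0 : (p : Λ) ≠ 0 := by
    intro h
    have h7 : (p : WittVector p K) = 0 := congrArg Subtype.val h
    exact one_ne_zero (htf 1 (by rw [h7, zero_mul]))
  obtain ⟨i1, i2, i3⟩ := dvr_of_p_complete p hp0 f hfs hfk
  have hcomp' : IsAdicComplete (maximalIdeal Λ) Λ := by rw [i2]; exact hcomp
  refine ⟨Λ, inferInstance, inferInstance, i1, i3, hcomp', f, Λ.subtype,
    fun i => ⟨_, h4 i⟩, i2, hfs, hfk, Subtype.val_injective, fun x => (hf x).symm, fun i => rfl⟩

end Vale.Agent.P202.Mix
end

section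

/-!
P202, mixed characteristic: lifting of homomorphisms from Cohen rings to complete rings.
-/

namespace Vale.Agent.P202.Mix

open Vale.Agent.P202.CharP.ArbK

section lift

variable (p : ℕ) [hp : Fact p.Prime] {Λ k : Type*} [CommRing Λ] [Field k] [CharP k p]
  (π : Λ →+* k) (hπs : Function.Surjective π) (hπ : ∀ x, π x = 0 → ∃ y, x = p * y)
  (htf : ∀ x : Λ, (p : Λ) * x = 0 → x = 0)

include hπs hπ htf

/-- lifting along a square-zero surjection with kernel killed by `p`. -/
theorem exists_cohen_lift_step {T T' : Type*} [CommRing T] [CommRing T'] (q : T →+* T')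
    (hq : Function.Surjective q) (hN : ∀ a b, q a = 0 → q b = 0 → a * b = 0)
    (hpN : ∀ a, q a = 0 → (p : T) * a = 0) (f : Λ →+* T') : ∃ f' : Λ →+* T, q.comp f' = f := by
  let E : Subring (T × Λ) :=
    RingHom.eqLocus (q.comp (RingHom.fst T Λ)) (f.comp (RingHom.snd T Λ))
  have hE : ∀ e : E, q e.1.1 = f e.1.2 := fun e => e.2
  let J : Ideal E := Ideal.span {(p : E)}
  let g0 : E →+* k := π.comp ((RingHom.snd T Λ).comp E.subtype)
  have hg0 : ∀ x ∈ J, g0 x = 0 := by
    intro x hx
    obtain ⟨y, rfl⟩ := Ideal.mem_span_singleton'.mp hx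
    rw [map_mul, map_natCast, CharP.cast_eq_zero, mul_zero]
  let g : E ⧸ J →+* k := Ideal.Quotient.lift J g0 hg0
  have hg : ∀ x : E, g (Ideal.Quotient.mk J x) = π x.1.2 := fun x =>
    Ideal.Quotient.lift_mk J g0 hg0
  have hnt : Nontrivial (E ⧸ J) := g.domain_nontrivial
  have hch : CharP (E ⧸ J) p := by
    rw [CharP.charP_iff_prime_eq_zero hp.out, ← map_natCast (Ideal.Quotient.mk J),
      Ideal.Quotient.eq_zero_iff_mem]
    exact Ideal.mem_span_singleton_self _
  have hlift : ∀ l : Λ, ∃ t : T, q t = f l := fun l => hq (f l)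
  have hgs : Function.Surjective g := by
    intro a
    obtain ⟨l, rfl⟩ := hπs a
    obtain ⟨t, ht⟩ := hlift l
    exact ⟨Ideal.Quotient.mk J ⟨(t, l), ht⟩, hg _⟩
  -- the kernel of `g`
  have hker : ∀ e : E, π e.1.2 = 0 → ∃ t : T, q t = 0 ∧ ∃ e' : E,
      (e : T × Λ) = (t, 0) + (p : T × Λ) * (e' : T × Λ) := by
    intro e he
    obtain ⟨m, hm⟩ := hπ _ he
    obtain ⟨t', ht'⟩ := hlift m
    refine ⟨e.1.1 - p * t', ?_, ⟨(t', m), ht'⟩, ?_⟩
    · rw [map_sub, map_mul, map_natCast, hE e, ht', hm, map_mul, map_natCast, sub_self]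
    · refine Prod.ext ?_ ?_
      · change e.1.1 = (e.1.1 - p * t') + p * t'
        ring
      · change e.1.2 = 0 + p * m
        rw [zero_add, hm]
  have hmk : ∀ e : E, (∃ e' : E, (e : T × Λ) = (p : T × Λ) * (e' : T × Λ)) →
      Ideal.Quotient.mk J e = 0 := by
    rintro e ⟨e', he⟩
    rw [Ideal.Quotient.eq_zero_iff_mem]
    refine Ideal.mem_span_singleton'.mpr ⟨e', Subtype.ext ?_⟩
    rw [he]
    exact mul_comm _ _
  have hgn : ∀ a b, g a = 0 → g b = 0 → a * b = 0 := by
    intro a b ha hb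
    obtain ⟨x, rfl⟩ := Ideal.Quotient.mk_surjective a
    obtain ⟨y, rfl⟩ := Ideal.Quotient.mk_surjective b
    rw [hg] at ha hb
    obtain ⟨t, ht, x', hx⟩ := hker x ha
    obtain ⟨u, hu, y', hy⟩ := hker y hb
    rw [← map_mul]
    refine hmk _ ⟨⟨((t, 0) : T × Λ), by
      change q t = f 0
      rw [ht, map_zero]⟩ * y' + x' * ⟨((u, 0) : T × Λ), by
      change q u = f 0
      rw [hu, map_zero]⟩ + p * (x' * y'), ?_⟩
    change (x : T × Λ) * (y : T × Λ) = (p : T × Λ) * (((t, 0) : T × Λ) * (y' : T × Λ) +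
      (x' : T × Λ) * ((u, 0) : T × Λ) + (p : T × Λ) * ((x' : T × Λ) * (y' : T × Λ)))
    have h0 : ((t, 0) : T × Λ) * ((u, 0) : T × Λ) = 0 := Prod.ext (hN t u ht hu) (mul_zero _)
    rw [hx, hy]
    calc ((t, 0) + (p : T × Λ) * (x' : T × Λ)) * ((u, 0) + (p : T × Λ) * (y' : T × Λ)) =
        ((t, 0) : T × Λ) * ((u, 0) : T × Λ) + ((p : T × Λ) * (((t, 0) : T × Λ) * (y' : T × Λ) +
          (x' : T × Λ) * ((u, 0) : T × Λ) +
          (p : T × Λ) * ((x' : T × Λ) * (y' : T × Λ)))) := by ring
      _ = _ := by rw [h0, zero_add]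
  obtain ⟨s, hs⟩ := exists_section_of_sq_zero p g hgs hgn
  have hs' : ∀ a, g (s a) = a := fun a => DFunLike.congr_fun hs a
  let E1 : Subring E := s.range.comap (Ideal.Quotient.mk J)
  let h : E1 →+* Λ := (RingHom.snd T Λ).comp (E.subtype.comp E1.subtype)
  have hinj : Function.Injective h := by
    rw [injective_iff_map_eq_zero]
    rintro ⟨e, he⟩ h0
    have h1 : e.1.2 = 0 := h0
    obtain ⟨a, ha⟩ := (he : Ideal.Quotient.mk J e ∈ s.range)
    have h2 : a = 0 := by rw [← hs' a, ha, hg, h1, map_zero]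
    rw [h2, map_zero] at ha
    have h3 : e ∈ J := Ideal.Quotient.eq_zero_iff_mem.mp ha.symm
    obtain ⟨y, hy⟩ := Ideal.mem_span_singleton'.mp h3
    have h4 : (e : T × Λ) = (p : T × Λ) * (y : T × Λ) := by
      rw [← hy]
      exact mul_comm _ _
    have h5 : (p : Λ) * y.1.2 = 0 := by
      have : e.1.2 = p * y.1.2 := by rw [h4]; rfl
      rw [← this, h1]
    have h6 : y.1.2 = 0 := htf _ h5
    have h7 : q y.1.1 = 0 := by rw [hE, h6, map_zero]
    refine Subtype.ext (Subtype.ext ?_)
    rw [h4]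
    refine Prod.ext ?_ ?_
    · exact hpN _ h7
    · exact h5
  have hsurj : Function.Surjective h := by
    intro l
    obtain ⟨t, ht⟩ := hlift l
    let e : E := ⟨(t, l), ht⟩
    obtain ⟨e0, he0⟩ := Ideal.Quotient.mk_surjective (s (π l))
    have h1 : π (e - e0 : E).1.2 = 0 := by
      rw [← hg, map_sub, map_sub, he0, hs', hg]
      exact sub_self _
    obtain ⟨u, hu, e', he'⟩ := hker _ h1
    let n : E := ⟨(u, 0), by
      change q u = f 0
      rw [hu, map_zero]⟩
    refine ⟨⟨e - n, ?_⟩, ?_⟩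
    · change Ideal.Quotient.mk J (e - n) ∈ s.range
      refine ⟨π l, ?_⟩
      rw [← he0, eq_comm, ← sub_eq_zero, ← map_sub]
      refine hmk _ ⟨e', ?_⟩
      change ((e : T × Λ) - ((u, 0) : T × Λ)) - (e0 : T × Λ) = (p : T × Λ) * (e' : T × Λ)
      have h3 : (e : T × Λ) - (e0 : T × Λ) = (u, 0) + (p : T × Λ) * (e' : T × Λ) := he'
      calc ((e : T × Λ) - ((u, 0) : T × Λ)) - (e0 : T × Λ) =
          ((e : T × Λ) - (e0 : T × Λ)) - ((u, 0) : T × Λ) := by ring
        _ = _ := by rw [h3]; ring
    · change l - 0 = l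
      rw [sub_zero]
  let eq : E1 ≃+* Λ := RingEquiv.ofBijective h ⟨hinj, hsurj⟩
  refine ⟨((RingHom.fst T Λ).comp (E.subtype.comp E1.subtype)).comp (eq.symm : Λ →+* E1), ?_⟩
  ext l
  obtain ⟨x, rfl⟩ := eq.surjective l
  change q ((eq.symm (eq x)).1.1.1) = f (eq x)
  rw [RingEquiv.symm_apply_apply]
  exact hE x.1

/-- Homomorphisms from a Cohen ring to `A / I` lift to `A`, for `A` complete. -/
theorem exists_cohen_lift {A : Type*} [CommRing A] (I : Ideal A) [IsAdicComplete I A]
    (hpI : (p : A) ∈ I) (φ : Λ →+* A ⧸ I) :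
    ∃ F : Λ →+* A, (Ideal.Quotient.mk I).comp F = φ := by
  have step : ∀ (n : ℕ) (f : Λ →+* A ⧸ I ^ (n + 1)), ∃ f' : Λ →+* A ⧸ I ^ (n + 2),
      (Ideal.Quotient.factorPow I (Nat.le_succ (n + 1))).comp f' = f := by
    intro n f
    refine exists_cohen_lift_step p π hπs hπ htf _ ?_ ?_ ?_ f
    · intro x
      obtain ⟨a, rfl⟩ := Ideal.Quotient.mk_surjective x
      exact ⟨Ideal.Quotient.mk _ a, rfl⟩
    · intro x y hx hy
      obtain ⟨a, rfl⟩ := Ideal.Quotient.mk_surjective x
      obtain ⟨b, rfl⟩ := Ideal.Quotient.mk_surjective y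
      have ha : a ∈ I ^ (n + 1) := Ideal.Quotient.eq_zero_iff_mem.mp hx
      have hb : b ∈ I ^ (n + 1) := Ideal.Quotient.eq_zero_iff_mem.mp hy
      rw [← map_mul, Ideal.Quotient.eq_zero_iff_mem]
      have h1 := Ideal.mul_mem_mul ha hb
      rw [← pow_add] at h1
      exact Ideal.pow_le_pow_right (by omega) h1
    · intro x hx
      obtain ⟨a, rfl⟩ := Ideal.Quotient.mk_surjective x
      have ha : a ∈ I ^ (n + 1) := Ideal.Quotient.eq_zero_iff_mem.mp hx
      rw [← map_natCast (Ideal.Quotient.mk (I ^ (n + 2))), ← map_mul,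
        Ideal.Quotient.eq_zero_iff_mem, pow_succ' I (n + 1)]
      exact Ideal.mul_mem_mul hpI ha
  choose nxt hnxt using step
  have e0 : I = I ^ (0 + 1) := by rw [zero_add, pow_one]
  let f0 : Λ →+* A ⧸ I ^ (0 + 1) := (Ideal.quotEquivOfEq e0 : A ⧸ I →+* A ⧸ I ^ (0 + 1)).comp φ
  let f : (n : ℕ) → Λ →+* A ⧸ I ^ (n + 1) := fun n =>
    Nat.rec (motive := fun n => Λ →+* A ⧸ I ^ (n + 1)) f0 (fun n g => nxt n g) n
  have hf : ∀ n, (Ideal.Quotient.factorPow I (Nat.le_succ (n + 1))).comp (f (n + 1)) = f n :=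
    fun n => hnxt n (f n)
  have ha : StrictMono (fun n : ℕ => n + 1) := fun a b h => Nat.add_lt_add_right h 1
  refine ⟨IsAdicComplete.StrictMono.liftRingHom I ha f (fun {m} => hf m), ?_⟩
  ext l
  have h1 : Ideal.Quotient.mk (I ^ (0 + 1))
      (IsAdicComplete.StrictMono.liftRingHom I ha f (fun {m} => hf m) l) = f 0 l :=
    IsAdicComplete.StrictMono.mk_liftRingHom I ha f (fun {m} => hf m) l
  apply (Ideal.quotEquivOfEq e0).injective
  exact h1

end lift

end Vale.Agent.P202.Mix
end

section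

/-!
P202, mixed characteristic: the Cohen ring of a complete local ring, with its embedding into the
Witt vectors of the perfect closure of the residue field, compatible with a `p`-basis.
-/

namespace Vale.Agent.P202.Mix

open IsLocalRing

universe u

/-- Cohen rings of complete local rings. -/
theorem exists_cohen (p : ℕ) [hp : Fact p.Prime] {A : Type u} [CommRing A] [IsLocalRing A]
    [IsAdicComplete (maximalIdeal A) A] [CharP (ResidueField A) p] {ι : Type*}
    {b : ι → ResidueField A} (hb : IsPBasis p b) :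
    ∃ (Cr : Type u) (_ : CommRing Cr) (_ : IsDomain Cr) (_ : IsDiscreteValuationRing Cr)
      (_ : IsAdicComplete (maximalIdeal Cr) Cr) (χ : Cr →+* A)
      (κ : Cr →+* WittVector p (PerfectClosure (ResidueField A) p)) (π : Cr →+* ResidueField A)
      (β : ι → Cr),
      maximalIdeal Cr = Ideal.span {(p : Cr)} ∧ Function.Surjective π ∧
      (∀ c, π c = 0 → ∃ d, c = p * d) ∧ (∀ c, residue A (χ c) = π c) ∧
      (∀ x : A, ∃ c : Cr, x - χ c ∈ maximalIdeal A) ∧
      (∀ c, (κ c).coeff 0 = PerfectClosure.of (ResidueField A) p (π c)) ∧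
      (∀ i, κ (β i) = WittVector.teichmuller p (PerfectClosure.of (ResidueField A) p (b i))) ∧
      (∀ i, residue A (χ (β i)) = b i) := by
  obtain ⟨Cr, _, _, _, _, _, π, w, β, h1, h2, h3, h4, h5, h6⟩ := exists_cohenRing p
    (PerfectClosure.of (ResidueField A) p) (isQBasis_of_isPBasis p hb)
  have hp0 : (p : Cr) ≠ 0 := Nat.cast_ne_zero.mpr hp.out.ne_zero
  have htf : ∀ x : Cr, (p : Cr) * x = 0 → x = 0 := fun x hx =>
    (mul_eq_zero.mp hx).resolve_left hp0
  have hpA : (p : A) ∈ maximalIdeal A := by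
    rw [← residue_eq_zero_iff, map_natCast, CharP.cast_eq_zero]
  obtain ⟨χ, hχ⟩ := exists_cohen_lift p π h2 h3 htf (maximalIdeal A) hpA
    (A := A) (π : Cr →+* A ⧸ maximalIdeal A)
  have hχ' : ∀ c, residue A (χ c) = π c := fun c => DFunLike.congr_fun hχ c
  refine ⟨Cr, inferInstance, inferInstance, inferInstance, inferInstance, χ, w, π, β, h1, h2, h3,
    hχ', fun x => ?_, h5, h6, fun i => ?_⟩
  · obtain ⟨c, hc⟩ := h2 (residue A x)
    refine ⟨c, ?_⟩
    rw [← residue_eq_zero_iff, map_sub, hχ', hc, sub_self]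
  · rw [hχ']
    apply (PerfectClosure.of (ResidueField A) p).injective
    rw [← h5, h6, WittVector.teichmuller_coeff_zero]

end Vale.Agent.P202.Mix
end

section

/-!
P202 MIX, task M7: structure of complete local domains of mixed characteristic as finite
extensions of power series rings over Cohen rings.
-/

namespace Vale.Agent.P202.Mix

open IsLocalRing MvPowerSeries

universe u

section Hom

variable {K S : Type*} [CommRing K] [CommRing S]

theorem mc_eval_mem_pow (I : Ideal S) (τ : K →+* S) {d : ℕ} (x : Fin d → S) (hx : ∀ i, x i ∈ I)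
    (n : ℕ) {p : MvPolynomial (Fin d) K} (hp : p ∈ MvPolynomial.idealOfVars (Fin d) K ^ n) :
    MvPolynomial.eval₂Hom τ x p ∈ I ^ n := by
  have h1 : (MvPolynomial.idealOfVars (Fin d) K).map (MvPolynomial.eval₂Hom τ x) ≤ I := by
    rw [MvPolynomial.idealOfVars, Ideal.map_span, Ideal.span_le]
    rintro _ ⟨_, ⟨i, rfl⟩, rfl⟩
    simpa using hx i
  have h2 := Ideal.mem_map_of_mem (MvPolynomial.eval₂Hom τ x) hp
  rw [Ideal.map_pow] at h2
  exact Ideal.pow_right_mono h1 n h2

/-- the truncated evaluation. -/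
noncomputable def mcTrunc (I : Ideal S) (τ : K →+* S) {d : ℕ} (x : Fin d → S)
    (hx : ∀ i, x i ∈ I) (n : ℕ) : MvPowerSeries (Fin d) K →+* S ⧸ I ^ n :=
  (Ideal.Quotient.lift (MvPolynomial.idealOfVars (Fin d) K ^ n)
    ((Ideal.Quotient.mk (I ^ n)).comp (MvPolynomial.eval₂Hom τ x))
    (fun p hp => by
      rw [RingHom.comp_apply, Ideal.Quotient.eq_zero_iff_mem]
      exact mc_eval_mem_pow I τ x hx n hp)).comp (truncTotalAlgHom (Fin d) K n).toRingHom

theorem mcTrunc_apply (I : Ideal S) (τ : K →+* S) {d : ℕ} (x : Fin d → S)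
    (hx : ∀ i, x i ∈ I) (n : ℕ) (p : MvPowerSeries (Fin d) K) :
    mcTrunc I τ x hx n p =
      Ideal.Quotient.mk (I ^ n) (MvPolynomial.eval₂Hom τ x (p.truncTotal n)) := by
  rfl

theorem mcTrunc_coe (I : Ideal S) (τ : K →+* S) {d : ℕ} (x : Fin d → S)
    (hx : ∀ i, x i ∈ I) (n : ℕ) (p : MvPolynomial (Fin d) K) :
    mcTrunc I τ x hx n (p : MvPowerSeries (Fin d) K) =
      Ideal.Quotient.mk (I ^ n) (MvPolynomial.eval₂Hom τ x p) := by
  have h := (truncTotalAlgHom (Fin d) K n).commutes p
  have h2 : mcTrunc I τ x hx n (p : MvPowerSeries (Fin d) K) =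
      (Ideal.Quotient.lift (MvPolynomial.idealOfVars (Fin d) K ^ n)
    ((Ideal.Quotient.mk (I ^ n)).comp (MvPolynomial.eval₂Hom τ x))
    (fun p hp => by
      rw [RingHom.comp_apply, Ideal.Quotient.eq_zero_iff_mem]
      exact mc_eval_mem_pow I τ x hx n hp))
      (truncTotalAlgHom (Fin d) K n (algebraMap (MvPolynomial (Fin d) K)
        (MvPowerSeries (Fin d) K) p)) := rfl
  rw [h2, h]
  rfl

/-- power series with coefficients in a commutative ring act on complete rings. -/
theorem mc_exists_hom (I : Ideal S)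
    [IsAdicComplete I S] (τ : K →+* S) {d : ℕ} (x : Fin d → S) (hx : ∀ i, x i ∈ I) :
    ∃ φ : MvPowerSeries (Fin d) K →+* S, (∀ a, φ (C a) = τ a) ∧ ∀ i, φ (X i) = x i := by
  have hf : ∀ {m n : ℕ} (hle : m ≤ n),
      (Ideal.Quotient.factorPow I hle).comp (mcTrunc I τ x hx n) = mcTrunc I τ x hx m := by
    intro m n hle
    ext p
    rw [RingHom.comp_apply, mcTrunc_apply, mcTrunc_apply]
    change Ideal.Quotient.mk (I ^ m) _ = _
    rw [Ideal.Quotient.eq, ← map_sub]
    exact mc_eval_mem_pow I τ x hx m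
      (truncTotal_sub_truncTotal_mem_pow_idealOfVars hle (le_refl _) _)
  refine ⟨IsAdicComplete.liftRingHom I (mcTrunc I τ x hx) hf, ?_, ?_⟩
  · intro a
    have hC : (C a : MvPowerSeries (Fin d) K) = ((MvPolynomial.C a : MvPolynomial (Fin d) K) :
        MvPowerSeries (Fin d) K) := (MvPolynomial.coe_C a).symm
    have : ∀ n : ℕ, Ideal.Quotient.mk (I ^ n)
        (IsAdicComplete.liftRingHom I (mcTrunc I τ x hx) hf (C a)) =
        Ideal.Quotient.mk (I ^ n) (τ a) := by
      intro n
      rw [IsAdicComplete.mk_liftRingHom, hC, mcTrunc_coe]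
      simp
    apply (IsHausdorff.eq_iff_smodEq (I := I)).2
    intro n
    rw [SModEq.sub_mem, smul_eq_mul, Ideal.mul_top, ← Ideal.Quotient.eq]
    exact this n
  · intro i
    have hC : (X i : MvPowerSeries (Fin d) K) = ((MvPolynomial.X i : MvPolynomial (Fin d) K) :
        MvPowerSeries (Fin d) K) := (MvPolynomial.coe_X i).symm
    have : ∀ n : ℕ, Ideal.Quotient.mk (I ^ n)
        (IsAdicComplete.liftRingHom I (mcTrunc I τ x hx) hf (X i)) =
        Ideal.Quotient.mk (I ^ n) (x i) := by
      intro n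
      rw [IsAdicComplete.mk_liftRingHom, hC, mcTrunc_coe]
      simp
    apply (IsHausdorff.eq_iff_smodEq (I := I)).2
    intro n
    rw [SModEq.sub_mem, smul_eq_mul, Ideal.mul_top, ← Ideal.Quotient.eq]
    exact this n

end Hom

section Fin

/-- approximation by combinations with coefficients in `K`. -/
theorem mc_approx {K S : Type*} [CommRing K] [CommRing S] [IsLocalRing S] [IsNoetherianRing S]
    (τ : K →+* S) (hK : ∀ z : S, ∃ a : K, z - τ a ∈ maximalIdeal S) (m : ℕ) :
    ∃ (n : ℕ) (g : Fin n → S), ∀ z : S, ∃ c : Fin n → K,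
      z - ∑ i, τ (c i) * g i ∈ maximalIdeal S ^ m := by
  induction m with
  | zero => exact ⟨0, Fin.elim0, fun z => ⟨Fin.elim0, by simp⟩⟩
  | succ m ih =>
    obtain ⟨n, g, h⟩ := ih
    obtain ⟨t, e, he⟩ := Submodule.fg_iff_exists_fin_generating_family.1
      (IsNoetherian.noetherian (maximalIdeal S ^ m) : (maximalIdeal S ^ m).FG)
    choose a ha using hK
    refine ⟨n + t, Fin.append g e, fun z => ?_⟩
    obtain ⟨c, hc⟩ := h z
    rw [← he, Submodule.mem_span_range_iff_exists_fun] at hc
    obtain ⟨b, hb⟩ := hc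
    refine ⟨Fin.append c fun i => a (b i), ?_⟩
    rw [Fin.sum_univ_add]
    simp only [Fin.append_left, Fin.append_right]
    have h2 : z - (∑ i, τ (c i) * g i + ∑ i, τ (a (b i)) * e i) =
        ∑ i, (b i - τ (a (b i))) * e i := by
      rw [← sub_sub, ← hb, ← Finset.sum_sub_distrib]
      refine Finset.sum_congr rfl fun i _ => ?_
      rw [smul_eq_mul, sub_mul]
    rw [h2, pow_succ']
    refine Ideal.sum_mem _ fun i _ => Ideal.mul_mem_mul (ha _) ?_
    rw [← he]
    exact Submodule.subset_span ⟨i, rfl⟩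

/-- finiteness over the power series ring over a complete coefficient ring. -/
theorem mc_finite {K S : Type*} [CommRing K] [CommRing S] [IsLocalRing S] [IsNoetherianRing S]
    (ϖ : K) [IsPrecomplete (Ideal.span {ϖ}) K] {r : ℕ} (φ : MvPowerSeries (Fin r) K →+* S)
    (hK : ∀ z : S, ∃ a : K, z - φ (C a) ∈ maximalIdeal S)
    (hϖ : φ (C ϖ) ∈ maximalIdeal S) (hx : ∀ i, φ (X i) ∈ maximalIdeal S)
    {M : ℕ} (hM : maximalIdeal S ^ M ≤
      Ideal.span ({φ (C ϖ)} ∪ Set.range fun i => φ (X i))) : φ.Finite := by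
  set τ : K →+* S := φ.comp C with hτ
  set J : Ideal S := Ideal.span (Set.range fun i => φ (X i)) with hJ
  obtain ⟨n, g, hg⟩ := mc_approx τ hK M
  -- step 1: modulo the variables
  have step1 : ∀ z : S, ∃ c : Fin n → K, z - ∑ i, τ (c i) * g i ∈ J := by
    let _ : Algebra K S := τ.toAlgebra
    have hτa : ∀ c, algebraMap K S c = τ c := fun c => rfl
    have h1 : (Ideal.span {ϖ}).map (algebraMap K S) ≤ maximalIdeal S := by
      rw [Ideal.map_span, Set.image_singleton, Ideal.span_singleton_le_iff_mem]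
      exact hϖ
    have h2 : IsHausdorff (Ideal.span {ϖ}) (S ⧸ J) := IsHausdorff.of_map h1
    have h3 := CZ.isPrecomplete_pi (Ideal.span {ϖ}) n
    let f : (Fin n → K) →ₗ[K] (S ⧸ J) :=
      Fintype.linearCombination K fun i => Ideal.Quotient.mk J (g i)
    have hf : ∀ c : Fin n → K, f c = Ideal.Quotient.mk J (∑ i, τ (c i) * g i) := by
      intro c
      rw [Fintype.linearCombination_apply, map_sum]
      refine Finset.sum_congr rfl fun i _ => ?_
      rw [Algebra.smul_def, map_mul]
      rfl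
    have hsurj : Function.Surjective f := by
      apply surjective_of_mkQ_comp_surjective (I := Ideal.span {ϖ})
      intro z
      obtain ⟨z, rfl⟩ := Submodule.mkQ_surjective _ z
      obtain ⟨z, rfl⟩ := Ideal.Quotient.mk_surjective z
      obtain ⟨c, hc⟩ := hg z
      refine ⟨c, ?_⟩
      rw [LinearMap.comp_apply, hf, ← sub_eq_zero, ← map_sub, Submodule.mkQ_apply,
        Submodule.Quotient.mk_eq_zero, ← neg_mem_iff, neg_sub, ← map_sub]
      have h4 := hM hc
      rw [Ideal.span_union, Submodule.mem_sup] at h4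
      obtain ⟨y, hy, w, hw, hyw⟩ := h4
      obtain ⟨y', rfl⟩ := Ideal.mem_span_singleton'.1 hy
      have h5 : Ideal.Quotient.mk J (z - ∑ i, τ (c i) * g i) =
          ϖ • Ideal.Quotient.mk J y' := by
        rw [← hyw, map_add, Ideal.Quotient.eq_zero_iff_mem.2 hw, add_zero, Algebra.smul_def,
          mul_comm, map_mul]
        rfl
      rw [h5]
      exact Submodule.smul_mem_smul (Ideal.mem_span_singleton_self _) trivial
    intro z
    obtain ⟨c, hc⟩ := hsurj (Ideal.Quotient.mk J z)
    refine ⟨c, ?_⟩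
    rw [← Ideal.Quotient.eq, ← hc, hf]
  -- step 2
  let _ : Algebra (MvPowerSeries (Fin r) K) S := φ.toAlgebra
  have hφa : ∀ c, algebraMap (MvPowerSeries (Fin r) K) S c = φ c := fun c => rfl
  set I : Ideal (MvPowerSeries (Fin r) K) := Ideal.span (Set.range X) with hI
  have hIS : I.map (algebraMap (MvPowerSeries (Fin r) K) S) = J := by
    rw [hI, Ideal.map_span, ← Set.range_comp]
    rfl
  have hJm : J ≤ maximalIdeal S := by
    rw [hJ, Ideal.span_le]
    rintro _ ⟨i, rfl⟩
    exact hx i
  have hH : IsHausdorff I S := IsHausdorff.of_map (hIS.trans_le hJm)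
  have hP := CZ.isPrecomplete_pi I n
  have hsurj : Function.Surjective (Fintype.linearCombination (MvPowerSeries (Fin r) K) g) := by
    apply surjective_of_mkQ_comp_surjective (I := I)
    intro z
    obtain ⟨z, rfl⟩ := Submodule.mkQ_surjective _ z
    obtain ⟨c, hc⟩ := step1 z
    refine ⟨fun i => C (c i), ?_⟩
    rw [LinearMap.comp_apply, ← sub_eq_zero, ← map_sub, Submodule.mkQ_apply,
      Submodule.Quotient.mk_eq_zero, Ideal.smul_top_eq_map, Submodule.restrictScalars_mem, hIS,
      ← neg_mem_iff, neg_sub, Fintype.linearCombination_apply]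
    exact hc
  exact Module.Finite.of_surjective _ hsurj

end Fin

section Dim

theorem mc_height_le_iff {R : Type*} [CommRing R] [IsLocalRing R] {d : ℕ} :
    (maximalIdeal R).height ≤ (d : ℕ∞) ↔ ringKrullDim R ≤ (d : ℕ) := by
  rw [← IsLocalRing.maximalIdeal_height_eq_ringKrullDim]
  exact (WithBot.coe_le_coe (a := (maximalIdeal R).height) (b := (d : ℕ∞))).symm

/-- Krull's height theorem. -/
theorem mc_dim_le {R : Type*} [CommRing R] [IsLocalRing R] [IsNoetherianRing R] {d M : ℕ}
    (x : Fin d → R) (hx : ∀ i, x i ∈ maximalIdeal R)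
    (hM : maximalIdeal R ^ M ≤ Ideal.span (Set.range x)) : ringKrullDim R ≤ (d : ℕ) := by
  rw [← mc_height_le_iff]
  have hmin : maximalIdeal R ∈ (Ideal.span (Set.range x)).minimalPrimes := by
    refine ⟨⟨inferInstance, ?_⟩, ?_⟩
    · rw [Ideal.span_le]
      rintro _ ⟨i, rfl⟩
      exact hx i
    · rintro P ⟨hP, hIP⟩ _
      exact hP.le_of_pow_le (hM.trans hIP)
  have h1 := Ideal.height_le_card_of_mem_minimalPrimes_span (Set.finite_range x) hmin
  have h2 : (Set.range x).ncard ≤ d := by
    rw [← Set.image_univ]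
    refine (Set.ncard_image_le (Set.toFinite _)).trans ?_
    simp
  exact h1.trans (by exact_mod_cast h2)

/-- parameters of a Noetherian local ring. -/
theorem mc_params {R : Type*} [CommRing R] [IsLocalRing R] [IsNoetherianRing R] {d : ℕ}
    (hd : ringKrullDim R ≤ (d : ℕ)) : ∃ x : Fin d → R, (∀ i, x i ∈ maximalIdeal R) ∧
      ∃ M : ℕ, maximalIdeal R ^ M ≤ Ideal.span (Set.range x) := by
  classical
  obtain ⟨s, hs, hcard⟩ := (maximalIdeal R).exists_finset_card_eq_height_of_isNoetherianRing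
  rw [← mc_height_le_iff, ← hcard] at hd
  have hd' : s.card ≤ d := by exact_mod_cast hd
  have hsm : ∀ a ∈ s, a ∈ maximalIdeal R := fun a ha => hs.1.2 (Ideal.subset_span ha)
  refine ⟨fun i => if h : (i : ℕ) < s.card then (s.equivFin.symm ⟨i, h⟩ : R) else 0, ?_, ?_⟩
  · intro i
    by_cases h : (i : ℕ) < s.card
    · simp only [h, dif_pos]
      exact hsm _ (s.equivFin.symm ⟨i, h⟩).2
    · simp only [h, dif_neg, not_false_eq_true]
      exact zero_mem _
  · have hrad : maximalIdeal R ≤ (Ideal.span (s : Set R)).radical := by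
      rw [Ideal.radical_eq_sInf]
      refine le_sInf ?_
      rintro P ⟨hP, hPp⟩
      exact hs.2 ⟨hPp, hP⟩ (le_maximalIdeal hPp.ne_top)
    obtain ⟨M, hM⟩ := Ideal.exists_pow_le_of_le_radical_of_fg hrad
      (IsNoetherian.noetherian (maximalIdeal R))
    refine ⟨M, hM.trans (Ideal.span_mono ?_)⟩
    intro a ha
    refine ⟨⟨s.equivFin ⟨a, ha⟩, (s.equivFin ⟨a, ha⟩).2.trans_le hd'⟩, ?_⟩
    simp

variable {K : Type*} [CommRing K] [IsDomain K] [IsLocalRing K] [IsNoetherianRing K]

omit [IsDomain K] [IsNoetherianRing K] in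
theorem mc_max_le (ϖ : K) (hK : maximalIdeal K = Ideal.span {ϖ}) {r : ℕ} :
    maximalIdeal (MvPowerSeries (Fin r) K) ≤
      Ideal.span ({C ϖ} ∪ Set.range (X : Fin r → MvPowerSeries (Fin r) K)) := by
  intro f hf
  have h1 : constantCoeff f ∈ maximalIdeal K := by
    rw [mem_maximalIdeal, mem_nonunits_iff] at hf ⊢
    exact fun h => hf (isUnit_iff_constantCoeff.2 h)
  rw [hK] at h1
  obtain ⟨c, hc⟩ := Ideal.mem_span_singleton'.1 h1
  have h2 : f - C (constantCoeff f) ∈
      Ideal.span (Set.range (X : Fin r → MvPowerSeries (Fin r) K)) := by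
    rw [← pow_one (Ideal.span _)]
    refine CZ.mem_pow_of_coeff_eq_zero fun d hd => ?_
    have hd0 : d = 0 := (Finsupp.degree_eq_zero_iff d).1 (by omega)
    rw [hd0, map_sub, coeff_zero_eq_constantCoeff_apply, coeff_zero_C, sub_self]
  have h3 : f = C c * C ϖ + (f - C (constantCoeff f)) := by
    rw [← map_mul, hc]
    ring
  rw [h3]
  refine add_mem (Ideal.mul_mem_left _ _ (Ideal.subset_span (Or.inl rfl))) ?_
  exact Ideal.span_mono Set.subset_union_right h2

/-- injectivity by dimension. -/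
theorem mc_injective_aux {Λ A : Type*} [CommRing Λ] [IsDomain Λ] [IsLocalRing Λ]
    [IsNoetherianRing Λ] [CommRing A] [IsLocalRing A] [IsNoetherianRing A] {r : ℕ}
    (hdimΛ : ringKrullDim Λ ≤ (r + 1 : ℕ)) (hdim : ringKrullDim A = (r + 1 : ℕ)) (φ : Λ →+* A)
    (hφm : ∀ g ∈ maximalIdeal Λ, φ g ∈ maximalIdeal A)
    {M : ℕ} (hM : maximalIdeal A ^ M ≤ (maximalIdeal Λ).map φ) : Function.Injective φ := by
  rw [injective_iff_map_eq_zero]
  intro f hf
  by_contra hf0
  have hfm : f ∈ maximalIdeal Λ := by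
    rw [mem_maximalIdeal, mem_nonunits_iff]
    intro h
    have h2 := h.map φ
    rw [hf] at h2
    exact not_isUnit_zero h2
  have hne : Ideal.span {f} ≠ ⊤ := by
    intro h
    have h1 : Ideal.span {f} ≤ maximalIdeal Λ := by
      rw [Ideal.span_singleton_le_iff_mem]
      exact hfm
    rw [h, top_le_iff] at h1
    exact (maximalIdeal.isMaximal Λ).ne_top h1
  have : Nontrivial (Λ ⧸ Ideal.span {f}) := Ideal.Quotient.nontrivial_iff.2 hne
  have : IsLocalRing (Λ ⧸ Ideal.span {f}) :=
    IsLocalRing.of_surjective' (Ideal.Quotient.mk _) Ideal.Quotient.mk_surjective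
  have h1 := ringKrullDim_quotient_succ_le_of_nonZeroDivisor (mem_nonZeroDivisors_of_ne_zero hf0)
  have h2 : ringKrullDim (Λ ⧸ Ideal.span {f}) ≤ (r : ℕ) := by
    have h3 := h1.trans hdimΛ
    rw [← IsLocalRing.maximalIdeal_height_eq_ringKrullDim] at h3 ⊢
    have h4 : (maximalIdeal (Λ ⧸ Ideal.span {f})).height + 1 ≤ (r : ℕ∞) + 1 := by
      exact_mod_cast h3
    have h5 := (ENat.add_le_add_iff_right (by simp)).1 h4
    exact_mod_cast h5
  obtain ⟨x, hxm, N, hN⟩ := mc_params h2
  let φ' : Λ ⧸ Ideal.span {f} →+* A := Ideal.Quotient.lift _ φ (by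
    intro z hz
    obtain ⟨c, rfl⟩ := Ideal.mem_span_singleton'.1 hz
    rw [map_mul, hf, mul_zero])
  have hφ' : ∀ z, φ' (Ideal.Quotient.mk _ z) = φ z := fun z => Ideal.Quotient.lift_mk _ _ _
  have hφ'm : ∀ z ∈ maximalIdeal (Λ ⧸ Ideal.span {f}), φ' z ∈ maximalIdeal A := by
    intro z hz
    obtain ⟨z, rfl⟩ := Ideal.Quotient.mk_surjective z
    rw [hφ']
    refine hφm z ?_
    rw [mem_maximalIdeal, mem_nonunits_iff] at hz ⊢
    exact fun h => hz (h.map _)
  have hmap : (maximalIdeal Λ).map φ ≤ (maximalIdeal (Λ ⧸ Ideal.span {f})).map φ' := by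
    rw [Ideal.map_le_iff_le_comap]
    intro g hg
    rw [Ideal.mem_comap, ← hφ']
    refine Ideal.mem_map_of_mem _ ?_
    have hl : IsLocalHom (Ideal.Quotient.mk (Ideal.span {f})) :=
      IsLocalHom.of_surjective _ Ideal.Quotient.mk_surjective
    rw [mem_maximalIdeal, mem_nonunits_iff] at hg ⊢
    exact fun h => hg (isUnit_of_map_unit (Ideal.Quotient.mk (Ideal.span {f})) g h)
  have hfin : maximalIdeal A ^ (M * N) ≤ Ideal.span (Set.range fun i => φ' (x i)) := by
    rw [pow_mul]
    refine (Ideal.pow_right_mono (hM.trans hmap) N).trans ?_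
    rw [← Ideal.map_pow]
    refine (Ideal.map_mono hN).trans ?_
    rw [Ideal.map_span, ← Set.range_comp]
    exact le_rfl
  have h6 := mc_dim_le (fun i => φ' (x i)) (fun i => hφ'm _ (hxm i)) hfin
  rw [hdim] at h6
  have h7 : r + 1 ≤ r := by exact_mod_cast h6
  omega

theorem mc_injective {A : Type*} [CommRing A] [IsLocalRing A] [IsNoetherianRing A]
    (ϖ : K) (hK : maximalIdeal K = Ideal.span {ϖ}) {r : ℕ}
    (hdim : ringKrullDim A = (r + 1 : ℕ)) (φ : MvPowerSeries (Fin r) K →+* A)
    (hϖ : φ (C ϖ) ∈ maximalIdeal A) (hx : ∀ i, φ (X i) ∈ maximalIdeal A)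
    {M : ℕ} (hM : maximalIdeal A ^ M ≤
      Ideal.span ({φ (C ϖ)} ∪ Set.range fun i => φ (X i))) : Function.Injective φ := by
  have hΛN : IsNoetherianRing (MvPowerSeries (Fin r) K) :=
    inferInstanceAs (IsNoetherianRing (MvPowerSeries (Fin r) K))
  have hΛd : IsDomain (MvPowerSeries (Fin r) K) := NoZeroDivisors.to_isDomain _
  have hCm : (C ϖ : MvPowerSeries (Fin r) K) ∈ maximalIdeal (MvPowerSeries (Fin r) K) := by
    rw [mem_maximalIdeal, mem_nonunits_iff]
    intro h
    have h2 := h.map φ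
    exact (mem_maximalIdeal _).1 hϖ h2
  have hXm : ∀ i, (X i : MvPowerSeries (Fin r) K) ∈
      maximalIdeal (MvPowerSeries (Fin r) K) := by
    intro i
    rw [mem_maximalIdeal, mem_nonunits_iff]
    intro h
    have h2 := h.map φ
    exact (mem_maximalIdeal _).1 (hx i) h2
  refine mc_injective_aux (M := M) ?_ hdim φ ?_ ?_
  · refine mc_dim_le (M := 1) (Fin.cons (C ϖ) X : Fin (r + 1) → MvPowerSeries (Fin r) K) ?_ ?_
    · intro i
      refine Fin.cases ?_ (fun i => ?_) i
      · rw [Fin.cons_zero]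
        exact hCm
      · rw [Fin.cons_succ]
        exact hXm i
    · rw [pow_one]
      refine (mc_max_le ϖ hK).trans (Ideal.span_mono ?_)
      rw [Fin.range_cons]
      exact (Set.singleton_union).le
  · intro g hg
    have h1 := Ideal.mem_map_of_mem φ (mc_max_le ϖ hK hg)
    rw [Ideal.map_span] at h1
    refine (Ideal.span_le.2 ?_) h1
    rintro _ ⟨a, (rfl | ⟨i, rfl⟩), rfl⟩
    · exact hϖ
    · exact hx i
  · refine hM.trans ?_
    rw [Ideal.span_le]
    rintro _ (rfl | ⟨i, rfl⟩)
    · exact Ideal.mem_map_of_mem _ hCm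
    · exact Ideal.mem_map_of_mem _ (hXm i)

end Dim

section Main

/-- structure of complete local domains over a Cohen ring. -/
theorem exists_cohen_general (p : ℕ) {Cr A : Type*} [CommRing Cr] [IsDomain Cr] [IsLocalRing Cr]
    [IsNoetherianRing Cr] (hCr : maximalIdeal Cr = Ideal.span {(p : Cr)})
    [IsPrecomplete (Ideal.span {(p : Cr)}) Cr] [CommRing A] [IsDomain A]
    [IsLocalRing A] [IsNoetherianRing A] [IsAdicComplete (maximalIdeal A) A]
    (hp0 : (p : A) ≠ 0) (hp : (p : A) ∈ maximalIdeal A) {r : ℕ}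
    (hdim : ringKrullDim A = (r + 1 : ℕ)) (τ : Cr →+* A)
    (hτ : ∀ z : A, ∃ a : Cr, z - τ a ∈ maximalIdeal A) :
    ∃ φ : MvPowerSeries (Fin r) Cr →+* A, φ.Finite ∧ Function.Injective φ ∧
      (∀ i, φ (MvPowerSeries.X i) ∈ maximalIdeal A) ∧
      (∀ c, φ (MvPowerSeries.C c) = τ c) ∧
      (∃ M : ℕ, maximalIdeal A ^ M ≤
        Ideal.span ({(p : A)} ∪ Set.range fun i => φ (MvPowerSeries.X i))) ∧
      ∃ (s : ℕ) (a : Fin s → A), Ideal.span (Set.range a) = maximalIdeal A ∧
        ∀ x : A, ∃ (l : MvPowerSeries (Fin r) Cr) (c : Fin s → MvPowerSeries (Fin r) Cr),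
          x = φ l + ∑ j, φ (c j) * a j := by
  -- parameters modulo `p`
  have hne : Ideal.span {(p : A)} ≠ ⊤ := by
    intro h
    have h1 : Ideal.span {(p : A)} ≤ maximalIdeal A := by
      rw [Ideal.span_singleton_le_iff_mem]
      exact hp
    rw [h, top_le_iff] at h1
    exact (maximalIdeal.isMaximal A).ne_top h1
  have : Nontrivial (A ⧸ Ideal.span {(p : A)}) := Ideal.Quotient.nontrivial_iff.2 hne
  have : IsLocalRing (A ⧸ Ideal.span {(p : A)}) :=
    IsLocalRing.of_surjective' (Ideal.Quotient.mk _) Ideal.Quotient.mk_surjective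
  have h2 : ringKrullDim (A ⧸ Ideal.span {(p : A)}) ≤ (r : ℕ) := by
    have h3 := ringKrullDim_quotient_succ_le_of_nonZeroDivisor
      (mem_nonZeroDivisors_of_ne_zero hp0)
    rw [hdim, ← IsLocalRing.maximalIdeal_height_eq_ringKrullDim] at h3
    rw [← IsLocalRing.maximalIdeal_height_eq_ringKrullDim]
    have h4 : (maximalIdeal (A ⧸ Ideal.span {(p : A)})).height + 1 ≤ (r : ℕ∞) + 1 := by
      exact_mod_cast h3
    have h5 := (ENat.add_le_add_iff_right (by simp)).1 h4
    exact_mod_cast h5
  obtain ⟨x, hxm, M, hM⟩ := mc_params h2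
  choose u hu using fun i => Ideal.Quotient.mk_surjective (x i)
  have hum : ∀ i, u i ∈ maximalIdeal A := by
    intro i
    have h3 := hxm i
    rw [← hu, mem_maximalIdeal, mem_nonunits_iff] at h3
    rw [mem_maximalIdeal, mem_nonunits_iff]
    exact fun h => h3 (h.map _)
  obtain ⟨φ, hφC, hφX⟩ := mc_exists_hom (maximalIdeal A) τ u hum
  have hφp : φ (C (p : Cr)) = p := by rw [hφC, map_natCast]
  have hφx : ∀ i, φ (X i) ∈ maximalIdeal A := fun i => by rw [hφX]; exact hum i
  have hMA : maximalIdeal A ^ M ≤ Ideal.span ({(p : A)} ∪ Set.range fun i => φ (X i)) := by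
    intro z hz
    have h3 : Ideal.Quotient.mk (Ideal.span {(p : A)}) z ∈
        maximalIdeal (A ⧸ Ideal.span {(p : A)}) ^ M := by
      have h4 : (maximalIdeal A).map (Ideal.Quotient.mk (Ideal.span {(p : A)})) ≤
          maximalIdeal (A ⧸ Ideal.span {(p : A)}) := by
        rw [Ideal.map_le_iff_le_comap]
        intro y hy
        rw [Ideal.mem_comap, mem_maximalIdeal, mem_nonunits_iff]
        intro h
        have hl : IsLocalHom (Ideal.Quotient.mk (Ideal.span {(p : A)})) :=
          IsLocalHom.of_surjective _ Ideal.Quotient.mk_surjective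
        exact (mem_maximalIdeal _).1 hy
          (isUnit_of_map_unit (Ideal.Quotient.mk (Ideal.span {(p : A)})) y h)
      have h5 := Ideal.mem_map_of_mem (Ideal.Quotient.mk (Ideal.span {(p : A)})) hz
      rw [Ideal.map_pow] at h5
      exact Ideal.pow_right_mono h4 M h5
    have h6 := hM h3
    have h7 : Ideal.span (Set.range x) =
        (Ideal.span (Set.range u)).map (Ideal.Quotient.mk (Ideal.span {(p : A)})) := by
      rw [Ideal.map_span, ← Set.range_comp]
      congr 2
      funext i
      exact (hu i).symm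
    rw [h7, Ideal.mem_map_iff_of_surjective _ Ideal.Quotient.mk_surjective] at h6
    obtain ⟨y, hy, hyz⟩ := h6
    rw [Ideal.Quotient.eq] at hyz
    have h8 : z = y - (y - z) := by ring
    rw [h8, Ideal.span_union]
    refine sub_mem ((le_sup_right : _ ≤ Ideal.span {(p : A)} ⊔ _) ?_)
      ((le_sup_left : _ ≤ _ ⊔ Ideal.span (Set.range fun i => φ (X i))) hyz)
    have h9 : (fun i => φ (X i)) = u := funext hφX
    rw [h9]
    exact hy
  have hres : ∀ z : A, ∃ a : Cr, z - φ (C a) ∈ maximalIdeal A := fun z => by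
    simp only [hφC]
    exact hτ z
  have hfin : φ.Finite := mc_finite (p : Cr) φ hres (by rw [hφp]; exact hp) hφx
    (by rw [hφp]; exact hMA)
  refine ⟨φ, hfin, ?_, hφx, hφC, ⟨M, hMA⟩, ?_⟩
  · exact mc_injective (p : Cr) hCr hdim φ (by rw [hφp]; exact hp) hφx (by rw [hφp]; exact hMA)
  · let _ : Algebra (MvPowerSeries (Fin r) Cr) A := φ.toAlgebra
    have hΛN : IsNoetherianRing (MvPowerSeries (Fin r) Cr) :=
      inferInstanceAs (IsNoetherianRing (MvPowerSeries (Fin r) Cr))
    have hf : Module.Finite (MvPowerSeries (Fin r) Cr) A := hfin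
    have hN : IsNoetherian (MvPowerSeries (Fin r) Cr) A := isNoetherian_of_isNoetherianRing_of_finite _ _
    obtain ⟨s, a, ha⟩ := Submodule.fg_iff_exists_fin_generating_family.1
      (IsNoetherian.noetherian ((maximalIdeal A).restrictScalars (MvPowerSeries (Fin r) Cr)))
    have ham : ∀ j, a j ∈ maximalIdeal A := by
      intro j
      have h3 : a j ∈ Submodule.span (MvPowerSeries (Fin r) Cr) (Set.range a) :=
        Submodule.subset_span ⟨j, rfl⟩
      rw [ha] at h3
      exact h3
    have hcomb : ∀ z ∈ maximalIdeal A, ∃ c : Fin s → MvPowerSeries (Fin r) Cr,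
        z = ∑ j, φ (c j) * a j := by
      intro z hz
      have h3 : z ∈ Submodule.span (MvPowerSeries (Fin r) Cr) (Set.range a) := by
        rw [ha]
        exact hz
      rw [Submodule.mem_span_range_iff_exists_fun] at h3
      obtain ⟨c, hc⟩ := h3
      exact ⟨c, hc.symm⟩
    refine ⟨s, a, le_antisymm ?_ ?_, ?_⟩
    · rw [Ideal.span_le]
      rintro _ ⟨j, rfl⟩
      exact ham j
    · intro z hz
      obtain ⟨c, rfl⟩ := hcomb z hz
      exact Ideal.sum_mem _ fun j _ => Ideal.mul_mem_left _ _ (Ideal.subset_span ⟨j, rfl⟩)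
    · intro z
      obtain ⟨b, hb⟩ := hres z
      obtain ⟨c, hc⟩ := hcomb _ hb
      exact ⟨C b, c, by rw [← hc]; ring⟩

end Main

end Vale.Agent.P202.Mix
end

section

/-!
P202 MIX, task M7, general form: Noether normalization of complete local domains of mixed
characteristic over a Cohen ring.
-/

namespace Vale.Agent.P202.Mix

open IsLocalRing MvPowerSeries

universe u

theorem exists_noether_norm (p : ℕ) [Fact p.Prime] {Cr A : Type u} [CommRing Cr] [IsDomain Cr]
    [IsLocalRing Cr] [IsNoetherianRing Cr] (hCr : maximalIdeal Cr = Ideal.span {(p : Cr)})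
    [IsAdicComplete (maximalIdeal Cr) Cr] [CommRing A] [IsDomain A] [IsLocalRing A]
    [IsNoetherianRing A] [IsAdicComplete (maximalIdeal A) A] [CharZero A]
    (hp : (p : A) ∈ maximalIdeal A) (chi : Cr →+* A)
    (hchi : ∀ x : A, ∃ c : Cr, x - chi c ∈ maximalIdeal A) {r : ℕ}
    (hdim : ringKrullDim A = (r + 1 : ℕ)) :
    ∃ phi : MvPowerSeries (Fin r) Cr →+* A, (∀ c, phi (C c) = chi c) ∧ phi.Finite ∧
      Function.Injective phi ∧ (∀ i, phi (X i) ∈ maximalIdeal A) ∧
      (∃ M, maximalIdeal A ^ M ≤ Ideal.span ({(p : A)} ∪ Set.range fun i => phi (X i))) ∧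
      ∃ (s : ℕ) (a : Fin s → A), Ideal.span (Set.range a) = maximalIdeal A ∧
        ∀ x : A, ∃ (l : MvPowerSeries (Fin r) Cr) (c : Fin s → MvPowerSeries (Fin r) Cr),
          x = phi l + ∑ j, phi (c j) * a j := by
  have hp0 : (p : A) ≠ 0 := Nat.cast_ne_zero.2 (Fact.out : p.Prime).ne_zero
  have hpre : IsPrecomplete (Ideal.span {(p : Cr)}) Cr := by
    rw [← hCr]
    infer_instance
  obtain ⟨φ, h1, h2, h3, h4, h5, h6⟩ := exists_cohen_general p hCr hp0 hp hdim chi hchi
  exact ⟨φ, h4, h1, h2, h3, h5, h6⟩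

end Vale.Agent.P202.Mix
end

section

/-!
P202-G3, normalization: finiteness, additivity and vanishing of the Koszul Euler characteristic
of `S ⊗ N` for finite modules `N` over the polynomial ring.
-/

namespace Vale.Agent.P202.CharP.Gen2

open Submodule TensorProduct Gen

universe u v w

section Norm

variable {κ : Type w} [Field κ] {r : ℕ} {S : Type v} [CommRing S] [IsNoetherianRing S]
  [Algebra (PP κ r) S]

/-- TASK G3-N1: finiteness. -/
theorem kk_tensor_ne_top {n : ℕ} (L : Fin n → S)
    (hL : Module.length S (S ⧸ Ideal.span (Set.range L)) ≠ ⊤) (N : Type*) [AddCommGroup N]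
    [Module (PP κ r) N] [Module.Finite (PP κ r) N] (i : ℤ) :
    kk L (S ⊗[PP κ r] N) i ≠ ⊤ := by
  have h1 : IsArtinian S (S ⧸ Ideal.span (Set.range L)) :=
    (isFiniteLength_iff_isNoetherian_isArtinian.mp (Module.length_ne_top_iff.mp hL)).2
  have h2 : IsArtinianRing (S ⧸ Ideal.span (Set.range L)) := isArtinian_of_tower S h1
  refine kk_ne_top L _ ?_ i
  refine length_ne_top_of_quot (Ideal.span (Set.range L)) ?_
  intro a ha v
  obtain ⟨m, rfl⟩ := Submodule.Quotient.mk_surjective _ v
  rw [← Submodule.Quotient.mk_smul, Submodule.Quotient.mk_eq_zero]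
  exact Submodule.smul_mem_smul ha trivial

variable [Module.Flat (PP κ r) S]

/-- TASK G3-N1: additivity. -/
theorem kchi_tensor_add {n : ℕ} (L : Fin n → S)
    (hL : Module.length S (S ⧸ Ideal.span (Set.range L)) ≠ ⊤) {N₁ N₂ N₃ : Type*}
    [AddCommGroup N₁] [AddCommGroup N₂] [AddCommGroup N₃] [Module (PP κ r) N₁]
    [Module (PP κ r) N₂] [Module (PP κ r) N₃] [Module.Finite (PP κ r) N₁]
    [Module.Finite (PP κ r) N₂] [Module.Finite (PP κ r) N₃] (f : N₁ →ₗ[PP κ r] N₂)
    (g : N₂ →ₗ[PP κ r] N₃) (hf : Function.Injective f) (hg : Function.Surjective g)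
    (hfg : Function.Exact f g) :
    kchi L (S ⊗[PP κ r] N₂) = kchi L (S ⊗[PP κ r] N₁) + kchi L (S ⊗[PP κ r] N₃) := by
  refine kchi_add L (f.baseChange S) (g.baseChange S) ?_ ?_ ?_
    (fun i => kk_tensor_ne_top L hL N₁ i) (fun i => kk_tensor_ne_top L hL N₂ i)
    (fun i => kk_tensor_ne_top L hL N₃ i)
  · rw [LinearMap.baseChange_eq_ltensor]
    exact Module.Flat.lTensor_preserves_injective_linearMap f hf
  · rw [LinearMap.baseChange_eq_ltensor]
    exact LinearMap.lTensor_surjective S hg
  · rw [LinearMap.baseChange_eq_ltensor, LinearMap.baseChange_eq_ltensor]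
    exact lTensor_exact S hfg hg

namespace PsiAdd

/-- the ideal of `P` of the polynomials all of whose coefficients with respect to the first
variable lie in the prime ideal. -/
noncomputable def JJ (I : Ideal (PP κ r)) : Ideal (PP κ r) :=
  ((I.comap (MvPolynomial.rename (Fin.succ : Fin r → Fin (r + 1))).toRingHom).map
    (Polynomial.C : MvPolynomial (Fin r) κ →+* Polynomial (MvPolynomial (Fin r) κ))).comap
    (MvPolynomial.finSuccEquiv κ r).toRingHom

theorem mem_JJ {I : Ideal (PP κ r)} {f : PP κ r} : f ∈ JJ I ↔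
    ∀ k, MvPolynomial.rename (Fin.succ : Fin r → Fin (r + 1))
      ((MvPolynomial.finSuccEquiv κ r f).coeff k) ∈ I := by
  unfold JJ
  rw [Ideal.mem_comap]
  exact Ideal.mem_map_C_iff

theorem symm_C (a : MvPolynomial (Fin r) κ) :
    (MvPolynomial.finSuccEquiv κ r).symm (Polynomial.C a) =
      MvPolynomial.rename (Fin.succ : Fin r → Fin (r + 1)) a := by
  rw [AlgEquiv.symm_apply_eq]
  induction a using MvPolynomial.induction_on with
  | C c =>
    rw [MvPolynomial.rename_C, MvPolynomial.finSuccEquiv_apply, MvPolynomial.eval₂Hom_C]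
    rfl
  | add p q hp hq => rw [map_add, map_add, map_add, hp, hq]
  | mul_X p i hp =>
    rw [map_mul, map_mul, map_mul, hp, MvPolynomial.rename_X, MvPolynomial.finSuccEquiv_X_succ]

theorem JJ_le (I : Ideal (PP κ r)) : JJ I ≤ I := by
  intro f hf
  rw [mem_JJ] at hf
  have h : f = ∑ k ∈ (MvPolynomial.finSuccEquiv κ r f).support,
      MvPolynomial.rename (Fin.succ : Fin r → Fin (r + 1))
        ((MvPolynomial.finSuccEquiv κ r f).coeff k) * (MvPolynomial.X 0 : PP κ r) ^ k := by
    apply (MvPolynomial.finSuccEquiv κ r).injective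
    rw [map_sum]
    conv_lhs => rw [(MvPolynomial.finSuccEquiv κ r f).as_sum_support_C_mul_X_pow]
    refine Finset.sum_congr rfl fun k _ => ?_
    rw [map_mul, map_pow, MvPolynomial.finSuccEquiv_X_zero, ← symm_C,
      AlgEquiv.apply_symm_apply]
  rw [h]
  exact Ideal.sum_mem _ fun k _ => Ideal.mul_mem_right _ _ (hf k)

theorem JJ_X {I : Ideal (PP κ r)} {f : PP κ r} (h : (MvPolynomial.X 0 : PP κ r) * f ∈ JJ I) :
    f ∈ JJ I := by
  rw [mem_JJ] at h ⊢
  intro k
  have h1 := h (k + 1)
  rwa [map_mul, MvPolynomial.finSuccEquiv_X_zero, Polynomial.coeff_X_mul] at h1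

theorem JJ_decomp {I : Ideal (PP κ r)} (hX : (MvPolynomial.X 0 : PP κ r) ∈ I) {f : PP κ r}
    (hf : f ∈ I) : ∃ g : PP κ r, f - (MvPolynomial.X 0 : PP κ r) * g ∈ JJ I := by
  refine ⟨(MvPolynomial.finSuccEquiv κ r).symm (MvPolynomial.finSuccEquiv κ r f).divX, ?_⟩
  have h1 : f - (MvPolynomial.X 0 : PP κ r) *
      (MvPolynomial.finSuccEquiv κ r).symm (MvPolynomial.finSuccEquiv κ r f).divX =
      MvPolynomial.rename (Fin.succ : Fin r → Fin (r + 1))
        ((MvPolynomial.finSuccEquiv κ r f).coeff 0) := by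
    apply (MvPolynomial.finSuccEquiv κ r).injective
    rw [map_sub, map_mul, AlgEquiv.apply_symm_apply, MvPolynomial.finSuccEquiv_X_zero,
      ← symm_C, AlgEquiv.apply_symm_apply, sub_eq_iff_eq_add']
    exact (Polynomial.X_mul_divX_add _).symm
  have h2 : MvPolynomial.rename (Fin.succ : Fin r → Fin (r + 1))
      ((MvPolynomial.finSuccEquiv κ r f).coeff 0) ∈ I := by
    rw [← h1]
    exact I.sub_mem hf (I.mul_mem_right _ hX)
  have h3 : ∀ a : MvPolynomial (Fin r) κ, MvPolynomial.finSuccEquiv κ r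
      (MvPolynomial.rename (Fin.succ : Fin r → Fin (r + 1)) a) = Polynomial.C a := by
    intro a
    rw [← symm_C, AlgEquiv.apply_symm_apply]
  rw [mem_JJ]
  intro k
  rw [h1, h3, Polynomial.coeff_C]
  split_ifs
  · exact h2
  · rw [map_zero]
    exact I.zero_mem

/-- vanishing for cyclic modules. -/
theorem kchi_quot {n : ℕ} (L : Fin n → S)
    (hL : Module.length S (S ⧸ Ideal.span (Set.range L)) ≠ ⊤) (I : Ideal (PP κ r))
    (hX : (MvPolynomial.X 0 : PP κ r) ∈ I) : kchi L (S ⊗[PP κ r] (PP κ r ⧸ I)) = 0 := by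
  have h := kchi_tensor_add L hL
    (((LinearMap.lsmul (PP κ r) (PP κ r ⧸ JJ I)) (MvPolynomial.X 0 : PP κ r)))
    (Submodule.factor (JJ_le I)) ?_ (Submodule.factor_surjective (JJ_le I)) ?_
  · linarith
  · rw [injective_iff_map_eq_zero]
    intro x hx
    obtain ⟨f, rfl⟩ := Submodule.Quotient.mk_surjective _ x
    rw [LinearMap.lsmul_apply, ← Submodule.Quotient.mk_smul, Submodule.Quotient.mk_eq_zero] at hx
    rw [Submodule.Quotient.mk_eq_zero]
    exact JJ_X hx
  · intro x
    obtain ⟨f, rfl⟩ := Submodule.Quotient.mk_surjective _ x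
    constructor
    · intro hx
      have hf : f ∈ I := by
        rw [← Submodule.Quotient.mk_eq_zero I]
        exact hx
      obtain ⟨g, hg⟩ := JJ_decomp hX hf
      refine ⟨Submodule.Quotient.mk g, ?_⟩
      rw [LinearMap.lsmul_apply, ← Submodule.Quotient.mk_smul, eq_comm, ← sub_eq_zero,
        ← Submodule.Quotient.mk_sub, Submodule.Quotient.mk_eq_zero]
      exact hg
    · rintro ⟨y, hy⟩
      obtain ⟨g, rfl⟩ := Submodule.Quotient.mk_surjective _ y
      rw [← hy, LinearMap.lsmul_apply, ← Submodule.Quotient.mk_smul]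
      change Submodule.Quotient.mk ((MvPolynomial.X 0 : PP κ r) • g) = 0
      rw [Submodule.Quotient.mk_eq_zero]
      exact I.mul_mem_right _ hX

end PsiAdd

open PsiAdd in
/-- TASK G3-N2: vanishing for modules killed by a power of the variable `X 0`. -/
theorem kchi_tensor_eq_zero {n : ℕ} (L : Fin n → S)
    (hL : Module.length S (S ⧸ Ideal.span (Set.range L)) ≠ ⊤) (N : Type u) [AddCommGroup N]
    [Module (PP κ r) N] [Module.Finite (PP κ r) N] (c : ℕ)
    (hN : ∀ v : N, (MvPolynomial.X 0 : PP κ r) ^ c • v = 0) :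
    kchi L (S ⊗[PP κ r] N) = 0 := by
  have hfin : Module.Finite (PP κ r) N := inferInstance
  revert hN
  induction hfin using IsNoetherianRing.induction_on_isQuotientEquivQuotientPrime (PP κ r) with
  | subsingleton N =>
    intro _
    have h := kchi_tensor_add (κ := κ) (r := r) L hL (N₁ := N) (N₂ := N) (N₃ := N)
      LinearMap.id LinearMap.id
      Function.injective_id Function.surjective_id
      (fun x => ⟨fun _ => ⟨x, rfl⟩, fun _ => Subsingleton.elim _ _⟩)
    linarith
  | quotient N p e =>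
    intro hN
    have h1 : (MvPolynomial.X 0 : PP κ r) ^ c ∈ p.1 := by
      have h2 := hN (e.symm (Ideal.Quotient.mk p.1 1))
      have h3 := congrArg e h2
      rw [map_smul, LinearEquiv.apply_symm_apply, map_zero] at h3
      rw [← Ideal.Quotient.eq_zero_iff_mem, ← h3]
      rw [← Ideal.Quotient.mk_eq_mk, ← Ideal.Quotient.mk_eq_mk, ← Submodule.Quotient.mk_smul,
        smul_eq_mul, mul_one]
    rw [kchi_congr L (e.baseChange (PP κ r) S _ _)]
    exact kchi_quot L hL p.1 (p.2.mem_of_pow_mem _ h1)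
  | exact N₁ N₂ N₃ f g hf hg hfg h₁ h₃ =>
    intro hN
    rw [kchi_tensor_add L hL f g hf hg hfg, h₁ ?_, h₃ ?_, add_zero]
    · intro v
      obtain ⟨w, rfl⟩ := hg v
      rw [← map_smul, hN, map_zero]
    · intro v
      apply hf
      rw [map_smul, hN, map_zero]

end Norm

end Vale.Agent.P202.CharP.Gen2
end
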