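import Vale.Agent.P202.MathlibUsed
import Vale.Agent.P202.Bdl.B2
import Vale.Agent.P202.Bdl.B3
attribute [-instance] DenselyNormedField.toNontriviallyNormedField DenselyNormedField.toNormedField NontriviallyNormedField.toNormedField RCLike.toDenselyNormedField NormedField.toField NormedField.toNormedDivisionRing NormedDivisionRing.toDivisionRing IdemCommSemiring.toCommSemiring Semifield.toCommSemiring IdemCommSemiring.toIdemSemiring KleeneAlgebra.toIdemSemiring DivisionRing.toDivisionSemiring SemiRingCat.instSemiringObjForgetRingHomCarrier NormedField.toNormedCommRing NormedCommRing.toSeminormedCommRing NormedCommRing.toNormedRing NormedDivisionRing.toNormedRing NormedRing.toSeminormedRing SeminormedCommRing.toSeminormedRing Field.toEuclideanDomain EuclideanDomain.toCommRing NormedCommRing.toCommRing SeminormedCommRing.toCommRing NormedRing.toRing SeminormedRing.toRing Ring.toNonAssocRing NonAssocCommRing.toNonAssocCommSemiring CommRing.toAddCommGroupWithOne NonAssocRing.toAddCommGroupWithOne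 CommSemiring.toNonAssocCommSemiring NonAssocCommSemiring.toNonAssocSemiring NonAssocRing.toNonAssocSemiring AddCommGroupWithOne.toAddCommMonoidWithOne NormedCommRing.toNonUnitalNormedCommRing NonUnitalNormedCommRing.toNonUnitalNormedRing NormedRing.toNonUnitalNormedRing NonUnitalNormedCommRing.toNonUnitalSeminormedCommRing SeminormedCommRing.toNonUnitalSeminormedCommRing NonUnitalNormedRing.toNonUnitalSeminormedRing NonUnitalSeminormedCommRing.toNonUnitalSeminormedRing SeminormedRing.toNonUnitalSeminormedRing NonAssocCommRing.toNonUnitalNonAssocCommRing NonUnitalNormedCommRing.toNonUnitalCommRing NonUnitalSeminormedCommRing.toNonUnitalCommRing NonAssocRing.toNonUnitalNonAssocRing NonUnitalCommRing.toNonUnitalRing NonUnitalNormedRing.toNonUnitalRing NonUnitalRing.toNonUnitalNonAssocRing NonUnitalSeminormedRing.toNonUnitalRing Ring.toNonUnitalRing NonAssocCommSemiring.toNonUnitalNonAssocCommSemiring NonUnitalNonAssocCommSemiring.toNonUnitalNonAssocSemiring NonUnitalRing.toNonUnitalSemiring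 NonUnitalSemiring.toNonUnitalNonAssocSemiring Semiring.toNonUnitalSemiring LinearOrderedAddCommGroupWithTop.instLinearOrderedAddCommMonoidWithTop LinearOrderedAddCommGroupWithTop.toAddCommMonoid CommSemiRingCat.instCommSemiringObjForgetRingHomCarrier SemimoduleCat.isAddCommMonoid AddCommGroupWithOne.toAddGroupWithOne Pi.nonUnitalNonAssocSemiring LinearOrderedAddCommGroupWithTop.toSubNegMonoid GradedMonoid.GradeZero.smul instCoeT MulSemiringAction.toDistribMulAction instCoeTOfCoeDep TopologicalSpace.Compacts.instSetLike NormedCommGroup.toNormedGroup CommGroup.toGroup NormedCommGroup.toCommGroup NormedCommGroup.toSeminormedCommGroup NormedGroup.toGroup NormedGroup.toSeminormedGroup SeminormedCommGroup.toCommGroup SeminormedCommGroup.toSeminormedGroup SeminormedGroup.toGroup instDistribSMul NonUnitalNonAssocSemiring.toDistribSMul instSMulZeroClass NormedAlgebra.toAlgebra NormedAlgebra.id AbsoluteValue.funLike Pi.nonAssocSemiring Filter.instMembership MonCat.monoidObj Pi.addMonoidWithOne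 Pi.seminormedAddCommGroup LinearOrderedCommGroupWithZero.toLinearOrderedCommMonoidWithZero Pi.partialOrder LinearOrderedCommGroupWithZero.toCommGroupWithZero CommGroupWithZero.toGroupWithZero Std.DTreeMap.Raw.instSingletonSigma AddGrpCat.str CompleteAtomicBooleanAlgebra.toCompleteBooleanAlgebra CommGroupWithZero.toCommMonoidWithZero LinearOrderedCommMonoidWithZero.toCommMonoidWithZero instCoeTC RingCat.instRingObjForgetRingHomCarrier CompleteAtomicBooleanAlgebra.toCompletelyDistribLattice instCoeTCOfCoe MonoidWithZero.toSemigroupWithZero NonUnitalNonAssocSemiring.toMulZeroClass SemigroupWithZero.toMulZeroClass CompleteBooleanAlgebra.toCompleteLattice instCoeHTC instCoeHTCT instNonUnitalAlgHomClassOfNonUnitalAlgEquivClass Pi.instTopForall instRingHomSurjectiveForallEvalRingHom Torsor.toMulAction GradedMonoid.GradeZero.mulAction CompleteBooleanAlgebra.toCompleteDistribLattice CompletelyDistribLattice.toCompleteDistribLattice AddOpposite.instAddZero ModuleCat.isModule CompleteDistribLattice.toCoframe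 CompleteDistribLattice.toFrame Order.Coframe.toCompleteLattice Order.Frame.toCompleteLattice ChainCompletePartialOrder.instOfCompleteLattice ChainCompletePartialOrder.instOmegaCompletePartialOrder ChainCompletePartialOrder.toPartialOrder CompletePartialOrder.toOmegaCompletePartialOrder OmegaCompletePartialOrder.toPartialOrder ContinuousAddMonoidHom.instCoeOutOfAddMonoidHomClassOfContinuousMapClass ContinuousMonoidHom.instCoeOutOfMonoidHomClassOfContinuousMapClass HomeomorphClass.instCoeOutHomeomorph IsometryClass.instCoeOutIsometryEquiv Pi.preorder Pi.nonUnitalSemiring SubfieldClass.toSubringClass LieRing.toAddCommGroup Std.DTreeMap.Raw.instInsertSigma boolToProp Pi.instSemilatticeSup OrderAddMonoidHom.instAddMonoidHomClass LinearOrderedCommMonoidWithZero.toIsBotZeroClass MulSemiringActionSemiHomClass.toDistribMulActionSemiHomClass TwoSidedIdeal.instIsTwoSidedCoeOrderHomIdealAsIdeal Algebra.to_smulCommClass CompleteBooleanAlgebra.toBooleanAlgebra Ideal.instIdemCommSemiring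 Submodule.instIdemCommSemiring AlgEquivClass.toAlgHomClass AbsoluteValue.mulHomClass Invertible.toNeZero NeZero.of_gt' Nat.AtLeastTwo.toNeZero NonUnitalNormedRing.toNormedAddCommGroup SubfieldClass.toNormedField SubringClass.toNormedCommRing BooleanAlgebra.toBiheytingAlgebra CompleteDistribLattice.toBiheytingAlgebra CompleteLinearOrder.toBiheytingAlgebra CompletelyDistribLattice.toBiheytingAlgebra SubfieldClass.toField Pi.instSemilatticeInf SubringClass.toCommRing SubringClass.toSeminormedCommRing SetLike.GradeZero.instCommRing OrderDual.instDivisionRing Nat.instNontrivial Nat.instOne Nat.Prime.one_lt' NonUnitalSeminormedRing.toSeminormedAddCommGroup NormedAddCommGroup.toSeminormedAddCommGroup BiheytingAlgebra.toCoheytingAlgebra BiheytingAlgebra.toHeytingAlgebra BooleanAlgebra.toGeneralizedBooleanAlgebra Order.Coframe.toCoheytingAlgebra Order.Frame.toHeytingAlgebra OrderDual.instDivisionSemiring CompleteLinearOrder.toLinearOrder ConditionallyCompleteLinearOrder.toLinearOrder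 LinearOrderedAddCommGroupWithTop.toLinearOrder LinearOrderedCommMonoidWithZero.toLinearOrder CoheytingAlgebra.toGeneralizedCoheytingAlgebra GeneralizedBooleanAlgebra.toGeneralizedCoheytingAlgebra HeytingAlgebra.toGeneralizedHeytingAlgebra Pi.instMaxForall_mathlib AlgHomClass.linearMapClass ContinuousSemilinearEquivClass.continuousSemilinearMapClass ContinuousSemilinearMapClass.toSemilinearMapClass NonUnitalAlgHomClass.instLinearMapClass NonUnitalAlgHomClass.instSemilinearMapClassOfNonUnitalAlgSemiHomClassToMonoidHomRingHom RingHomClass.toLinearMapClassNNRat RingHomClass.toLinearMapClassRat SemilinearEquivClass.instSemilinearMapClass SemilinearIsometryClass.toContinuousSemilinearMapClass SemilinearIsometryClass.toSemilinearMapClass SubalgebraClass.normedRing SubringClass.toNormedRing OrderRingHom.instRingHomClass Pi.distribSMul' instConditionallyCompletePartialOrderSup AbsoluteValue.zeroHomClass BooleanAlgebra.toDistribLattice CompleteLattice.toLattice CompleteLattice.toPartialOrder'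 CompleteSemilatticeInf.toPartialOrder ConditionallyCompletePartialOrderInf.toPartialOrder GeneralizedBooleanAlgebra.toDistribLattice GeneralizedCoheytingAlgebra.toDistribLattice GeneralizedCoheytingAlgebra.toLattice GeneralizedHeytingAlgebra.toDistribLattice GeneralizedHeytingAlgebra.toLattice LinearOrder.toLattice NumberField.to_charZero Order.Coframe.toDistribLattice Order.Frame.toDistribLattice SubalgebraClass.seminormedRing SubfieldClass.toDivisionRing SubringClass.toRing SubringClass.toSeminormedRing SetLike.GradeZero.instRing instSubsingleton IsEmpty.instSubsingleton SubringClass.toSubsemiringClass ValuationClass.toMonoidWithZeroHomClass Pi.mulZeroOneClass Pi.mulZeroClass Pi.semigroup LinearMap.IsScalarTower.compatibleSMul' Pi.instBotForall AddHom.addHomClass NonUnitalAlgHomClass.toNonUnitalRingHomClass RingEquivClass.toNonUnitalRingHomClass PerfectClosure.instField NonUnitalAlgSemiHomClass.toMulHomClass MonomialOrder.orderBot IsStrictOrderedRing.toCharZero RCLike.charZero_rclike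 SubsemiringClass.toCommSemiring SetLike.GradeZero.instCommSemiring Pi.addCommMagma instSMulCommClassOfIsScalarTower Pi.commMagma Monoid.End.instMonoidHomClass CommMonCat.str Set.instAddLeftMono instMulActionSemiHomClassMulActionHom MulEquivClass.toMonoidWithZeroHomClass MulRingSeminormClass.toMonoidWithZeroHomClass Set.instAddRightMono MulOpposite.instMulOne LieAlgebra.toModule NormedSpace.toModule ConjAct.unitsSMulCommClass' coePNatNat Nat.Primes.coeNat Nat.Primes.coePNat SubringClass.toNonAssocCommRing SubringClass.toNonAssocRing SubsemiringClass.toSemiring SetLike.GradeZero.instSemiring Pi.instMinForall_mathlib Pi.divInvMonoid Ideal.Quotient.normedCommRing Ideal.Quotient.semiNormedCommRing NormedAddCommGroup.toNormedAddGroup Pi.subNegZeroMonoid CompTriple.instComp_id CompTriple.instId_comp instCoeOutOfCoeFun Pi.mulOneClass PerfectClosure.instDivisionRing Pi.addSemigroup Pi.instOrderTop instIsRightCancelAddOfAddRightReflectLE Pi.instOne Fin.completeLinearOrder Pi.smulZeroClass'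 LinOrd.str NormedAddGroup.toSeminormedAddGroup SeminormedAddCommGroup.toSeminormedAddGroup SemilinearIsometryEquivClass.toSemilinearIsometryClass SubsemiringClass.toNonAssocCommSemiring SubsemiringClass.toNonAssocSemiring AddCommGroupWithOne.toAddCommGroup NormedAddCommGroup.toAddCommGroup NormedAddGroup.toAddGroup Ordinal.leftDistribClass SeminormedAddCommGroup.toAddCommGroup SeminormedAddGroup.toAddGroup Pi.hasDistribNeg Pi.subNegMonoid OrderDual.instPow_1 Algebra.TensorProduct.instCommRing Algebra.TensorProduct.instCommSemiring Algebra.TensorProduct.instNonAssocRing Algebra.TensorProduct.instNonAssocSemiring Algebra.TensorProduct.instRing Algebra.TensorProduct.instSemiring Ideal.Quotient.commSemiring IdemSemiring.toCanonicallyOrderedAdd MulCharClass.toMonoidHomClass MulDistribMulActionSemiHomClass.toMonoidHomClass Fin.instBiheytingAlgebra Ideal.Quotient.instRingHomSurjectiveQuotientMk AddSubsemigroup.instAddMemClass -- iprune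

set_option linter.all false

section

/-!
TASK I: the initial filtration on a module with regular sequence `x1, x2`.
-/

namespace Vale.Agent.P202

open IsLocalRing Pointwise

section
variable {A : Type*} [CommRing A] {M : Type*} [AddCommGroup M] [Module A M]

/-- the submodules `q^n M`. -/
def qPow (q : Ideal A) (M : Type*) [AddCommGroup M] [Module A M] (n : ℕ) : Submodule A M :=
  q ^ n • (⊤ : Submodule A M)

lemma qPow_zero (q : Ideal A) : qPow q M 0 = ⊤ := by
  rw [qPow, pow_zero, Ideal.one_eq_top, Submodule.top_smul]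

lemma qPow_succ (q : Ideal A) (n : ℕ) : qPow q M (n + 1) = q • qPow q M n := by
  rw [qPow, qPow, pow_succ', Submodule.mul_smul]

lemma pow_smul_qPow (q : Ideal A) (k n : ℕ) : q ^ k • qPow q M n = qPow q M (n + k) := by
  rw [qPow, qPow, ← Submodule.mul_smul, ← pow_add, add_comm]

lemma qPow_succ_le (q : Ideal A) (n : ℕ) : qPow q M (n + 1) ≤ qPow q M n := by
  rw [qPow_succ]; exact Submodule.smul_le_right

lemma qPow_anti (q : Ideal A) {m n : ℕ} (h : m ≤ n) : qPow q M n ≤ qPow q M m :=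
  antitone_nat_of_succ_le (qPow_succ_le q) h

lemma smul_mem_qPow {q : Ideal A} {x : A} (hx : x ∈ q) {n : ℕ} {v : M} (hv : v ∈ qPow q M n) :
    x • v ∈ qPow q M (n + 1) := by
  rw [qPow_succ]; exact Submodule.smul_mem_smul hx hv

lemma pow_smul_mem_qPow {q : Ideal A} {k : ℕ} {x : A} (hx : x ∈ q ^ k) {n : ℕ} {v : M}
    (hv : v ∈ qPow q M n) : x • v ∈ qPow q M (n + k) := by
  rw [← pow_smul_qPow]; exact Submodule.smul_mem_smul hx hv

variable {x1 x2 : A}

lemma mem_span_pair_left : x1 ∈ Ideal.span {x1, x2} := Ideal.subset_span (by simp)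

lemma mem_span_pair_right : x2 ∈ Ideal.span {x1, x2} := Ideal.subset_span (by simp)

lemma exists_of_mem_span_pair_smul {N : Submodule A M} {v : M}
    (hv : v ∈ Ideal.span {x1, x2} • N) : ∃ a ∈ N, ∃ b ∈ N, v = x1 • a + x2 • b := by
  refine Submodule.smul_induction_on hv ?_ ?_
  · intro r hr n hn
    obtain ⟨s, t, rfl⟩ := Ideal.mem_span_pair.1 hr
    refine ⟨s • n, N.smul_mem _ hn, t • n, N.smul_mem _ hn, ?_⟩
    rw [add_smul, smul_smul, smul_smul, mul_comm x1, mul_comm x2]
  · rintro v w ⟨a, ha, b, hb, rfl⟩ ⟨a', ha', b', hb', rfl⟩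
    refine ⟨a + a', N.add_mem ha ha', b + b', N.add_mem hb hb', ?_⟩
    rw [smul_add, smul_add]; abel

lemma exists_of_mem_qPow (n : ℕ) : ∀ v : M, v ∈ qPow (Ideal.span {x1, x2}) M (n + 1) →
    ∃ w ∈ qPow (Ideal.span {x1, x2}) M n, ∃ u : M, v = x1 • w + x2 ^ (n + 1) • u := by
  induction n with
  | zero =>
    intro v hv
    rw [qPow_succ] at hv
    obtain ⟨a, ha, b, hb, rfl⟩ := exists_of_mem_span_pair_smul hv
    exact ⟨a, ha, b, by simp⟩
  | succ n ih =>
    intro v hv
    rw [qPow_succ] at hv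
    obtain ⟨a, ha, b, hb, rfl⟩ := exists_of_mem_span_pair_smul hv
    obtain ⟨w, hw, u, rfl⟩ := ih b hb
    refine ⟨a + x2 • w, Submodule.add_mem _ ha (smul_mem_qPow mem_span_pair_right hw), u, ?_⟩
    rw [smul_add, smul_add, smul_smul x2 (x2 ^ (n + 1)), ← pow_succ', smul_comm x2 x1 w]
    abel

/-- `x2 ^ t` is regular modulo `x1`. -/
lemma pow_regular_mod (r2 : ∀ v w : M, x2 • v = x1 • w → ∃ u : M, v = x1 • u) (t : ℕ) :
    ∀ v w : M, x2 ^ t • v = x1 • w → ∃ u : M, v = x1 • u := by
  induction t with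
  | zero => intro v w h; exact ⟨w, by simpa using h⟩
  | succ t ih =>
    intro v w h
    rw [pow_succ', mul_smul] at h
    obtain ⟨u, hu⟩ := r2 _ _ h
    exact ih v u hu

/-- `x1` is a nonzerodivisor on the associated graded module. -/
lemma mem_qPow_of_x1_smul (r1 : ∀ v : M, x1 • v = 0 → v = 0)
    (r2 : ∀ v w : M, x2 • v = x1 • w → ∃ u : M, v = x1 • u) {n : ℕ} {u : M}
    (h : x1 • u ∈ qPow (Ideal.span {x1, x2}) M (n + 1)) :
    u ∈ qPow (Ideal.span {x1, x2}) M n := by
  obtain ⟨w, hw, u', hu'⟩ := exists_of_mem_qPow n _ h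
  have h1 : x2 ^ (n + 1) • u' = x1 • (u - w) := by
    rw [smul_sub, hu']; abel
  obtain ⟨u'', rfl⟩ := pow_regular_mod r2 (n + 1) _ _ h1
  have h2 : x1 • (u - w - x2 ^ (n + 1) • u'') = 0 := by
    rw [smul_sub, ← h1, smul_comm x1, sub_self]
  have h3 := r1 _ h2
  have h4 : u = w + x2 ^ (n + 1) • u'' := by
    rw [sub_eq_zero, sub_eq_iff_eq_add] at h3
    rw [h3]; abel
  rw [h4]
  refine Submodule.add_mem _ hw ?_
  have h5 : x2 ^ (n + 1) • u'' ∈ qPow (Ideal.span {x1, x2}) M (0 + (n + 1)) :=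
    pow_smul_mem_qPow (Ideal.pow_mem_pow mem_span_pair_right _) (by rw [qPow_zero]; trivial)
  exact qPow_anti _ (by omega) h5

/-- a form monic in `x2` is a nonzerodivisor on the associated graded module. -/
lemma mem_qPow_of_form_smul (r1 : ∀ v : M, x1 • v = 0 → v = 0)
    (r2 : ∀ v w : M, x2 • v = x1 • w → ∃ u : M, v = x1 • u) {t : ℕ} {g : A}
    (hg : ∀ (k : ℕ) (v : M), v ∈ qPow (Ideal.span {x1, x2}) M (k + 1) →
      g • v ∈ qPow (Ideal.span {x1, x2}) M (k + t)) (n : ℕ) :
    ∀ u : M, (x2 ^ t + x1 * g) • u ∈ qPow (Ideal.span {x1, x2}) M (n + t) →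
      u ∈ qPow (Ideal.span {x1, x2}) M n := by
  induction n with
  | zero => intro u _; rw [qPow_zero]; trivial
  | succ k ih =>
    intro u hu
    have hk : k + 1 + t = k + t + 1 := by ring
    rw [hk] at hu
    obtain ⟨w0, hw0, u1, hu1⟩ := exists_of_mem_qPow (k + t) _ hu
    set u' : M := x2 ^ (k + 1) • u1 with hu'
    have hu'Q : u' ∈ qPow (Ideal.span {x1, x2}) M (k + 1) := by
      have h5 : x2 ^ (k + 1) • u1 ∈ qPow (Ideal.span {x1, x2}) M (0 + (k + 1)) :=
        pow_smul_mem_qPow (Ideal.pow_mem_pow mem_span_pair_right _) (by rw [qPow_zero]; trivial)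
      rwa [zero_add] at h5
    have h1 : x2 ^ (k + t + 1) • u1 = x2 ^ t • u' := by
      rw [hu', smul_smul, ← pow_add]; congr 2; ring
    set w : M := w0 - g • u' with hw
    have hwQ : w ∈ qPow (Ideal.span {x1, x2}) M (k + t) := Submodule.sub_mem _ hw0 (hg k u' hu'Q)
    have h2 : (x2 ^ t + x1 * g) • (u - u') = x1 • w := by
      rw [smul_sub, hu1, h1, hw, smul_sub, add_smul, mul_smul]; abel
    have h3 : x2 ^ t • (u - u') = x1 • (w - g • (u - u')) := by
      rw [smul_sub x1, ← h2, add_smul, mul_smul]; abel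
    obtain ⟨u'', hu''⟩ := pow_regular_mod r2 t _ _ h3
    have h4 : x1 • ((x2 ^ t + x1 * g) • u'' - w) = 0 := by
      rw [smul_sub, ← h2, hu'', smul_comm x1, sub_self]
    have h5 : (x2 ^ t + x1 * g) • u'' = w := sub_eq_zero.1 (r1 _ h4)
    have h6 : u'' ∈ qPow (Ideal.span {x1, x2}) M k := ih u'' (by rw [h5]; exact hwQ)
    have h7 : u = u' + x1 • u'' := by rw [← hu'']; abel
    rw [h7]
    exact Submodule.add_mem _ hu'Q (smul_mem_qPow mem_span_pair_left h6)

/-- the initial filtration -/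
def initF (m q : Ideal A) (M : Type*) [AddCommGroup M] [Module A M] (j : ℕ) : Submodule A M where
  carrier := {v | ∀ i : ℕ, ∀ a ∈ m ^ i, a • v ∈ qPow q M (i + j)}
  add_mem' := by
    intro v w hv hw i a ha
    rw [smul_add]; exact Submodule.add_mem _ (hv i a ha) (hw i a ha)
  zero_mem' := by intro i a _; simp
  smul_mem' := by
    intro c v hv i a ha
    rw [smul_comm]; exact Submodule.smul_mem _ _ (hv i a ha)

lemma initF_anti (m q : Ideal A) (j : ℕ) : initF m q M (j + 1) ≤ initF m q M j := by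
  intro v hv i a ha
  exact qPow_anti q (by omega) (hv i a ha)

lemma smul_initF (m q : Ideal A) (j : ℕ) : m • initF m q M j ≤ initF m q M (j + 1) := by
  rw [Submodule.smul_le]
  intro b hb v hv i a ha
  have h : a * b ∈ m ^ (i + 1) := by
    rw [pow_succ]; exact Ideal.mul_mem_mul ha hb
  have := hv (i + 1) (a * b) h
  rw [smul_smul]
  have h2 : i + (j + 1) = i + 1 + j := by ring
  rw [h2]; exact this

lemma initF_le (m q : Ideal A) (j : ℕ) : initF m q M j ≤ qPow q M j := by
  intro v hv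
  have := hv 0 1 (by simp)
  simpa using this

lemma le_initF {m q : Ideal A} {r : ℕ} (_hqm : q ≤ m) (hr : m ^ (r + 1) ≤ q * m ^ r) (j : ℕ) :
    qPow q M (j + r) ≤ initF m q M j := by
  have h1 : ∀ s : ℕ, m ^ (r + s) ≤ q ^ s * m ^ r := by
    intro s
    induction s with
    | zero => simp
    | succ s ih =>
      calc m ^ (r + (s + 1)) = m ^ (r + s) * m := by rw [← add_assoc, pow_succ]
        _ ≤ (q ^ s * m ^ r) * m := Ideal.mul_mono_left ih
        _ = q ^ s * m ^ (r + 1) := by rw [mul_assoc, ← pow_succ]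
        _ ≤ q ^ s * (q * m ^ r) := Ideal.mul_mono_right hr
        _ = q ^ (s + 1) * m ^ r := by rw [← mul_assoc, ← pow_succ]
  have h2 : ∀ i : ℕ, m ^ i * q ^ r ≤ q ^ i := by
    intro i
    rcases le_total i r with h | h
    · exact Ideal.mul_le_right.trans (Ideal.pow_le_pow_right h)
    · obtain ⟨s, rfl⟩ := Nat.exists_eq_add_of_le h
      calc m ^ (r + s) * q ^ r ≤ (q ^ s * m ^ r) * q ^ r := Ideal.mul_mono_left (h1 s)
        _ ≤ q ^ s * q ^ r := Ideal.mul_mono_left Ideal.mul_le_left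
        _ = q ^ (r + s) := by rw [← pow_add, add_comm]
  intro v hv i a ha
  have h3 : a • v ∈ (m ^ i * q ^ r) • qPow q M j := by
    rw [Submodule.mul_smul, pow_smul_qPow]
    exact Submodule.smul_mem_smul ha hv
  have h4 := Submodule.smul_mono_left (N := qPow q M j) (h2 i) h3
  rw [pow_smul_qPow, add_comm] at h4
  exact h4

end

/-- TASK I (initial filtration on a module with regular sequence `x1, x2`). -/
theorem init_fil {A : Type*} [CommRing A] [IsLocalRing A] [IsNoetherianRing A]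
    {M : Type*} [AddCommGroup M] [Module A M] [Module.Finite A M]
    (x1 x2 : A) (hx1 : x1 ∈ maximalIdeal A) (hx2 : x2 ∈ maximalIdeal A)
    (r1 : ∀ v : M, x1 • v = 0 → v = 0)
    (r2 : ∀ v w : M, x2 • v = x1 • w → ∃ u : M, v = x1 • u)
    (r : ℕ) (hr : maximalIdeal A ^ (r + 1) ≤ Ideal.span {x1, x2} * maximalIdeal A ^ r) :
    ∃ F : ℕ → Submodule A M, (∀ j, F (j + 1) ≤ F j) ∧
      (∀ j, maximalIdeal A • F j ≤ F (j + 1)) ∧
      (∀ (j : ℕ) (v : M), x1 • v ∈ F (j + 1) → v ∈ F j) ∧
      (∃ b : ℕ, ∀ j, b ≤ j → F (j + 1) ≤ Ideal.span {x1, x2} • F j) ∧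
      (∀ (t : ℕ) (c : ℕ → A) (j : ℕ) (v : M), v ∈ F j →
        (x2 ^ t + ∑ i ∈ Finset.range t, c i * x1 ^ (t - i) * x2 ^ i) • v ∈ F (j + t + 1) →
        v ∈ F (j + 1)) ∧
      (∀ j, F j ≤ Ideal.span {x1, x2} ^ j • (⊤ : Submodule A M)) ∧
      (∀ j, Ideal.span {x1, x2} ^ (j + r) • (⊤ : Submodule A M) ≤ F j) := by
  have hqm : Ideal.span {x1, x2} ≤ maximalIdeal A := by
    rw [Ideal.span_le]
    rintro x (rfl | rfl)
    · exact hx1
    · exact hx2
  set q : Ideal A := Ideal.span {x1, x2} with hq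
  refine ⟨initF (maximalIdeal A) q M, initF_anti _ _, smul_initF _ _, ?_, ?_, ?_, initF_le _ _,
    le_initF hqm hr⟩
  · intro j v hv i a ha
    refine mem_qPow_of_x1_smul r1 r2 ?_
    rw [smul_comm]
    exact hv i a ha
  · let F : q.Filtration M :=
      { N := initF (maximalIdeal A) q M
        mono := initF_anti _ _
        smul_le := fun j => (Submodule.smul_mono_left hqm).trans (smul_initF _ _ j) }
    have hF : F.Stable := (q.stableFiltration_stable (⊤ : Submodule A M)).of_le (F' := F)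
      (fun j => initF_le _ _ j)
    obtain ⟨b, hb⟩ := hF
    exact ⟨b, fun j hj => (hb j hj).ge⟩
  · intro t c j v _ hfv i a ha
    have hfg : (x2 ^ t + ∑ i ∈ Finset.range t, c i * x1 ^ (t - i) * x2 ^ i) =
        x2 ^ t + x1 * ∑ i ∈ Finset.range t, c i * x1 ^ (t - 1 - i) * x2 ^ i := by
      rw [Finset.mul_sum]
      congr 1
      refine Finset.sum_congr rfl fun i hi => ?_
      have h : t - i = (t - 1 - i) + 1 := by have := Finset.mem_range.1 hi; omega
      rw [h, pow_succ]; ring
    rw [hfg] at hfv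
    refine mem_qPow_of_form_smul (t := t) r1 r2 ?_ (i + (j + 1)) _ ?_
      (g := ∑ i ∈ Finset.range t, c i * x1 ^ (t - 1 - i) * x2 ^ i)
    · intro k w hw
      rw [Finset.sum_smul]
      refine Submodule.sum_mem _ fun i hi => ?_
      have hi' := Finset.mem_range.1 hi
      have hmem : c i * x1 ^ (t - 1 - i) * x2 ^ i ∈ q ^ (t - 1) := by
        have h : t - 1 = (t - 1 - i) + i := by omega
        rw [h, pow_add, mul_assoc]
        refine Ideal.mul_mem_left _ _ (Ideal.mul_mem_mul ?_ ?_)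
        · rw [show t - 1 - i + i - i = t - 1 - i by omega]
          exact Ideal.pow_mem_pow mem_span_pair_left _
        · exact Ideal.pow_mem_pow mem_span_pair_right _
      have h2 := pow_smul_mem_qPow hmem hw
      exact qPow_anti _ (by omega) h2
    · rw [smul_comm]
      have := hfv i a ha
      have h3 : i + (j + t + 1) = i + (j + 1) + t := by ring
      rw [h3] at this
      exact this

end Vale.Agent.P202
end

section

/-!
Auxiliary results for the SL2 theorem: transfer of filtrations, flatness, finiteness, growth.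
-/

namespace Vale.Agent.P202

open IsLocalRing

/-! ### transfer along an injective map -/

section transfer
variable {A : Type*} [CommRing A] {M M' : Type*} [AddCommGroup M] [Module A M]
  [AddCommGroup M'] [Module A M']

lemma Fil.mapInj {m : Ideal A} {G : ℕ → Submodule A M} (hG : Fil m G) (f : M →ₗ[A] M')
    (hf : Function.Injective f) : Fil m (fun j => (G j).map f) := by
  refine ⟨fun j => Submodule.map_mono (hG.anti j), fun j => ?_, fun j => ?_⟩
  · rw [← Submodule.map_smul'']
    exact Submodule.map_mono (hG.smul j)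
  · rw [rl_map_of_injective f hf]
    exact hG.fin j

lemma Pr.mapInj {m : Ideal A} {G : ℕ → Submodule A M} {lo hi : ℤ} (hG : Pr m G lo hi)
    (f : M →ₗ[A] M') (hf : Function.Injective f) : Pr m (fun j => (G j).map f) lo hi := by
  intro P hP
  have hPr : ∀ j, ((P j).comap f).map f = P j := by
    intro j
    rw [Submodule.map_comap_eq, inf_eq_right]
    exact (hP.le j).trans (LinearMap.map_le_range)
  have hQ : SubFil m G (fun j => (P j).comap f) := by
    refine ⟨fun j => ?_, fun j => ?_, fun j => ?_⟩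
    · intro v hv
      obtain ⟨w, hw, hwv⟩ := hP.le j hv
      rwa [hf hwv] at hw
    · intro v hv
      exact hP.ge j ⟨v, hv, rfl⟩
    · rw [Submodule.smul_le]
      intro a ha v hv
      rw [Submodule.mem_comap, map_smul]
      exact hP.smul j (Submodule.smul_mem_smul ha hv)
  obtain ⟨a, x, b, y, h1, h2, h3, h4⟩ := hG _ hQ
  refine ⟨a, x, b, y, ?_, ?_, h3, h4⟩
  · refine h1.congrB 0 (fun j _ => ?_)
    rw [← rl_map_of_injective f hf, hPr]
  · refine h2.congrB 0 (fun j _ => ?_)
    rw [← rl_map_of_injective f hf, hPr]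

end transfer

/-! ### regular pairs and flatness -/

section flat
variable {A : Type*} [CommRing A] {V : Type*} [AddCommGroup V] [Module A V] [Module.Flat A V]

open TensorProduct

/-- the evaluation map from `C ⊗ V` to `V`. -/
noncomputable def evC (C : Ideal A) (V : Type*) [AddCommGroup V] [Module A V] :
    (C ⊗[A] V) →ₗ[A] V :=
  TensorProduct.lift ((LinearMap.lsmul A V).comp (Submodule.subtype C))

omit [Module.Flat A V] in
lemma evC_tmul (C : Ideal A) (z : C) (v : V) : evC C V (z ⊗ₜ v) = (z : A) • v := by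
  simp [evC]

lemma evC_injective (C : Ideal A) : Function.Injective (evC C V) := by
  have h1 := Module.Flat.rTensor_preserves_injective_linearMap (M := V)
    (Submodule.subtype C) (Submodule.subtype_injective C)
  have h2 : evC C V = (TensorProduct.lid A V).toLinearMap ∘ₗ
      (LinearMap.rTensor V (Submodule.subtype C)) := by
    ext z v
    simp [evC]
  rw [h2]
  exact (TensorProduct.lid A V).injective.comp h1

omit [Module.Flat A V] in
lemma exists_evC (C : Ideal A) {v : V} (hv : v ∈ C • (⊤ : Submodule A V)) :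
    ∃ z : C ⊗[A] V, evC C V z = v := by
  have h : C • (⊤ : Submodule A V) ≤ LinearMap.range (evC C V) := by
    rw [Submodule.smul_le]
    intro r hr n _
    exact ⟨(⟨r, hr⟩ : C) ⊗ₜ n, evC_tmul _ _ _⟩
  exact h hv

omit [Module.Flat A V] in
lemma evC_mem (C : Ideal A) (z : C ⊗[A] V) : evC C V z ∈ C • (⊤ : Submodule A V) := by
  induction z with
  | zero => simp
  | add a b ha hb => rw [map_add]; exact Submodule.add_mem _ ha hb
  | tmul c v => rw [evC_tmul]; exact Submodule.smul_mem_smul c.2 trivial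

omit [Module.Flat A V] in
lemma rTensor_lsmul {N : Type*} [AddCommGroup N] [Module A N] (x : A) :
    LinearMap.rTensor V (LinearMap.lsmul A N x) = LinearMap.lsmul A (N ⊗[A] V) x := by
  apply TensorProduct.ext'
  intro n v
  simp [TensorProduct.smul_tmul']

lemma flat_r1 {C : Ideal A} {x1 : A} (r1 : ∀ v ∈ C, x1 * v = 0 → v = 0) :
    ∀ v ∈ C • (⊤ : Submodule A V), x1 • v = 0 → v = 0 := by
  intro v hv h
  obtain ⟨z, rfl⟩ := exists_evC C hv
  have hinj : Function.Injective (LinearMap.lsmul A C x1) := by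
    rw [injective_iff_map_eq_zero]
    intro c hc
    apply Subtype.ext
    exact r1 c c.2 (congrArg Subtype.val hc)
  have h1 := Module.Flat.rTensor_preserves_injective_linearMap (M := V) _ hinj
  rw [rTensor_lsmul] at h1
  rw [← map_smul, ← map_zero (evC C V)] at h
  have h2 := evC_injective C h
  have h3 : z = 0 := h1 (by rw [map_zero]; exact h2)
  rw [h3, map_zero]

lemma flat_r2 {C : Ideal A} {x1 x2 : A}
    (r2 : ∀ v ∈ C, ∀ w ∈ C, x2 * v = x1 * w → ∃ u ∈ C, v = x1 * u) :
    ∀ v ∈ C • (⊤ : Submodule A V), ∀ w ∈ C • (⊤ : Submodule A V), x2 • v = x1 • w →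
      ∃ u ∈ C • (⊤ : Submodule A V), v = x1 • u := by
  intro v hv w hw h
  obtain ⟨z, rfl⟩ := exists_evC C hv
  obtain ⟨z', rfl⟩ := exists_evC C hw
  rw [← map_smul, ← map_smul] at h
  have h0 : x2 • z = x1 • z' := evC_injective C h
  -- the quotient of `C` by `x1 C`
  let f : C →ₗ[A] C := LinearMap.lsmul A C x1
  let g : C →ₗ[A] (C ⧸ LinearMap.range f) := Submodule.mkQ _
  have hex : Function.Exact f g := by
    rw [LinearMap.exact_iff, Submodule.ker_mkQ]
  have hexT := rTensor_exact V hex (Submodule.mkQ_surjective _)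
  have hinj : Function.Injective (LinearMap.lsmul A (C ⧸ LinearMap.range f) x2) := by
    rw [injective_iff_map_eq_zero]
    intro c hc
    obtain ⟨c, rfl⟩ := Submodule.Quotient.mk_surjective _ c
    have hc' : (Submodule.Quotient.mk (x2 • c) : C ⧸ LinearMap.range f) = 0 := hc
    rw [Submodule.Quotient.mk_eq_zero] at hc' ⊢
    obtain ⟨d, hd⟩ := hc'
    obtain ⟨u, hu, huv⟩ := r2 c c.2 d d.2 (congrArg Subtype.val hd).symm
    exact ⟨⟨u, hu⟩, Subtype.ext huv.symm⟩
  have h1 := Module.Flat.rTensor_preserves_injective_linearMap (M := V) _ hinj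
  rw [rTensor_lsmul] at h1
  have h2 : LinearMap.rTensor V g z = 0 := by
    apply h1
    rw [map_zero]
    change x2 • LinearMap.rTensor V g z = 0
    rw [← map_smul, h0]
    have h3 : x1 • z' = LinearMap.rTensor V f z' := by
      rw [rTensor_lsmul]; rfl
    rw [h3]
    exact (hexT (LinearMap.rTensor V f z')).mpr ⟨z', rfl⟩
  obtain ⟨u, hu⟩ := (hexT z).mp h2
  refine ⟨evC C V u, evC_mem C u, ?_⟩
  rw [← hu, ← map_smul]
  congr 1

end flat

/-! ### finiteness -/

section finite
variable {A : Type*} [CommRing A] {V : Type*} [AddCommGroup V] [Module A V]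

lemma rl_sup_right_le (K N₁ N₂ : Submodule A V) : rl K (N₁ ⊔ N₂) ≤ rl K N₁ + rl K N₂ := by
  rw [← rl_sup_right K (N₁ ⊔ N₂), ← sup_assoc,
    rl_add (le_sup_left : K ≤ K ⊔ N₁) (le_sup_left : K ⊔ N₁ ≤ K ⊔ N₁ ⊔ N₂), rl_sup_right,
    rl_sup_right (K ⊔ N₁) N₂]
  gcongr
  exact rl_anti_left le_sup_left

/-- lengths of `K V` modulo a submodule containing `K U`. -/
lemma rl_smul_ne_top {U : Submodule A V} (hU : rl U ⊤ ≠ ⊤) {K : Ideal A} (hK : K.FG)
    (W : Submodule A V) (hW : K • U ≤ W) : rl W (K • (⊤ : Submodule A V)) ≠ ⊤ := by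
  induction K, hK using Submodule.fg_induction generalizing W with
  | singleton a =>
    have h1 : rl W ((Submodule.span A {a} : Ideal A) • (⊤ : Submodule A V)) ≤ rl U ⊤ := by
      have h2 : (Submodule.span A {a} : Ideal A) • (⊤ : Submodule A V)
          ≤ (⊤ : Submodule A V).map (BaseAux.mu V a) := by
        rw [Submodule.smul_le]
        intro r hr v _
        obtain ⟨b, rfl⟩ := Submodule.mem_span_singleton.mp hr
        refine ⟨b • v, trivial, ?_⟩
        rw [BaseAux.mu_apply, smul_smul, smul_eq_mul, mul_comm]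
      refine (rl_mono_right h2).trans ?_
      rw [BaseAux.rl_map_left]
      refine rl_anti_left ?_
      intro u hu
      exact hW (Submodule.smul_mem_smul (Submodule.mem_span_singleton_self a) hu)
    exact fun h => hU (top_le_iff.mp (h ▸ h1))
  | sup K₁ K₂ _ _ h₁ h₂ =>
    have h3 := h₁ W ((Submodule.smul_mono_left le_sup_left).trans hW)
    have h4 := h₂ W ((Submodule.smul_mono_left le_sup_right).trans hW)
    rw [Submodule.sup_smul]
    intro h
    have h5 := rl_sup_right_le W (K₁ • (⊤ : Submodule A V)) (K₂ • ⊤)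
    rw [h, top_le_iff] at h5
    rcases WithTop.add_eq_top.mp h5 with h6 | h6
    · exact h3 h6
    · exact h4 h6

end finite

/-! ### growth of the `q`-adic filtration -/

section growth
variable {A : Type*} [CommRing A] {M : Type*} [AddCommGroup M] [Module A M]

/-- the layers of the filtration by powers of a regular pair are large. -/
lemma le_rl_qPow {x1 x2 : A} (r1 : ∀ v : M, x1 • v = 0 → v = 0)
    (r2 : ∀ v w : M, x2 • v = x1 • w → ∃ u : M, v = x1 • u) (n : ℕ) :
    ((n + 1 : ℕ) : ℕ∞) * rl (qPow (Ideal.span {x1, x2}) M 1) ⊤ ≤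
      rl (qPow (Ideal.span {x1, x2}) M (n + 1)) (qPow (Ideal.span {x1, x2}) M n) := by
  set q : Ideal A := Ideal.span {x1, x2} with hq
  induction n with
  | zero => simp [qPow_zero]
  | succ n ih =>
    have hx1 : (qPow q M n).map (BaseAux.mu M x1) ≤ qPow q M (n + 1) := by
      rintro _ ⟨v, hv, rfl⟩
      exact smul_mem_qPow mem_span_pair_left hv
    rw [rl_add (le_sup_left : qPow q M (n + 1 + 1) ≤
      qPow q M (n + 1 + 1) ⊔ (qPow q M n).map (BaseAux.mu M x1))
      (sup_le (qPow_succ_le q _) hx1), rl_sup_right, BaseAux.rl_map_left]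
    have e1 : (qPow q M (n + 1 + 1)).comap (BaseAux.mu M x1) = qPow q M (n + 1) := by
      apply le_antisymm
      · intro v hv
        exact mem_qPow_of_x1_smul r1 r2 hv
      · intro v hv
        exact smul_mem_qPow mem_span_pair_left hv
    rw [e1]
    have e2 : rl (qPow q M 1) ⊤ ≤
        rl (qPow q M (n + 1 + 1) ⊔ (qPow q M n).map (BaseAux.mu M x1)) (qPow q M (n + 1)) := by
      have e3 : (⊤ : Submodule A M).map (BaseAux.mu M (x2 ^ (n + 1))) ≤ qPow q M (n + 1) := by
        rintro _ ⟨v, hv, rfl⟩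
        have h5 : x2 ^ (n + 1) • v ∈ qPow q M (0 + (n + 1)) :=
          pow_smul_mem_qPow (Ideal.pow_mem_pow mem_span_pair_right _)
            (by rw [qPow_zero]; trivial)
        rwa [zero_add] at h5
      refine le_trans ?_ (rl_mono_right e3)
      rw [BaseAux.rl_map_left]
      refine rl_anti_left ?_
      intro v hv
      obtain ⟨a, ha, b, hb, hab⟩ := Submodule.mem_sup.mp (show BaseAux.mu M (x2 ^ (n + 1)) v ∈ _
        from hv)
      obtain ⟨b, hb, rfl⟩ := hb
      obtain ⟨w, hw, u, rfl⟩ := exists_of_mem_qPow (n + 1) a ha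
      simp only [BaseAux.mu_apply] at hab
      have h1 : x2 ^ (n + 1) • (v - x2 • u) = x1 • (w + b) := by
        rw [smul_sub, smul_smul, ← pow_succ, ← hab, smul_add]; abel
      obtain ⟨u', hu'⟩ := pow_regular_mod r2 (n + 1) _ _ h1
      have h2 : v = x1 • u' + x2 • u := by rw [← hu']; abel
      rw [h2, qPow_succ, qPow_zero]
      exact Submodule.add_mem _ (Submodule.smul_mem_smul mem_span_pair_left trivial)
        (Submodule.smul_mem_smul mem_span_pair_right trivial)
    calc ((n + 1 + 1 : ℕ) : ℕ∞) * rl (qPow q M 1) ⊤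
        = ((n + 1 : ℕ) : ℕ∞) * rl (qPow q M 1) ⊤ + rl (qPow q M 1) ⊤ := by
          push_cast; ring
      _ ≤ _ := add_le_add ih e2

/-- quadratic growth of the colengths of `q ^ n M`. -/
lemma le_rl_qPow_top {x1 x2 : A} (r1 : ∀ v : M, x1 • v = 0 → v = 0)
    (r2 : ∀ v w : M, x2 • v = x1 • w → ∃ u : M, v = x1 • u) (L : ℕ)
    (hL : rl (qPow (Ideal.span {x1, x2}) M 1) ⊤ = (L : ℕ∞)) (n : ℕ) :
    ((∑ i ∈ Finset.range n, (i + 1) * L : ℕ) : ℕ∞) ≤
      rl (qPow (Ideal.span {x1, x2}) M n) ⊤ := by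
  induction n with
  | zero => simp
  | succ n ih =>
    rw [Finset.sum_range_succ, rl_add (qPow_succ_le _ n) le_top, add_comm]
    push_cast at ih ⊢
    refine add_le_add ?_ ih
    have h1 := le_rl_qPow r1 r2 n
    rw [hL] at h1
    exact_mod_cast h1

/-- sums of eventually linear increments. -/
lemma rl_top_le_of_evLin {F : ℕ → Submodule A M} (anti : ∀ j, F (j + 1) ≤ F j) {e c : ℤ}
    (he : EvLin (fun j => rl (F (j + 1)) (F j)) e c) (hfin : ∀ j, rl (F j) ⊤ ≠ ⊤) :
    ∃ (j₀ N : ℕ), ∀ k : ℕ, ∃ n : ℕ, rl (F (j₀ + k)) ⊤ = (n : ℕ∞) ∧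
      (n : ℤ) = N + ∑ i ∈ Finset.range k, (e * (j₀ + i) + c) := by
  obtain ⟨j₀, hj₀⟩ := he
  obtain ⟨N, hN⟩ := ENat.ne_top_iff_exists.mp (hfin j₀)
  refine ⟨j₀, N, fun k => ?_⟩
  induction k with
  | zero => exact ⟨N, hN.symm, by simp⟩
  | succ k ih =>
    obtain ⟨n, hn, hn'⟩ := ih
    obtain ⟨l, hl, hl'⟩ := hj₀ (j₀ + k) (by omega)
    refine ⟨l + n, ?_, ?_⟩
    · rw [← add_assoc, rl_add (anti (j₀ + k)) le_top, hn]
      push_cast
      rw [← hl]
    · rw [Finset.sum_range_succ]
      push_cast at hl' ⊢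
      rw [hl', hn']; ring

/-- the slope of a filtration below the `q`-adic one is at least the colength of `q`. -/
lemma le_slope {x1 x2 : A} (r1 : ∀ v : M, x1 • v = 0 → v = 0)
    (r2 : ∀ v w : M, x2 • v = x1 • w → ∃ u : M, v = x1 • u) (L : ℕ)
    (hL : rl (qPow (Ideal.span {x1, x2}) M 1) ⊤ = (L : ℕ∞))
    {F : ℕ → Submodule A M} (anti : ∀ j, F (j + 1) ≤ F j) {e c : ℤ}
    (he : EvLin (fun j => rl (F (j + 1)) (F j)) e c) (hfin : ∀ j, rl (F j) ⊤ ≠ ⊤)
    (hF : ∀ j, F j ≤ qPow (Ideal.span {x1, x2}) M j) : (L : ℤ) ≤ e := by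
  obtain ⟨j₀, N, h⟩ := rl_top_le_of_evLin anti he hfin
  by_contra hlt
  push Not at hlt
  -- compare at a large index
  have hs : ∀ k : ℕ, 2 * ∑ i ∈ Finset.range k, (e * (j₀ + i) + c)
      = k * (2 * e * j₀ + 2 * c + e * (k - 1)) := by
    intro k
    induction k with
    | zero => simp
    | succ k ih => rw [Finset.sum_range_succ, mul_add, ih]; push_cast; ring
  have hs2 : ∀ k : ℕ, 2 * ∑ i ∈ Finset.range k, (((i : ℤ) + 1) * L) = k * (k + 1) * L := by
    intro k
    induction k with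
    | zero => simp
    | succ k ih => rw [Finset.sum_range_succ, mul_add, ih]; push_cast; ring
  have key : ∀ k : ℕ, ((k : ℤ) + j₀) * (k + j₀ + 1) * L ≤
      2 * N + k * (2 * e * j₀ + 2 * c + e * (k - 1)) := by
    intro k
    obtain ⟨n, hn, hn'⟩ := h k
    have h1 := le_rl_qPow_top r1 r2 L hL (j₀ + k)
    have h2 := h1.trans (rl_anti_left (hF (j₀ + k)))
    rw [hn] at h2
    have h3 : (∑ i ∈ Finset.range (j₀ + k), (i + 1) * L : ℕ) ≤ n := by exact_mod_cast h2
    have h4 : (∑ i ∈ Finset.range (j₀ + k), ((i : ℤ) + 1) * L) ≤ n := by exact_mod_cast h3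
    have h5 := hs2 (j₀ + k)
    have h6 := hs k
    push_cast at h5
    rw [hn'] at h4
    nlinarith
  -- choose k large
  obtain ⟨k, hk⟩ : ∃ k : ℕ, k = (2 * N + (2 * e * j₀ + 2 * c - e).natAbs + 1) := ⟨_, rfl⟩
  have h7 := key k
  have h8 : (k : ℤ) * k * L ≤ ((k : ℤ) + j₀) * (k + j₀ + 1) * L := by
    have : (0 : ℤ) ≤ L := Int.natCast_nonneg _
    have h9 : (k : ℤ) * k ≤ ((k : ℤ) + j₀) * (k + j₀ + 1) := by
      have : (0 : ℤ) ≤ k := Int.natCast_nonneg _
      have : (0 : ℤ) ≤ j₀ := Int.natCast_nonneg _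
      nlinarith
    exact mul_le_mul_of_nonneg_right h9 this
  have h10 : (k : ℤ) * k * (L - e) ≤ 2 * N + k * (2 * e * j₀ + 2 * c - e) := by
    nlinarith
  have h11 : (k : ℤ) * k ≤ (k : ℤ) * k * (L - e) := by
    have : (1 : ℤ) ≤ L - e := by omega
    have h12 : (0 : ℤ) ≤ (k : ℤ) * k := by positivity
    nlinarith
  have h13 : (2 * e * j₀ + 2 * c - e) ≤ ((2 * e * j₀ + 2 * c - e).natAbs : ℤ) := by
    exact Int.le_natAbs
  set T : ℤ := 2 * e * j₀ + 2 * c - e with hT
  have hk' : (k : ℤ) = 2 * N + (T.natAbs : ℤ) + 1 := by rw [hk]; push_cast; ring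
  have hk0 : (1 : ℤ) ≤ k := by
    have : (0 : ℤ) ≤ N := Int.natCast_nonneg _
    have : (0 : ℤ) ≤ (T.natAbs : ℤ) := Int.natCast_nonneg _
    linarith
  have h14 : (k : ℤ) * T ≤ k * (T.natAbs : ℤ) := by
    exact mul_le_mul_of_nonneg_left h13 (by linarith)
  have h15 : (k : ℤ) * k = k * (2 * N) + k * (T.natAbs : ℤ) + k := by
    conv_lhs => rw [hk']
    rw [← hk']
    nlinarith
  have h16 : (2 * N : ℤ) ≤ k * (2 * N) := by
    have : (0 : ℤ) ≤ 2 * N := by positivity
    nlinarith
  linarith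

end growth

end Vale.Agent.P202
end

section

/-!
P202 MIX, M1 (T1, T2): the ring `B = W(C)/(p - [t])`: `[t] = p`, `B/p = C/t`, `B` is `p`-torsion
free, root closedness.
-/

namespace Vale.Agent.P202.Mix

open Polynomial

universe u

section M1
variable (p : ℕ) [Fact p.Prime] (C : Type u) [CommRing C] [CharP C p] [PerfectRing C p] (t : C)

omit [CharP C p] [PerfectRing C p] in
theorem toB_surjective : Function.Surjective (toB p C t) := Ideal.Quotient.mk_surjective

omit [CharP C p] [PerfectRing C p] in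
theorem toB_eq_zero_iff {x : WittVector p C} : toB p C t x = 0 ↔
    ∃ y, x = ((p : WittVector p C) - WittVector.teichmuller p t) * y := by
  have h : toB p C t x = 0 ↔
      x ∈ Ideal.span {(p : WittVector p C) - WittVector.teichmuller p t} :=
    Ideal.Quotient.eq_zero_iff_mem
  rw [h, Ideal.mem_span_singleton']
  exact ⟨fun ⟨y, hy⟩ => ⟨y, by rw [← hy, mul_comm]⟩, fun ⟨y, hy⟩ => ⟨y, by rw [hy, mul_comm]⟩⟩

omit [CharP C p] [PerfectRing C p] in
/-- `[t] = p`. -/
theorem te_t : te p C t t = (p : Bt p C t) := by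
  have h : toB p C t ((p : WittVector p C) - WittVector.teichmuller p t) = 0 :=
    (toB_eq_zero_iff p C t).2 ⟨1, (mul_one _).symm⟩
  rw [map_sub, map_natCast, sub_eq_zero] at h
  exact h.symm

omit [CharP C p] [PerfectRing C p] in
theorem te_mul (a b : C) : te p C t (a * b) = te p C t a * te p C t b := by
  rw [te, te, te, map_mul, map_mul]

omit [CharP C p] [PerfectRing C p] in
theorem te_one : te p C t 1 = 1 := by
  rw [te, map_one, map_one]

omit [CharP C p] [PerfectRing C p] in
theorem te_zero : te p C t 0 = 0 := by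
  rw [te, WittVector.teichmuller_zero, map_zero]

omit [CharP C p] [PerfectRing C p] in
theorem te_pow (a : C) (n : ℕ) : te p C t (a ^ n) = te p C t a ^ n := by
  rw [te, te, map_pow, map_pow]

/-- The projection `B → C/t`, `toB x ↦ x.coeff 0`. -/
theorem exists_proj : ∃ π : Bt p C t →+* C ⧸ Ideal.span {t},
    (∀ x : WittVector p C, π (toB p C t x) = Ideal.Quotient.mk _ (x.coeff 0)) ∧
    Function.Surjective π ∧ RingHom.ker π = Ideal.span {(p : Bt p C t)} := by
  let φ : WittVector p C →+* C ⧸ Ideal.span {t} :=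
    (Ideal.Quotient.mk (Ideal.span {t})).comp WittVector.constantCoeff
  have hφ : ∀ x, φ x = Ideal.Quotient.mk _ (x.coeff 0) := fun x => rfl
  have hφ0 : ∀ x ∈ Ideal.span {(p : WittVector p C) - WittVector.teichmuller p t}, φ x = 0 := by
    intro x hx
    rw [Ideal.mem_span_singleton'] at hx
    obtain ⟨y, rfl⟩ := hx
    have h1 : φ ((p : WittVector p C) - WittVector.teichmuller p t) = 0 := by
      have h2 : φ (WittVector.teichmuller p t) = 0 := by
        rw [hφ, WittVector.teichmuller_coeff_zero]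
        exact Ideal.Quotient.eq_zero_iff_mem.2 (Ideal.mem_span_singleton_self t)
      have h3 : φ (p : WittVector p C) = 0 := by
        rw [hφ, WittVector.coeff_p_zero, map_zero]
      rw [map_sub, h2, h3, sub_zero]
    rw [map_mul, h1, mul_zero]
  let π : Bt p C t →+* C ⧸ Ideal.span {t} := Ideal.Quotient.lift _ φ hφ0
  have hπ : ∀ x : WittVector p C, π (toB p C t x) = Ideal.Quotient.mk _ (x.coeff 0) := fun x => by
    change Ideal.Quotient.lift _ φ hφ0 (Ideal.Quotient.mk _ x) = _
    rw [Ideal.Quotient.lift_mk]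
    rfl
  refine ⟨π, hπ, ?_, ?_⟩
  · intro y
    obtain ⟨c, rfl⟩ := Ideal.Quotient.mk_surjective y
    exact ⟨toB p C t (WittVector.teichmuller p c), by
      rw [hπ, WittVector.teichmuller_coeff_zero]⟩
  · ext b
    rw [RingHom.mem_ker]
    constructor
    · intro h
      obtain ⟨x, rfl⟩ := toB_surjective p C t b
      rw [hπ, Ideal.Quotient.eq_zero_iff_mem, Ideal.mem_span_singleton'] at h
      obtain ⟨c, hc⟩ := h
      have h1 : (x - WittVector.teichmuller p c * WittVector.teichmuller p t).coeff 0 = 0 := by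
        have h2 : WittVector.constantCoeff
            (x - WittVector.teichmuller p c * WittVector.teichmuller p t) = 0 := by
          rw [map_sub, map_mul]
          change x.coeff 0 - (WittVector.teichmuller p c).coeff 0 *
            (WittVector.teichmuller p t).coeff 0 = 0
          rw [WittVector.teichmuller_coeff_zero, WittVector.teichmuller_coeff_zero, hc, sub_self]
        exact h2
      rw [← WittVector.mem_span_p_iff_coeff_zero_eq_zero, Ideal.mem_span_singleton'] at h1
      obtain ⟨y, hy⟩ := h1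
      have h3 : x = y * (p : WittVector p C) +
          WittVector.teichmuller p c * WittVector.teichmuller p t := by rw [hy]; ring
      rw [Ideal.mem_span_singleton']
      refine ⟨toB p C t y + te p C t c, ?_⟩
      rw [h3, map_add, map_mul, map_mul, map_natCast, add_mul]
      congr 1
      change te p C t c * (p : Bt p C t) = te p C t c * te p C t t
      rw [te_t]
    · intro h
      rw [Ideal.mem_span_singleton'] at h
      obtain ⟨y, rfl⟩ := h
      have h1 : π (p : Bt p C t) = 0 := by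
        rw [← map_natCast (toB p C t), hπ, WittVector.coeff_p_zero, map_zero]
      rw [map_mul, h1, mul_zero]

/-- `te` is additive modulo `p`. -/
theorem te_add_mem (a b : C) : te p C t (a + b) - (te p C t a + te p C t b) ∈
    Ideal.span {(p : Bt p C t)} := by
  obtain ⟨π, hπ, -, hk⟩ := exists_proj p C t
  rw [← hk, RingHom.mem_ker, map_sub, map_add]
  simp only [te, hπ, WittVector.teichmuller_coeff_zero, map_add, sub_self]

/-- Every element of `B` is a Teichmueller representative modulo `p`. -/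
theorem exists_te_sub_mem (b : Bt p C t) :
    ∃ c : C, b - te p C t c ∈ Ideal.span {(p : Bt p C t)} := by
  obtain ⟨π, hπ, -, hk⟩ := exists_proj p C t
  obtain ⟨x, rfl⟩ := toB_surjective p C t b
  refine ⟨x.coeff 0, ?_⟩
  rw [← hk, RingHom.mem_ker, map_sub, hπ, te, hπ, WittVector.teichmuller_coeff_zero, sub_self]

variable (ht : t ∈ nonZeroDivisors C)
include ht

/-- `B` has no `p`-torsion. -/
theorem p_mul_eq_zero (b : Bt p C t) (h : (p : Bt p C t) * b = 0) : b = 0 := by
  obtain ⟨x, rfl⟩ := toB_surjective p C t b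
  rw [← map_natCast (toB p C t), ← map_mul, toB_eq_zero_iff] at h
  obtain ⟨y, hy⟩ := h
  have h1 : y.coeff 0 = 0 := by
    have h2 : WittVector.constantCoeff ((p : WittVector p C) * x) =
        WittVector.constantCoeff (((p : WittVector p C) - WittVector.teichmuller p t) * y) := by
      rw [hy]
    rw [map_mul, map_mul, map_sub] at h2
    change (p : WittVector p C).coeff 0 * x.coeff 0 = ((p : WittVector p C).coeff 0 -
      (WittVector.teichmuller p t).coeff 0) * y.coeff 0 at h2
    rw [WittVector.coeff_p_zero, WittVector.teichmuller_coeff_zero, zero_mul, zero_sub, neg_mul,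
      eq_comm, neg_eq_zero] at h2
    exact (mul_left_mem_nonZeroDivisors_eq_zero_iff ht).1 h2
  rw [← WittVector.mem_span_p_iff_coeff_zero_eq_zero, Ideal.mem_span_singleton'] at h1
  obtain ⟨z, rfl⟩ := h1
  have h3 : (x - ((p : WittVector p C) - WittVector.teichmuller p t) * z) * p = 0 := by
    have h4 : (x - ((p : WittVector p C) - WittVector.teichmuller p t) * z) * p =
        p * x - ((p : WittVector p C) - WittVector.teichmuller p t) * (z * p) := by ring
    rw [h4, hy, sub_self]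
  have h5 := WittVector.eq_zero_of_p_mul_eq_zero _ h3
  rw [toB_eq_zero_iff]
  exact ⟨z, sub_eq_zero.1 h5⟩

theorem p_pow_mul_eq_zero (j : ℕ) (b : Bt p C t) (h : (p : Bt p C t) ^ j * b = 0) : b = 0 := by
  induction j with
  | zero => rwa [pow_zero, one_mul] at h
  | succ j ih =>
    refine ih (p_mul_eq_zero p C t ht _ ?_)
    rw [← h]
    ring

omit ht in
theorem mem_span_of_te_mem (a : C) (h : te p C t a ∈ Ideal.span {(p : Bt p C t)}) :
    a ∈ Ideal.span {t} := by
  obtain ⟨π, hπ, -, hk⟩ := exists_proj p C t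
  rw [← hk, RingHom.mem_ker, te, hπ, WittVector.teichmuller_coeff_zero,
    Ideal.Quotient.eq_zero_iff_mem] at h
  exact h

/-- `[a] ∈ p^j B` implies `a ∈ t^j C`. -/
theorem mem_of_te_mem (a : C) (j : ℕ) (h : te p C t a ∈ Ideal.span {(p : Bt p C t) ^ j}) :
    a ∈ Ideal.span {t ^ j} := by
  induction j with
  | zero => rw [pow_zero, Ideal.span_singleton_one]; trivial
  | succ j ih =>
    rw [Ideal.mem_span_singleton'] at h
    obtain ⟨b, hb⟩ := h
    have h1 := ih (by
      rw [Ideal.mem_span_singleton']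
      exact ⟨b * p, by rw [← hb]; ring⟩)
    rw [Ideal.mem_span_singleton'] at h1
    obtain ⟨c, rfl⟩ := h1
    rw [te_mul, te_pow, te_t] at hb
    have h2 : te p C t c - b * p = 0 := by
      apply p_pow_mul_eq_zero p C t ht j
      linear_combination -hb
    have h3 := mem_span_of_te_mem p C t c (by
      rw [Ideal.mem_span_singleton']
      exact ⟨b, (sub_eq_zero.1 h2).symm⟩)
    rw [Ideal.mem_span_singleton'] at h3 ⊢
    obtain ⟨d, rfl⟩ := h3
    exact ⟨d, by ring⟩

omit ht in
theorem rt_pow_self (j : ℕ) : rt p j t ^ p ^ j = t := by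
  rw [rt, ← iterateFrobenius_def, ← coe_iterateFrobeniusEquiv]
  exact RingEquiv.apply_symm_apply _ _

omit ht in
theorem te_rt_pow_self (j : ℕ) : te p C t (rt p j t) ^ p ^ j = (p : Bt p C t) := by
  rw [← te_pow, rt_pow_self, te_t]

/-- Root closedness (one step). -/
theorem root_closed_aux (j : ℕ) (hj : 1 ≤ j) (m : ℕ) (b : Bt p C t)
    (h : b ^ p ∈ Ideal.span {te p C t (rt p j t) ^ (p * m)}) :
    b ∈ Ideal.span {te p C t (rt p j t) ^ m} := by
  have hp0 : 0 < p := (Fact.out : p.Prime).pos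
  have hpj : p ≤ p ^ j := Nat.le_self_pow (by omega) p
  have hjs : p ^ j = p + (p ^ j - p) := by omega
  have hj1 : p ^ j = 1 + (p ^ j - 1) := by omega
  set s := rt p j t with hs
  set σ := te p C t s with hσ
  have hσp : σ ^ p ^ j = (p : Bt p C t) := te_rt_pow_self p C t j
  have hσ0 : ∀ n x, σ ^ n * x = 0 → x = 0 := by
    intro n x hx
    apply p_pow_mul_eq_zero p C t ht n
    have h1 : (σ ^ p ^ j) ^ n = (σ ^ n) ^ (p ^ j - 1) * σ ^ n := by
      rw [← pow_succ, ← pow_mul, ← pow_mul, mul_comm]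
      congr 2
      omega
    rw [← hσp, h1, mul_assoc, hx, mul_zero]
  induction m generalizing b with
  | zero => rw [pow_zero, Ideal.span_singleton_one]; trivial
  | succ m ih =>
    rw [Ideal.mem_span_singleton'] at h
    obtain ⟨y, hy⟩ := h
    obtain ⟨c, hc⟩ := exists_te_sub_mem p C t b
    obtain ⟨π, hπ, -, hk⟩ := exists_proj p C t
    rw [← hk, RingHom.mem_ker, map_sub, sub_eq_zero] at hc
    have hπc : π b = Ideal.Quotient.mk _ c := by
      rw [hc, te, hπ, WittVector.teichmuller_coeff_zero]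
    have hπs : π σ = Ideal.Quotient.mk _ s := by
      rw [hσ, te, hπ, WittVector.teichmuller_coeff_zero]
    obtain ⟨z, hz⟩ := Ideal.Quotient.mk_surjective (π y)
    have h1 : Ideal.Quotient.mk (Ideal.span {t}) (c ^ p - z * s ^ (p * (m + 1))) = 0 := by
      rw [map_sub, map_pow, map_mul, map_pow, ← hπc, hz, ← hπs, ← map_pow, ← map_pow, ← map_mul,
        hy, sub_self]
    rw [Ideal.Quotient.eq_zero_iff_mem, Ideal.mem_span_singleton'] at h1
    obtain ⟨w, hw⟩ := h1
    have hst : s ^ p ^ j = t := rt_pow_self p C t j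
    -- `c ^ p` is divisible by `s ^ p`
    have h2 : c ^ p = s ^ p * (w * s ^ (p ^ j - p) + z * s ^ (p * m)) := by
      have h3 : s ^ p ^ j = s ^ p * s ^ (p ^ j - p) := by rw [← pow_add, ← hjs]
      have h4 : s ^ (p * (m + 1)) = s ^ p * s ^ (p * m) := by
        rw [← pow_add]; congr 1; ring
      have h5 : c ^ p = w * t + z * s ^ (p * (m + 1)) := by rw [hw]; ring
      rw [h5, ← hst, h3, h4]
      ring
    obtain ⟨d, hd⟩ : ∃ d : C, d ^ p = w * s ^ (p ^ j - p) + z * s ^ (p * m) := by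
      refine ⟨(frobeniusEquiv C p).symm (w * s ^ (p ^ j - p) + z * s ^ (p * m)), ?_⟩
      rw [← frobenius_def, ← frobeniusEquiv_apply, RingEquiv.apply_symm_apply]
    have h6 : c = s * d := by
      apply (frobeniusEquiv C p).injective
      rw [frobeniusEquiv_apply, frobeniusEquiv_apply, frobenius_def, frobenius_def, h2, mul_pow, hd]
    obtain ⟨b', hb'⟩ : ∃ b', b = σ * b' := by
      have h7 : b - te p C t c ∈ RingHom.ker π := by
        rw [RingHom.mem_ker, map_sub, hc, sub_self]
      rw [hk, Ideal.mem_span_singleton'] at h7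
      obtain ⟨x, hx⟩ := h7
      refine ⟨te p C t d + x * σ ^ (p ^ j - 1), ?_⟩
      have h8 : (p : Bt p C t) = σ * σ ^ (p ^ j - 1) := by
        rw [← hσp, ← pow_succ']; congr 1
        omega
      have h9 : b = te p C t c + x * (p : Bt p C t) := by rw [hx]; ring
      rw [h9, h6, te_mul, h8]
      ring
    have h10 : b' ^ p - y * σ ^ (p * m) = 0 := by
      apply hσ0 p
      have h11 : σ ^ (p * (m + 1)) = σ ^ p * σ ^ (p * m) := by
        rw [← pow_add]; congr 1; ring
      rw [hb', mul_pow, h11] at hy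
      linear_combination -hy
    have h12 := ih b' (by
      rw [Ideal.mem_span_singleton']
      exact ⟨y, (sub_eq_zero.1 h10).symm⟩)
    rw [Ideal.mem_span_singleton'] at h12 ⊢
    obtain ⟨x, hx⟩ := h12
    exact ⟨x, by rw [hb', ← hx]; ring⟩

/-- (T2): `b^(p^e) ∈ p^(p^e N) B` implies `b ∈ p^N B`. -/
theorem root_closed (e N : ℕ) (b : Bt p C t)
    (h : b ^ (p ^ e) ∈ Ideal.span {(p : Bt p C t) ^ (p ^ e * N)}) :
    b ∈ Ideal.span {(p : Bt p C t) ^ N} := by
  have hσ : te p C t (rt p 1 t) ^ p = (p : Bt p C t) := by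
    have h1 := te_rt_pow_self p C t 1
    rwa [pow_one] at h1
  induction e generalizing b with
  | zero => simpa using h
  | succ e ih =>
    apply ih
    have h2 : b ^ p ^ (e + 1) = (b ^ p ^ e) ^ p := by rw [← pow_mul, pow_succ]
    rw [h2, ← hσ, ← pow_mul] at h
    have h3 : p * (p ^ (e + 1) * N) = p * (p * (p ^ e * N)) := by ring
    rw [h3] at h
    have h4 := root_closed_aux p C t ht 1 le_rfl _ _ h
    rwa [pow_mul, hσ] at h4

end M1

end Vale.Agent.P202.Mix
end

section

/-!
P202, mixed characteristic: the additive normalized length `lam` over a tower of subalgebras.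
-/

namespace Vale.Agent.P202.Mix

open Submodule

/-- A directed union of subalgebras of an `R0`-algebra `R`, with ranks: `sub j` is generated over
`sub i` by `rank j / rank i` elements. -/
structure Tower (R0 R : Type*) [CommRing R0] [CommRing R] [Algebra R0 R] (ι : Type*)
    [Preorder ι] where
  /-- the subalgebras -/
  sub : ι → Subalgebra R0 R
  mono : Monotone sub
  cover : ∀ x : R, ∃ i, x ∈ sub i
  /-- the ranks -/
  rank : ι → ℕ
  rank_pos : ∀ i, 0 < rank i
  fg : ∀ i, (Subalgebra.toSubmodule (sub i)).FG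
  gen : ∀ i j, i ≤ j → ∃ (m : ℕ) (e : Fin m → R), m * rank i = rank j ∧
    (∀ k, e k ∈ sub j) ∧ ∀ x ∈ sub j, ∃ c : Fin m → R, (∀ k, c k ∈ sub i) ∧ x = ∑ k, e k * c k

section Ext

variable {R0 R : Type*} [CommRing R0] [CommRing R] [Algebra R0 R]
variable {N : Type*} [AddCommGroup N] [Module R0 N] [Module R N] [IsScalarTower R0 R N]

/-- The `R0`-submodule generated by the products of elements of `B` and elements of `X`. -/
def ext (B : Subalgebra R0 R) (X : Submodule R0 N) : Submodule R0 N :=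
  map₂ (Algebra.lsmul R0 R0 N).toLinearMap (Subalgebra.toSubmodule B) X

theorem smul_mem_ext {B : Subalgebra R0 R} {X : Submodule R0 N} {b : R} {x : N} (hb : b ∈ B)
    (hx : x ∈ X) : b • x ∈ ext B X :=
  apply_mem_map₂ (f := (Algebra.lsmul R0 R0 N).toLinearMap) hb hx

theorem ext_le {B : Subalgebra R0 R} {X Y : Submodule R0 N}
    (h : ∀ b ∈ B, ∀ x ∈ X, b • x ∈ Y) : ext B X ≤ Y :=
  map₂_le.mpr h

theorem ext_mono {B B' : Subalgebra R0 R} {X X' : Submodule R0 N} (h : B ≤ B') (h' : X ≤ X') :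
    ext B X ≤ ext B' X' :=
  map₂_le_map₂ (fun _ hx => h hx) h'

theorem le_ext (B : Subalgebra R0 R) (X : Submodule R0 N) : X ≤ ext B X := by
  intro x hx
  have := smul_mem_ext (B := B) (b := 1) (one_mem B) hx
  rwa [one_smul] at this

theorem ext_fg {B : Subalgebra R0 R} (hB : (Subalgebra.toSubmodule B).FG) {X : Submodule R0 N}
    (hX : X.FG) : (ext B X).FG :=
  hB.map₂ _ hX

theorem smul_ext_mem {B : Subalgebra R0 R} {X : Submodule R0 N} {b : R} (hb : b ∈ B) {x : N}
    (hx : x ∈ ext B X) : b • x ∈ ext B X := by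
  refine map₂_le (f := (Algebra.lsmul R0 R0 N).toLinearMap) (p := Subalgebra.toSubmodule B)
    (q := X) (r := (ext B X).comap ((Algebra.lsmul R0 R0 N) b)) |>.mpr ?_ hx
  intro c hc y hy
  change b • c • y ∈ ext B X
  rw [smul_smul]
  exact smul_mem_ext (B.mul_mem hb hc) hy

theorem ext_ext {B B' : Subalgebra R0 R} (h : B ≤ B') (X : Submodule R0 N) :
    ext B' (ext B X) = ext B' X := by
  refine le_antisymm (ext_le fun b hb x hx => smul_ext_mem hb (ext_mono h le_rfl hx))
    (ext_mono le_rfl (le_ext B X))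

theorem map_ext {N' : Type*} [AddCommGroup N'] [Module R0 N'] [Module R N']
    [IsScalarTower R0 R N'] (f : N →ₗ[R] N') (B : Subalgebra R0 R) (X : Submodule R0 N) :
    (ext B X).map (f.restrictScalars R0) = ext B (X.map (f.restrictScalars R0)) := by
  refine le_antisymm ?_ ?_
  · rw [map_le_iff_le_comap]
    refine ext_le fun b hb x hx => ?_
    have h1 : f (b • x) = b • f x := map_smul f b x
    have h2 : b • f x ∈ ext B (X.map (f.restrictScalars R0)) :=
      smul_mem_ext hb (mem_map_of_mem (f := f.restrictScalars R0) hx)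
    rw [← h1] at h2
    exact h2
  · refine ext_le fun b hb y hy => ?_
    obtain ⟨x, hx, rfl⟩ := hy
    exact ⟨b • x, smul_mem_ext hb hx, map_smul f b x⟩

/-- An `R`-submodule contains the extension of its `R0`-submodules. -/
theorem ext_le_of_le (N' : Submodule R N) {B : Subalgebra R0 R} {X : Submodule R0 N}
    (h : X ≤ N'.restrictScalars R0) : ext B X ≤ N'.restrictScalars R0 := by
  refine ext_le fun b _ x hx => ?_
  have hx' : x ∈ N' := h hx
  exact N'.smul_mem b hx'

end Ext

section Len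

variable {R0 : Type*} [CommRing R0] {M M' : Type*} [AddCommGroup M] [Module R0 M]
  [AddCommGroup M'] [Module R0 M']

theorem len_map_le (f : M →ₗ[R0] M') (X : Submodule R0 M) :
    Module.length R0 (X.map f) ≤ Module.length R0 X :=
  Module.length_le_of_surjective (f.submoduleMap X) (f.submoduleMap_surjective X)

theorem len_mono {X Y : Submodule R0 M} (h : X ≤ Y) :
    Module.length R0 X ≤ Module.length R0 Y :=
  Module.length_le_of_injective (inclusion h) (inclusion_injective h)

/-- additivity of the length for a submodule `X` and a linear map. -/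
theorem len_ker_map (f : M →ₗ[R0] M') (X : Submodule R0 M) :
    Module.length R0 X =
      Module.length R0 (X ⊓ LinearMap.ker f : Submodule R0 M) +
        Module.length R0 (X.map f) := by
  refine Module.length_eq_add_of_exact (inclusion inf_le_left) (f.submoduleMap X)
    (inclusion_injective _) (f.submoduleMap_surjective X) ?_
  intro x
  constructor
  · intro hx
    have h1 : f x.1 = 0 := congrArg Subtype.val hx
    exact ⟨⟨x.1, x.2, h1⟩, Subtype.ext rfl⟩
  · rintro ⟨y, rfl⟩
    exact Subtype.ext y.2.2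

/-- The key estimate: if `Z` is contained in `∑ e_k Y` (for endomorphisms `e_k`) and `e_k F ≤ Z'`
then `l(Z) ≤ l(Z') + m l(Y/F)`, in the form with a linear map `f` with kernel meeting `Y` in
`F`. -/
theorem len_le_add {m : ℕ} (e : Fin m → M →ₗ[R0] M) (Y Z Z' : Submodule R0 M)
    (f : M →ₗ[R0] M') (hZ : ∀ z ∈ Z, ∃ y : Fin m → M, (∀ k, y k ∈ Y) ∧ z = ∑ k, e k (y k))
    (hF : ∀ k, ∀ y ∈ Y, f y = 0 → e k y ∈ Z') :
    Module.length R0 Z ≤ Module.length R0 Z' + m * Module.length R0 (Y.map f) := by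
  -- the map `Y^m → M`
  let φ : (Fin m → Y) →ₗ[R0] M := ∑ k, (e k) ∘ₗ Y.subtype ∘ₗ LinearMap.proj k
  have hφ : ∀ y : Fin m → Y, φ y = ∑ k, e k (y k) := by
    intro y
    simp [φ]
  -- the map `Y^m → (f Y)^m`
  let ψ : (Fin m → Y) →ₗ[R0] (Fin m → Y.map f) :=
    LinearMap.pi fun k => (f.submoduleMap Y) ∘ₗ LinearMap.proj k
  have hψs : Function.Surjective ψ := by
    intro w
    choose y hy using fun k => f.submoduleMap_surjective Y (w k)
    exact ⟨y, funext hy⟩
  have hker : LinearMap.ker ψ ≤ LinearMap.ker (Z'.mkQ ∘ₗ φ) := by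
    intro y hy
    rw [LinearMap.mem_ker] at hy ⊢
    rw [LinearMap.comp_apply, hφ, mkQ_apply, Quotient.mk_eq_zero]
    refine sum_mem fun k _ => hF k _ (y k).2 ?_
    exact congrArg Subtype.val (congrFun hy k)
  have h1 : Module.length R0 Z ≤ Module.length R0 Z' + Module.length R0 (Z.map Z'.mkQ) := by
    rw [len_ker_map Z'.mkQ Z]
    refine add_le_add (len_mono ?_) le_rfl
    rw [ker_mkQ]
    exact inf_le_right
  refine h1.trans (add_le_add le_rfl ?_)
  have h2 : Z.map Z'.mkQ ≤ LinearMap.range (Z'.mkQ ∘ₗ φ) := by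
    rintro _ ⟨z, hz, rfl⟩
    obtain ⟨y, hy, rfl⟩ := hZ z hz
    exact ⟨fun k => ⟨y k, hy k⟩, by rw [LinearMap.comp_apply, hφ]⟩
  refine (len_mono h2).trans ?_
  have h3 : Module.length R0 (LinearMap.range (Z'.mkQ ∘ₗ φ)) ≤
      Module.length R0 (Fin m → Y.map f) := by
    -- factor through `ψ`
    have e1 := (Z'.mkQ ∘ₗ φ).quotKerEquivRange.length_eq
    have e2 := (ψ.quotKerEquivOfSurjective hψs).length_eq
    rw [← e1, ← e2]
    exact Module.length_le_of_surjective (factor hker) (factor_surjective hker)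
  refine h3.trans ?_
  rw [Module.length_pi_of_fintype, Finset.sum_const, Finset.card_univ, Fintype.card_fin,
    nsmul_eq_mul]

/-- an inequality of lengths over `R0` for restricted maps. -/
theorem len_map_eq {f : M →ₗ[R0] M'} (hf : Function.Injective f) (X : Submodule R0 M) :
    Module.length R0 (X.map f) = Module.length R0 X :=
  ((X.equivMapOfInjective f hf).length_eq).symm

end Len

namespace Tower

variable {R0 R : Type*} [CommRing R0] [CommRing R] [Algebra R0 R] {ι : Type*} [Preorder ι]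
variable (T : Tower R0 R ι)
variable {N : Type*} [AddCommGroup N] [Module R0 N] [Module R N] [IsScalarTower R0 R N]
variable {N' : Type*} [AddCommGroup N'] [Module R0 N'] [Module R N'] [IsScalarTower R0 R N']
variable {N'' : Type*} [AddCommGroup N''] [Module R0 N''] [Module R N'']
  [IsScalarTower R0 R N'']

/-- the length of `sub i * X` -/
noncomputable def len (i : ι) (X : Submodule R0 N) : ℕ∞ := Module.length R0 (ext (T.sub i) X)

/-- the normalized length of `sub i * X` -/
noncomputable def nlen (i : ι) (X : Submodule R0 N) : ENNReal :=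
  ((T.len i X : ℕ∞) : ENNReal) / (T.rank i : ENNReal)

/-- the normalized length of the `R`-module generated by `X` -/
noncomputable def lamX (X : Submodule R0 N) : ENNReal := ⨅ i, T.nlen i X

variable (N) in
/-- the additive normalized length -/
noncomputable def lam : ENNReal := ⨆ (X : Submodule R0 N) (_ : X.FG), T.lamX X

variable (N) in
/-- locally finite modules: the `R0`-modules `sub i * X` have finite length. -/
def LF : Prop := ∀ (X : Submodule R0 N), X.FG → Module.length R0 X ≠ ⊤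

theorem rank_ne_zero (i : ι) : (T.rank i : ENNReal) ≠ 0 := by
  exact_mod_cast (T.rank_pos i).ne'

theorem exists_gen {i j : ι} (h : i ≤ j) (X : Submodule R0 N) :
    ∃ (m : ℕ) (e : Fin m → N →ₗ[R0] N), m * T.rank i = T.rank j ∧
      (∀ k, ∃ r : R, r ∈ T.sub j ∧ ∀ x, e k x = r • x) ∧
      ∀ z ∈ ext (T.sub j) X, ∃ y : Fin m → N,
        (∀ k, y k ∈ ext (T.sub i) X) ∧ z = ∑ k, e k (y k) := by
  obtain ⟨m, e, hm, hmem, he⟩ := T.gen i j h
  refine ⟨m, fun k => Algebra.lsmul R0 R0 N (e k), hm, fun k => ⟨e k, hmem k, fun x => rfl⟩, ?_⟩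
  intro z hz
  have hz' : z ∈ LinearMap.range (∑ k, (Algebra.lsmul R0 R0 N (e k)) ∘ₗ
      (ext (T.sub i) X).subtype ∘ₗ LinearMap.proj (φ := fun _ : Fin m => ext (T.sub i) X) k) := by
    refine ext_le ?_ hz
    intro b hb x hx
    obtain ⟨c, hc, rfl⟩ := he b hb
    refine ⟨fun k => ⟨c k • x, smul_mem_ext (hc k) hx⟩, ?_⟩
    rw [LinearMap.sum_apply, Finset.sum_smul]
    refine Finset.sum_congr rfl fun k _ => ?_
    exact (mul_smul (e k) (c k) x).symm
  obtain ⟨y, hy⟩ := hz'
  refine ⟨fun k => y k, fun k => (y k).2, ?_⟩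
  rw [← hy, LinearMap.sum_apply]
  rfl

/-- the division by the rank, and an estimate with a factor `m` -/
theorem div_rank_le {i j : ι} {m : ℕ} (hm : m * T.rank i = T.rank j) {a b c : ℕ∞}
    (h : a ≤ b + m * c) :
    (a : ENNReal) / (T.rank j : ENNReal) ≤
      (b : ENNReal) / (T.rank j : ENNReal) + (c : ENNReal) / (T.rank i : ENNReal) := by
  have h1 : (a : ENNReal) ≤ (b : ENNReal) + (m : ENNReal) * (c : ENNReal) := by
    have := (ENat.toENNReal_le (m := a) (n := b + m * c)).mpr h
    rwa [ENat.toENNReal_add, ENat.toENNReal_mul, ENat.toENNReal_coe] at this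
  refine (ENNReal.div_le_div_right h1 _).trans ?_
  rw [ENNReal.add_div]
  refine add_le_add le_rfl ?_
  have hr : (T.rank j : ENNReal) = (m : ENNReal) * (T.rank i : ENNReal) := by
    rw [← hm]; push_cast; rfl
  have hm0 : (m : ENNReal) ≠ 0 := by
    intro h0
    rw [h0, zero_mul] at hr
    exact T.rank_ne_zero j hr
  rw [hr, ENNReal.mul_div_mul_left _ _ hm0 (ENNReal.natCast_ne_top m)]

theorem nlen_anti {i j : ι} (h : i ≤ j) (X : Submodule R0 N) : T.nlen j X ≤ T.nlen i X := by
  obtain ⟨m, e, hm, -, he⟩ := T.exists_gen h X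
  have h1 : T.len j X ≤ 0 + m * T.len i X := by
    have := len_le_add e (ext (T.sub i) X) (ext (T.sub j) X) ⊥ LinearMap.id he
      (by rintro k y - hy; rw [LinearMap.id_apply] at hy; rw [hy, map_zero]; exact zero_mem _)
    rw [map_id] at this
    refine this.trans (le_of_eq ?_)
    rw [show Module.length R0 (⊥ : Submodule R0 N) = 0 from Module.length_eq_zero]
    rfl
  have := T.div_rank_le hm h1
  rw [ENat.toENNReal_zero, ENNReal.zero_div, zero_add] at this
  exact this

theorem lamX_le_nlen (i : ι) (X : Submodule R0 N) : T.lamX X ≤ T.nlen i X := iInf_le _ i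

theorem lamX_le_lam {X : Submodule R0 N} (hX : X.FG) : T.lamX X ≤ T.lam N :=
  le_iSup₂ (f := fun (X : Submodule R0 N) (_ : X.FG) => T.lamX X) X hX

theorem lam_le {a : ENNReal} (h : ∀ X : Submodule R0 N, X.FG → T.lamX X ≤ a) : T.lam N ≤ a :=
  iSup₂_le h

theorem nlen_map_eq (i : ι) {f : N →ₗ[R] N'} (hf : Function.Injective f) (X : Submodule R0 N) :
    T.nlen i (X.map (f.restrictScalars R0)) = T.nlen i X := by
  rw [nlen, nlen, len, len, ← map_ext, len_map_eq (f := f.restrictScalars R0) hf]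

theorem lamX_map_eq {f : N →ₗ[R] N'} (hf : Function.Injective f) (X : Submodule R0 N) :
    T.lamX (X.map (f.restrictScalars R0)) = T.lamX X :=
  iInf_congr fun i => T.nlen_map_eq i hf X

theorem exists_fg_lift {f : N →ₗ[R] N'} (hf : Function.Surjective f) {X : Submodule R0 N'}
    (hX : X.FG) : ∃ Y : Submodule R0 N, Y.FG ∧ Y.map (f.restrictScalars R0) = X := by
  classical
  obtain ⟨s, rfl⟩ := hX
  choose g hg using hf
  refine ⟨span R0 (s.image g : Finset N), fg_span (Finset.finite_toSet _), ?_⟩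
  rw [map_span]
  congr 1
  ext x
  simp only [Finset.coe_image, Set.mem_image, LinearMap.coe_restrictScalars, exists_exists_and_eq_and]
  constructor
  · rintro ⟨y, hy, rfl⟩
    rwa [hg]
  · intro hx
    exact ⟨x, hx, hg x⟩

/-- superadditivity -/
theorem lamX_add_le (f : N →ₗ[R] N') {F X : Submodule R0 N} (hFX : F ≤ X)
    (hF : ∀ x ∈ F, f x = 0) :
    T.lamX F + T.lamX (X.map (f.restrictScalars R0)) ≤ T.lamX X := by
  refine le_iInf fun i => ?_
  refine (add_le_add (T.lamX_le_nlen i F) (T.lamX_le_nlen i _)).trans ?_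
  rw [nlen, nlen, nlen, ← ENNReal.add_div]
  refine ENNReal.div_le_div_right ?_ _
  rw [← ENat.toENNReal_add, ENat.toENNReal_le, len, len, len, ← map_ext,
    len_ker_map (f.restrictScalars R0) (ext (T.sub i) X)]
  refine add_le_add (len_mono (le_inf (ext_mono le_rfl hFX) ?_)) le_rfl
  intro x hx
  rw [LinearMap.mem_ker]
  exact ext_le_of_le (LinearMap.ker f) (X := F) (fun y hy => hF y hy) hx

/-- approximate subadditivity -/
theorem lamX_le_add [IsDirectedOrder ι] (hN : LF (R0 := R0) N) (f : N →ₗ[R] N')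
    {X : Submodule R0 N} (hX : X.FG) {ε : ENNReal} (hε : ε ≠ 0) :
    ∃ F : Submodule R0 N, F.FG ∧ (∀ x ∈ F, f x = 0) ∧
      T.lamX X ≤ T.lamX F + (T.lamX (X.map (f.restrictScalars R0)) + ε) := by
  by_cases htop : T.lamX (X.map (f.restrictScalars R0)) = ⊤
  · exact ⟨⊥, fg_bot, by simp, by rw [htop]; simp⟩
  have hlt : T.lamX (X.map (f.restrictScalars R0)) <
      T.lamX (X.map (f.restrictScalars R0)) + ε := ENNReal.lt_add_right htop hε
  obtain ⟨i, hi⟩ := iInf_lt_iff.mp hlt
  have hfg : (ext (T.sub i) X).FG := ext_fg (T.fg i) hX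
  -- the submodule of `ext (sub i) X` killed by `f`
  let F : Submodule R0 N := ext (T.sub i) X ⊓ LinearMap.ker (f.restrictScalars R0)
  have hFfg : F.FG := by
    have h1 : Module.length R0 F ≠ ⊤ := by
      refine ne_top_of_le_ne_top (hN _ hfg) (len_mono inf_le_left)
    have h2 : IsFiniteLength R0 F := Module.length_ne_top_iff.mp h1
    have := (isFiniteLength_iff_isNoetherian_isArtinian.mp h2).1
    exact (Submodule.fg_top F).mp (IsNoetherian.noetherian ⊤)
  refine ⟨F, hFfg, fun x hx => hx.2, ?_⟩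
  refine le_trans ?_ (add_le_add le_rfl hi.le)
  -- estimate for every `j ≥ i`
  have key : ∀ j, i ≤ j → T.nlen j X ≤ T.nlen j F + T.nlen i (X.map (f.restrictScalars R0)) := by
    intro j hij
    obtain ⟨m, e, hm, he1, he2⟩ := T.exists_gen hij X
    refine T.div_rank_le hm ?_
    have := len_le_add e (ext (T.sub i) X) (ext (T.sub j) X) (ext (T.sub j) F)
      (f.restrictScalars R0) he2 ?_
    · rwa [map_ext] at this
    · intro k y hy hfy
      obtain ⟨r, hr, hre⟩ := he1 k
      rw [hre]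
      exact smul_mem_ext hr ⟨hy, hfy⟩
  have h3 : T.lamX X ≤ ⨅ j, (T.nlen j F + T.nlen i (X.map (f.restrictScalars R0))) := by
    refine le_iInf fun j => ?_
    obtain ⟨l, hil, hjl⟩ := exists_ge_ge i j
    exact (T.lamX_le_nlen l X).trans ((key l hil).trans
      (add_le_add (T.nlen_anti hjl F) le_rfl))
  refine h3.trans (le_of_eq ?_)
  rw [lamX, ENNReal.iInf_add]

/-- ADDITIVITY of the normalized length. -/
theorem lam_eq_add [IsDirectedOrder ι] (hN : LF (R0 := R0) N) {f : N' →ₗ[R] N}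
    {g : N →ₗ[R] N''} (hf : Function.Injective f) (hg : Function.Surjective g)
    (hfg : Function.Exact f g) : T.lam N = T.lam N' + T.lam N'' := by
  refine le_antisymm ?_ ?_
  · refine T.lam_le fun X hX => ?_
    refine ENNReal.le_of_forall_pos_le_add fun ε hε _ => ?_
    obtain ⟨F, hF1, hF2, hF3⟩ := T.lamX_le_add hN g hX (ε := ε) (by exact_mod_cast hε.ne')
    refine hF3.trans ?_
    rw [← add_assoc]
    refine add_le_add (add_le_add ?_ (T.lamX_le_lam (hX.map _))) le_rfl
    -- `F` comes from `N'`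
    have hFr : F ≤ LinearMap.range (f.restrictScalars R0) := by
      intro x hx
      obtain ⟨y, hy⟩ := (hfg x).mp (hF2 x hx)
      exact ⟨y, hy⟩
    have hFeq : (F.comap (f.restrictScalars R0)).map (f.restrictScalars R0) = F := by
      rw [map_comap_eq, inf_eq_right.mpr hFr]
    rw [← hFeq, T.lamX_map_eq hf]
    refine T.lamX_le_lam ?_
    refine fg_of_fg_map_injective (f.restrictScalars R0) hf ?_
    rw [hFeq]; exact hF1
  · refine ENNReal.biSup_add_biSup_le' ⟨⊥, fg_bot⟩ ⟨⊥, fg_bot⟩ fun X hX Y hY => ?_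
    obtain ⟨Z, hZ, rfl⟩ := exists_fg_lift hg hY
    have h1 := T.lamX_add_le g (F := X.map (f.restrictScalars R0))
      (X := X.map (f.restrictScalars R0) ⊔ Z) le_sup_left (by
        rintro _ ⟨x, -, rfl⟩
        exact hfg.apply_apply_eq_zero x)
    have h2 : (X.map (f.restrictScalars R0) ⊔ Z).map (g.restrictScalars R0) =
        Z.map (g.restrictScalars R0) := by
      rw [Submodule.map_sup, sup_eq_right.mpr]
      rintro _ ⟨_, ⟨x, -, rfl⟩, rfl⟩
      have : g (f x) = 0 := hfg.apply_apply_eq_zero x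
      change g (f x) ∈ _
      rw [this]
      exact zero_mem _
    rw [h2, T.lamX_map_eq hf] at h1
    exact h1.trans (T.lamX_le_lam ((hX.map _).sup hZ))

end Tower

end Vale.Agent.P202.Mix
end

section

/-!
P202, mixed characteristic: additive length functions (`AddLen`) from the normalized length.
-/

namespace Vale.Agent.P202.Mix

open Submodule
open scoped ENNReal

universe u v w

/-- A module killed by an ideal `J` of finite colength is locally finite. -/
theorem Tower.lf_of_smul_eq_zero {R0 : Type*} [CommRing R0] (J : Ideal R0)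
    (hJ : Module.length R0 (R0 ⧸ J) ≠ ⊤) {N : Type*} [AddCommGroup N] [Module R0 N]
    (h : ∀ a ∈ J, ∀ x : N, a • x = 0) : Tower.LF (R0 := R0) N := by
  rintro X ⟨s, rfl⟩
  -- a surjection `(R0/J)^s → X`
  let f : (s → R0 ⧸ J) →ₗ[R0] N := ∑ i : s, (J.liftQ (LinearMap.toSpanSingleton R0 N (i : N))
    (fun a ha => by
      rw [LinearMap.mem_ker, LinearMap.toSpanSingleton_apply]
      exact h a ha _)) ∘ₗ LinearMap.proj i
  have hf : ∀ z, f z = ∑ i : s, (J.liftQ (LinearMap.toSpanSingleton R0 N (i : N))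
    (fun a ha => by
      rw [LinearMap.mem_ker, LinearMap.toSpanSingleton_apply]
      exact h a ha _)) (z i) := by
    intro z
    simp [f]
  have hle : span R0 (s : Set N) ≤ LinearMap.range f := by
    classical
    rw [span_le]
    intro x hx
    refine ⟨Pi.single ⟨x, hx⟩ (Ideal.Quotient.mk J 1), ?_⟩
    rw [hf, Finset.sum_eq_single (⟨x, hx⟩ : s)]
    · rw [Pi.single_eq_same]
      exact one_smul R0 x
    · intro b _ hb
      rw [Pi.single_eq_of_ne hb, map_zero]
    · intro h'
      exact absurd (Finset.mem_univ _) h'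
  refine ne_top_of_le_ne_top ?_ (len_mono hle)
  refine ne_top_of_le_ne_top ?_ (Module.length_le_of_surjective f.rangeRestrict
    f.surjective_rangeRestrict)
  rw [Module.length_pi_of_fintype, Finset.sum_const, Finset.card_univ, nsmul_eq_mul]
  obtain ⟨l, hl⟩ := ENat.ne_top_iff_exists.mp hJ
  rw [← hl]
  exact_mod_cast ENat.natCast_ne_top _

section lenR

variable {R0 : Type v} {Ri : Type w} [CommRing R0] [CommRing Ri] [Algebra R0 Ri] {ι : Type*}
  [Preorder ι] (T : Tower R0 Ri ι)

/-- the normalized length of a module over an `Ri`-algebra `R`. -/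
noncomputable def Tower.lenR (R : Type*) [CommRing R] [Algebra Ri R] (M : Type*) [AddCommGroup M]
    [Module R M] : ℝ≥0∞ :=
  letI : Module Ri M := Module.compHom M (algebraMap Ri R)
  letI : Module R0 M := Module.compHom M ((algebraMap Ri R).comp (algebraMap R0 Ri))
  haveI : IsScalarTower R0 Ri M := ⟨fun a b x => by
    change (algebraMap Ri R (a • b)) • x = (algebraMap Ri R (algebraMap R0 Ri a)) •
      ((algebraMap Ri R b) • x)
    rw [smul_smul, ← map_mul, Algebra.smul_def]⟩
  T.lam M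

/-- if the modules are already given. -/
theorem Tower.lenR_eq (R : Type*) [CommRing R] [Algebra Ri R] (M : Type*) [AddCommGroup M]
    [Module R M] [Module Ri M] [Module R0 M] [IsScalarTower Ri R M] [IsScalarTower R0 Ri M] :
    T.lenR R M = T.lam M := by
  unfold Tower.lenR
  have h1 : Module.compHom M (algebraMap Ri R) = ‹Module Ri M› := by
    refine Module.ext' _ _ fun a x => ?_
    change (algebraMap Ri R a) • x = a • x
    rw [algebraMap_smul]
  have h2 : Module.compHom M ((algebraMap Ri R).comp (algebraMap R0 Ri)) = ‹Module R0 M› := by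
    refine Module.ext' _ _ fun a x => ?_
    change (algebraMap Ri R (algebraMap R0 Ri a)) • x = a • x
    rw [algebraMap_smul, algebraMap_smul]
  subst h1 h2
  rfl

theorem Tower.lenR_subsingleton (R : Type*) [CommRing R] [Algebra Ri R] (M : Type*)
    [AddCommGroup M] [Module R M] [Nonempty ι] [Subsingleton M] : T.lenR R M = 0 := by
  unfold Tower.lenR
  refine le_antisymm ?_ bot_le
  refine @Tower.lam_le R0 Ri _ _ _ ι _ T M _ (_) (_) (_) 0 fun X _ => ?_
  refine (@Tower.lamX_le_nlen R0 Ri _ _ _ ι _ T M _ (_) (_) (_) (Classical.arbitrary ι) X).trans ?_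
  rw [Tower.nlen, Tower.len, Module.length_eq_zero]
  simp

end lenR

section comap

/-- restriction of an additive length along a ring homomorphism: the length of
`R'`-modules after restriction of scalars along `φ : R → R'`. -/
noncomputable def AddLen.restrict {R R' : Type u} [CommRing R] [CommRing R'] (L : AddLen R)
    (φ : R →+* R') : AddLen R' where
  len M _ _ := letI := Module.compHom M φ; L.len M
  zero := by
    have : Module.compHom PUnit.{u+1} φ = (inferInstance : Module R PUnit.{u+1}) :=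
      Module.ext' _ _ fun a x => rfl
    rw [this]
    exact L.zero
  add {M N K} _ _ _ _ _ _ f g hf hg hfg := by
    let _ := Module.compHom M φ
    let _ := Module.compHom N φ
    let _ := Module.compHom K φ
    let f' : M →ₗ[R] N := { f with map_smul' := fun a x => map_smul f (φ a) x }
    let g' : N →ₗ[R] K := { g with map_smul' := fun a x => map_smul g (φ a) x }
    exact L.add f' g' hf hg hfg

end comap

end Vale.Agent.P202.Mix
end

section

/-!
P202 MIX, M15a: the form of `γ = δ + δ'`.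
-/

namespace Vale.Agent.P202.Mix

open Polynomial TensorProduct IsLocalRing
open scoped ENNReal

universe u

section Gf

variable (p : ℕ) [Fact p.Prime] (C : Type u) [CommRing C] [CharP C p] [PerfectRing C p] (t : C)
  (ht : t ∈ nonZeroDivisors C)

include ht

theorem gf_root (δ : C) (G' : Bt p C t) (a K M : ℕ) (hM : a * (p ^ K - 1) ≤ M)
    (h : te p C t δ * te p C t δ - (p : Bt p C t) ^ a * G' * te p C t δ ∈
      Ideal.span {(p : Bt p C t) ^ M}) :
    ∃ δ1 : C, δ = rt p K t ^ (a * (p ^ K - 1)) * δ1 := by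
  obtain ⟨G, hG⟩ : ∃ G, G = (p : Bt p C t) ^ a * G' := ⟨_, rfl⟩
  rw [← hG] at h
  have h1 : ∀ n : ℕ, te p C t δ ^ (n + 1) - G ^ n * te p C t δ ∈
      Ideal.span {(p : Bt p C t) ^ M} := by
    intro n
    induction n with
    | zero =>
      rw [zero_add, pow_one, pow_zero, one_mul, sub_self]
      exact zero_mem _
    | succ n ih =>
      have h2 : te p C t δ ^ (n + 1 + 1) - G ^ (n + 1) * te p C t δ =
          te p C t δ * (te p C t δ ^ (n + 1) - G ^ n * te p C t δ) +
            G ^ n * (te p C t δ * te p C t δ - G * te p C t δ) := by ring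
      rw [h2]
      exact add_mem (Ideal.mul_mem_left _ _ ih) (Ideal.mul_mem_left _ _ h)
  have hp1 : 1 ≤ p ^ K := Nat.one_le_pow _ _ (Fact.out : p.Prime).pos
  have h2 := h1 (p ^ K - 1)
  rw [Nat.sub_add_cancel hp1] at h2
  have h3 : te p C t (δ ^ p ^ K) ∈ Ideal.span {(p : Bt p C t) ^ (a * (p ^ K - 1))} := by
    rw [te_pow]
    have h4 : Ideal.span {(p : Bt p C t) ^ M} ≤ Ideal.span {(p : Bt p C t) ^ (a * (p ^ K - 1))} :=
      Ideal.span_singleton_le_span_singleton.2 (pow_dvd_pow _ hM)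
    have h5 : G ^ (p ^ K - 1) * te p C t δ ∈ Ideal.span {(p : Bt p C t) ^ (a * (p ^ K - 1))} := by
      rw [Ideal.mem_span_singleton, hG, mul_pow, ← pow_mul, mul_assoc]
      exact Dvd.intro _ rfl
    have h6 := add_mem (h4 h2) h5
    rwa [sub_add_cancel] at h6
  have h4 := mem_of_te_mem p C t ht _ _ h3
  rw [Ideal.mem_span_singleton'] at h4
  obtain ⟨w, hw⟩ := h4
  refine ⟨rt p K w, ?_⟩
  apply (iterateFrobeniusEquiv C p K).injective
  rw [iterateFrobeniusEquiv_def, iterateFrobeniusEquiv_def, mul_pow, ← pow_mul,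
    mul_comm (a * (p ^ K - 1)) (p ^ K), pow_mul, rt_pow_self, rt_pow_self, ← hw, mul_comm]

theorem gf_cancel (K j : ℕ) (b : Bt p C t) (h : te p C t (rt p K t) ^ j * b = 0) : b = 0 := by
  apply p_pow_mul_eq_zero p C t ht j
  have hp1 : 1 ≤ p ^ K := Nat.one_le_pow _ _ (Fact.out : p.Prime).pos
  have h1 : (p : Bt p C t) ^ j = te p C t (rt p K t) ^ (j * (p ^ K - 1)) *
      te p C t (rt p K t) ^ j := by
    rw [← te_rt_pow_self p C t K, ← pow_mul, ← pow_add]
    congr 1
    calc p ^ K * j = j * ((p ^ K - 1) + 1) := by rw [Nat.sub_add_cancel hp1, mul_comm]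
      _ = j * (p ^ K - 1) + j := by ring
  rw [h1, mul_assoc, h, mul_zero]

theorem gf_sum (δ1 δ1' : C) (G' : Bt p C t) (a K M : ℕ) (hM : a + 1 ≤ M)
    (h : te p C t (rt p K t ^ (a * (p ^ K - 1)) * δ1) +
      te p C t (rt p K t ^ (a * (p ^ K - 1)) * δ1') - (p : Bt p C t) ^ a * G' ∈
      Ideal.span {(p : Bt p C t) ^ M}) :
    te p C t δ1 + te p C t δ1' - te p C t (rt p K t ^ a) * G' ∈ Ideal.span {(p : Bt p C t)} := by
  have hp1 : 1 ≤ p ^ K := Nat.one_le_pow _ _ (Fact.out : p.Prime).pos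
  obtain ⟨q, hq⟩ : ∃ q, p ^ K = q + 1 := ⟨p ^ K - 1, by omega⟩
  obtain ⟨M', rfl⟩ : ∃ M', M = a + 1 + M' := ⟨M - (a + 1), by omega⟩
  have hpt := te_rt_pow_self p C t K
  rw [hq] at hpt h
  rw [Nat.add_sub_cancel, te_mul, te_mul, te_pow, Ideal.mem_span_singleton'] at h
  obtain ⟨b, hb⟩ := h
  rw [te_pow, Ideal.mem_span_singleton']
  obtain ⟨T, hT⟩ : ∃ T, T = te p C t (rt p K t) := ⟨_, rfl⟩
  refine ⟨b * (p : Bt p C t) ^ M' * T ^ a, ?_⟩
  rw [← sub_eq_zero]
  apply gf_cancel p C t ht K (a * q)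
  rw [← hT] at hpt hb ⊢
  have h1 : (p : Bt p C t) ^ a = T ^ (a * q) * T ^ a := by
    rw [← hpt, ← pow_mul, ← pow_add]
    congr 1
    ring
  have h2 : (p : Bt p C t) ^ (a + 1 + M') = T ^ (a * q) * T ^ a * (p * p ^ M') := by
    rw [← h1]
    ring
  rw [h2] at hb
  rw [h1] at hb
  linear_combination hb

/-- conclusion inside `C`. -/
theorem gf_main (δ δ' : C) (W : WittVector p C) (g0 y : C) (hW : W.coeff 0 = g0 + t * y)
    (a I : ℕ) (hI : a * p ^ (a + 1) + a ≤ I)
    (h1 : te p C t δ * te p C t δ - (p : Bt p C t) ^ a * toB p C t W * te p C t δ ∈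
      Ideal.span {(p : Bt p C t) ^ (I + 1)})
    (h2 : te p C t δ' * te p C t δ' - (p : Bt p C t) ^ a * toB p C t W * te p C t δ' ∈
      Ideal.span {(p : Bt p C t) ^ (I + 1)})
    (h3 : te p C t δ + te p C t δ' - (p : Bt p C t) ^ a * toB p C t W ∈
      Ideal.span {(p : Bt p C t) ^ (I + 1)}) :
    ∃ x : C, δ + δ' = t ^ a * (g0 + rt p 1 t * x) := by
  have hpp : p.Prime := Fact.out
  have hle : a * (p ^ (a + 1) - 1) ≤ I + 1 := by
    have : a * (p ^ (a + 1) - 1) ≤ a * p ^ (a + 1) := Nat.mul_le_mul_left _ (Nat.sub_le _ _)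
    omega
  obtain ⟨δ1, rfl⟩ := gf_root p C t ht δ _ a (a + 1) (I + 1) hle h1
  obtain ⟨δ1', rfl⟩ := gf_root p C t ht δ' _ a (a + 1) (I + 1) hle h2
  have h4 := gf_sum p C t ht δ1 δ1' _ a (a + 1) (I + 1) (by omega) h3
  obtain ⟨π, hπ, -, hk⟩ := exists_proj p C t
  rw [← hk, RingHom.mem_ker, map_sub, map_add, map_mul, te, te, te, hπ, hπ, hπ, hπ,
    WittVector.teichmuller_coeff_zero, WittVector.teichmuller_coeff_zero,
    WittVector.teichmuller_coeff_zero, ← map_add, ← map_mul, ← map_sub,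
    Ideal.Quotient.eq_zero_iff_mem, Ideal.mem_span_singleton'] at h4
  obtain ⟨x, hx⟩ := h4
  rw [hW] at hx
  -- exponents
  have hpa : a < p ^ a := Nat.lt_pow_self hpp.one_lt
  have hpk : p ^ a + a ≤ p ^ (a + 1) := by
    have : p ^ (a + 1) = p ^ a * p := pow_succ _ _
    have h2p : p ^ a * 2 ≤ p ^ a * p := Nat.mul_le_mul_left _ hpp.two_le
    omega
  obtain ⟨T, hT⟩ : ∃ T, T = rt p (a + 1) t := ⟨_, rfl⟩
  have hTt : T ^ p ^ (a + 1) = t := by rw [hT, rt_pow_self]
  have hrt : rt p 1 t = T ^ p ^ a := by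
    apply (iterateFrobeniusEquiv C p 1).injective
    rw [iterateFrobeniusEquiv_def, iterateFrobeniusEquiv_def, rt_pow_self, ← pow_mul, ← pow_add,
      hTt]
  rw [← hT] at hx ⊢
  refine ⟨T ^ (p ^ (a + 1) - a - p ^ a) * (x + T ^ a * y), ?_⟩
  have h5 : t ^ a = T ^ (a * (p ^ (a + 1) - 1)) * T ^ a := by
    rw [← hTt, ← pow_mul, ← pow_add]
    congr 1
    obtain ⟨q, hq⟩ : ∃ q, p ^ (a + 1) = q + 1 := ⟨p ^ (a + 1) - 1, by omega⟩
    rw [hq, Nat.add_sub_cancel]
    ring
  have h6 : T ^ a * (T ^ p ^ a * T ^ (p ^ (a + 1) - a - p ^ a)) = t := by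
    rw [← pow_add, ← pow_add, ← hTt]
    congr 1
    omega
  have hx' : δ1 + δ1' = T ^ a * g0 + t * (x + T ^ a * y) := by linear_combination -hx
  rw [← mul_add, hx', h5, hrt]
  linear_combination T ^ (a * (p ^ (a + 1) - 1)) * (x + T ^ a * y) * (-h6)

end Gf

variable {p : ℕ} [Fact p.Prime] {k : Type u} [Field k] [CharP k p] {r : ℕ}
variable {Λ : Type u} [CommRing Λ] [IsLocalRing Λ] {u : Fin r → Λ}
  {ψ : Λ →+* WittVector p (Rp p k r)}
  {red : Λ →+* R0 k r ⧸ Ideal.span {(MvPowerSeries.X 0 : R0 k r)}}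
  {ι : Type u} {b : ι → Λ} {β : ι → k} {res : ResidueField Λ →+* k}
variable {A S : Type u} [CommRing A] [CommRing S] [IsLocalRing A] [IsLocalRing S]
  [IsNoetherianRing A] [IsNoetherianRing S]
  [Algebra Λ A] [Algebra A S] [IsLocalHom (algebraMap Λ A)] [IsLocalHom (algebraMap A S)]

section M15

theorem gf_tC {r0 : ℕ} (d : PExt.{u} p k r r0) : tC p k r d.C ∈ nonZeroDivisors d.C := by
  have := d.flat
  have h := Module.Flat.isSMulRegular_of_nonZeroDivisors (M := d.C)
    (xp_mem_nonZeroDivisors p k r 0)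
  rw [mem_nonZeroDivisors_iff_right]
  intro y hy
  apply h
  show xp p k r 0 • y = xp p k r 0 • (0 : d.C)
  rw [smul_zero, Algebra.smul_def, mul_comm]
  exact hy

/-- evaluation of a polynomial which is a product modulo an ideal. -/
theorem gf_eval {B : Type u} [CommRing B] (J : Ideal B) {D : ℕ} (f : B[X]) (c : Fin D → B)
    (h : ∀ n, (f - ∏ i, (X - Polynomial.C (c i))).coeff n ∈ J) (i : Fin D) : f.eval (c i) ∈ J := by
  have h1 : (f - ∏ i, (X - Polynomial.C (c i))).eval (c i) ∈ J := by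
    rw [Polynomial.eval_eq_sum_range]
    exact Ideal.sum_mem _ fun n _ => Ideal.mul_mem_right _ _ (h n)
  rw [Polynomial.eval_sub, Polynomial.eval_prod, Finset.prod_eq_zero (Finset.mem_univ i)
    (by rw [Polynomial.eval_sub, Polynomial.eval_X, Polynomial.eval_C, sub_self]), sub_zero] at h1
  exact h1

/-- TASK M15a: the form of `γ = δ + δ'`. -/
theorem gamma_form (hb : IsBase p k r Λ u ψ red) (g : Λ)
    (hg : ∃ (a : ℕ) (g' : Λ), g = (p : Λ) ^ a * g' ∧ g' ∉ Ideal.span {(p : Λ)}) :
    ∃ (a : ℕ) (g' : R0 k r) (I0 : ℕ), g' ∉ Ideal.span {(MvPowerSeries.X 0 : R0 k r)} ∧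
      ∀ {s D : ℕ} (a' : Fin s → A) (F : Fin s → Λ[X]) (E : MvPolynomial (Fin s) Λ),
        MvPolynomial.aeval a' E = algebraMap Λ A g →
        (∀ f : MvPolynomial (Fin s) Λ, MvPolynomial.aeval a' f = 0 →
          E * f ∈ Ideal.span (Set.range fun j => Polynomial.toMvPolynomial j (F j))) →
        ∀ (I r0 : ℕ) (_ : I0 ≤ I) (d : CData.{u} ψ (D := D) F E g I r0) (π : Fin s → Fin D),
          ∃ x : d.C, d.δ π + d.δ' π = tC p k r d.C ^ a *
            (algebraMap (Rp p k r) d.C (PerfectClosure.of (R0 k r) p g') +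
              rt p 1 (tC p k r d.C) * x) := by
  obtain ⟨a, g', hgg, hg'⟩ := hg
  obtain ⟨g0, y, hred, hcoeff⟩ := hb.red_coeff g'
  refine ⟨a, g0, a * p ^ (a + 1) + a, fun h0 => hg' (hb.red_ker g' ?_), ?_⟩
  · rw [hred, Ideal.Quotient.eq_zero_iff_mem]
    exact h0
  intro s D a' F E hE hf I r0 hI d π
  obtain ⟨Eπ, hEπ⟩ : ∃ z, z = MvPolynomial.eval₂ (laB ψ d.C)
    (fun j => te p d.C (tC p k r d.C) (d.c j (π j))) E := ⟨_, rfl⟩
  have hδ := d.hδ π
  have hδ' := d.hδ' π
  rw [← hEπ] at hδ hδ'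
  -- the relation
  have hrel : Eπ * (Eπ - laB ψ d.C g) ∈
      Ideal.span {(p : Bt p d.C (tC p k r d.C)) ^ (I + 1)} := by
    have h1 := hf (E - MvPolynomial.C g) (by
      rw [map_sub, hE, MvPolynomial.aeval_C, sub_self])
    have h2 : Ideal.span (Set.range fun j => Polynomial.toMvPolynomial j (F j)) ≤
        (Ideal.span {(p : Bt p d.C (tC p k r d.C)) ^ (I + 1)}).comap
          (MvPolynomial.eval₂Hom (laB ψ d.C)
            (fun j => te p d.C (tC p k r d.C) (d.c j (π j)))) := by
      rw [Ideal.span_le]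
      rintro _ ⟨j, rfl⟩
      rw [SetLike.mem_coe, Ideal.mem_comap]
      have h3 : MvPolynomial.eval₂Hom (laB ψ d.C)
          (fun j => te p d.C (tC p k r d.C) (d.c j (π j))) (Polynomial.toMvPolynomial j (F j)) =
          ((F j).map (laB ψ d.C)).eval (te p d.C (tC p k r d.C) (d.c j (π j))) := by
        rw [Polynomial.eval_map]
        show MvPolynomial.eval₂Hom _ _ (Polynomial.aeval (MvPolynomial.X j) (F j)) = _
        rw [Polynomial.aeval_def, Polynomial.hom_eval₂]
        congr 1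
        · ext z
          simp
        · simp
      rw [h3]
      exact gf_eval _ _ (fun i => te p d.C (tC p k r d.C) (d.c j i)) (d.split j) (π j)
    have h4 := h2 h1
    rw [Ideal.mem_comap, map_mul, map_sub] at h4
    have h5 : MvPolynomial.eval₂Hom (laB ψ d.C)
        (fun j => te p d.C (tC p k r d.C) (d.c j (π j))) E = Eπ := by rw [hEπ]; rfl
    have h6 : MvPolynomial.eval₂Hom (laB ψ d.C)
        (fun j => te p d.C (tC p k r d.C) (d.c j (π j))) (MvPolynomial.C g) = laB ψ d.C g := by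
      simp
    rw [h5, h6] at h4
    exact h4
  have hG : laB ψ d.C g = (p : Bt p d.C (tC p k r d.C)) ^ a *
      toB p d.C (tC p k r d.C) (WittVector.map (algebraMap (Rp p k r) d.C) (ψ g')) := by
    have h := congrArg (laB ψ d.C) hgg
    rw [map_mul, map_pow, map_natCast] at h
    exact h
  rw [hG] at hrel hδ'
  refine gf_main p d.C (tC p k r d.C) (gf_tC d.toPExt) (d.δ π) (d.δ' π)
    (WittVector.map (algebraMap (Rp p k r) d.C) (ψ g')) _ (algebraMap (Rp p k r) d.C y) ?_ a I hI
    ?_ ?_ ?_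
  · rw [WittVector.map_coeff, hcoeff, map_add, map_mul]
  · obtain ⟨ε, hε⟩ : ∃ ε, ε = te p d.C (tC p k r d.C) (d.δ π) - Eπ := ⟨_, rfl⟩
    rw [← hε] at hδ
    have h1 : te p d.C (tC p k r d.C) (d.δ π) = Eπ + ε := by rw [hε]; ring
    rw [h1]
    generalize (p : Bt p d.C (tC p k r d.C)) ^ a *
      toB p d.C (tC p k r d.C) (WittVector.map (algebraMap (Rp p k r) d.C) (ψ g')) = G at hrel ⊢
    have h2 : (Eπ + ε) * (Eπ + ε) - G * (Eπ + ε) = Eπ * (Eπ - G) + ε * (2 * Eπ + ε - G) := by
      ring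
    rw [h2]
    exact add_mem hrel (Ideal.mul_mem_right _ _ hδ)
  · generalize (p : Bt p d.C (tC p k r d.C)) ^ a *
      toB p d.C (tC p k r d.C) (WittVector.map (algebraMap (Rp p k r) d.C) (ψ g')) = G
      at hrel hδ' ⊢
    obtain ⟨ε, hε⟩ : ∃ ε, ε = te p d.C (tC p k r d.C) (d.δ' π) - (G - Eπ) := ⟨_, rfl⟩
    rw [← hε] at hδ'
    have h1 : te p d.C (tC p k r d.C) (d.δ' π) = G - Eπ + ε := by rw [hε]; ring
    rw [h1]
    have h2 : (G - Eπ + ε) * (G - Eπ + ε) - G * (G - Eπ + ε) =
        Eπ * (Eπ - G) + ε * (G - 2 * Eπ + ε) := by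
      ring
    rw [h2]
    exact add_mem hrel (Ideal.mul_mem_right _ _ hδ')
  · generalize (p : Bt p d.C (tC p k r d.C)) ^ a *
      toB p d.C (tC p k r d.C) (WittVector.map (algebraMap (Rp p k r) d.C) (ψ g')) = G
      at hδ' ⊢
    have h2 := add_mem hδ hδ'
    have h3 : te p d.C (tC p k r d.C) (d.δ π) - Eπ +
        (te p d.C (tC p k r d.C) (d.δ' π) - (G - Eπ)) =
        te p d.C (tC p k r d.C) (d.δ π) + te p d.C (tC p k r d.C) (d.δ' π) - G := by ring
    rwa [h3] at h2

end M15

end Vale.Agent.P202.Mix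
end

section

/-!
P202-MIX, GEO-A2: inequalities from the long exact sequence of a triple, for additive lengths.
-/

namespace Vale.Agent.P202.Mix

open Vale.Agent.P202.CharP
open scoped ENNReal

universe u

section A

variable {R : Type u} [CommRing R] (L : AddLen R) {M N : Type u} [AddCommGroup M] [Module R M]
  [AddCommGroup N] [Module R N]

theorem lenLes_congr (e : M ≃ₗ[R] N) : L.len M = L.len N := by
  have h := L.add (e : M →ₗ[R] N) (0 : N →ₗ[R] PUnit.{u + 1}) e.injective
    (fun _ => ⟨0, Subsingleton.elim _ _⟩) (by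
      intro y
      constructor
      · intro _
        exact ⟨e.symm y, by simp⟩
      · intro _
        rfl)
  rw [h, L.zero, add_zero]

theorem lenLes_rl_of_surjective {K X : Submodule R M} (f : X →ₗ[R] N)
    (hf : Function.Surjective f) (hk : LinearMap.ker f = K.submoduleOf X) :
    L.rl K X = L.len N := by
  rw [AddLen.rl, ← hk]
  exact lenLes_congr L (f.quotKerEquivOfSurjective hf)

theorem lenLes_rl_inf_left (K X : Submodule R M) : L.rl (K ⊓ X) X = L.rl K X := by
  have : (K ⊓ X).submoduleOf X = K.submoduleOf X := by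
    ext x; simp [Submodule.submoduleOf]
  rw [AddLen.rl, AddLen.rl, this]

theorem lenLes_rl_sup_right (K X : Submodule R M) : L.rl K (K ⊔ X) = L.rl K X := by
  have h := LinearMap.quotientInfEquivSupQuotient X K
  have e1 : (Submodule.comap X.subtype X ⊓ Submodule.comap X.subtype K) = K.submoduleOf X := by
    ext x; simp [Submodule.submoduleOf]
  rw [sup_comm, AddLen.rl, AddLen.rl]
  have := lenLes_congr L h
  rw [e1] at this
  exact this.symm

theorem lenLes_rl_add {K Y X : Submodule R M} (h1 : K ≤ Y) (h2 : Y ≤ X) :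
    L.rl K X = L.rl K Y + L.rl Y X := by
  let f : (↥Y ⧸ K.submoduleOf Y) →ₗ[R] (↥X ⧸ K.submoduleOf X) :=
    Submodule.mapQ _ _ (Submodule.inclusion h2) (by intro x hx; exact hx)
  let g : (↥X ⧸ K.submoduleOf X) →ₗ[R] (↥X ⧸ Y.submoduleOf X) :=
    Submodule.factor (by intro x hx; exact h1 hx)
  refine L.add f g ?_ (Submodule.factor_surjective _) ?_
  · rw [injective_iff_map_eq_zero]
    intro z
    obtain ⟨z, rfl⟩ := Submodule.Quotient.mk_surjective _ z
    intro hz
    have hz' : (Submodule.Quotient.mk (Submodule.inclusion h2 z) : ↥X ⧸ K.submoduleOf X) = 0 := hz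
    rw [Submodule.Quotient.mk_eq_zero] at hz' ⊢
    exact hz'
  · rw [LinearMap.exact_iff]
    ext z
    obtain ⟨z, rfl⟩ := Submodule.Quotient.mk_surjective _ z
    constructor
    · intro hz
      have hz' : z ∈ Y.submoduleOf X := by
        have : (Submodule.Quotient.mk z : ↥X ⧸ Y.submoduleOf X) = 0 := hz
        exact (Submodule.Quotient.mk_eq_zero _).mp this
      exact ⟨Submodule.Quotient.mk ⟨z.1, hz'⟩, rfl⟩
    · rintro ⟨c, hc⟩
      obtain ⟨c, rfl⟩ := Submodule.Quotient.mk_surjective _ c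
      rw [← hc]
      change (Submodule.Quotient.mk (Submodule.inclusion h2 c) : ↥X ⧸ Y.submoduleOf X) = 0
      rw [Submodule.Quotient.mk_eq_zero]
      exact c.2

theorem lenLes_rl_map (f : M →ₗ[R] N) (K X : Submodule R M) :
    L.rl (K.map f) (X.map f) = L.rl (K ⊔ LinearMap.ker f) X := by
  symm
  let g : X →ₗ[R] (↥(X.map f) ⧸ (K.map f).submoduleOf (X.map f)) :=
    (Submodule.mkQ _).comp (f.submoduleMap X)
  refine lenLes_rl_of_surjective L g ?_ ?_
  · exact (Submodule.mkQ_surjective _).comp (f.submoduleMap_surjective X)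
  · ext x
    have h1 : x ∈ LinearMap.ker g ↔ f x ∈ K.map f := by
      rw [LinearMap.mem_ker]
      change Submodule.Quotient.mk (f.submoduleMap X x) = _ ↔ _
      rw [Submodule.Quotient.mk_eq_zero]
      exact Iff.rfl
    have h2 : x ∈ (K ⊔ LinearMap.ker f).submoduleOf X ↔ x.1 ∈ K ⊔ LinearMap.ker f := Iff.rfl
    rw [h1, h2, ← Submodule.comap_map_eq, Submodule.mem_comap]

theorem lenLes_rl_map_right (f : M →ₗ[R] N) (K : Submodule R N) (X : Submodule R M) :
    L.rl K (X.map f) = L.rl (K.comap f) X := by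
  have h1 := lenLes_rl_map L f (K.comap f) X
  have hk : LinearMap.ker f ≤ K.comap f := fun x hx => by
    rw [Submodule.mem_comap, LinearMap.mem_ker.mp hx]; exact K.zero_mem
  rw [sup_of_le_left hk, Submodule.map_comap_eq] at h1
  rw [← h1, ← lenLes_rl_inf_left L K, ← lenLes_rl_inf_left L (LinearMap.range f ⊓ K)]
  congr 1
  have h2 : X.map f ≤ LinearMap.range f := LinearMap.map_le_range
  rw [inf_comm (LinearMap.range f) K, inf_assoc, inf_of_le_right h2]

theorem lenLes_rl_sup (K X : Submodule R M) : L.rl K (X ⊔ K) = L.rl (K ⊓ X) X := by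
  rw [sup_comm, lenLes_rl_sup_right, lenLes_rl_inf_left]

theorem lenLes_hh_les (D : M →ₗ[R] M) (hD : ∀ x, D (D x) = 0) (X Y Z : ℤ → Submodule R M)
    (hX : Stab D X) (hY : Stab D Y) (hZ : Stab D Z) (hXY : ∀ δ, X δ ≤ Y δ)
    (hYZ : ∀ δ, Y δ ≤ Z δ) (δ : ℤ) :
    L.hh D Z X δ = L.rl (bb D Z X δ) (zz D Y X δ ⊔ bb D Z X δ) +
        L.rl (bb D Z Y δ) (zz D Z X δ ⊔ bb D Z Y δ) ∧
      L.hh D Z Y δ = L.rl (bb D Z Y δ) (zz D Z X δ ⊔ bb D Z Y δ) +
        L.rl (bb D Y X (δ - 1)) ((zz D Z Y δ).map D ⊔ bb D Y X (δ - 1)) ∧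
      L.hh D Y X δ = L.rl (bb D Y X δ) ((zz D Z Y (δ + 1)).map D ⊔ bb D Y X δ) +
        L.rl (bb D Z X δ) (zz D Y X δ ⊔ bb D Z X δ) := by
  have hXZ : ∀ δ, X δ ≤ Z δ := fun δ => (hXY δ).trans (hYZ δ)
  have b1 := les_bb_le_zz D hD hX hZ hXZ δ
  have b2 := les_bb_le_zz D hD hY hZ hYZ δ
  have b3 := les_bb_le_zz D hD hX hY hXY δ
  have z1 : zz D Y X δ ≤ zz D Z X δ := inf_le_inf_right _ (hYZ δ)
  have z2 : zz D Z X δ ≤ zz D Z Y δ := inf_le_inf_left _ (Submodule.comap_mono (hXY _))
  have c1 : bb D Z X δ ≤ bb D Z Y δ := sup_le_sup_left (hXY δ) _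
  have c2 : bb D Y X δ ≤ bb D Z X δ := sup_le_sup_right (Submodule.map_mono (hYZ _)) _
  refine ⟨?_, ?_, ?_⟩
  · rw [AddLen.hh, lenLes_rl_add L (le_sup_right : bb D Z X δ ≤ zz D Y X δ ⊔ bb D Z X δ)
      (sup_le z1 b1), lenLes_rl_sup L (bb D Z Y δ)]
    congr 2
    apply le_antisymm
    · refine sup_le (le_inf ?_ z1) (le_inf c1 b1)
      exact inf_le_left.trans le_sup_right
    · rintro x ⟨hx1, hx2⟩
      obtain ⟨_, ⟨z, hz, rfl⟩, y, hy, rfl⟩ := Submodule.mem_sup.mp hx1
      have hy' : y ∈ zz D Y X δ := by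
        refine ⟨hy, ?_⟩
        have h1 : D (D z + y) ∈ X (δ - 1) := hx2.2
        rw [map_add, hD, zero_add] at h1
        exact h1
      rw [add_comm]
      exact Submodule.add_mem_sup hy' (Submodule.mem_sup_left ⟨z, hz, rfl⟩)
  · rw [AddLen.hh, lenLes_rl_add L (le_sup_right : bb D Z Y δ ≤ zz D Z X δ ⊔ bb D Z Y δ)
      (sup_le z2 b2)]
    congr 1
    rw [sup_comm ((zz D Z Y δ).map D), lenLes_rl_sup_right, lenLes_rl_map_right,
      ← lenLes_rl_inf_left L ((bb D Y X (δ - 1)).comap D)]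
    congr 1
    apply le_antisymm
    · refine sup_le (le_inf ?_ z2) (le_inf ?_ b2)
      · intro z hz
        exact Submodule.mem_sup_right hz.2
      · refine sup_le ?_ ?_
        · rintro _ ⟨z, hz, rfl⟩
          rw [Submodule.mem_comap, hD]; exact Submodule.zero_mem _
        · intro y hy
          refine Submodule.mem_sup_left ⟨y, ?_, rfl⟩
          rw [sub_add_cancel]
          exact hy
    · rintro z ⟨hz1, hz2⟩
      obtain ⟨_, ⟨y, hy, rfl⟩, x, hx, he⟩ := Submodule.mem_sup.mp hz1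
      rw [sub_add_cancel] at hy
      have h1 : z - y ∈ zz D Z X δ := by
        refine ⟨Submodule.sub_mem _ hz2.1 (hYZ δ hy), ?_⟩
        change D (z - y) ∈ X (δ - 1)
        rw [map_sub, ← he, add_sub_cancel_left]
        exact hx
      have h2 : z = (z - y) + y := by abel
      rw [h2]
      exact Submodule.add_mem_sup h1 (Submodule.mem_sup_right hy)
  · have d1 : (zz D Z Y (δ + 1)).map D ≤ zz D Y X δ := by
      rintro _ ⟨z, hz, rfl⟩
      refine ⟨?_, ?_⟩
      · have : D z ∈ Y (δ + 1 - 1) := hz.2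
        rwa [add_sub_cancel_right] at this
      · change D (D z) ∈ X (δ - 1)
        rw [hD]; exact Submodule.zero_mem _
    rw [AddLen.hh, lenLes_rl_add L (le_sup_right : bb D Y X δ ≤ (zz D Z Y (δ + 1)).map D ⊔ bb D Y X δ)
      (sup_le d1 b3), lenLes_rl_sup L (bb D Z X δ)]
    congr 2
    apply le_antisymm
    · refine sup_le (le_inf ?_ d1) (le_inf c2 b3)
      rintro _ ⟨z, hz, rfl⟩
      exact Submodule.mem_sup_left ⟨z, hz.1, rfl⟩
    · rintro v ⟨hv1, hv2⟩
      obtain ⟨_, ⟨z, hz, rfl⟩, x, hx, rfl⟩ := Submodule.mem_sup.mp hv1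
      have h1 : D z ∈ Y δ := by
        have := Submodule.sub_mem _ hv2.1 (hXY δ hx)
        rwa [add_sub_cancel_right] at this
      refine Submodule.add_mem_sup ⟨z, ⟨hz, ?_⟩, rfl⟩ (Submodule.mem_sup_right hx)
      change D z ∈ Y (δ + 1 - 1)
      rwa [add_sub_cancel_right]

theorem hh_le_add (D : M →ₗ[R] M) (hD : ∀ x, D (D x) = 0) (X Y Z : ℤ → Submodule R M)
    (hX : Stab D X) (hY : Stab D Y) (hZ : Stab D Z) (hXY : ∀ δ, X δ ≤ Y δ)
    (hYZ : ∀ δ, Y δ ≤ Z δ) (δ : ℤ) : L.hh D Z X δ ≤ L.hh D Z Y δ + L.hh D Y X δ := by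
  obtain ⟨h1, h2, h3⟩ := lenLes_hh_les L D hD X Y Z hX hY hZ hXY hYZ δ
  rw [h1, add_comm]
  refine add_le_add ?_ ?_
  · rw [h2]; exact le_self_add
  · rw [h3]; exact le_add_self

theorem hh_sub_le (D : M →ₗ[R] M) (hD : ∀ x, D (D x) = 0) (X Y Z : ℤ → Submodule R M)
    (hX : Stab D X) (hY : Stab D Y) (hZ : Stab D Z) (hXY : ∀ δ, X δ ≤ Y δ)
    (hYZ : ∀ δ, Y δ ≤ Z δ) (δ : ℤ) : L.hh D Y X δ ≤ L.hh D Z X δ + L.hh D Z Y (δ + 1) := by
  obtain ⟨h1, h2, h3⟩ := lenLes_hh_les L D hD X Y Z hX hY hZ hXY hYZ δ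
  obtain ⟨k1, k2, k3⟩ := lenLes_hh_les L D hD X Y Z hX hY hZ hXY hYZ (δ + 1)
  rw [h3, add_comm]
  refine add_le_add ?_ ?_
  · rw [h1]; exact le_self_add
  · rw [k2, add_sub_cancel_right]; exact le_add_self

theorem lenLes_hc_eq (d : M →ₗ[R] M) (Y X : ℤ → Submodule R M) (p : ℤ) :
    L.hc d Y X p = L.hh d (fun δ => Y (-δ)) (fun δ => X (-δ)) (-p) := by
  have e1 : - -p = p := neg_neg p
  have e2 : -(-p - 1) = p + 1 := by ring
  have e3 : -(-p + 1) = p - 1 := by ring
  rw [AddLen.hc, AddLen.hh]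
  unfold cb cz bb zz
  dsimp only
  rw [e1, e2, e3]

theorem lenLes_stab {d : M →ₗ[R] M} {X : ℤ → Submodule R M} (hX : CStab d X) :
    Stab d fun δ => X (-δ) := by
  intro δ x hx
  have h := hX (-δ) x hx
  have e : -δ + 1 = -(δ - 1) := by ring
  rw [e] at h
  exact h

theorem hc_le_add (d : M →ₗ[R] M) (hd : ∀ x, d (d x) = 0) (X Y Z : ℤ → Submodule R M)
    (hX : CStab d X) (hY : CStab d Y) (hZ : CStab d Z) (hXY : ∀ p, X p ≤ Y p)
    (hYZ : ∀ p, Y p ≤ Z p) (p : ℤ) : L.hc d Z X p ≤ L.hc d Z Y p + L.hc d Y X p := by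
  rw [lenLes_hc_eq, lenLes_hc_eq, lenLes_hc_eq]
  exact hh_le_add L d hd _ _ _ (lenLes_stab hX) (lenLes_stab hY) (lenLes_stab hZ)
    (fun δ => hXY _) (fun δ => hYZ _) (-p)

end A

end Vale.Agent.P202.Mix
end

section

/-!
P202-MIX, TASK GEO-A3: rows or columns exact up to null modules imply the same for the total
complex of a bigraded family.
-/

namespace Vale.Agent.P202.Mix

open Vale.Agent.P202.CharP
open scoped ENNReal

universe u

section Aux

variable {R : Type u} [CommRing R] (L : AddLen R) {M N : Type u} [AddCommGroup M] [Module R M]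
  [AddCommGroup N] [Module R N]

/-- comparison of relative lengths along a linear map. -/
theorem lenTot_rl_le (f : M →ₗ[R] N) {B Z : Submodule R M} {B' Z' : Submodule R N}
    (hZ : ∀ z ∈ Z, f z ∈ Z') (hB : ∀ z ∈ Z, f z ∈ B' → z ∈ B) : L.rl B Z ≤ L.rl B' Z' := by
  calc L.rl B Z ≤ L.rl (B'.comap f ⊓ Z) Z := rl_anti_left L fun z hz => hB z hz.2 hz.1
    _ = L.rl (B'.comap f) Z := rl_inf_left L _ _
    _ = L.rl B' (Z.map f) := (lenLes_rl_map_right L f B' Z).symm
    _ ≤ L.rl B' Z' := rl_mono_right L (by rintro _ ⟨z, hz, rfl⟩; exact hZ z hz)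

theorem lenTot_hh_self (D : M →ₗ[R] M) (X : ℤ → Submodule R M) (δ : ℤ) : L.hh D X X δ = 0 :=
  rl_eq_zero_of_le L (inf_le_left.trans le_sup_right)

variable {V : Type u} [AddCommGroup V] [Module R V]

theorem lenTot_mem {X : ℤ → ℤ → Submodule R V} {δ : ℤ} {z : ℤ → V} :
    z ∈ TT X δ ↔ ∀ i, z i ∈ X i (i - δ) :=
  ⟨fun h i => h i trivial, fun h i _ => h i⟩

theorem lenTot_apply (d e : V →ₗ[R] V) (z : ℤ → V) (i : ℤ) :
    totD d e z i = (i.negOnePow : ℤ) • d (z i) + e (z (i + 1)) := rfl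

theorem lenTot_mono {X Y : ℤ → ℤ → Submodule R V} (h : ∀ i p, X i p ≤ Y i p) (δ : ℤ) :
    TT X δ ≤ TT Y δ := fun _ hz => lenTot_mem.2 fun i => h _ _ (lenTot_mem.1 hz i)

end Aux

section Tot

variable {R : Type u} [CommRing R] (L : AddLen R) {V : Type u} [AddCommGroup V] [Module R V]
  (n : ℕ) (d e : V →ₗ[R] V) (hdd : ∀ v, d (d v) = 0) (hee : ∀ v, e (e v) = 0)
  (hde : ∀ v, d (e v) = e (d v))

include hdd hee hde

/-! #### TASK GEO-A3: bigraded families -/

theorem totD_sq (z : ℤ → V) : totD d e (totD d e z) = 0 := by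
  funext i
  simp only [lenTot_apply, map_add, map_zsmul, map_neg, hdd, hee, hde, smul_zero, zero_add,
    add_zero, Pi.zero_apply, Int.negOnePow_succ, Units.val_neg, neg_smul]
  abel

theorem stab_TT (X : ℤ → ℤ → Submodule R V) (hX : BStab d e X) : Stab (totD d e) (TT X) := by
  intro δ z hz
  rw [lenTot_mem] at hz ⊢
  intro i
  rw [lenTot_apply]
  refine Submodule.add_mem _ ?_ ?_
  · have h := hX.hd _ _ _ (hz i)
    rw [show i - δ + 1 = i - (δ - 1) by ring] at h
    exact zsmul_mem h _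
  · have h := hX.he _ _ _ (hz (i + 1))
    rw [show i + 1 - 1 = i by ring, show i + 1 - δ = i - (δ - 1) by ring] at h
    exact h

end Tot

section Filt

variable {R : Type u} [CommRing R] (L : AddLen R) {V : Type u} [AddCommGroup V] [Module R V]
  {d e : V →ₗ[R] V}

/-- the filtration by rows. -/
def lenTotF (X Y : ℤ → ℤ → Submodule R V) (m i p : ℤ) : Submodule R V :=
  if i ≤ m then Y i p else X i p

theorem lenTotF_of_le {X Y : ℤ → ℤ → Submodule R V} {m i : ℤ} (h : i ≤ m) (p : ℤ) :
    lenTotF X Y m i p = Y i p := if_pos h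

theorem lenTotF_of_lt {X Y : ℤ → ℤ → Submodule R V} {m i : ℤ} (h : m < i) (p : ℤ) :
    lenTotF X Y m i p = X i p := if_neg (not_le.2 h)

theorem lenTotF_ge {X Y : ℤ → ℤ → Submodule R V} (hXY : ∀ i p, X i p ≤ Y i p) (m i p : ℤ) :
    X i p ≤ lenTotF X Y m i p := by
  unfold lenTotF
  split_ifs
  exacts [hXY i p, le_rfl]

theorem lenTotF_mono {X Y : ℤ → ℤ → Submodule R V} (hXY : ∀ i p, X i p ≤ Y i p) {m m' : ℤ}
    (h : m ≤ m') (i p : ℤ) : lenTotF X Y m i p ≤ lenTotF X Y m' i p := by
  rcases le_or_gt i m with hi | hi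
  · rw [lenTotF_of_le hi, lenTotF_of_le (hi.trans h)]
  · rw [lenTotF_of_lt hi]
    exact lenTotF_ge hXY m' i p

theorem lenTotF_bstab {X Y : ℤ → ℤ → Submodule R V} (hX : BStab d e X) (hY : BStab d e Y)
    (hXY : ∀ i p, X i p ≤ Y i p) (m : ℤ) : BStab d e (lenTotF X Y m) := by
  constructor
  · intro i p x hx
    rcases le_or_gt i m with hi | hi
    · rw [lenTotF_of_le hi] at hx ⊢
      exact hY.hd i p x hx
    · rw [lenTotF_of_lt hi] at hx ⊢
      exact hX.hd i p x hx
  · intro i p x hx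
    rcases le_or_gt i m with hi | hi
    · rw [lenTotF_of_le hi] at hx
      rw [lenTotF_of_le (by omega : i - 1 ≤ m)]
      exact hY.he i p x hx
    · rw [lenTotF_of_lt hi] at hx
      exact lenTotF_ge hXY m _ _ (hX.he i p x hx)

theorem lenTot_row_step {X Y : ℤ → ℤ → Submodule R V} (hX : BStab d e X) (hY : BStab d e Y)
    (m δ : ℤ) :
    L.hh (totD d e) (TT (lenTotF X Y m)) (TT (lenTotF X Y (m - 1))) δ ≤
      L.hc d (Y m) (X m) (m - δ) := by
  refine lenTot_rl_le L (LinearMap.proj m) ?_ ?_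
  · rintro z ⟨hz1, hz2⟩
    have hz2' : totD d e z ∈ TT (lenTotF X Y (m - 1)) (δ - 1) := hz2
    rw [SetLike.mem_coe, lenTot_mem] at hz1
    rw [lenTot_mem] at hz2'
    have h1 := hz1 m
    rw [lenTotF_of_le le_rfl] at h1
    have h2 := hz2' m
    rw [lenTotF_of_lt (by omega), lenTot_apply, show m - (δ - 1) = m - δ + 1 by ring] at h2
    have h3 := hz1 (m + 1)
    rw [lenTotF_of_lt (by omega)] at h3
    have h4 := hX.he _ _ _ h3
    rw [show m + 1 - 1 = m by ring, show m + 1 - δ = m - δ + 1 by ring] at h4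
    have h5 := Submodule.sub_mem _ h2 h4
    rw [add_sub_cancel_right] at h5
    refine ⟨h1, ?_⟩
    change d (z m) ∈ X m (m - δ + 1)
    rcases Int.units_eq_one_or m.negOnePow with hs | hs
    · rw [hs, Units.val_one, one_smul] at h5
      exact h5
    · rw [hs, Units.val_neg, Units.val_one, neg_smul, one_smul] at h5
      exact neg_mem_iff.1 h5
  · rintro z ⟨hz1, hz2⟩ hz
    rw [SetLike.mem_coe, lenTot_mem] at hz1
    have hz' : z m ∈ cb d (Y m) (X m) (m - δ) := hz
    obtain ⟨_, ⟨y, hy, rfl⟩, x, hx, he⟩ := Submodule.mem_sup.1 hz'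
    have hy' : y ∈ Y m (m - δ - 1) := hy
    have hD : ∀ i, totD d e (Pi.single m ((m.negOnePow : ℤ) • y)) i =
        (if i = m then d y else 0) + (if i + 1 = m then (m.negOnePow : ℤ) • e y else 0) := by
      intro i
      rw [lenTot_apply]
      congr 1
      · by_cases hi : i = m
        · subst hi
          rw [Pi.single_eq_same, if_pos rfl, map_zsmul, smul_smul]
          rcases Int.units_eq_one_or i.negOnePow with hs | hs <;> rw [hs] <;> simp
        · rw [Pi.single_eq_of_ne hi, if_neg hi, map_zero, smul_zero]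
      · by_cases hi : i + 1 = m
        · subst hi
          rw [Pi.single_eq_same, if_pos rfl, map_zsmul]
        · rw [Pi.single_eq_of_ne hi, if_neg hi, map_zero]
    have h1 : z = totD d e (Pi.single m ((m.negOnePow : ℤ) • y)) +
        (z - totD d e (Pi.single m ((m.negOnePow : ℤ) • y))) := by abel
    rw [h1]
    refine Submodule.add_mem_sup ⟨_, ?_, rfl⟩ ?_
    · rw [SetLike.mem_coe, lenTot_mem]
      intro i
      by_cases hi : i = m
      · subst hi
        rw [Pi.single_eq_same, lenTotF_of_le le_rfl, show i - (δ + 1) = i - δ - 1 by ring]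
        exact zsmul_mem hy' _
      · rw [Pi.single_eq_of_ne hi]
        exact Submodule.zero_mem _
    · rw [lenTot_mem]
      intro i
      rw [Pi.sub_apply, hD]
      by_cases hi : i = m
      · subst hi
        rw [if_pos rfl, if_neg (by omega), add_zero, ← he, add_sub_cancel_left,
          lenTotF_of_lt (by omega)]
        exact hx
      · rw [if_neg hi, zero_add]
        have h2 : z i ∈ lenTotF X Y (m - 1) i (i - δ) := by
          have h3 := hz1 i
          rcases lt_or_gt_of_ne hi with h4 | h4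
          · rw [lenTotF_of_le (by omega)] at h3 ⊢
            exact h3
          · rw [lenTotF_of_lt (by omega)] at h3 ⊢
            exact h3
        by_cases hj : i + 1 = m
        · rw [if_pos hj]
          refine Submodule.sub_mem _ h2 (zsmul_mem ?_ _)
          rw [lenTotF_of_le (by omega)]
          have h5 := hY.he _ _ _ hy'
          rw [show m - 1 = i by omega, show m - δ - 1 = i - δ by omega] at h5
          exact h5
        · rw [if_neg hj, sub_zero]
          exact h2

/-- the filtration by columns. -/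
def lenTotG (X Y : ℤ → ℤ → Submodule R V) (m i p : ℤ) : Submodule R V :=
  if m ≤ p then Y i p else X i p

theorem lenTotG_of_le {X Y : ℤ → ℤ → Submodule R V} {m p : ℤ} (h : m ≤ p) (i : ℤ) :
    lenTotG X Y m i p = Y i p := if_pos h

theorem lenTotG_of_lt {X Y : ℤ → ℤ → Submodule R V} {m p : ℤ} (h : p < m) (i : ℤ) :
    lenTotG X Y m i p = X i p := if_neg (not_le.2 h)

theorem lenTotG_ge {X Y : ℤ → ℤ → Submodule R V} (hXY : ∀ i p, X i p ≤ Y i p) (m i p : ℤ) :
    X i p ≤ lenTotG X Y m i p := by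
  unfold lenTotG
  split_ifs
  exacts [hXY i p, le_rfl]

theorem lenTotG_anti {X Y : ℤ → ℤ → Submodule R V} (hXY : ∀ i p, X i p ≤ Y i p) {m m' : ℤ}
    (h : m' ≤ m) (i p : ℤ) : lenTotG X Y m i p ≤ lenTotG X Y m' i p := by
  rcases le_or_gt m p with hi | hi
  · rw [lenTotG_of_le hi, lenTotG_of_le (h.trans hi)]
  · rw [lenTotG_of_lt hi]
    exact lenTotG_ge hXY m' i p

theorem lenTotG_bstab {X Y : ℤ → ℤ → Submodule R V} (hX : BStab d e X) (hY : BStab d e Y)
    (hXY : ∀ i p, X i p ≤ Y i p) (m : ℤ) : BStab d e (lenTotG X Y m) := by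
  constructor
  · intro i p x hx
    rcases le_or_gt m p with hi | hi
    · rw [lenTotG_of_le hi] at hx
      rw [lenTotG_of_le (by omega : m ≤ p + 1)]
      exact hY.hd i p x hx
    · rw [lenTotG_of_lt hi] at hx
      exact lenTotG_ge hXY m _ _ (hX.hd i p x hx)
  · intro i p x hx
    rcases le_or_gt m p with hi | hi
    · rw [lenTotG_of_le hi] at hx ⊢
      exact hY.he i p x hx
    · rw [lenTotG_of_lt hi] at hx ⊢
      exact hX.he i p x hx

theorem lenTot_col_step {X Y : ℤ → ℤ → Submodule R V} (hX : BStab d e X) (hY : BStab d e Y)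
    (m δ : ℤ) :
    L.hh (totD d e) (TT (lenTotG X Y m)) (TT (lenTotG X Y (m + 1))) δ ≤
      L.hh e (fun i' => Y i' m) (fun i' => X i' m) (δ + m) := by
  refine lenTot_rl_le L (LinearMap.proj (δ + m)) ?_ ?_
  · rintro z ⟨hz1, hz2⟩
    have hz2' : totD d e z ∈ TT (lenTotG X Y (m + 1)) (δ - 1) := hz2
    rw [SetLike.mem_coe, lenTot_mem] at hz1
    rw [lenTot_mem] at hz2'
    have h1 := hz1 (δ + m)
    rw [show δ + m - δ = m by ring, lenTotG_of_le le_rfl] at h1
    have h2 := hz2' (δ + m - 1)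
    rw [show δ + m - 1 - (δ - 1) = m by ring, lenTotG_of_lt (by omega), lenTot_apply,
      show δ + m - 1 + 1 = δ + m by ring] at h2
    have h3 := hz1 (δ + m - 1)
    rw [show δ + m - 1 - δ = m - 1 by ring, lenTotG_of_lt (by omega)] at h3
    have h4 := hX.hd _ _ _ h3
    rw [show m - 1 + 1 = m by ring] at h4
    have h5 := Submodule.sub_mem _ h2 (zsmul_mem h4 ((δ + m - 1).negOnePow : ℤ))
    rw [add_sub_cancel_left] at h5
    exact ⟨h1, h5⟩
  · rintro z ⟨hz1, hz2⟩ hz
    rw [SetLike.mem_coe, lenTot_mem] at hz1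
    have hz' : z (δ + m) ∈ bb e (fun i' => Y i' m) (fun i' => X i' m) (δ + m) := hz
    obtain ⟨_, ⟨y, hy, rfl⟩, x, hx, he⟩ := Submodule.mem_sup.1 hz'
    have hy' : y ∈ Y (δ + m + 1) m := hy
    have hx' : x ∈ X (δ + m) m := hx
    have hD : ∀ i, totD d e (Pi.single (δ + m + 1) y) i =
        (if i = δ + m + 1 then (i.negOnePow : ℤ) • d y else 0) +
          (if i = δ + m then e y else 0) := by
      intro i
      rw [lenTot_apply]
      congr 1
      · by_cases hi : i = δ + m + 1
        · subst hi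
          rw [Pi.single_eq_same, if_pos rfl]
        · rw [Pi.single_eq_of_ne hi, if_neg hi, map_zero, smul_zero]
      · by_cases hi : i = δ + m
        · subst hi
          rw [Pi.single_eq_same, if_pos rfl]
        · rw [Pi.single_eq_of_ne (by omega : i + 1 ≠ δ + m + 1), if_neg hi, map_zero]
    have h1 : z = totD d e (Pi.single (δ + m + 1) y) +
        (z - totD d e (Pi.single (δ + m + 1) y)) := by abel
    rw [h1]
    refine Submodule.add_mem_sup ⟨_, ?_, rfl⟩ ?_
    · rw [SetLike.mem_coe, lenTot_mem]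
      intro i
      by_cases hi : i = δ + m + 1
      · subst hi
        rw [Pi.single_eq_same, show δ + m + 1 - (δ + 1) = m by ring, lenTotG_of_le le_rfl]
        exact hy'
      · rw [Pi.single_eq_of_ne hi]
        exact Submodule.zero_mem _
    · rw [lenTot_mem]
      intro i
      rw [Pi.sub_apply, hD]
      by_cases hi : i = δ + m
      · subst hi
        rw [if_neg (by omega), if_pos rfl, zero_add, ← he, show δ + m - δ = m by ring,
          lenTotG_of_lt (by omega), add_sub_cancel_left]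
        exact hx'
      · rw [if_neg hi, add_zero]
        have h2 : z i ∈ lenTotG X Y (m + 1) i (i - δ) := by
          have h3 := hz1 i
          rcases lt_or_gt_of_ne hi with h4 | h4
          · rw [lenTotG_of_lt (by omega)] at h3 ⊢
            exact h3
          · rw [lenTotG_of_le (by omega)] at h3 ⊢
            exact h3
        by_cases hj : i = δ + m + 1
        · rw [if_pos hj]
          refine Submodule.sub_mem _ h2 (zsmul_mem ?_ _)
          rw [lenTotG_of_le (by omega)]
          have h5 := hY.hd _ _ _ hy'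
          rw [show δ + m + 1 = i by omega, show m + 1 = i - δ by omega] at h5
          exact h5
        · rw [if_neg hj, sub_zero]
          exact h2

/-- the homology in degree `δ` only depends on the degrees `δ - 1`, `δ`, `δ + 1`. -/
theorem lenTot_hh_congr {M : Type u} [AddCommGroup M] [Module R M] (D : M →ₗ[R] M)
    {X X' Y Y' : ℤ → Submodule R M} {δ : ℤ} (h1 : X (δ - 1) = X' (δ - 1)) (h2 : X δ = X' δ)
    (h3 : Y δ = Y' δ) (h4 : Y (δ + 1) = Y' (δ + 1)) : L.hh D Y X δ = L.hh D Y' X' δ := by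
  unfold AddLen.hh bb zz
  rw [h1, h2, h3, h4]

end Filt

section Tot

variable {R : Type u} [CommRing R] (L : AddLen R) {V : Type u} [AddCommGroup V] [Module R V]
  (n : ℕ) (d e : V →ₗ[R] V) (hdd : ∀ v, d (d v) = 0) (hee : ∀ v, e (e v) = 0)
  (hde : ∀ v, d (e v) = e (d v))

include hdd hee hde

/-- rows exact up to null modules ⟹ total complex exact up to null modules. -/
theorem row_null (X Y : ℤ → ℤ → Submodule R V) (hX : BStab d e X) (hY : BStab d e Y)
    (hXY : ∀ i p, X i p ≤ Y i p) (hout : BBox n Y) (δ : ℤ)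
    (h : ∀ i, 0 ≤ i → i ≤ n → L.hc d (Y i) (X i) (i - δ) = 0) :
    L.hh (totD d e) (TT Y) (TT X) δ = 0 := by
  have hXo : ∀ i p, (i < 0 ∨ (n : ℤ) < i) → X i p = ⊥ := fun i p hi =>
    le_bot_iff.1 ((hXY i p).trans (hout i p hi).le)
  have key : ∀ k : ℕ, k ≤ n + 1 →
      L.hh (totD d e) (TT (lenTotF X Y ((k : ℤ) - 1))) (TT X) δ = 0 := by
    intro k
    induction k with
    | zero =>
      intro _
      have : lenTotF X Y (((0 : ℕ) : ℤ) - 1) = X := by
        funext i p
        rcases le_or_gt i (((0 : ℕ) : ℤ) - 1) with hi | hi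
        · rw [lenTotF_of_le hi, hout i p (Or.inl (by push_cast at hi; omega)),
            hXo i p (Or.inl (by push_cast at hi; omega))]
        · rw [lenTotF_of_lt hi]
      rw [this]
      exact lenTot_hh_self L _ _ _
    | succ k ih =>
      intro hk
      have h1 := hh_le_add L (totD d e) (totD_sq d e hdd hee hde) (TT X)
        (TT (lenTotF X Y ((k : ℤ) - 1))) (TT (lenTotF X Y (((k + 1 : ℕ) : ℤ) - 1)))
        (stab_TT d e hdd hee hde X hX)
        (stab_TT d e hdd hee hde _ (lenTotF_bstab hX hY hXY _))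
        (stab_TT d e hdd hee hde _ (lenTotF_bstab hX hY hXY _))
        (lenTot_mono (lenTotF_ge hXY _)) (lenTot_mono (lenTotF_mono hXY (by push_cast; omega))) δ
      rw [ih (by omega), add_zero] at h1
      refine le_antisymm (h1.trans ?_) zero_le
      have h2 := lenTot_row_step L hX hY (k : ℤ) δ
      rw [h k (by omega) (by omega)] at h2
      rw [show ((k + 1 : ℕ) : ℤ) - 1 = (k : ℤ) by push_cast; ring]
      exact h2
  have h1 := key (n + 1) le_rfl
  have h2 : lenTotF X Y (((n + 1 : ℕ) : ℤ) - 1) = Y := by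
    funext i p
    rcases le_or_gt i (((n + 1 : ℕ) : ℤ) - 1) with hi | hi
    · rw [lenTotF_of_le hi]
    · rw [lenTotF_of_lt hi, hout i p (Or.inr (by push_cast at hi; omega)),
        hXo i p (Or.inr (by push_cast at hi; omega))]
  rw [h2] at h1
  exact h1

/-- columns exact up to null modules ⟹ total complex exact up to null modules. -/
theorem col_null (X Y : ℤ → ℤ → Submodule R V) (hX : BStab d e X) (hY : BStab d e Y)
    (hXY : ∀ i p, X i p ≤ Y i p) (hout : BBox n Y) (δ : ℤ)
    (h : ∀ i, 0 ≤ i → i ≤ n →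
      L.hh e (fun i' => Y i' (i - δ)) (fun i' => X i' (i - δ)) i = 0) :
    L.hh (totD d e) (TT Y) (TT X) δ = 0 := by
  have hXo : ∀ i p, (i < 0 ∨ (n : ℤ) < i) → X i p = ⊥ := fun i p hi =>
    le_bot_iff.1 ((hXY i p).trans (hout i p hi).le)
  -- the columns `p = m`, in all degrees
  have hcol : ∀ m : ℤ, L.hh e (fun i' => Y i' m) (fun i' => X i' m) (δ + m) = 0 := by
    intro m
    by_cases hm : 0 ≤ δ + m ∧ δ + m ≤ n
    · obtain ⟨i, hi⟩ := Int.eq_ofNat_of_zero_le hm.1
      have h1 := h i (Nat.zero_le i) (by have := hm.2; omega)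
      rw [← hi, show δ + m - δ = m by ring] at h1
      exact h1
    · refine rl_eq_zero_of_le L ?_
      refine inf_le_left.trans ?_
      change Y (δ + m) m ≤ _
      rw [hout _ _ (by omega)]
      exact bot_le
  have key : ∀ k : ℕ,
      L.hh (totD d e) (TT (lenTotG X Y ((n : ℤ) - δ + 2 - k))) (TT X) δ = 0 := by
    intro k
    induction k with
    | zero =>
      have h1 : ∀ δ', δ - 1 ≤ δ' → TT (lenTotG X Y ((n : ℤ) - δ + 2 - (0 : ℕ))) δ' = TT X δ' := by
        intro δ' hδ'
        unfold TT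
        congr 1
        funext i
        rcases le_or_gt ((n : ℤ) - δ + 2 - (0 : ℕ)) (i - δ') with hi | hi
        · rw [lenTotG_of_le hi, hout _ _ (Or.inr (by push_cast at hi; omega)),
            hXo _ _ (Or.inr (by push_cast at hi; omega))]
        · rw [lenTotG_of_lt hi]
      rw [lenTot_hh_congr L (totD d e) (X' := TT X) (Y' := TT X) rfl rfl (h1 _ (by omega))
        (h1 _ (by omega))]
      exact lenTot_hh_self L _ _ _
    | succ k ih =>
      have h1 := hh_le_add L (totD d e) (totD_sq d e hdd hee hde) (TT X)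
        (TT (lenTotG X Y ((n : ℤ) - δ + 2 - k)))
        (TT (lenTotG X Y ((n : ℤ) - δ + 2 - ((k + 1 : ℕ) : ℤ))))
        (stab_TT d e hdd hee hde X hX)
        (stab_TT d e hdd hee hde _ (lenTotG_bstab hX hY hXY _))
        (stab_TT d e hdd hee hde _ (lenTotG_bstab hX hY hXY _))
        (lenTot_mono (lenTotG_ge hXY _)) (lenTot_mono (lenTotG_anti hXY (by push_cast; omega))) δ
      rw [ih, add_zero] at h1
      refine le_antisymm (h1.trans ?_) zero_le
      have h2 := lenTot_col_step L hX hY ((n : ℤ) - δ + 2 - ((k + 1 : ℕ) : ℤ)) δ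
      rw [hcol, show (n : ℤ) - δ + 2 - ((k + 1 : ℕ) : ℤ) + 1 = (n : ℤ) - δ + 2 - k by
        push_cast; ring] at h2
      exact h2
  have h1 : ∀ δ', δ' ≤ δ + 1 →
      TT (lenTotG X Y ((n : ℤ) - δ + 2 - ((n + 3 : ℕ) : ℤ))) δ' = TT Y δ' := by
    intro δ' hδ'
    unfold TT
    congr 1
    funext i
    rcases le_or_gt ((n : ℤ) - δ + 2 - ((n + 3 : ℕ) : ℤ)) (i - δ') with hi | hi
    · rw [lenTotG_of_le hi]
    · rw [lenTotG_of_lt hi, hout _ _ (Or.inl (by push_cast at hi; omega)),
        hXo _ _ (Or.inl (by push_cast at hi; omega))]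
  rw [← lenTot_hh_congr L (totD d e) (X := TT X) (X' := TT X) rfl rfl (h1 _ (by omega))
    (h1 _ (by omega))]
  exact key (n + 3)

end Tot

end Vale.Agent.P202.Mix
end

section

/-!
P202-MIX, part GEO, task A4: the Euler characteristic of a bounded bigraded family.
-/

namespace Vale.Agent.P202.Mix

open Vale.Agent.P202.CharP
open scoped ENNReal

universe u

section Gen

variable {R : Type u} [CommRing R] (L : AddLen R) {M : Type u} [AddCommGroup M] [Module R M]

private theorem eul_cyc (D : M →ₗ[R] M) (Y X : ℤ → Submodule R M) (δ : ℤ) :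
    L.rl (zz D Y X δ) (Y δ) = L.rl (X (δ - 1)) (bb D Y X (δ - 1)) := by
  have e1 : L.rl (zz D Y X δ) (Y δ) = L.rl ((X (δ - 1)).comap D) (Y δ) := by
    rw [zz, inf_comm, rl_inf_left]
  have e2 : (X (δ - 1)).comap D = (X (δ - 1)).comap D ⊔ LinearMap.ker D := by
    rw [left_eq_sup]
    intro x hx
    rw [Submodule.mem_comap, LinearMap.mem_ker.1 hx]
    exact Submodule.zero_mem _
  have e3 : L.rl (LinearMap.range D ⊓ X (δ - 1)) ((Y δ).map D) =
      L.rl (X (δ - 1)) ((Y δ).map D) := by
    rw [← rl_inf_left L (LinearMap.range D ⊓ X (δ - 1)) ((Y δ).map D),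
      ← rl_inf_left L (X (δ - 1)) ((Y δ).map D)]
    congr 1
    rw [inf_right_comm, inf_eq_right.2 (LinearMap.map_le_range : (Y δ).map D ≤ LinearMap.range D),
      inf_comm]
  rw [e1, e2, ← rl_map, Submodule.map_comap_eq, e3, bb, sub_add_cancel, sup_comm, rl_sup_right]

private theorem eul_split (D : M →ₗ[R] M) (hD : ∀ x, D (D x) = 0) (Y X : ℤ → Submodule R M)
    (hX : Stab D X) (hY : Stab D Y) (hXY : ∀ δ, X δ ≤ Y δ) (δ : ℤ) :
    L.rl (X δ) (Y δ) = L.rl (X δ) (bb D Y X δ) + L.hh D Y X δ +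
      L.rl (X (δ - 1)) (bb D Y X (δ - 1)) := by
  have h1 : X δ ≤ bb D Y X δ := le_sup_right
  have h3 : zz D Y X δ ≤ Y δ := inf_le_left
  have h2 : bb D Y X δ ≤ zz D Y X δ := by
    refine sup_le ?_ ?_
    · rintro _ ⟨y, hy, rfl⟩
      refine Submodule.mem_inf.2 ⟨?_, ?_⟩
      · have := hY _ _ hy
        rwa [add_sub_cancel_right] at this
      · rw [Submodule.mem_comap, hD]
        exact Submodule.zero_mem _
    · intro x hx
      exact Submodule.mem_inf.2 ⟨hXY _ hx, hX _ _ hx⟩
  rw [rl_add L h1 (h2.trans h3), rl_add L h2 h3, eul_cyc, AddLen.hh, add_assoc]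

end Gen

section Tot

variable {R : Type u} [CommRing R] (L : AddLen R) {V : Type u} [AddCommGroup V] [Module R V]

/-- extension by zero -/
private def eulE (R : Type u) [CommRing R] (V : Type u) [AddCommGroup V] [Module R V] (n : ℕ) :
    (Fin (n + 1) → V) →ₗ[R] (ℤ → V) where
  toFun f i := if h : 0 ≤ i ∧ i ≤ n then f ⟨i.toNat, by omega⟩ else 0
  map_add' f g := by
    ext i
    by_cases h : 0 ≤ i ∧ i ≤ n
    · simp [h]
    · simp [h]
  map_smul' c f := by
    ext i
    by_cases h : 0 ≤ i ∧ i ≤ n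
    · simp [h]
    · simp [h]

private theorem eulE_cast (n : ℕ) (f : Fin (n + 1) → V) (j : Fin (n + 1)) :
    eulE R V n f ((j : ℕ) : ℤ) = f j := by
  have h : (0 : ℤ) ≤ ((j : ℕ) : ℤ) ∧ ((j : ℕ) : ℤ) ≤ n := by
    have := j.2
    omega
  change (if h : 0 ≤ ((j : ℕ) : ℤ) ∧ ((j : ℕ) : ℤ) ≤ n then f ⟨(((j : ℕ) : ℤ)).toNat, _⟩ else 0) = _
  rw [dif_pos h]
  congr 1

private theorem eulE_out (n : ℕ) (f : Fin (n + 1) → V) (i : ℤ) (h : ¬(0 ≤ i ∧ i ≤ n)) :
    eulE R V n f i = 0 := dif_neg h

private theorem eulE_inj (n : ℕ) : LinearMap.ker (eulE R V n) = ⊥ := by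
  rw [LinearMap.ker_eq_bot']
  intro f hf
  funext j
  rw [← eulE_cast (R := R) n f j, hf]
  rfl

private theorem eul_TT (n : ℕ) (X : ℤ → ℤ → Submodule R V) (hX : BBox n X) (δ : ℤ) :
    TT X δ = (Submodule.pi Set.univ fun i : Fin (n + 1) =>
      X ((i : ℕ) : ℤ) (((i : ℕ) : ℤ) - δ)).map (eulE R V n) := by
  ext z
  constructor
  · intro hz
    have hz' : ∀ i, z i ∈ X i (i - δ) := fun i => (Submodule.mem_pi.1 hz) i (Set.mem_univ _)
    refine ⟨fun j => z ((j : ℕ) : ℤ), ?_, ?_⟩
    · exact Submodule.mem_pi.2 fun j _ => hz' _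
    · funext i
      by_cases h : 0 ≤ i ∧ i ≤ n
      · have e : i = (((⟨i.toNat, by omega⟩ : Fin (n + 1)) : ℕ) : ℤ) := by
          simp only
          omega
        rw [e, eulE_cast]
      · rw [eulE_out n _ i h]
        have h1 := hz' i
        rw [hX i (i - δ) (by omega), Submodule.mem_bot] at h1
        exact h1.symm
  · rintro ⟨f, hf, rfl⟩
    refine Submodule.mem_pi.2 fun i _ => ?_
    by_cases h : 0 ≤ i ∧ i ≤ n
    · have e : i = (((⟨i.toNat, by omega⟩ : Fin (n + 1)) : ℕ) : ℤ) := by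
        simp only
        omega
      have h1 := (Submodule.mem_pi.1 hf) ⟨i.toNat, by omega⟩ (Set.mem_univ _)
      rw [e, eulE_cast]
      exact h1
    · rw [eulE_out n _ i h]
      exact Submodule.zero_mem _

private theorem eul_len (n : ℕ) (X Y : ℤ → ℤ → Submodule R V) (hX : BBox n X) (hY : BBox n Y)
    (δ : ℤ) : L.rl (TT X δ) (TT Y δ) =
      ∑ i : Fin (n + 1), L.rl (X ((i : ℕ) : ℤ) (((i : ℕ) : ℤ) - δ))
        (Y ((i : ℕ) : ℤ) (((i : ℕ) : ℤ) - δ)) := by
  rw [eul_TT n X hX, eul_TT n Y hY, rl_map, eulE_inj, sup_bot_eq, rl_pi]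

private theorem eul_sq {d e : V →ₗ[R] V} (hdd : ∀ v, d (d v) = 0) (hee : ∀ v, e (e v) = 0)
    (hde : ∀ v, d (e v) = e (d v)) (z : ℤ → V) : totD d e (totD d e z) = 0 := by
  funext i
  change (i.negOnePow : ℤ) • d ((i.negOnePow : ℤ) • d (z i) + e (z (i + 1))) +
    e (((i + 1).negOnePow : ℤ) • d (z (i + 1)) + e (z (i + 1 + 1))) = 0
  rw [map_add, map_add, map_zsmul, map_zsmul, hdd, hee, hde, smul_zero, zero_add, add_zero,
    Int.negOnePow_succ, Units.val_neg, neg_smul, add_neg_cancel]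

private theorem eul_stab {d e : V →ₗ[R] V} {X : ℤ → ℤ → Submodule R V} (hX : BStab d e X) :
    Stab (totD d e) (TT X) := by
  intro δ z hz
  have hz' : ∀ i, z i ∈ X i (i - δ) := fun i => (Submodule.mem_pi.1 hz) i (Set.mem_univ _)
  refine Submodule.mem_pi.2 fun i _ => ?_
  change (i.negOnePow : ℤ) • d (z i) + e (z (i + 1)) ∈ X i (i - (δ - 1))
  refine Submodule.add_mem _ ?_ ?_
  · have h1 := hX.hd i _ _ (hz' i)
    rw [show i - δ + 1 = i - (δ - 1) by ring] at h1
    exact zsmul_mem h1 _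
  · have h1 := hX.he _ _ _ (hz' (i + 1))
    rw [show i + 1 - 1 = i by ring, show i + 1 - δ = i - (δ - 1) by ring] at h1
    exact h1

private theorem eul_sign (i p : ℕ) : (-1 : ℝ) ^ (i + p) = (-1 : ℝ) ^ ((i : ℤ) - (p : ℤ)) := by
  rw [zpow_sub₀ (by norm_num), zpow_natCast, zpow_natCast, pow_add, div_eq_mul_inv, ← inv_pow]
  norm_num

/-- reindexing of one row -/
private theorem eul_row (A : ℤ → ℝ) (n r i : ℕ) (hi : i ≤ n)
    (hA : ∀ p : ℤ, (p < 0 ∨ (r : ℤ) < p) → A p = 0) :
    ∑ p ∈ Finset.range (r + 1), (-1 : ℝ) ^ (i + p) * A p =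
      ∑ k ∈ Finset.range (n + r + 1), (-1 : ℝ) ^ ((k : ℤ) - r) * A (i - ((k : ℤ) - r)) := by
  have hsub : (Finset.range (r + 1)).image (fun p => i + r - p) ⊆ Finset.range (n + r + 1) := by
    intro k hk
    obtain ⟨p, hp, rfl⟩ := Finset.mem_image.1 hk
    rw [Finset.mem_range] at hp ⊢
    omega
  rw [← Finset.sum_subset hsub, Finset.sum_image]
  · refine Finset.sum_congr rfl fun p hp => ?_
    rw [Finset.mem_range] at hp
    have e1 : ((i + r - p : ℕ) : ℤ) - r = (i : ℤ) - p := by omega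
    rw [e1, eul_sign, sub_sub_cancel]
  · intro p hp p' hp' h
    rw [Finset.mem_coe, Finset.mem_range] at hp hp'
    simp only at h
    omega
  · intro k _ hk
    rw [hA, mul_zero]
    by_contra hcon
    push Not at hcon
    refine hk (Finset.mem_image.2 ⟨i + r - k, ?_, ?_⟩)
    · rw [Finset.mem_range]
      omega
    · omega

theorem euler_nonneg (n : ℕ) (d e : V →ₗ[R] V) (hdd : ∀ v, d (d v) = 0) (hee : ∀ v, e (e v) = 0)
    (hde : ∀ v, d (e v) = e (d v)) (r : ℕ) (X Y : ℤ → ℤ → Submodule R V) (hX : BStab d e X)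
    (hY : BStab d e Y) (hXY : ∀ i p, X i p ≤ Y i p) (hout : BBox n Y)
    (hout' : ∀ i p, (p < 0 ∨ (r : ℤ) < p) → Y i p = ⊥)
    (hfin : ∀ i p, L.rl (X i p) (Y i p) ≠ ⊤)
    (hnull : ∀ δ, δ ≠ 0 → L.hh (totD d e) (TT Y) (TT X) δ = 0) :
    0 ≤ ∑ i ∈ Finset.range (n + 1), ∑ p ∈ Finset.range (r + 1),
      (-1 : ℝ) ^ (i + p) * (L.rl (X i p) (Y i p)).toReal := by
  have houtX : BBox n X := fun i p h => le_bot_iff.1 ((hXY i p).trans (hout i p h).le)
  have hA : ∀ (i p : ℤ), (p < 0 ∨ (r : ℤ) < p) → (L.rl (X i p) (Y i p)).toReal = 0 := by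
    intro i p hp
    rw [hout' i p hp, rl_eq_zero_of_le L bot_le, ENNReal.toReal_zero]
  -- the total lengths
  have hT : ∀ δ : ℤ, L.rl (TT X δ) (TT Y δ) ≠ ⊤ := by
    intro δ
    rw [eul_len L n X Y houtX hout]
    exact ENNReal.sum_ne_top.2 fun i _ => hfin _ _
  have hT' : ∀ δ : ℤ, (L.rl (TT X δ) (TT Y δ)).toReal =
      ∑ i ∈ Finset.range (n + 1), (L.rl (X i (i - δ)) (Y i (i - δ))).toReal := by
    intro δ
    rw [eul_len L n X Y houtX hout, ENNReal.toReal_sum fun i _ => hfin _ _,
      Fin.sum_univ_eq_sum_range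
        (fun i : ℕ => (L.rl (X (i : ℤ) ((i : ℤ) - δ)) (Y (i : ℤ) ((i : ℤ) - δ))).toReal)]
  have hS : ∑ i ∈ Finset.range (n + 1), ∑ p ∈ Finset.range (r + 1),
      (-1 : ℝ) ^ (i + p) * (L.rl (X i p) (Y i p)).toReal =
      ∑ k ∈ Finset.range (n + r + 1), (-1 : ℝ) ^ ((k : ℤ) - r) *
        (L.rl (TT X ((k : ℤ) - r)) (TT Y ((k : ℤ) - r))).toReal := by
    have h1 : ∀ i ∈ Finset.range (n + 1), ∑ p ∈ Finset.range (r + 1),
        (-1 : ℝ) ^ (i + p) * (L.rl (X i p) (Y i p)).toReal =
        ∑ k ∈ Finset.range (n + r + 1), (-1 : ℝ) ^ ((k : ℤ) - r) *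
          (L.rl (X i (i - ((k : ℤ) - r))) (Y i (i - ((k : ℤ) - r)))).toReal := fun i hi =>
      eul_row (fun p => (L.rl (X i p) (Y i p)).toReal) n r i
        (Nat.lt_succ_iff.1 (Finset.mem_range.1 hi)) fun p hp => hA i p hp
    rw [Finset.sum_congr rfl h1, Finset.sum_comm]
    refine Finset.sum_congr rfl fun k _ => ?_
    rw [hT', Finset.mul_sum]
  have hsplit : ∀ δ : ℤ, (L.rl (TT X δ) (TT Y δ)).toReal =
      (L.rl (TT X δ) (bb (totD d e) (TT Y) (TT X) δ)).toReal +
      (L.hh (totD d e) (TT Y) (TT X) δ).toReal +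
      (L.rl (TT X (δ - 1)) (bb (totD d e) (TT Y) (TT X) (δ - 1))).toReal := by
    intro δ
    have h := eul_split L (totD d e) (eul_sq hdd hee hde) (TT Y) (TT X) (eul_stab hX)
      (eul_stab hY) (fun δ => Submodule.pi_mono fun i _ => hXY _ _) δ
    have h0 := hT δ
    rw [h] at h0 ⊢
    rw [ENNReal.add_ne_top, ENNReal.add_ne_top] at h0
    rw [ENNReal.toReal_add (ENNReal.add_ne_top.2 h0.1) h0.2, ENNReal.toReal_add h0.1.1 h0.1.2]
  set β : ℤ → ℝ := fun δ => (L.rl (TT X δ) (bb (totD d e) (TT Y) (TT X) δ)).toReal with hβ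
  set H : ℤ → ℝ := fun δ => (L.hh (totD d e) (TT Y) (TT X) δ).toReal with hH
  have hβ0 : ∀ δ, 0 ≤ β δ := fun δ => ENNReal.toReal_nonneg
  have hH0 : ∀ δ, 0 ≤ H δ := fun δ => ENNReal.toReal_nonneg
  have hsplit' : ∀ δ : ℤ, (L.rl (TT X δ) (TT Y δ)).toReal = β δ + H δ + β (δ - 1) := hsplit
  have b1 : β (-(r : ℤ) - 1) = 0 := by
    have h1 : (L.rl (TT X (-(r : ℤ) - 1)) (TT Y (-(r : ℤ) - 1))).toReal = 0 := by
      rw [hT']
      refine Finset.sum_eq_zero fun i _ => hA _ _ (Or.inr ?_)
      omega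
    have h2 := hsplit' (-(r : ℤ) - 1)
    have h3 := hβ0 (-(r : ℤ) - 1)
    have h4 := hH0 (-(r : ℤ) - 1)
    have h5 := hβ0 (-(r : ℤ) - 1 - 1)
    linarith
  have b2 : β n = 0 := by
    have h1 : (L.rl (TT X ((n : ℤ) + 1)) (TT Y ((n : ℤ) + 1))).toReal = 0 := by
      rw [hT']
      refine Finset.sum_eq_zero fun i hi => hA _ _ (Or.inl ?_)
      rw [Finset.mem_range] at hi
      omega
    have h2 := hsplit' ((n : ℤ) + 1)
    rw [add_sub_cancel_right] at h2
    have h3 := hβ0 ((n : ℤ) + 1)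
    have h4 := hH0 ((n : ℤ) + 1)
    have h5 := hβ0 (n : ℤ)
    linarith
  rw [hS]
  have key : ∀ k ∈ Finset.range (n + r + 1), (-1 : ℝ) ^ ((k : ℤ) - r) *
        (L.rl (TT X ((k : ℤ) - r)) (TT Y ((k : ℤ) - r))).toReal =
      (-1 : ℝ) ^ ((k : ℤ) - r) * H ((k : ℤ) - r) +
      ((-1 : ℝ) ^ (((k + 1 : ℕ) : ℤ) - r - 1) * β (((k + 1 : ℕ) : ℤ) - r - 1) -
        (-1 : ℝ) ^ ((k : ℤ) - r - 1) * β ((k : ℤ) - r - 1)) := by
    intro k _
    have e1 : ((k + 1 : ℕ) : ℤ) - r - 1 = (k : ℤ) - r := by push_cast; ring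
    rw [hsplit', e1, zpow_sub_one₀ (by norm_num : (-1 : ℝ) ≠ 0)]
    norm_num
    ring
  rw [Finset.sum_congr rfl key, Finset.sum_add_distrib,
    Finset.sum_range_sub (fun k : ℕ => (-1 : ℝ) ^ ((k : ℤ) - r - 1) * β ((k : ℤ) - r - 1))]
  have e1 : ((n + r + 1 : ℕ) : ℤ) - r - 1 = n := by push_cast; ring
  have e2 : ((0 : ℕ) : ℤ) - r - 1 = -(r : ℤ) - 1 := by push_cast; ring
  rw [e1, e2, b1, b2, mul_zero, mul_zero, sub_zero, add_zero]
  refine Finset.sum_nonneg fun k _ => ?_
  by_cases hk : (k : ℤ) - r = 0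
  · rw [hk, zpow_zero, one_mul]
    exact hH0 0
  · have : H ((k : ℤ) - r) = 0 := by
      rw [hH]
      simp only
      rw [hnull _ hk, ENNReal.toReal_zero]
    rw [this, mul_zero]

end Tot

end Vale.Agent.P202.Mix
end
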