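import Vale.Agent.P202.MathlibUsed
import Vale.Agent.P202.Bdl.B1
import Vale.Agent.P202.Bdl.B4
import Vale.Agent.P202.Bdl.B2
import Vale.Agent.P202.Bdl.B3
attribute [-instance] DenselyNormedField.toNontriviallyNormedField DenselyNormedField.toNormedField NontriviallyNormedField.toNormedField RCLike.toDenselyNormedField NormedField.toField NormedField.toNormedDivisionRing NormedDivisionRing.toDivisionRing IdemCommSemiring.toIdemSemiring KleeneAlgebra.toIdemSemiring SemiRingCat.instSemiringObjForgetRingHomCarrier NormedField.toNormedCommRing NormedCommRing.toSeminormedCommRing NormedCommRing.toNormedRing NormedDivisionRing.toNormedRing NormedRing.toSeminormedRing SeminormedCommRing.toSeminormedRing EuclideanDomain.toCommRing NormedCommRing.toCommRing SeminormedCommRing.toCommRing NormedRing.toRing SeminormedRing.toRing Pi.preorder CommSemiRingCat.instCommSemiringObjForgetRingHomCarrier CommSemiring.toNonAssocCommSemiring NonAssocCommRing.toNonAssocCommSemiring NonAssocCommSemiring.toNonAssocSemiring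 CommRing.toAddCommGroupWithOne LinearOrderedAddCommGroupWithTop.toAddCommMonoid LinearOrderedAddCommGroupWithTop.instLinearOrderedAddCommMonoidWithTop NormedCommRing.toNonUnitalNormedCommRing SemimoduleCat.isAddCommMonoid NonUnitalNormedCommRing.toNonUnitalNormedRing NormedRing.toNonUnitalNormedRing NonUnitalNormedCommRing.toNonUnitalSeminormedCommRing SeminormedCommRing.toNonUnitalSeminormedCommRing NonUnitalNormedRing.toNonUnitalSeminormedRing NonUnitalSeminormedCommRing.toNonUnitalSeminormedRing SeminormedRing.toNonUnitalSeminormedRing NonUnitalNormedCommRing.toNonUnitalCommRing NonUnitalSeminormedCommRing.toNonUnitalCommRing AddCommGroupWithOne.toAddCommMonoidWithOne NonUnitalNormedRing.toNonUnitalRing NonUnitalSeminormedRing.toNonUnitalRing Ring.toNonUnitalRing NonAssocCommRing.toNonUnitalNonAssocCommRing NonUnitalRing.toNonUnitalNonAssocRing NonUnitalRing.toNonUnitalSemiring Semiring.toNonUnitalSemiring NonAssocCommSemiring.toNonUnitalNonAssocCommSemiring NonUnitalNonAssocCommSemiring.toNonUnitalNonAssocSemiring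 Pi.nonUnitalNonAssocSemiring RingCat.instRingObjForgetRingHomCarrier instCoeT AbsoluteValue.funLike instCoeTOfCoeDep Pi.seminormedAddCommGroup LinearOrderedAddCommGroupWithTop.toSubNegMonoid TopologicalSpace.Compacts.instSetLike MulSemiringAction.toDistribMulAction ModuleCat.isModule NormedCommGroup.toSeminormedCommGroup NormedCommGroup.toNormedGroup LieRing.toAddCommGroup NormedGroup.toSeminormedGroup SeminormedCommGroup.toSeminormedGroup NormedCommGroup.toCommGroup SeminormedCommGroup.toCommGroup CommGroup.toGroup NormedGroup.toGroup SeminormedGroup.toGroup Pi.instTopForall Filter.instMembership AddMonCat.addMonoidObj LieAlgebra.toModule LinearOrderedCommGroupWithZero.toLinearOrderedCommMonoidWithZero NormedAlgebra.toAlgebra NormedSpace.toModule CompleteAtomicBooleanAlgebra.toCompleteBooleanAlgebra CompleteAtomicBooleanAlgebra.toCompletelyDistribLattice Pi.addMonoidWithOne instDistribSMul NonUnitalNonAssocSemiring.toDistribSMul CompleteBooleanAlgebra.toCompleteLattice instSMulZeroClass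 NormedAlgebra.id Torsor.toMulAction MonCat.monoidObj Pi.nonUnitalSemiring AddOpposite.instAddZero GradedMonoid.GradeZero.mulAction CompleteBooleanAlgebra.toCompleteDistribLattice CompletelyDistribLattice.toCompleteDistribLattice NonUnitalNormedRing.toNormedAddCommGroup instCoeHTC instCoeHTCT instCoeTC CompleteDistribLattice.toCoframe CompleteDistribLattice.toFrame instCoeTCOfCoe ModuleCat.instAddCommGroupCarrierMkOfSMul' CompleteLinearOrder.toCompleteLattice Order.Coframe.toCompleteLattice Order.Frame.toCompleteLattice CompleteLinearOrder.toConditionallyCompleteLinearOrderBot NonUnitalSeminormedRing.toSeminormedAddCommGroup NormedAddCommGroup.toSeminormedAddCommGroup LinearOrderedCommGroupWithZero.toCommGroupWithZero CommGroupWithZero.toGroupWithZero LinOrd.str ContinuousAddMonoidHom.instCoeOutOfAddMonoidHomClassOfContinuousMapClass ContinuousMonoidHom.instCoeOutOfMonoidHomClassOfContinuousMapClass HomeomorphClass.instCoeOutHomeomorph IsometryClass.instCoeOutIsometryEquiv boolToProp CommGroupWithZero.toCommMonoidWithZero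 LinearOrderedCommMonoidWithZero.toCommMonoidWithZero ChainCompletePartialOrder.instOfCompleteLattice ChainCompletePartialOrder.instOmegaCompletePartialOrder ChainCompletePartialOrder.toPartialOrder CompletePartialOrder.toOmegaCompletePartialOrder OmegaCompletePartialOrder.toPartialOrder instNonUnitalAlgHomClassOfNonUnitalAlgEquivClass AlgHom.instNonUnitalAlgHomClassOfAlgHomClass Invertible.toNeZero NeZero.of_gt' Nat.AtLeastTwo.toNeZero MonoidWithZero.toSemigroupWithZero NonUnitalNonAssocSemiring.toMulZeroClass SemigroupWithZero.toMulZeroClass Pi.partialOrder CompleteLinearOrder.toLinearOrder ConditionallyCompleteLinearOrder.toLinearOrder LinearOrderedAddCommGroupWithTop.toLinearOrder LinearOrderedCommMonoidWithZero.toLinearOrder OrderDual.instDivisionRing OrderDual.instDivisionSemiring AddHom.addHomClass instSubsingleton instRingHomSurjectiveForallEvalRingHom IsEmpty.instSubsingleton CompleteBooleanAlgebra.toBooleanAlgebra NormedAddCommGroup.toNormedAddGroup TwoSidedIdeal.instIsTwoSidedCoeOrderHomIdealAsIdeal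 AddGrpCat.str Nat.Prime.one_lt' BooleanAlgebra.toBiheytingAlgebra CompleteDistribLattice.toBiheytingAlgebra CompleteLinearOrder.toBiheytingAlgebra CompletelyDistribLattice.toBiheytingAlgebra NormedAddGroup.toSeminormedAddGroup SeminormedAddCommGroup.toSeminormedAddGroup AlgHomClass.linearMapClass ContinuousSemilinearEquivClass.continuousSemilinearMapClass ContinuousSemilinearMapClass.toSemilinearMapClass NonUnitalAlgHomClass.instLinearMapClass NonUnitalAlgHomClass.instSemilinearMapClassOfNonUnitalAlgSemiHomClassToMonoidHomRingHom RingHomClass.toLinearMapClassNNRat RingHomClass.toLinearMapClassRat SemilinearIsometryClass.toContinuousSemilinearMapClass SemilinearIsometryClass.toSemilinearMapClass MulSemiringActionSemiHomClass.toDistribMulActionSemiHomClass NonUnitalAlgSemiHomClass.toDistribMulActionSemiHomClass Pi.addZeroClass AddCommGroupWithOne.toAddCommGroup NormedAddCommGroup.toAddCommGroup SeminormedAddCommGroup.toAddCommGroup Pi.instMaxForall_mathlib BiheytingAlgebra.toCoheytingAlgebra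 BiheytingAlgebra.toHeytingAlgebra BooleanAlgebra.toGeneralizedBooleanAlgebra Order.Coframe.toCoheytingAlgebra Order.Frame.toHeytingAlgebra OrderAddMonoidHom.instAddMonoidHomClass SubfieldClass.toNormedField ValuationClass.toMonoidWithZeroHomClass Fin.completeLinearOrder CoheytingAlgebra.toGeneralizedCoheytingAlgebra GeneralizedBooleanAlgebra.toGeneralizedCoheytingAlgebra HeytingAlgebra.toGeneralizedHeytingAlgebra Pi.instSemilatticeInf NormedAddGroup.toAddGroup SeminormedAddGroup.toAddGroup OrderRingHom.instRingHomClass SubfieldClass.toField Pi.subtractionMonoid instConditionallyCompletePartialOrderSup CompleteLattice.toCompleteSemilatticeInf CompleteLattice.toCompleteSemilatticeSup ConditionallyCompletePartialOrder.toConditionallyCompletePartialOrderInf NumberField.to_charZero AlgEquivClass.toAlgHomClass Pi.instSemilatticeSup SubringClass.toNormedCommRing SubringClass.toSeminormedCommRing MonoidWithZero.toMulActionWithZero instSMulCommClassOfIsScalarTower IsRegularLocalRing.instOfIsLocalRingOfIsDomainOfIsPrincipalIdealRing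 Part.ofOptionDecidable MulEquivClass.toMonoidWithZeroHomClass MulRingSeminormClass.toMonoidWithZeroHomClass BooleanAlgebra.toDistribLattice CompleteLattice.toPartialOrder' CompleteSemilatticeInf.toPartialOrder CompleteSemilatticeSup.toPartialOrder ConditionallyCompletePartialOrderInf.toPartialOrder GeneralizedBooleanAlgebra.toDistribLattice GeneralizedCoheytingAlgebra.toDistribLattice GeneralizedCoheytingAlgebra.toLattice GeneralizedHeytingAlgebra.toDistribLattice GeneralizedHeytingAlgebra.toLattice LinearOrder.toLattice Order.Coframe.toDistribLattice Order.Frame.toDistribLattice AbsoluteValue.zeroHomClass Pi.topologicalSpace SubalgebraClass.normedRing SubalgebraClass.seminormedRing SubringClass.toNormedRing SubringClass.toSeminormedRing instFiniteProp IsStrictOrderedRing.toCharZero RCLike.charZero_rclike Valued.toUniformSpace IsRegularLocalRing.toIsLocalRing Pi.semigroup SubringClass.toCommRing SetLike.GradeZero.instCommRing Pi.mulZeroOneClass Pi.instBotForall Fin.instBiheytingAlgebra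 MonomialOrder.orderBot RCLike.toDecidableEq SubfieldClass.toDivisionRing Pi.mulOneClass instIsDedekindDomainOfIsDomainOfIsDedekindRing IsDedekindDomainDvr.isDedekindDomain SubringClass.toRing SetLike.GradeZero.instRing CategoryTheory.instFinCategoryOfFintypeOfIsThin SetLike.instFintype Unique.fintype CategoryTheory.FinCategory.fintypeObj decidableEq_of_subsingleton EMetricSpace.toPseudoEMetricSpace MetricSpace.toEMetricSpace MetricSpace.toPseudoMetricSpace NonUnitalNormedRing.toMetricSpace NonUnitalSeminormedRing.toPseudoMetricSpace NormedAddCommGroup.toMetricSpace NormedAddGroup.toMetricSpace NormedCommGroup.toMetricSpace NormedDivisionRing.toMetricSpace NormedField.toMetricSpace NormedGroup.toMetricSpace NormedRing.toMetricSpace PseudoEMetricSpace.toUniformSpace PseudoMetricSpace.toPseudoEMetricSpace SeminormedAddCommGroup.toPseudoMetricSpace SeminormedAddGroup.toPseudoMetricSpace SeminormedCommGroup.toPseudoMetricSpace SeminormedGroup.toPseudoMetricSpace SeminormedRing.toPseudoMetricSpace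 WithIdeal.instTopologicalSpace WithIdeal.instUniformSpace Algebra.IsFiniteSplit.instFree CommRing.Pic.instFreeOfSubsingleton Pi.instOrderTop Pi.mulZeroClass Subalgebra.algebra' SubalgebraClass.toAlgebra SemilinearIsometryEquivClass.toSemilinearIsometryClass MulSemiringAction.toMulDistribMulAction Algebra.IsQuadraticExtension.toFree Module.Free.self SubsemiringClass.toCommSemiring SubsemiringClass.toSemiring SetLike.GradeZero.instCommSemiring SetLike.GradeZero.instSemiring Std.DTreeMap.Raw.instSingletonSigma ENormedAddCommMonoid.toESeminormedAddCommMonoid NormedAddCommGroup.toENormedAddCommMonoid instIsDomain DivisionRing.isDomain EuclideanDomain.instIsDomain Field.isDomain IsDedekindDomain.toIsDomain IsStrictOrderedRing.isDomain LinearOrderedAddCommGroupWithTop.toSubtractionMonoid Pi.instOne Pi.addCommMagma LinearMap.IsScalarTower.compatibleSMul' MulZeroClass.toSMulWithZero AbsoluteValue.mulHomClass Fin.instCoheytingAlgebra Fin.instHeytingAlgebra IdemSemiring.toMulLeftMono IsOrderedCancelMonoid.toIsOrderedMonoid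 IsOrderedMonoid.toIsOrderedCancelMonoid IsOrderedMonoid.toMulLeftMono LinearOrderedCommMonoidWithZero.toIsOrderedMonoid ValuationRing.instLinearOrderIdealOfDecidableLE LieAlgebra.ofAssociativeAlgebra MulActionWithZero.toMulAction MulDistribMulAction.toMulAction Module.IsTorsionBySet.isScalarTower AddCancelCommMonoid.toAddCancelMonoid AddGroup.toAddCancelMonoid Pi.instCanonicallyOrderedAddForall OrderDual.instRightDistribClass Pi.divInvMonoid NumberField.instFiniteDimensional MulOpposite.instMulOne SMulMemClass.toModule Subalgebra.module' SubmoduleClass.module' AddCancelMonoid.toAddLeftCancelMonoid IsOrderedRing.toIsStrictOrderedRing Set.instAddLeftMono SubringClass.toNonAssocCommRing SubringClass.toNonAssocRing IsScalarTower.subalgebra Subalgebra.isScalarTower_left Ideal.Quotient.isScalarTower_of_liesOver ENormedCommMonoid.toESeminormedCommMonoid NormedCommGroup.toENormedCommMonoid instNonemptyOfMonad AddCancelCommMonoid.toAddCommMonoid AddCancelMonoid.toAddRightCancelMonoid AddCommGroup.toGrindIntModule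 AddCommMonoid.toGrindNatModule AddLeftCancelMonoid.toAddMonoid AddRightCancelMonoid.toAddMonoid CommRing.toGrindCommRing CommSemiring.toGrindCommSemiring ENormedAddCommMonoid.toENormedAddMonoid ENormedAddMonoid.toESeminormedAddMonoid ESeminormedAddCommMonoid.toAddCommMonoid ESeminormedAddCommMonoid.toESeminormedAddMonoid ESeminormedAddMonoid.toAddMonoid Field.toGrindField MulZeroClass.negZeroClass NormedAddGroup.toENormedAddMonoid Ring.toGrindRing Semiring.toGrindSemiring Zero.ofOfNat0 Finsupp.instAddCommGroup Pi.commMagma Ordinal.leftDistribClass instFreeSubtypeMemIdealOfFiniteOfIsTorsionFree instIsSemisimpleModuleOfIsSimpleModule instIsSemisimpleRingOfSubsingleton IsSemisimpleRing.isSemisimpleModule RingHomInvPair.triples RingHomInvPair.triples₂ Submodule.instIdemCommSemiring Pi.instSubtractionCommMonoid WithTop.linearOrderedAddCommMonoidWithTop PerfectClosure.instField Pi.instSubsingleton TensorProduct.instSMul IsScalarTower.of_algHom Semigroup.isScalarTower Ideal.Quotient.isScalarTower_right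 Ideal.Quotient.smulCommClass bot_nonempty infSet_to_nonempty instInhabitedOfMonad supSet_to_nonempty top_nonempty AddTorsor.nonempty ConnectedSpace.toNonempty Field.instIsLocalRing IrreducibleSpace.toNonempty IsDiscreteValuationRing.toIsLocalRing Nontrivial.to_nonempty One.instNonempty Torsor.nonempty Unique.instInhabited ValuationRing.isLocalRing Zero.instNonempty CategoryTheory.IsConnected.is_nonempty Finsupp.instAddGroup instFiniteOfFinitePresentation instFinitePresentation instIsNoetherianRingOfIsArtinianRing instIsSimpleModule AddSubmonoidWithOneClass.toAddMonoidWithOne Algebra.instFiniteOfIsQuadraticExtension FiniteDimensional.finiteDimensional_self IsDedekindDomainDvr.toIsNoetherian IsDedekindRing.toIsNoetherian IsRegularLocalRing.toIsNoetherian IsSimpleModule.instIsNoetherian SetLike.instFinite SubsemiringClass.toNonAssocCommSemiring SubsemiringClass.toNonAssocSemiring Algebra.IsFiniteSplit.instFinitePresentation Module.FaithfullyFlat.instOfNontrivialOfFree Module.FaithfullyFlat.of_isIntegral_of_isDomain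 Module.FaithfullyFlat.self Module.FaithfullyFlat.toFlat Module.Finite.self Module.Flat.instOfIsDedekindDomainOfIsTorsionFree Ring.HasFiniteQuotients.instIsNoetherianRing RingHom.Finite.instFinite IsDedekindDomain.isDedekindDomainDvr IsDedekindDomain.toIsDedekindRing NonUnitalAlgHomClass.toNonUnitalRingHomClass NonUnitalAlgSemiHomClass.toMulHomClass RingEquivClass.toNonUnitalRingHomClass -- iprune

set_option linter.all false

section

/-!
Definitions for the reduction of the equal characteristic zero case to prime characteristic.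
-/

namespace Vale.Agent.P202.CZ

open IsLocalRing Filter Topology

universe u

/-- Lech's inequality for flat local maps of rings of prime characteristic, of the same dimension,
with finite residue field of the base. -/
def CharPLech : Prop :=
  ∀ (p : ℕ) (_ : p.Prime) (R S : Type u) [CommRing R] [IsLocalRing R] [IsNoetherianRing R]
    [CommRing S] [IsLocalRing S] [IsNoetherianRing S] [Algebra R S]
    [IsLocalHom (algebraMap R S)] [Module.Flat R S] [CharP R p] [Finite (ResidueField R)]
    (d : ℕ), 0 < d → ringKrullDim R = d → ringKrullDim S = d → ∀ eR eS : ℕ,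
    Tendsto (hsSeq R d) atTop (𝓝 (eR : ℝ)) → Tendsto (hsSeq S d) atTop (𝓝 (eS : ℝ)) → eR ≤ eS

/-- number of monomials of degree less than `N` in `d` variables. -/
noncomputable abbrev tc (d N : ℕ) : ℕ := (tri (Fin d) N).card

end Vale.Agent.P202.CZ
end

section

/-!
Lengths of powers of an ideal with `d` generators: averages over simplices of an antitone function
are antitone.
-/

set_option linter.unusedVariables false

namespace Vale.Agent.P202.CZ

open Finset

variable {d : ℕ}

/-- exponents of degree `i` -/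
noncomputable def prD (d i : ℕ) : Finset (Fin d →₀ ℕ) :=
  (Finset.univ : Finset (Fin d)).finsuppAntidiag i

theorem mem_prD {i : ℕ} {u : Fin d →₀ ℕ} : u ∈ prD d i ↔ u.degree = i := by
  rw [prD, Finset.mem_finsuppAntidiag, Finsupp.degree_eq_sum]
  simp

theorem pr_shift (g : (Fin d →₀ ℕ) → ℕ∞) (i : ℕ) :
    ∑ w ∈ prD d (i + 1), ∑ l, (w l : ℕ∞) * g (w - Finsupp.single l 1) =
      ∑ u ∈ prD d i, ∑ l, ((u l + 1 : ℕ) : ℕ∞) * g u := by
  classical
  rw [Finset.sum_comm, Finset.sum_comm (s := prD d i)]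
  refine Finset.sum_congr rfl fun l _ => ?_
  have h1 : ∑ w ∈ prD d (i + 1), (w l : ℕ∞) * g (w - Finsupp.single l 1) =
      ∑ w ∈ (prD d (i + 1)).filter (fun w => w l ≠ 0),
        (w l : ℕ∞) * g (w - Finsupp.single l 1) := by
    rw [Finset.sum_filter]
    refine Finset.sum_congr rfl fun w _ => ?_
    split_ifs with h
    · rfl
    · rw [not_not] at h
      rw [h]; simp
  rw [h1]
  refine Finset.sum_nbij' (fun w => w - Finsupp.single l 1) (fun u => u + Finsupp.single l 1)
    ?_ ?_ ?_ ?_ ?_
  · intro w hw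
    rw [Finset.mem_filter, mem_prD] at hw
    rw [mem_prD]
    have h2 : w = (w - Finsupp.single l 1) + Finsupp.single l 1 := by
      ext j
      by_cases hj : j = l
      · subst hj
        simp only [Finsupp.coe_add, Finsupp.coe_tsub, Pi.add_apply, Pi.sub_apply,
          Finsupp.single_eq_same]
        have := hw.2
        omega
      · simp [Finsupp.single_eq_of_ne hj]
    have h3 := congrArg Finsupp.degree h2
    rw [map_add, Finsupp.degree_single, hw.1] at h3
    omega
  · intro u hu
    rw [mem_prD] at hu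
    rw [Finset.mem_filter, mem_prD, map_add, Finsupp.degree_single, hu]
    simp
  · intro w hw
    rw [Finset.mem_filter, mem_prD] at hw
    ext j
    by_cases hj : j = l
    · subst hj
      simp only [Finsupp.coe_add, Finsupp.coe_tsub, Pi.add_apply, Pi.sub_apply,
        Finsupp.single_eq_same]
      have := hw.2
      omega
    · simp [Finsupp.single_eq_of_ne hj]
  · intro u _
    simp
  · intro w hw
    rw [Finset.mem_filter, mem_prD] at hw
    congr 2
    simp only [Finsupp.coe_tsub, Pi.sub_apply, Finsupp.single_eq_same]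
    have := hw.2
    omega

theorem pr_degree (u : Fin d →₀ ℕ) (x : ℕ∞) : ∑ l, (u l : ℕ∞) * x = (u.degree : ℕ∞) * x := by
  rw [← Finset.sum_mul, Finsupp.degree_eq_sum]
  push_cast
  rfl

theorem pr_right (g : (Fin d →₀ ℕ) → ℕ∞) (i : ℕ) :
    ∑ u ∈ prD d i, ∑ l, ((u l + 1 : ℕ) : ℕ∞) * g u = ((i + d : ℕ) : ℕ∞) * ∑ u ∈ prD d i, g u := by
  rw [Finset.mul_sum]
  refine Finset.sum_congr rfl fun u hu => ?_
  rw [mem_prD] at hu
  have : ∑ l, ((u l + 1 : ℕ) : ℕ∞) * g u = ∑ l, (u l : ℕ∞) * g u + ∑ _l : Fin d, g u := by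
    rw [← Finset.sum_add_distrib]
    refine Finset.sum_congr rfl fun l _ => ?_
    push_cast
    ring
  rw [this, pr_degree, hu]
  simp only [Finset.sum_const, Finset.card_univ, Fintype.card_fin, nsmul_eq_mul]
  push_cast
  ring

theorem pr_step (g : (Fin d →₀ ℕ) → ℕ∞) (hg : ∀ u w, u ≤ w → g w ≤ g u) (i : ℕ) :
    ((i + 1 : ℕ) : ℕ∞) * ∑ u ∈ prD d (i + 1), g u ≤ ((i + d : ℕ) : ℕ∞) * ∑ u ∈ prD d i, g u := by
  rw [← pr_right, ← pr_shift, Finset.mul_sum]
  refine Finset.sum_le_sum fun w hw => ?_
  rw [mem_prD] at hw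
  rw [← hw, ← pr_degree]
  refine Finset.sum_le_sum fun l _ => ?_
  exact mul_le_mul_right (hg _ _ tsub_le_self) _

theorem pr_step_card (i : ℕ) :
    ((i + 1 : ℕ) : ℕ∞) * (#(prD d (i + 1)) : ℕ∞) = ((i + d : ℕ) : ℕ∞) * (#(prD d i) : ℕ∞) := by
  have h1 := pr_right (d := d) (fun _ => 1) i
  have h2 := pr_shift (d := d) (fun _ => 1) i
  rw [h1] at h2
  simp only [pr_degree] at h2
  rw [Finset.sum_congr rfl (g := fun _ => ((i + 1 : ℕ) : ℕ∞) * 1)
    (fun w hw => by rw [mem_prD] at hw; rw [hw])] at h2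
  simp only [Finset.sum_const, nsmul_eq_mul, mul_one] at h2
  rw [← h2, mul_comm]

theorem pr_cancel (n : ℕ) {a b : ℕ∞} (h : ((n + 1 : ℕ) : ℕ∞) * a ≤ ((n + 1 : ℕ) : ℕ∞) * b) :
    a ≤ b :=
  (ENat.mul_le_mul_left_iff (by exact_mod_cast Nat.succ_ne_zero n) (ENat.natCast_ne_top _)).mp h

theorem pr_chain (g : (Fin d →₀ ℕ) → ℕ∞) (hg : ∀ u w, u ≤ w → g w ≤ g u) (i k : ℕ) :
    (∑ u ∈ prD d (i + k), g u) * (#(prD d i) : ℕ∞) ≤
      (∑ u ∈ prD d i, g u) * (#(prD d (i + k)) : ℕ∞) := by
  induction k with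
  | zero => exact le_rfl
  | succ k ih =>
    apply pr_cancel (i + k)
    calc ((i + k + 1 : ℕ) : ℕ∞) * ((∑ u ∈ prD d (i + (k + 1)), g u) * (#(prD d i) : ℕ∞))
        = (((i + k + 1 : ℕ) : ℕ∞) * ∑ u ∈ prD d (i + k + 1), g u) * (#(prD d i) : ℕ∞) := by
          rw [mul_assoc]; rfl
      _ ≤ (((i + k + d : ℕ) : ℕ∞) * ∑ u ∈ prD d (i + k), g u) * (#(prD d i) : ℕ∞) :=
          mul_le_mul_left (pr_step g hg (i + k)) _
      _ = ((i + k + d : ℕ) : ℕ∞) * ((∑ u ∈ prD d (i + k), g u) * (#(prD d i) : ℕ∞)) := by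
          rw [mul_assoc]
      _ ≤ ((i + k + d : ℕ) : ℕ∞) * ((∑ u ∈ prD d i, g u) * (#(prD d (i + k)) : ℕ∞)) :=
          mul_le_mul_right ih _
      _ = (∑ u ∈ prD d i, g u) * (((i + k + d : ℕ) : ℕ∞) * (#(prD d (i + k)) : ℕ∞)) := by ring
      _ = (∑ u ∈ prD d i, g u) * (((i + k + 1 : ℕ) : ℕ∞) * (#(prD d (i + k + 1)) : ℕ∞)) := by
          rw [pr_step_card]
      _ = ((i + k + 1 : ℕ) : ℕ∞) *
          ((∑ u ∈ prD d i, g u) * (#(prD d (i + (k + 1))) : ℕ∞)) := by
          rw [show i + (k + 1) = i + k + 1 from rfl]; ring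

theorem pr_sum_tri (g : (Fin d →₀ ℕ) → ℕ∞) (N : ℕ) :
    ∑ u ∈ tri (Fin d) N, g u = ∑ i ∈ Finset.range N, ∑ u ∈ prD d i, g u := by
  classical
  induction N with
  | zero =>
    have : tri (Fin d) 0 = ∅ := by ext u; simp [mem_tri]
    rw [this]; simp
  | succ N ih =>
    have h1 : tri (Fin d) (N + 1) = tri (Fin d) N ∪ prD d N := by
      ext u
      rw [mem_tri, Finset.mem_union, mem_tri, mem_prD]
      omega
    have h2 : Disjoint (tri (Fin d) N) (prD d N) := by
      rw [Finset.disjoint_left]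
      intro u hu hu'
      rw [mem_tri] at hu
      rw [mem_prD] at hu'
      omega
    rw [h1, Finset.sum_union h2, ih, Finset.sum_range_succ]

theorem pr_avg (g : (Fin d →₀ ℕ) → ℕ∞) (hg : ∀ u w, u ≤ w → g w ≤ g u) {j N : ℕ} (hjN : j ≤ N) :
    (∑ u ∈ tri (Fin d) N, g u) * (tc d j : ℕ∞) ≤ (∑ u ∈ tri (Fin d) j, g u) * (tc d N : ℕ∞) := by
  have hc : ∀ n : ℕ, (tc d n : ℕ∞) = ∑ i ∈ Finset.range n, (#(prD d i) : ℕ∞) := by
    intro n
    have := pr_sum_tri (d := d) (fun _ => 1) n
    simpa using this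
  rw [pr_sum_tri, pr_sum_tri, hc, hc]
  obtain ⟨m, rfl⟩ := Nat.exists_eq_add_of_le hjN
  clear hjN
  induction m with
  | zero => exact le_rfl
  | succ m ih =>
    rw [← Nat.add_assoc, Finset.sum_range_succ, Finset.sum_range_succ, add_mul, mul_add]
    refine add_le_add ih ?_
    rw [Finset.mul_sum, Finset.sum_mul]
    refine Finset.sum_le_sum fun i hi => ?_
    rw [Finset.mem_range] at hi
    have := pr_chain g hg i (j + m - i)
    rwa [Nat.add_sub_cancel' (by omega)] at this

/-- D1: lengths of powers of an ideal with `d` generators. -/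
theorem pow_ratio {S : Type*} [CommRing S] {d : ℕ} (y : Fin d → S) {j N : ℕ} (hj : 0 < j)
    (hjN : j ≤ N) :
    ell (Ideal.span (Set.range y) ^ N) * (tc d j : ℕ∞) ≤
      ell (Ideal.span (Set.range y) ^ j) * (tc d N : ℕ∞) := by
  rw [ell_pow_eq, ell_pow_eq]
  exact pr_avg _ (fun u w huw => gp_antitone y huw) hjN

end Vale.Agent.P202.CZ
end

section

/-!
Numerical part of the specialization theorem.
-/

namespace Vale.Agent.P202.CZ

open MvPowerSeries IsLocalRing Filter Topology

universe u

lemma tc_one (d : ℕ) : tc d 1 = 1 := by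
  have := card_tri_succ (σ := Fin d) 0
  rw [Nat.multichoose_zero_right] at this
  exact this

lemma ell_pow_le_tc {A : Type u} [CommRing A] {d : ℕ} (w : Fin d → A) {N : ℕ} (hN : 1 ≤ N) :
    ell (Ideal.span (Set.range w) ^ N) ≤ ell (Ideal.span (Set.range w)) * (tc d N : ℕ∞) := by
  have h := pow_ratio w (j := 1) one_pos hN
  rwa [tc_one, pow_one, Nat.cast_one, mul_one] at h

/-- growth of order `N ^ d` needs dimension at least `d`. -/
lemma le_dim_of_growth {A : Type u} [CommRing A] [IsLocalRing A] [IsNoetherianRing A]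
    {d d' r a : ℕ} (hr : 0 < r) (hd' : ringKrullDim A = d')
    (h : ∀ N, (r : ℕ∞) * (tc d N : ℕ∞) ≤ ell (maximalIdeal A ^ (N + a))) : d ≤ d' := by
  by_contra hlt
  push Not at hlt
  obtain ⟨w, hw, s, hs⟩ := exists_parameters hd'
  have hfin : ell (Ideal.span (Set.range w)) ≠ ⊤ := ell_ne_top_of_pow_le hs
  obtain ⟨C, hC⟩ := ENat.ne_top_iff_exists.mp hfin
  have hle : Ideal.span (Set.range w) ≤ maximalIdeal A := by
    rw [Ideal.span_le]
    rintro _ ⟨i, rfl⟩
    exact hw i
  have h1 : ∀ N, 1 ≤ N → r * tc d N ≤ C * tc d' (N + a) := by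
    intro N hN
    have h2 := (h N).trans ((ell_mono (Ideal.pow_right_mono hle (N + a))).trans
      (ell_pow_le_tc w (by omega)))
    rw [← hC] at h2
    exact_mod_cast h2
  set K := d.factorial * C * 2 ^ d' with hK
  set N := a + d' + K + 1 with hN
  have hN1 : 1 ≤ N := by omega
  have h3 : N ^ d ≤ d.factorial * tc d N := by
    have := pow_le_factorial_mul_card_tri (σ := Fin d) N (by omega)
    rwa [Fintype.card_fin] at this
  have h4 : tc d' (N + a) ≤ (N + a + d') ^ d' := by
    have := factorial_mul_card_tri_le (σ := Fin d') (N + a)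
    rw [Fintype.card_fin] at this
    refine le_trans ?_ this
    exact Nat.le_mul_of_pos_left _ (Nat.factorial_pos _)
  have h5 : (N + a + d') ^ d' ≤ 2 ^ d' * N ^ d' := by
    rw [← mul_pow]
    exact Nat.pow_le_pow_left (by omega) _
  have h6 : N ^ d ≤ K * N ^ d' := by
    calc N ^ d ≤ d.factorial * tc d N := h3
      _ ≤ d.factorial * (r * tc d N) := by
          gcongr
          exact Nat.le_mul_of_pos_left _ hr
      _ ≤ d.factorial * (C * tc d' (N + a)) := Nat.mul_le_mul_left _ (h1 N hN1)
      _ ≤ d.factorial * (C * (2 ^ d' * N ^ d')) := by gcongr; exact h4.trans h5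
      _ = K * N ^ d' := by rw [hK]; ring
  have h7 : N * N ^ d' ≤ N ^ d := by
    rw [← pow_succ']
    exact Nat.pow_le_pow_right (by omega) (by omega)
  have h8 : N ≤ K := Nat.le_of_mul_le_mul_right (h7.trans h6) (by positivity)
  omega

/-- upper bound for a limit. -/
lemma limit_upper' {d q l j : ℕ} (b : ℕ → ℕ)
    (hb : ∀ N, j ≤ N → b N * q ≤ l * tc d N) (e : ℝ)
    (he : Tendsto (fun N : ℕ => (d.factorial : ℝ) * (b N : ℝ) / (N : ℝ) ^ d) atTop (𝓝 e)) :
    e * q ≤ l := by
  have h1 := (tendsto_shift_pow_ratio d d).const_mul (l : ℝ)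
  rw [mul_one] at h1
  have h2 := he.mul_const (q : ℝ)
  refine le_of_tendsto_of_tendsto h2 h1 ?_
  filter_upwards [eventually_gt_atTop 0, eventually_ge_atTop j] with n hn hj
  have hnd : (0 : ℝ) < (n : ℝ) ^ d := by positivity
  rw [div_mul_eq_mul_div, mul_div_assoc']
  refine (div_le_div_iff_of_pos_right hnd).mpr ?_
  have h3 := factorial_mul_card_tri_le (σ := Fin d) n
  rw [Fintype.card_fin] at h3
  have h4 : d.factorial * b n * q ≤ l * (n + d) ^ d := by
    calc d.factorial * b n * q = d.factorial * (b n * q) := by ring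
      _ ≤ d.factorial * (l * tc d n) := Nat.mul_le_mul_left _ (hb n hj)
      _ = l * (d.factorial * tc d n) := by ring
      _ ≤ _ := by gcongr
  exact_mod_cast h4

/-- the dimension does not drop along flat local maps. -/
lemma dim_le_of_flat {R S : Type u} [CommRing R] [IsLocalRing R] [IsNoetherianRing R]
    [CommRing S] [IsLocalRing S] [IsNoetherianRing S] [Algebra R S]
    [IsLocalHom (algebraMap R S)] [Module.Flat R S] {d s : ℕ} (hR : ringKrullDim R = d)
    (hS : ringKrullDim S = s) : d ≤ s := by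
  have h1 := Ideal.height_eq_height_add_of_liesOver_of_hasGoingDown (maximalIdeal R)
    (maximalIdeal S)
  have h2 : (maximalIdeal R).height ≤ (maximalIdeal S).height := by
    rw [h1]; exact le_self_add
  rw [← IsLocalRing.maximalIdeal_height_eq_ringKrullDim] at hR hS
  have h3 : (maximalIdeal R).height = d := by exact_mod_cast hR
  have h4 : (maximalIdeal S).height = s := by exact_mod_cast hS
  rw [h3, h4] at h2
  exact_mod_cast h2

theorem final_ineq (Hp : CharPLech.{u}) {p : ℕ} (hp : p.Prime) {R S : Type u} [CommRing R]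
    [IsLocalRing R] [IsNoetherianRing R] [CommRing S] [IsLocalRing S] [IsNoetherianRing S]
    [Algebra R S] [IsLocalHom (algebraMap R S)] [Module.Flat R S] [CharP R p]
    [Finite (ResidueField R)] {d dR dS : ℕ} (hd : 0 < d) (hdR : ringKrullDim R = dR) (hdS : ringKrullDim S = dS)
    (hdSle : dS ≤ d) {r a j l : ℕ} (hj : 0 < j)
    (hlow : ∀ N, (r : ℕ∞) * (tc d N : ℕ∞) ≤ ell (maximalIdeal R ^ (N + a)))
    (y : Fin d → S) (hy : ∀ i, y i ∈ maximalIdeal S)
    (hl : ell (Ideal.span (Set.range y) ^ j) ≤ (l : ℕ∞)) : r * tc d j ≤ l := by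
  rcases Nat.eq_zero_or_pos r with rfl | hr
  · simp
  have h1 : d ≤ dR := le_dim_of_growth hr hdR hlow
  have h2 : dR ≤ dS := dim_le_of_flat (R := R) (S := S) hdR hdS
  obtain rfl : dR = d := by omega
  obtain rfl : dS = dR := by omega
  obtain ⟨eR, heR⟩ := exists_mult (A := R) hd hdR
  obtain ⟨eS, heS⟩ := exists_mult (A := S) hd hdS
  have h3 : eR ≤ eS := Hp p hp R S _ hd hdR hdS eR eS heR heS
  have h4 : (r : ℝ) ≤ eR := by
    refine limit_lower (c := a) (fun N => (ell (maximalIdeal R ^ N)).toNat) ?_ eR heR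
    intro N
    obtain ⟨b, hb⟩ := ENat.ne_top_iff_exists.mp
      (ell_ne_top_of_pow_le (I := maximalIdeal R ^ (N + a)) le_rfl)
    have h5 := hlow N
    rw [← hb] at h5
    simp only [← hb, ENat.toNat_natCast]
    exact_mod_cast h5
  have h5 : (eS : ℝ) * (tc dS j : ℕ) ≤ l := by
    refine limit_upper' (d := dS) (j := j) (fun N => (ell (maximalIdeal S ^ N)).toNat) ?_ eS heS
    intro N hN
    obtain ⟨b, hb⟩ := ENat.ne_top_iff_exists.mp
      (ell_ne_top_of_pow_le (I := maximalIdeal S ^ N) le_rfl)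
    have hle : Ideal.span (Set.range y) ≤ maximalIdeal S := by
      rw [Ideal.span_le]
      rintro _ ⟨i, rfl⟩
      exact hy i
    have h6 : ell (maximalIdeal S ^ N) * (tc dS j : ℕ∞) ≤ (l : ℕ∞) * (tc dS N : ℕ∞) := by
      refine (mul_le_mul_left (ell_mono (Ideal.pow_right_mono hle N)) _).trans ?_
      refine (pow_ratio y hj hN).trans ?_
      gcongr
    rw [← hb] at h6
    simp only [← hb, ENat.toNat_natCast]
    exact_mod_cast h6
  have h6 : r ≤ eS := by
    have : r ≤ eR := by exact_mod_cast h4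
    omega
  have h7 : eS * tc dS j ≤ l := by exact_mod_cast h5
  exact (Nat.mul_le_mul_right _ h6).trans h7

end Vale.Agent.P202.CZ
end

section

/-!
Growth of finite modules over a power series ring over a field.
-/

namespace Vale.Agent.P202.CZ

open MvPowerSeries IsLocalRing

section Order

variable {σ : Type*} {k : Type*} [Field k]

/-- a power series without coefficients of degree `≤ N` is a combination of the variables with
coefficients without terms of degree `< N`. -/
lemma gps_mem_mm_pow_of_coeff [Finite σ] (N : ℕ) (f : MvPowerSeries σ k)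
    (hf : ∀ u : σ →₀ ℕ, u.degree < N → coeff u f = 0) : f ∈ mm σ k ^ N := by
  classical
  have := Fintype.ofFinite σ
  induction N generalizing f with
  | zero => simp
  | succ N ih =>
    have hex : ∀ a : σ →₀ ℕ, ∃ o : Option σ, (o = none → a = 0) ∧ ∀ i, o = some i → a i ≠ 0 := by
      intro a
      by_cases ha : a = 0
      · exact ⟨none, fun _ => ha, fun i h => by simp at h⟩
      · obtain ⟨i, hi⟩ := Finsupp.ne_iff.mp ha
        exact ⟨some i, fun h => by simp at h, fun j hj => by
          rw [Option.some.injEq] at hj; subst hj; simpa using hi⟩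
    choose o ho1 ho2 using hex
    let g : σ → MvPowerSeries σ k := fun i b =>
      if o (b + Finsupp.single i 1) = some i then coeff (b + Finsupp.single i 1) f else 0
    have hg : ∀ i b, coeff b (g i) =
        if o (b + Finsupp.single i 1) = some i then coeff (b + Finsupp.single i 1) f else 0 :=
      fun i b => rfl
    have hfe : f = ∑ i, X i * g i := by
      ext a
      rw [map_sum]
      have h1 : ∀ i, coeff a (X i * g i) = if o a = some i then coeff a f else 0 := by
        intro i
        rw [X, coeff_monomial_mul, one_mul, hg]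
        by_cases hi : Finsupp.single i 1 ≤ a
        · rw [if_pos hi, tsub_add_cancel_of_le hi]
        · rw [if_neg hi, if_neg]
          intro h
          apply hi
          rw [Finsupp.single_le_iff]
          exact Nat.one_le_iff_ne_zero.mpr (ho2 a i h)
      simp only [h1]
      rcases h : o a with _ | j
      · have ha := ho1 a h
        subst ha
        simp only [reduceCtorEq, if_false, Finset.sum_const_zero]
        exact hf 0 (by simp)
      · rw [Finset.sum_eq_single j]
        · rw [if_pos rfl]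
        · intro i _ hi
          rw [if_neg]
          intro h'
          exact hi (Option.some.inj h').symm
        · intro h'
          exact absurd (Finset.mem_univ _) h'
    rw [hfe, pow_succ']
    refine Ideal.sum_mem _ fun i _ => Ideal.mul_mem_mul (Ideal.subset_span ⟨i, rfl⟩) ?_
    refine ih (g i) fun u hu => ?_
    rw [hg]
    split_ifs
    · refine hf _ ?_
      rw [map_add, Finsupp.degree_single]
      omega
    · rfl

/-- the power series of order at least `N` -/
noncomputable def gpsI (σ : Type*) (k : Type*) [Field k] (N : ℕ) : Ideal (MvPowerSeries σ k) where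
  carrier := {f | (N : ℕ∞) ≤ f.order}
  add_mem' := by
    intro f g hf hg
    exact le_trans (le_min hf hg) min_order_le_add
  zero_mem' := by simp
  smul_mem' := by
    intro c f hf
    exact le_trans (le_trans hf le_add_self) (le_order_mul (f := c) (g := f))

lemma gps_mem_I {N : ℕ} {f : MvPowerSeries σ k} : f ∈ gpsI σ k N ↔ (N : ℕ∞) ≤ f.order := Iff.rfl

lemma gps_mm_pow_le (N : ℕ) : mm σ k ^ N ≤ gpsI σ k N := by
  induction N with
  | zero =>
    intro f _
    rw [gps_mem_I]
    simp
  | succ N ih =>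
    rw [pow_succ, Ideal.mul_le]
    intro f hf g hg
    have h1 : (1 : ℕ∞) ≤ g.order := by
      rw [one_le_order_iff_constCoeff_eq_zero]
      have h : mm σ k ≤ RingHom.ker (constantCoeff (σ := σ) (R := k)) := by
        rw [mm, Ideal.span_le]
        rintro _ ⟨i, rfl⟩
        simp [RingHom.mem_ker]
      exact h hg
    have h2 : (N : ℕ∞) ≤ f.order := ih hf
    rw [gps_mem_I, Nat.cast_add, Nat.cast_one]
    exact (add_le_add h2 h1).trans le_order_mul

lemma gps_mem_mm_pow [Finite σ] {N : ℕ} {f : MvPowerSeries σ k} :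
    f ∈ mm σ k ^ N ↔ (N : ℕ∞) ≤ f.order := by
  constructor
  · intro h
    exact gps_mm_pow_le N h
  · intro h
    refine gps_mem_mm_pow_of_coeff N f fun u hu => coeff_of_lt_order (lt_of_lt_of_le ?_ h)
    exact_mod_cast hu

lemma gps_mem_mm_pow' [Finite σ] {N : ℕ} {f : MvPowerSeries σ k} :
    f ∈ mm σ k ^ N ↔ ∀ u : σ →₀ ℕ, u.degree < N → coeff u f = 0 := by
  constructor
  · intro h u hu
    refine coeff_of_lt_order (lt_of_lt_of_le ?_ (gps_mem_mm_pow.mp h))
    exact_mod_cast hu
  · exact gps_mem_mm_pow_of_coeff N f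

end Order

section

variable {k : Type*} [Field k] {R : Type*} [CommRing R] [Algebra k R]

/-- restricting scalars does not decrease the length. -/
lemma gps_length_le_restrict (M : Type*) [AddCommGroup M] [Module R M] [Module k M]
    [IsScalarTower k R M] : Module.length R M ≤ Module.length k M := by
  rw [← WithBot.coe_le_coe, Module.coe_length, Module.coe_length]
  exact Order.krullDim_le_of_strictMono (Submodule.restrictScalars k)
    (Submodule.restrictScalarsEmbedding k R M).strictMono

/-- over a local ring with coefficient field the length is the dimension -/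
lemma gps_length_le_of_residue [IsLocalRing R]
    (hres : ∀ z : R, ∃ a : k, z - algebraMap k R a ∈ maximalIdeal R) (n : ℕ) :
    ∀ (M : Type*) [AddCommGroup M] [Module R M] [Module k M] [IsScalarTower k R M],
    Module.length R M = n → Module.length k M ≤ n := by
  induction n with
  | zero =>
    intro M _ _ _ _ h
    rw [Nat.cast_zero, Module.length_eq_zero_iff] at h
    rw [Module.length_eq_zero_iff.mpr h]
    simp
  | succ n ih =>
    intro M _ _ _ _ h
    have hfin : Module.length R M ≠ ⊤ := by rw [h]; exact ENat.natCast_ne_top _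
    have hfl := Module.length_ne_top_iff.mp hfin
    rw [isFiniteLength_iff_isNoetherian_isArtinian] at hfl
    obtain ⟨_, _⟩ := hfl
    have hnt : Nontrivial M := by
      rw [← Module.length_pos_iff (R := R), h]
      exact_mod_cast Nat.succ_pos n
    obtain ⟨N, hN, _⟩ := (eq_bot_or_exists_atom_le (⊤ : Submodule R M)).resolve_left
      (by simp)
    have hs : IsSimpleModule R N := isSimpleModule_iff_isAtom.mpr hN
    have h1 : Module.length R N = 1 := Module.length_eq_one_iff.mpr hs
    have hsum : Module.length R M = Module.length R N + Module.length R (M ⧸ N) :=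
      Module.length_eq_add_of_exact N.subtype N.mkQ N.injective_subtype N.mkQ_surjective
        (LinearMap.exact_subtype_mkQ N)
    have hq : Module.length R (M ⧸ N) = n := by
      rw [h1, h, Nat.cast_add, Nat.cast_one, add_comm] at hsum
      exact (ENat.add_right_injective_of_ne_top (by simp : (1 : ℕ∞) ≠ ⊤) hsum).symm
    have h2 := ih (M ⧸ N) hq
    have h3 : Module.length k N ≤ 1 := by
      have : Nontrivial N := by
        rw [← Module.length_pos_iff (R := R), h1]
        exact one_pos
      obtain ⟨v, hv0⟩ := exists_ne (0 : N)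
      have hkill : ∀ z ∈ maximalIdeal R, z • v = 0 := by
        intro z hz
        by_contra hzv
        have ht : Submodule.span R {z • v} = ⊤ :=
          (eq_bot_or_eq_top _).resolve_left (by simpa using hzv)
        have hv : v ∈ Submodule.span R {z • v} := ht ▸ Submodule.mem_top
        obtain ⟨c, hc⟩ := Submodule.mem_span_singleton.mp hv
        have : (1 - c * z) • v = 0 := by
          rw [sub_smul, one_smul, mul_smul, hc, sub_self]
        have hu : IsUnit (1 - c * z) := by
          by_contra hu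
          have : (1 : R) ∈ maximalIdeal R := by
            have := Ideal.add_mem _ ((mem_maximalIdeal _).mpr hu) (Ideal.mul_mem_left _ c hz)
            rwa [sub_add_cancel] at this
          exact (Ideal.ne_top_iff_one _).mp (IsLocalRing.maximalIdeal.isMaximal R).ne_top this
        exact hv0 ((hu.smul_eq_zero).mp this)
      have hsurj : Function.Surjective (LinearMap.toSpanSingleton k N v) := by
        intro w
        have ht : Submodule.span R {v} = ⊤ :=
          (eq_bot_or_eq_top _).resolve_left (by simpa using hv0)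
        have hw : w ∈ Submodule.span R {v} := ht ▸ Submodule.mem_top
        obtain ⟨z, hz⟩ := Submodule.mem_span_singleton.mp hw
        obtain ⟨a, ha⟩ := hres z
        refine ⟨a, ?_⟩
        have := hkill _ ha
        rw [sub_smul, sub_eq_zero, algebraMap_smul, hz] at this
        rw [LinearMap.toSpanSingleton_apply, this]
      refine (Module.length_le_of_surjective _ hsurj).trans ?_
      rw [Module.length_eq_finrank]
      simp
    have hsumk : Module.length k M = Module.length k N + Module.length k (M ⧸ N) :=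
      Module.length_eq_add_of_exact (N.subtype.restrictScalars k) (N.mkQ.restrictScalars k)
        N.injective_subtype N.mkQ_surjective (LinearMap.exact_subtype_mkQ N)
    rw [hsumk, Nat.cast_add, Nat.cast_one, add_comm]
    exact add_le_add h2 h3

lemma gps_length_eq [IsLocalRing R]
    (hres : ∀ z : R, ∃ a : k, z - algebraMap k R a ∈ maximalIdeal R)
    (M : Type*) [AddCommGroup M] [Module R M] [Module k M] [IsScalarTower k R M] :
    Module.length R M = Module.length k M := by
  refine le_antisymm (gps_length_le_restrict M) ?_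
  by_cases h : Module.length R M = ⊤
  · rw [h]; exact le_top
  · obtain ⟨n, hn⟩ := ENat.ne_top_iff_exists.mp h
    rw [← hn]
    exact gps_length_le_of_residue hres n M hn.symm

end

section Len

variable {k : Type*} [Field k] {d : ℕ}

/-- the truncation map -/
noncomputable def gpsT (k : Type*) [Field k] (d N : ℕ) :
    MvPowerSeries (Fin d) k →ₗ[k] (tri (Fin d) N → k) :=
  LinearMap.pi fun u => coeff (R := k) u.1

lemma gpsT_surjective (N : ℕ) : Function.Surjective (gpsT k d N) := by
  classical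
  intro g
  refine ⟨fun u => if h : u ∈ tri (Fin d) N then g ⟨u, h⟩ else 0, ?_⟩
  ext u
  change (if h : u.1 ∈ tri (Fin d) N then g ⟨u.1, h⟩ else 0) = g u
  rw [dif_pos u.2]

lemma gpsT_ker (N : ℕ) :
    LinearMap.ker (gpsT k d N) = (mm (Fin d) k ^ N).restrictScalars k := by
  ext f
  rw [LinearMap.mem_ker, Submodule.restrictScalars_mem, gps_mem_mm_pow']
  constructor
  · intro h u hu
    have := congrFun h ⟨u, mem_tri.mpr hu⟩
    exact this
  · intro h
    ext u
    exact h u.1 (mem_tri.mp u.2)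

lemma gps_residue (z : MvPowerSeries (Fin d) k) :
    ∃ a : k, z - algebraMap k (MvPowerSeries (Fin d) k) a ∈
      maximalIdeal (MvPowerSeries (Fin d) k) := by
  refine ⟨constantCoeff z, ?_⟩
  rw [mem_maximalIdeal, mem_nonunits_iff, isUnit_iff_constantCoeff, map_sub]
  have : constantCoeff (algebraMap k (MvPowerSeries (Fin d) k) (constantCoeff z)) =
      constantCoeff z := by
    rw [MvPowerSeries.algebraMap_apply]
    simp
  rw [this, sub_self]
  simp

lemma gps_length_quot (N : ℕ) :
    Module.length (MvPowerSeries (Fin d) k) (MvPowerSeries (Fin d) k ⧸ mm (Fin d) k ^ N) =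
      (tc d N : ℕ∞) := by
  rw [gps_length_eq (k := k) gps_residue]
  have e1 : (MvPowerSeries (Fin d) k ⧸ (LinearMap.ker (gpsT k d N))) ≃ₗ[k] (tri (Fin d) N → k) :=
    (gpsT k d N).quotKerEquivOfSurjective (gpsT_surjective N)
  have e2 : (MvPowerSeries (Fin d) k ⧸ (LinearMap.ker (gpsT k d N))) ≃ₗ[k]
      (MvPowerSeries (Fin d) k ⧸ (mm (Fin d) k ^ N).restrictScalars k) :=
    Submodule.quotEquivOfEq _ _ (gpsT_ker N)
  have e3 := (Submodule.Quotient.restrictScalarsEquiv k (mm (Fin d) k ^ N))
  rw [← e3.length_eq, ← e2.length_eq, e1.length_eq, Module.length_eq_finrank,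
    Module.finrank_fintype_fun_eq_card, Fintype.card_coe]

/-- the number of monomials of degree in `[N - a, N)` -/
lemma gps_tc_le (hd : 0 < d) (a N : ℕ) : tc d N ≤ tc d (N - a) + a * N ^ (d - 1) := by
  classical
  obtain ⟨d, rfl⟩ : ∃ m, d = m + 1 := ⟨d - 1, by omega⟩
  rw [Nat.add_sub_cancel]
  have hsub : tri (Fin (d + 1)) (N - a) ⊆ tri (Fin (d + 1)) N := by
    intro u hu
    rw [mem_tri] at hu ⊢
    omega
  change (tri (Fin (d + 1)) N).card ≤ (tri (Fin (d + 1)) (N - a)).card + a * N ^ d
  rw [← Finset.card_sdiff_add_card_eq_card hsub, add_comm]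
  refine Nat.add_le_add_left ?_ _
  have hinj : (tri (Fin (d + 1)) N \ tri (Fin (d + 1)) (N - a)).card ≤
      ((Finset.range a) ×ˢ (Fintype.piFinset fun _ : Fin d => Finset.range N)).card := by
    refine Finset.card_le_card_of_injOn (fun u => (u.degree - (N - a), fun i : Fin d => u i.succ))
      ?_ ?_
    · intro u hu
      rw [Finset.mem_coe, Finset.mem_sdiff, mem_tri, mem_tri] at hu
      rw [Finset.mem_coe, Finset.mem_product, Finset.mem_range, Fintype.mem_piFinset]
      refine ⟨by dsimp only; omega, fun i => ?_⟩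
      rw [Finset.mem_range]
      exact lt_of_le_of_lt (Finsupp.le_degree _ u) hu.1
    · intro u hu v hv huv
      rw [Finset.mem_coe, Finset.mem_sdiff, mem_tri, mem_tri] at hu hv
      rw [Prod.mk.injEq] at huv
      obtain ⟨h1, h2⟩ := huv
      have hdeg : u.degree = v.degree := by omega
      have h3 : ∀ i : Fin d, u i.succ = v i.succ := fun i => congrFun h2 i
      rw [Finsupp.degree_eq_sum, Finsupp.degree_eq_sum, Fin.sum_univ_succ, Fin.sum_univ_succ,
        Finset.sum_congr rfl fun i _ => h3 i] at hdeg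
      ext i
      refine Fin.cases ?_ h3 i
      omega
  refine hinj.trans (le_of_eq ?_)
  rw [Finset.card_product, Finset.card_range, Fintype.card_piFinset]
  simp

/-- the length of the quotient by a nonzero element -/
lemma gps_length_quot_sup (hd : 0 < d) {δ : MvPowerSeries (Fin d) k} (hδ : δ ≠ 0) :
    ∃ a : ℕ, ∀ N : ℕ, Module.length (MvPowerSeries (Fin d) k)
      (MvPowerSeries (Fin d) k ⧸ (Ideal.span {δ} ⊔ mm (Fin d) k ^ N)) ≤
        ((a * N ^ (d - 1) : ℕ) : ℕ∞) := by
  have ho : δ.order ≠ ⊤ := by rwa [Ne, order_eq_top_iff]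
  obtain ⟨a, ha⟩ := ENat.ne_top_iff_exists.mp ho
  refine ⟨a, fun N => ?_⟩
  -- exact sequence
  let R := MvPowerSeries (Fin d) k
  let f0 : R →ₗ[R] (R ⧸ mm (Fin d) k ^ N) :=
    (Submodule.mkQ (mm (Fin d) k ^ N)).comp (LinearMap.mulLeft R δ)
  have hker : LinearMap.ker f0 = mm (Fin d) k ^ (N - a) := by
    ext g
    rw [LinearMap.mem_ker]
    change Submodule.Quotient.mk (δ * g) = 0 ↔ _
    rw [Submodule.Quotient.mk_eq_zero, gps_mem_mm_pow, gps_mem_mm_pow, order_mul, ← ha]
    by_cases hg : g = 0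
    · subst hg
      simp
    · have hg' : g.order ≠ ⊤ := by rwa [Ne, order_eq_top_iff]
      obtain ⟨b, hb⟩ := ENat.ne_top_iff_exists.mp hg'
      rw [← hb]
      norm_cast
      omega
  let f : (R ⧸ mm (Fin d) k ^ (N - a)) →ₗ[R] (R ⧸ mm (Fin d) k ^ N) :=
    Submodule.liftQ _ f0 hker.ge
  have hf : Function.Injective f := by
    rw [← LinearMap.ker_eq_bot]
    exact Submodule.ker_liftQ_eq_bot _ _ _ hker.le
  let g : (R ⧸ mm (Fin d) k ^ N) →ₗ[R] (R ⧸ (Ideal.span {δ} ⊔ mm (Fin d) k ^ N)) :=
    Submodule.factor le_sup_right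
  have hg : Function.Surjective g := Submodule.factor_surjective _
  have hex : Function.Exact f g := by
    rw [LinearMap.exact_iff]
    ext x
    obtain ⟨x, rfl⟩ := Submodule.Quotient.mk_surjective _ x
    rw [LinearMap.mem_ker, LinearMap.mem_range]
    change Submodule.Quotient.mk x = 0 ↔ _
    rw [Submodule.Quotient.mk_eq_zero]
    constructor
    · intro hx
      obtain ⟨y, hy, z, hz, rfl⟩ := Submodule.mem_sup.mp hx
      obtain ⟨c, rfl⟩ := Ideal.mem_span_singleton'.mp hy
      refine ⟨Submodule.Quotient.mk c, ?_⟩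
      change Submodule.Quotient.mk (δ * c) = _
      rw [Submodule.Quotient.eq]
      have : δ * c - (c * δ + z) = - z := by ring
      rw [this]
      exact Submodule.neg_mem _ hz
    · rintro ⟨y, hy⟩
      obtain ⟨c, rfl⟩ := Submodule.Quotient.mk_surjective _ y
      change Submodule.Quotient.mk (δ * c) = _ at hy
      rw [Submodule.Quotient.eq] at hy
      have : x = δ * c - (δ * c - x) := by ring
      rw [this]
      refine Submodule.sub_mem _ (Ideal.mem_sup_left ?_) (Ideal.mem_sup_right hy)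
      exact Ideal.mul_mem_right _ _ (Ideal.mem_span_singleton_self δ)
  have hlen := Module.length_eq_add_of_exact f g hf hg hex
  rw [gps_length_quot, gps_length_quot] at hlen
  have h1 : (tc d N : ℕ∞) ≤ (tc d (N - a) : ℕ∞) + ((a * N ^ (d - 1) : ℕ) : ℕ∞) := by
    exact_mod_cast gps_tc_le hd a N
  rw [hlen] at h1
  exact (ENat.add_le_add_iff_left (ENat.natCast_ne_top _)).mp h1

end Len

section Growth

lemma gps_len_range {R : Type*} [CommRing R] {ι : Type*} [Fintype ι] [DecidableEq ι] {M : Type*}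
    [AddCommGroup M] [Module R M] (J : Ideal R) (F : (ι → R) →ₗ[R] M)
    (hF : ∀ (i : ι), ∀ c ∈ J, F ((Pi.single i c : ι → R)) = 0) :
    Module.length R (LinearMap.range F) ≤ (Fintype.card ι : ℕ∞) * Module.length R (R ⧸ J) := by
  classical
  let h : (ι → R) →ₗ[R] (ι → (R ⧸ J)) :=
    LinearMap.pi fun i => (Submodule.mkQ J).comp (LinearMap.proj i)
  have hh : Function.Surjective h := by
    intro y
    choose x hx using fun i => Submodule.Quotient.mk_surjective _ (y i)
    exact ⟨x, funext hx⟩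
  have hker : LinearMap.ker h ≤ LinearMap.ker F := by
    intro v hv
    rw [LinearMap.mem_ker] at hv ⊢
    rw [← LinearMap.sum_single_apply (φ := fun _ : ι => R) v, map_sum]
    refine Finset.sum_eq_zero fun i _ => ?_
    refine hF i _ ?_
    have := congrFun hv i
    change Submodule.Quotient.mk (v i) = 0 at this
    rwa [Submodule.Quotient.mk_eq_zero] at this
  have h1 : Module.length R (LinearMap.range F) = Module.length R ((ι → R) ⧸ LinearMap.ker F) :=
    F.quotKerEquivRange.symm.length_eq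
  have h2 : Module.length R ((ι → R) ⧸ LinearMap.ker h) = Module.length R (ι → (R ⧸ J)) :=
    (h.quotKerEquivOfSurjective hh).length_eq
  rw [h1]
  refine (Module.length_le_of_surjective (Submodule.factor hker)
    (Submodule.factor_surjective _)).trans ?_
  rw [h2, Module.length_pi, ENat.card_eq_coe_fintype_card]

/-- D2: lower bound for the growth of a module with `r` independent elements. -/
theorem lower_growth {k : Type*} [Field k] {d : ℕ} {M : Type*} [AddCommGroup M]
    [Module (MvPowerSeries (Fin d) k) M] [Module.Finite (MvPowerSeries (Fin d) k) M] {r : ℕ}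
    (e : Fin r → M) (he : LinearIndependent (MvPowerSeries (Fin d) k) e) :
    ∃ a : ℕ, ∀ N : ℕ, (r : ℕ∞) * (tc d N : ℕ∞) ≤
      Module.length (MvPowerSeries (Fin d) k)
        (M ⧸ (mm (Fin d) k ^ (N + a) • (⊤ : Submodule (MvPowerSeries (Fin d) k) M))) := by
  let R := MvPowerSeries (Fin d) k
  let f : (Fin r → R) →ₗ[R] M := Fintype.linearCombination R e
  have hf : Function.Injective f := by
    rw [← LinearMap.ker_eq_bot, LinearMap.ker_eq_bot']
    intro v hv
    rw [Fintype.linearCombination_apply] at hv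
    exact funext (Fintype.linearIndependent_iff.mp he v hv)
  obtain ⟨a, ha⟩ := Ideal.exists_pow_inf_eq_pow_smul (mm (Fin d) k) (LinearMap.range f)
  refine ⟨a, fun N => ?_⟩
  let P : Submodule R M := mm (Fin d) k ^ (N + a) • ⊤
  let g : (Fin r → R) →ₗ[R] (M ⧸ P) := P.mkQ.comp f
  let h : (Fin r → R) →ₗ[R] (Fin r → (R ⧸ mm (Fin d) k ^ N)) :=
    LinearMap.pi fun i => (Submodule.mkQ (mm (Fin d) k ^ N)).comp (LinearMap.proj i)
  have hh : Function.Surjective h := by
    intro y
    choose x hx using fun i => Submodule.Quotient.mk_surjective _ (y i)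
    exact ⟨x, funext hx⟩
  have hker : LinearMap.ker g ≤ LinearMap.ker h := by
    intro v hv
    rw [LinearMap.mem_ker] at hv
    change Submodule.Quotient.mk (f v) = 0 at hv
    rw [Submodule.Quotient.mk_eq_zero] at hv
    have h1 : f v ∈ P ⊓ LinearMap.range f := ⟨hv, ⟨v, rfl⟩⟩
    rw [ha (N + a) (by omega), Nat.add_sub_cancel] at h1
    have h2 : f v ∈ mm (Fin d) k ^ N • LinearMap.range f :=
      Submodule.smul_mono le_rfl inf_le_right h1
    rw [LinearMap.range_eq_map, ← Submodule.map_smul''] at h2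
    obtain ⟨w, hw, hwv⟩ := h2
    have h3 : w = v := hf hwv
    subst h3
    rw [LinearMap.mem_ker]
    funext i
    change Submodule.Quotient.mk (w i) = 0
    rw [Submodule.Quotient.mk_eq_zero]
    have h4 : (mm (Fin d) k ^ N • (⊤ : Submodule R (Fin r → R))) ≤
        Submodule.comap (LinearMap.proj (R := R) (φ := fun _ : Fin r => R) i)
          (mm (Fin d) k ^ N) := by
      rw [Submodule.smul_le]
      intro c hc x _
      exact Ideal.mul_mem_right _ _ hc
    exact h4 hw
  have hlen1 : Module.length R (Fin r → (R ⧸ mm (Fin d) k ^ N)) ≤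
      Module.length R ((Fin r → R) ⧸ LinearMap.ker g) := by
    refine Module.length_le_of_surjective (Submodule.liftQ _ h hker) ?_
    intro y
    obtain ⟨x, rfl⟩ := hh y
    exact ⟨Submodule.Quotient.mk x, rfl⟩
  have hlen2 : Module.length R ((Fin r → R) ⧸ LinearMap.ker g) ≤ Module.length R (M ⧸ P) := by
    refine Module.length_le_of_injective (Submodule.liftQ _ g le_rfl) ?_
    rw [← LinearMap.ker_eq_bot]
    exact Submodule.ker_liftQ_eq_bot _ _ _ le_rfl
  refine le_trans (le_of_eq ?_) (hlen1.trans hlen2)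
  rw [Module.length_pi, gps_length_quot, ENat.card_eq_coe_fintype_card, Fintype.card_fin]

/-- D3: upper bound for the growth, `r` being the rank. -/
theorem upper_growth {k : Type*} [Field k] {d : ℕ} (hd : 0 < d) {M : Type*} [AddCommGroup M]
    [Module (MvPowerSeries (Fin d) k) M] [Module.Finite (MvPowerSeries (Fin d) k) M] {r : ℕ}
    (hr : ∀ e : Fin (r + 1) → M, ¬ LinearIndependent (MvPowerSeries (Fin d) k) e) :
    ∃ B : ℕ, ∀ N : ℕ, Module.length (MvPowerSeries (Fin d) k)
        (M ⧸ (mm (Fin d) k ^ N • (⊤ : Submodule (MvPowerSeries (Fin d) k) M))) ≤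
      (r : ℕ∞) * (tc d N : ℕ∞) + (B : ℕ∞) * ((N : ℕ∞) + 1) ^ (d - 1) := by
  classical
  let R := MvPowerSeries (Fin d) k
  -- a maximal independent family
  let S : Set ℕ := {s | s ≤ r ∧ ∃ e : Fin s → M, LinearIndependent R e}
  have hS0 : 0 ∈ S := ⟨Nat.zero_le _, Fin.elim0, linearIndependent_empty_type⟩
  have hSfin : ∃ s ∈ S, ∀ t ∈ S, t ≤ s := by
    have hbdd : BddAbove S := ⟨r, fun t ht => ht.1⟩
    exact ⟨sSup S, Nat.sSup_mem ⟨0, hS0⟩ hbdd, fun t ht => le_csSup hbdd ht⟩
  obtain ⟨s, ⟨hsr, e, he⟩, hmax⟩ := hSfin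
  let f : (Fin s → R) →ₗ[R] M := Fintype.linearCombination R e
  have hspan : LinearMap.range f = Submodule.span R (Set.range e) :=
    Fintype.range_linearCombination R e
  -- every element is torsion modulo the span
  have htor : ∀ x : M, ∃ δ : R, δ ≠ 0 ∧ δ • x ∈ LinearMap.range f := by
    intro x
    by_contra hx
    push Not at hx
    have hli : LinearIndependent R (Fin.cons x e : Fin (s + 1) → M) := by
      rw [Fintype.linearIndependent_iff]
      intro c hc
      rw [Fin.sum_univ_succ] at hc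
      simp only [Fin.cons_zero, Fin.cons_succ] at hc
      have h0 : c 0 = 0 := by
        by_contra h0
        apply hx (c 0) h0
        rw [eq_neg_of_add_eq_zero_left hc]
        refine Submodule.neg_mem _ (Submodule.sum_mem _ fun i _ => Submodule.smul_mem _ _ ?_)
        rw [hspan]
        exact Submodule.subset_span ⟨i, rfl⟩
      rw [h0, zero_smul, zero_add] at hc
      have h1 := Fintype.linearIndependent_iff.mp he (fun i => c i.succ) hc
      intro i
      exact Fin.cases h0 h1 i
    by_cases hs : s = r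
    · subst hs
      exact hr _ hli
    · have : s + 1 ∈ S := ⟨by omega, _, hli⟩
      have := hmax _ this
      omega
  obtain ⟨gen, hgen⟩ := (inferInstance : Module.Finite R M).fg_top
  choose δ hδ0 hδ using htor
  let Δ : R := ∏ x ∈ gen, δ x
  have hΔ0 : Δ ≠ 0 := Finset.prod_ne_zero_iff.mpr fun x _ => hδ0 x
  have hΔ : ∀ x ∈ gen, Δ • x ∈ LinearMap.range f := by
    intro x hx
    have : Δ = (∏ y ∈ gen.erase x, δ y) * δ x := (Finset.prod_erase_mul _ _ hx).symm
    rw [this, mul_smul]
    exact Submodule.smul_mem _ _ (hδ x)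
  obtain ⟨a, ha⟩ := gps_length_quot_sup (k := k) hd hΔ0
  refine ⟨gen.card * a, fun N => ?_⟩
  let P : Submodule R M := mm (Fin d) k ^ N • ⊤
  let Q : Submodule R M := P ⊔ LinearMap.range f
  let g : (M ⧸ P) →ₗ[R] (M ⧸ Q) := Submodule.factor le_sup_left
  have hg : Function.Surjective g := Submodule.factor_surjective _
  have hlen := Module.length_eq_add_of_exact (LinearMap.ker g).subtype g
    (LinearMap.ker g).injective_subtype hg (by
      rw [LinearMap.exact_iff, Submodule.range_subtype])
  have hkg : LinearMap.ker g = LinearMap.range (P.mkQ.comp f) := by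
    ext x
    obtain ⟨x, rfl⟩ := Submodule.Quotient.mk_surjective _ x
    rw [LinearMap.mem_ker]
    change Submodule.Quotient.mk x = 0 ↔ _
    rw [Submodule.Quotient.mk_eq_zero, LinearMap.mem_range]
    constructor
    · intro hx
      obtain ⟨y, hy, z, ⟨v, rfl⟩, rfl⟩ := Submodule.mem_sup.mp hx
      refine ⟨v, ?_⟩
      change Submodule.Quotient.mk (f v) = _
      rw [Submodule.Quotient.eq, sub_add_eq_sub_sub_swap, sub_self, zero_sub]
      exact Submodule.neg_mem _ hy
    · rintro ⟨v, hv⟩
      change Submodule.Quotient.mk (f v) = _ at hv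
      rw [Submodule.Quotient.eq] at hv
      have : x = f v - (f v - x) := by abel
      rw [this]
      exact Submodule.sub_mem _ (Submodule.mem_sup_right ⟨v, rfl⟩) (Submodule.mem_sup_left hv)
  have h1 : Module.length R (LinearMap.ker g) ≤ (r : ℕ∞) * (tc d N : ℕ∞) := by
    rw [hkg]
    refine (gps_len_range (mm (Fin d) k ^ N) _ ?_).trans ?_
    · intro i c hc
      change Submodule.Quotient.mk (f (Pi.single i c)) = 0
      rw [Submodule.Quotient.mk_eq_zero, Fintype.linearCombination_apply_single]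
      exact Submodule.smul_mem_smul hc Submodule.mem_top
    · rw [gps_length_quot, Fintype.card_fin]
      gcongr
  have h2 : Module.length R (M ⧸ Q) ≤
      ((gen.card * a : ℕ) : ℕ∞) * ((N : ℕ∞) + 1) ^ (d - 1) := by
    let E : (gen → R) →ₗ[R] M := Fintype.linearCombination R (fun x => (x : M))
    have hE : LinearMap.range E = ⊤ := by
      rw [← hgen, Fintype.range_linearCombination R]
      simp
    have hE' : LinearMap.range (Q.mkQ.comp E) = ⊤ := by
      rw [LinearMap.range_comp, hE, Submodule.map_top, Submodule.range_mkQ]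
    have h3 : Module.length R (M ⧸ Q) = Module.length R (LinearMap.range (Q.mkQ.comp E)) := by
      rw [hE', Module.length_top]
    rw [h3]
    refine (gps_len_range (Ideal.span {Δ} ⊔ mm (Fin d) k ^ N) _ ?_).trans ?_
    · intro x c hc
      change Submodule.Quotient.mk (E (Pi.single x c)) = 0
      rw [Submodule.Quotient.mk_eq_zero, Fintype.linearCombination_apply_single]
      obtain ⟨y, hy, z, hz, rfl⟩ := Submodule.mem_sup.mp hc
      obtain ⟨c, rfl⟩ := Ideal.mem_span_singleton'.mp hy
      rw [add_smul, mul_smul]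
      refine Submodule.add_mem _ (Submodule.mem_sup_right ?_) (Submodule.mem_sup_left ?_)
      · exact Submodule.smul_mem _ _ (hΔ x x.2)
      · exact Submodule.smul_mem_smul hz Submodule.mem_top
    · rw [Fintype.card_coe]
      have h4 : (gen.card : ℕ∞) * ((a * N ^ (d - 1) : ℕ) : ℕ∞) ≤
          ((gen.card * a : ℕ) : ℕ∞) * ((N : ℕ∞) + 1) ^ (d - 1) := by
        have : gen.card * (a * N ^ (d - 1)) ≤ gen.card * a * (N + 1) ^ (d - 1) := by
          rw [mul_assoc]
          gcongr
          omega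
        exact_mod_cast this
      exact (mul_le_mul_right (ha N) _).trans h4
  rw [hlen]
  exact add_le_add h1 h2

end Growth

end Vale.Agent.P202.CZ
end

section

/-!
Finite algebras over a power series ring: local structure and lengths.
-/

namespace Vale.Agent.P202.CZ

open MvPowerSeries IsLocalRing

universe u

variable {k : Type*} [Field k] {d : ℕ}

lemma sub_C_mem_mm (f : MvPowerSeries (Fin d) k) : f - C (constantCoeff f) ∈ mm (Fin d) k := by
  rw [mem_mm_iff, map_sub, constantCoeff_C, sub_self]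

lemma maximalIdeal_mvPowerSeries :
    maximalIdeal (MvPowerSeries (Fin d) k) = mm (Fin d) k := by
  ext f
  rw [mem_maximalIdeal, mem_nonunits_iff, mem_mm_iff, MvPowerSeries.isUnit_iff_constantCoeff,
    isUnit_iff_ne_zero, not_not]

/-- polynomials are dense. -/
lemma exists_mem_subring_sub_mem (A : Subring (MvPowerSeries (Fin d) k)) (hC : ∀ a, C a ∈ A)
    (hX : ∀ i, X i ∈ A) (N : ℕ) : ∀ f : MvPowerSeries (Fin d) k, ∃ g ∈ A,
      f - g ∈ mm (Fin d) k ^ N := by
  induction N with
  | zero =>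
    intro f
    exact ⟨0, A.zero_mem, by simp⟩
  | succ N ih =>
    intro f
    have h1 := sub_C_mem_mm f
    rw [mm, Ideal.mem_span_range_iff_exists_fun] at h1
    obtain ⟨q, hq⟩ := h1
    choose g hg hqg using fun i => ih (q i)
    refine ⟨C (constantCoeff f) + ∑ i, g i * X i, A.add_mem (hC _)
      (A.sum_mem fun i _ => A.mul_mem (hg i) (hX i)), ?_⟩
    have h2 : f - (C (constantCoeff f) + ∑ i, g i * X i) = ∑ i, (q i - g i) * X i := by
      rw [← sub_sub, ← hq, ← Finset.sum_sub_distrib]
      exact Finset.sum_congr rfl fun i _ => by ring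
    rw [h2, pow_succ]
    exact Ideal.sum_mem _ fun i _ => Ideal.mul_mem_mul (hqg i) (Ideal.subset_span ⟨i, rfl⟩)

section Local

variable {R : Type*} [CommRing R] [Algebra (MvPowerSeries (Fin d) k) R]

lemma algebraMap_mem_of_mem_mm {m : Ideal R}
    (hX : ∀ i, algebraMap (MvPowerSeries (Fin d) k) R (X i) ∈ m) {f : MvPowerSeries (Fin d) k}
    (hf : f ∈ mm (Fin d) k) : algebraMap (MvPowerSeries (Fin d) k) R f ∈ m := by
  have h : mm (Fin d) k ≤ m.comap (algebraMap (MvPowerSeries (Fin d) k) R) := by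
    rw [mm, Ideal.span_le]
    rintro _ ⟨i, rfl⟩
    exact hX i
  exact h hf

lemma map_mm_pow (N : ℕ) : (mm (Fin d) k ^ N).map (algebraMap (MvPowerSeries (Fin d) k) R) =
    Ideal.span (Set.range fun i => algebraMap (MvPowerSeries (Fin d) k) R (X i)) ^ N := by
  rw [Ideal.map_pow, mm, Ideal.map_span, ← Set.range_comp]
  rfl

/-- the ideal `m` is the maximal ideal of the local ring `R`. -/
theorem local_of_data [Module.Finite (MvPowerSeries (Fin d) k) R] (m : Ideal R) (ε : R →+* k)
    (hε : ∀ f, ε (algebraMap (MvPowerSeries (Fin d) k) R f) = constantCoeff f)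
    (hεm : ∀ z ∈ m, ε z = 0)
    (hm : ∀ z : R, ∃ f : MvPowerSeries (Fin d) k, z - algebraMap _ R f ∈ m)
    (hX : ∀ i, algebraMap (MvPowerSeries (Fin d) k) R (X i) ∈ m) {M : ℕ}
    (hM : m ^ M ≤
      Ideal.span (Set.range fun i => algebraMap (MvPowerSeries (Fin d) k) R (X i))) :
    m = RingHom.ker ε ∧ ∃ _ : IsLocalRing R, maximalIdeal R = m := by
  have hker : m = RingHom.ker ε := by
    refine le_antisymm (fun z hz => hεm z hz) ?_
    intro z hz
    rw [RingHom.mem_ker] at hz
    obtain ⟨f, hf⟩ := hm z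
    have h1 := hεm _ hf
    rw [map_sub, hz, hε, zero_sub, neg_eq_zero] at h1
    have h2 := algebraMap_mem_of_mem_mm hX (mem_mm_iff.mpr h1)
    have := m.add_mem hf h2
    rwa [sub_add_cancel] at this
  refine ⟨hker, ?_⟩
  have hsurj : Function.Surjective ε := fun a => ⟨algebraMap _ R (C a), by
    rw [hε, constantCoeff_C]⟩
  have hmax : m.IsMaximal := by
    rw [hker]
    exact RingHom.ker_isMaximal_of_surjective ε hsurj
  refine local_of_pow_le (A := MvPowerSeries (Fin d) k) m M ?_
  rw [maximalIdeal_mvPowerSeries, ← pow_one (mm (Fin d) k), map_mm_pow, pow_one]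
  exact hM

end Local

section Dim

/-- Krull's height theorem. -/
theorem exists_dim_le {R : Type*} [CommRing R] [IsLocalRing R] [IsNoetherianRing R] {d M : ℕ}
    (x : Fin d → R) (hx : ∀ i, x i ∈ maximalIdeal R)
    (hM : maximalIdeal R ^ M ≤ Ideal.span (Set.range x)) :
    ∃ d' : ℕ, ringKrullDim R = d' ∧ d' ≤ d := by
  have hmin : maximalIdeal R ∈ (Ideal.span (Set.range x)).minimalPrimes := by
    refine ⟨⟨inferInstance, ?_⟩, ?_⟩
    · rw [Ideal.span_le]
      rintro _ ⟨i, rfl⟩
      exact hx i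
    · rintro P ⟨hP, hIP⟩ _
      exact hP.le_of_pow_le (hM.trans hIP)
  have h1 := Ideal.height_le_card_of_mem_minimalPrimes_span (Set.finite_range x) hmin
  have h2 : (Set.range x).ncard ≤ d := by
    rw [← Set.image_univ]
    refine (Set.ncard_image_le (Set.toFinite _)).trans ?_
    simp
  have h3 : (maximalIdeal R).height ≤ (d : ℕ∞) := h1.trans (by exact_mod_cast h2)
  have h4 : (maximalIdeal R).height ≠ ⊤ := ne_top_of_le_ne_top (ENat.natCast_ne_top d) h3
  obtain ⟨d', hd'⟩ := ENat.ne_top_iff_exists.mp h4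
  refine ⟨d', ?_, ?_⟩
  · rw [← IsLocalRing.maximalIdeal_height_eq_ringKrullDim, ← hd']
    rfl
  · rw [← hd'] at h3
    exact_mod_cast h3

end Dim

section Lower

variable {R : Type*} [CommRing R] [IsLocalRing R] [Algebra (MvPowerSeries (Fin d) k) R]
  [Module.Finite (MvPowerSeries (Fin d) k) R]

omit [IsLocalRing R] [Algebra (MvPowerSeries (Fin d) k) R]
  [Module.Finite (MvPowerSeries (Fin d) k) R] in
lemma pow_add_le (I m : Ideal R) {s : ℕ} (h : m ^ (s + 1) ≤ I * m ^ s) (N : ℕ) :
    m ^ (N + s) ≤ I ^ N := by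
  have h1 : m ^ (N + s) ≤ I ^ N * m ^ s := by
    induction N with
    | zero => simp
    | succ N ih =>
      calc m ^ (N + 1 + s) = m * m ^ (N + s) := by rw [← pow_succ']; congr 1; omega
        _ ≤ m * (I ^ N * m ^ s) := Ideal.mul_mono le_rfl ih
        _ = I ^ N * m ^ (s + 1) := by ring
        _ ≤ I ^ N * (I * m ^ s) := Ideal.mul_mono le_rfl h
        _ = I ^ (N + 1) * m ^ s := by ring
  exact h1.trans Ideal.mul_le_left

theorem lower_of_data {r s : ℕ}
    (hres : ∀ z : R, ∃ f : MvPowerSeries (Fin d) k, z - algebraMap _ R f ∈ maximalIdeal R)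
    (hX : ∀ i, algebraMap (MvPowerSeries (Fin d) k) R (X i) ∈ maximalIdeal R)
    (hs : maximalIdeal R ^ (s + 1) ≤
      Ideal.span (Set.range fun i => algebraMap (MvPowerSeries (Fin d) k) R (X i)) *
        maximalIdeal R ^ s)
    (e : Fin r → R) (he : LinearIndependent (MvPowerSeries (Fin d) k) e) :
    ∃ a, ∀ N, (r : ℕ∞) * (tc d N : ℕ∞) ≤ ell (maximalIdeal R ^ (N + a)) := by
  obtain ⟨a, ha⟩ := lower_growth e he
  refine ⟨a + s, fun N => (ha N).trans ?_⟩
  have hloc : (maximalIdeal (MvPowerSeries (Fin d) k)).map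
      (algebraMap (MvPowerSeries (Fin d) k) R) ≤ maximalIdeal R := by
    rw [maximalIdeal_mvPowerSeries, ← pow_one (mm (Fin d) k), map_mm_pow, pow_one, Ideal.span_le]
    rintro _ ⟨i, rfl⟩
    exact hX i
  have h1 : (maximalIdeal R ^ (N + (a + s))).restrictScalars (MvPowerSeries (Fin d) k) ≤
      (mm (Fin d) k ^ (N + a) • (⊤ : Submodule (MvPowerSeries (Fin d) k) R)) := by
    rw [Ideal.smul_top_eq_map, map_mm_pow]
    intro z hz
    have h2 := pow_add_le _ _ hs (N + a)
    rw [add_assoc] at h2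
    exact h2 hz
  have h2 := Module.length_le_of_surjective (Submodule.factor h1) (Submodule.factor_surjective h1)
  refine h2.trans ?_
  rw [(Submodule.Quotient.restrictScalarsEquiv (MvPowerSeries (Fin d) k)
    (maximalIdeal R ^ (N + (a + s)))).length_eq]
  exact length_le_of_residue hres hloc

end Lower

section Upper

variable {S : Type*} [CommRing S] [Algebra (MvPowerSeries (Fin d) k) S]

theorem upper_of_data (I : Ideal S) {l c : ℕ} (b : Fin l → S)
    (hc : Ideal.span (Set.range fun i => algebraMap (MvPowerSeries (Fin d) k) S (X i)) ^ c ≤ I)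
    (hb1 : ∀ z : S, ∃ β : Fin l → MvPowerSeries (Fin d) k,
      z - ∑ q, algebraMap _ S (β q) * b q ∈ I)
    (hb2 : ∀ i q, ∃ a : Fin l → k,
      algebraMap (MvPowerSeries (Fin d) k) S (X i) * b q -
        ∑ q', algebraMap (MvPowerSeries (Fin d) k) S (C (a q')) * b q' ∈ I) :
    ell I ≤ (l : ℕ∞) := by
  let _ : Algebra k S := ((algebraMap (MvPowerSeries (Fin d) k) S).comp C).toAlgebra
  have hsm : ∀ (a : k) (z : S), a • z = algebraMap (MvPowerSeries (Fin d) k) S (C a) * z :=
    fun a z => rfl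
  let V : Submodule k S := Submodule.span k (Set.range b) ⊔ I.restrictScalars k
  have hIV : ∀ z ∈ I, z ∈ V := fun z hz => Submodule.mem_sup_right hz
  have hbV : ∀ q, b q ∈ V := fun q => Submodule.mem_sup_left (Submodule.subset_span ⟨q, rfl⟩)
  let A : Subring (MvPowerSeries (Fin d) k) :=
    { carrier := {f | ∀ v ∈ V, algebraMap (MvPowerSeries (Fin d) k) S f * v ∈ V}
      mul_mem' := by
        intro f g hf hg v hv
        rw [map_mul, mul_assoc]
        exact hf _ (hg _ hv)
      one_mem' := by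
        intro v hv
        rwa [map_one, one_mul]
      add_mem' := by
        intro f g hf hg v hv
        rw [map_add, add_mul]
        exact V.add_mem (hf _ hv) (hg _ hv)
      zero_mem' := by
        intro v hv
        rw [map_zero, zero_mul]
        exact V.zero_mem
      neg_mem' := by
        intro f hf v hv
        rw [map_neg, neg_mul]
        exact V.neg_mem (hf _ hv) }
  have hC : ∀ a, C a ∈ A := fun a v hv => V.smul_mem a hv
  have hX : ∀ i, X i ∈ A := by
    intro i v hv
    obtain ⟨v, hv', w, hw, rfl⟩ := Submodule.mem_sup.mp hv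
    clear hv
    rw [mul_add]
    refine V.add_mem ?_ (hIV _ (Ideal.mul_mem_left _ _ hw))
    induction hv' using Submodule.span_induction with
    | mem z hz =>
      obtain ⟨q, rfl⟩ := hz
      obtain ⟨a, ha⟩ := hb2 i q
      have h1 := V.add_mem (hIV _ ha)
        (V.sum_mem fun q' (_ : q' ∈ Finset.univ) => V.smul_mem (a q') (hbV q'))
      simp only [hsm, sub_add_cancel] at h1
      exact h1
    | zero => rw [mul_zero]; exact V.zero_mem
    | add z z' _ _ h h' => rw [mul_add]; exact V.add_mem h h'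
    | smul a z _ h =>
      rw [hsm, mul_left_comm]
      exact V.smul_mem a h
  have hA : ∀ f, f ∈ A := by
    intro f v hv
    obtain ⟨g, hg, hfg⟩ := exists_mem_subring_sub_mem A hC hX c f
    have h1 : algebraMap (MvPowerSeries (Fin d) k) S f * v =
        algebraMap (MvPowerSeries (Fin d) k) S g * v +
          algebraMap (MvPowerSeries (Fin d) k) S (f - g) * v := by
      rw [map_sub]; ring
    rw [h1]
    refine V.add_mem (hg v hv) (hIV _ (Ideal.mul_mem_right _ _ (hc ?_)))
    rw [← map_mm_pow]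
    exact Ideal.mem_map_of_mem _ hfg
  have hV : V = ⊤ := by
    rw [eq_top_iff]
    intro z _
    obtain ⟨β, hβ⟩ := hb1 z
    have h1 := V.add_mem (hIV _ hβ) (V.sum_mem fun q (_ : q ∈ Finset.univ) => hA (β q) _ (hbV q))
    rwa [sub_add_cancel] at h1
  let f : (Fin l → k) →ₗ[k] (S ⧸ I.restrictScalars k) :=
    (I.restrictScalars k).mkQ.comp (Fintype.linearCombination k b)
  have hf : Function.Surjective f := by
    intro z
    obtain ⟨z, rfl⟩ := Submodule.mkQ_surjective _ z
    have hz : z ∈ V := hV ▸ Submodule.mem_top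
    obtain ⟨v, hv, w, hw, rfl⟩ := Submodule.mem_sup.mp hz
    rw [← Fintype.range_linearCombination k] at hv
    obtain ⟨a, rfl⟩ := hv
    refine ⟨a, ?_⟩
    change (I.restrictScalars k).mkQ _ = _
    rw [map_add]
    have h0 : (I.restrictScalars k).mkQ w = 0 := by
      rw [Submodule.mkQ_apply, Submodule.Quotient.mk_eq_zero]
      exact hw
    rw [h0, add_zero]
  have h1 := Module.length_le_of_surjective f hf
  rw [(Submodule.Quotient.restrictScalarsEquiv k I).length_eq, Module.length_eq_finrank k (Fin l → k),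
    Module.finrank_fin_fun] at h1
  refine le_trans ?_ h1
  have h2 := Submodule.length_le_length_restrictScalars (R := S) (M := S ⧸ I) k ⊤
  rwa [Module.length_top, Submodule.restrictScalars_top, Module.length_top] at h2

end Upper

end Vale.Agent.P202.CZ
end

section

/-!
D10d: the subring `E` of `S` generated by `R` and the power series over the coefficient field
of `S`; the extension `E → S` is free.
-/

namespace Vale.Agent.P202.CZ

open MvPowerSeries IsLocalRing Filter Topology

universe u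

section general

/-- one flatness step at a time: a system of elements independent modulo the maximal ideal is
independent modulo every ideal of finite colength. -/
lemma fm_star {R S E K : Type*} [CommRing R] [IsLocalRing R] [IsNoetherianRing R] [CommRing S]
    [Algebra R S] [Module.Flat R S] [CommRing E] (φ : R →+* E) (ι : E →+* S)
    (hι : ∀ r, ι (φ r) = algebraMap R S r) [Field K] (τ : K →+* E)
    (hE : ∀ z : E, ∃ a : K, z - τ a ∈ (maximalIdeal R).map φ) {t : ℕ} (v : Fin t → S)
    (hv : ∀ c : Fin t → K, ∑ i, ι (τ (c i)) * v i ∈ (maximalIdeal R).map (algebraMap R S) →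
      ∀ i, c i = 0) (N : ℕ) (I : Ideal R) :
    maximalIdeal R ^ N ≤ I → ∀ r : Fin t → E, ∑ i, ι (r i) * v i ∈ I.map (algebraMap R S) →
      ∀ i, r i ∈ I.map φ := by
  classical
  induction I using WellFoundedGT.induction with
  | ind I IH =>
  intro hN r hr i
  by_cases hI : I = ⊤
  · rw [hI, Ideal.map_top]; trivial
  have hex : ∃ j, maximalIdeal R ^ j ≤ I := ⟨N, hN⟩
  set j := Nat.find hex with hj
  have hj1 : maximalIdeal R ^ j ≤ I := Nat.find_spec hex
  have hj0 : j ≠ 0 := by
    intro h0
    rw [h0, pow_zero, Ideal.one_eq_top, top_le_iff] at hj1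
    exact hI hj1
  obtain ⟨i0, hi0⟩ := Nat.exists_eq_succ_of_ne_zero hj0
  have hj2 : ¬ maximalIdeal R ^ i0 ≤ I := by
    apply Nat.find_min hex
    omega
  obtain ⟨w, hw1, hw2⟩ := Set.not_subset.mp hj2
  have hmw : ∀ x ∈ maximalIdeal R, x * w ∈ I := by
    intro x hx
    apply hj1
    rw [hi0, pow_succ']
    exact Ideal.mul_mem_mul hx hw1
  set I' := I ⊔ Ideal.span {w} with hI'
  have hlt : I < I' := by
    refine lt_of_le_of_ne le_sup_left ?_
    intro h
    apply hw2
    rw [h]
    exact Ideal.mem_sup_right (Ideal.mem_span_singleton_self w)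
  have hwI' : w ∈ I' := Ideal.mem_sup_right (Ideal.mem_span_singleton_self w)
  have hmI' : maximalIdeal R * I' ≤ I := by
    rw [hI', Ideal.mul_sup, sup_le_iff]
    refine ⟨Ideal.mul_le_right, ?_⟩
    rw [Ideal.mul_le]
    intro x hx y hy
    obtain ⟨z, rfl⟩ := Ideal.mem_span_singleton'.mp hy
    have := I.mul_mem_left z (hmw x hx)
    convert this using 1
    ring
  have hwJ : ∀ y ∈ (maximalIdeal R).map φ, φ w * y ∈ I.map φ := by
    intro y hy
    have h1 : φ w * y ∈ (Ideal.span {w}).map φ * (maximalIdeal R).map φ :=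
      Ideal.mul_mem_mul (Ideal.mem_map_of_mem _ (Ideal.mem_span_singleton_self w)) hy
    rw [← Ideal.map_mul] at h1
    refine Ideal.map_mono ?_ h1
    rw [mul_comm]
    refine le_trans (Ideal.mul_mono_right ?_) hmI'
    exact le_sup_right
  have h2 := IH I' hlt (hN.trans hlt.le) r (Ideal.map_mono hlt.le hr)
  have h3 : ∀ i, ∃ (a : E) (c : K), a ∈ I.map φ ∧ r i = a + φ w * τ c := by
    intro i
    have h4 := h2 i
    rw [hI', Ideal.map_sup, Ideal.map_span, Set.image_singleton] at h4
    obtain ⟨a, ha, y, hy, hay⟩ := Submodule.mem_sup.mp h4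
    obtain ⟨b, rfl⟩ := Ideal.mem_span_singleton'.mp hy
    obtain ⟨c, hc⟩ := hE b
    refine ⟨a + φ w * (b - τ c), c, Ideal.add_mem _ ha (hwJ _ hc), ?_⟩
    rw [← hay]
    ring
  choose a c ha hrc using h3
  set u : S := ∑ i, ι (τ (c i)) * v i with hu
  have hmap : ∀ y ∈ I.map φ, ι y ∈ I.map (algebraMap R S) := by
    intro y hy
    have h5 : ι y ∈ (I.map φ).map ι := Ideal.mem_map_of_mem _ hy
    rw [Ideal.map_map] at h5
    have h6 : ι.comp φ = algebraMap R S := RingHom.ext hι
    rwa [h6] at h5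
  have hwu : w • u ∈ I • (⊤ : Submodule R S) := by
    rw [Ideal.smul_top_eq_map, Submodule.restrictScalars_mem]
    have h7 : w • u = ∑ i, ι (r i) * v i - ∑ i, ι (a i) * v i := by
      rw [← Finset.sum_sub_distrib, hu, Finset.smul_sum]
      refine Finset.sum_congr rfl fun i _ => ?_
      rw [hrc i, map_add, map_mul, hι, Algebra.smul_def]
      ring
    rw [h7]
    refine Ideal.sub_mem _ hr (Ideal.sum_mem _ fun i _ => Ideal.mul_mem_right _ _ (hmap _ (ha i)))
  have hu0 : u ∈ (maximalIdeal R).map (algebraMap R S) := by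
    by_contra hcon
    refine hw2 (mem_of_smul_mem (V := S) (maximalIdeal R) hlt.le hmI'
      (maximalIdeal R • (⊤ : Submodule R S)) le_rfl (u := u) ?_ hwI' ?_)
    · rw [Ideal.smul_top_eq_map, Submodule.restrictScalars_mem]
      exact hcon
    · exact Submodule.mem_sup_right hwu
  have h8 := hv c hu0 i
  rw [hrc i, h8, map_zero, mul_zero, add_zero]
  exact ha i

lemma fm_gen {L S : Type*} [CommRing L] [IsLocalRing L] [CommRing S] [Algebra L S]
    [Module.Finite L S] {E : Subalgebra L S} (J : Ideal E) {s : ℕ}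
    (hJ : J ^ (s + 1) ≤ (maximalIdeal L).map (algebraMap L E)) (P : Submodule E S)
    (h : (⊤ : Submodule E S) ≤ P ⊔ J • ⊤) : P = ⊤ := by
  have h1 : ∀ j : ℕ, (⊤ : Submodule E S) ≤ P ⊔ J ^ j • ⊤ := by
    intro j
    induction j with
    | zero => rw [pow_zero, Ideal.one_eq_top, Submodule.top_smul]; exact le_sup_right
    | succ j ih =>
      refine ih.trans (sup_le le_sup_left ?_)
      calc J ^ j • (⊤ : Submodule E S) ≤ J ^ j • (P ⊔ J • ⊤) := smul_mono_right _ h
        _ = J ^ j • P ⊔ J ^ j • (J • (⊤ : Submodule E S)) := Submodule.smul_sup _ _ _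
        _ ≤ P ⊔ J ^ (j + 1) • ⊤ := by
          refine sup_le_sup Submodule.smul_le_right ?_
          rw [← Submodule.mul_smul, ← pow_succ]
  have h2 : (⊤ : Submodule E S) ≤ P ⊔ (maximalIdeal L).map (algebraMap L E) • ⊤ :=
    (h1 (s + 1)).trans (sup_le_sup le_rfl (Submodule.smul_mono_left hJ))
  have h3 : (⊤ : Submodule L S) ≤ P.restrictScalars L ⊔ maximalIdeal L • ⊤ := by
    intro z _
    have h4 : z ∈ P ⊔ (maximalIdeal L).map (algebraMap L E) • (⊤ : Submodule E S) := h2 trivial
    obtain ⟨p, hp, q, hq, hpq⟩ := Submodule.mem_sup.mp h4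
    refine Submodule.mem_sup.mpr ⟨p, hp, q, ?_, hpq⟩
    have h5 : q ∈ ((maximalIdeal L).map (algebraMap L E) • (⊤ : Submodule E S)).restrictScalars L :=
      hq
    rw [Ideal.smul_restrictScalars] at h5
    exact h5
  have h4 : (⊤ : Submodule L S) ≤ P.restrictScalars L :=
    Submodule.le_of_le_smul_of_le_jacobson_bot Module.Finite.fg_top
      (maximalIdeal_le_jacobson _) h3
  exact top_le_iff.mp fun z hz => h4 hz

lemma fm_length {R S E L : Type*} [CommRing R] [CommRing S] [Algebra R S]
    [Module.FaithfullyFlat R S] [CommRing E] (φ : R →+* E) (ι : E →+* S)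
    (hι : ∀ r, ι (φ r) = algebraMap R S r) [CommRing L] [Algebra L E] (I : Ideal R) (J : Ideal E)
    (hJ : J = I.map φ) :
    Module.length R (R ⧸ I) ≤ Module.length L (E ⧸ J) := by
  have h1 : Module.length L (E ⧸ J) = Module.length L (E ⧸ J.restrictScalars L) :=
    (Submodule.Quotient.restrictScalarsEquiv L J).symm.length_eq
  rw [h1, Module.length_quotient, Module.length_quotient]
  have hmono : StrictMono (fun I : Ideal R => (I.map φ).restrictScalars L) := by
    intro I1 I2 h
    have hle : (I1.map φ).restrictScalars L ≤ (I2.map φ).restrictScalars L :=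
      fun z hz => Ideal.map_mono h.le hz
    refine lt_of_le_of_ne hle ?_
    intro heq
    apply h.ne
    have h2 : I1.map φ = I2.map φ := Submodule.restrictScalars_injective L _ _ heq
    have h3 : I1.map (algebraMap R S) = I2.map (algebraMap R S) := by
      have h6 : ι.comp φ = algebraMap R S := RingHom.ext hι
      rw [← h6, ← Ideal.map_map, ← Ideal.map_map, h2]
    exact Ideal.map_injective_of_faithfullyFlat (A := R) (B := S) h3
  have := Order.coheight_le_coheight_apply_of_strictMono _ hmono I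
  rw [hJ]
  exact this

end general

/-- D10d: the subring `E` generated by `R` and the power series. -/
theorem exists_free_model {R S : Type u} [CommRing R] [IsLocalRing R] [IsNoetherianRing R]
    [CommRing S] [IsLocalRing S] [IsNoetherianRing S] [Algebra R S]
    [IsLocalHom (algebraMap R S)] [Module.Flat R S]
    {k K : Type u} [Field k] [Field K] (σR : k →+* R) (σS : K →+* S) (κ : k →+* K)
    (hRS : ∀ a, algebraMap R S (σR a) = σS (κ a))
    (hk : ∀ z : R, ∃ a : k, z - σR a ∈ maximalIdeal R)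
    (hK : ∀ z : S, ∃ a : K, z - σS a ∈ maximalIdeal S)
    {d : ℕ} [Algebra (MvPowerSeries (Fin d) K) S] [Module.Finite (MvPowerSeries (Fin d) K) S]
    (hC : ∀ a, algebraMap (MvPowerSeries (Fin d) K) S (C a) = σS a)
    (x : Fin d → R) (hx : ∀ i, x i ∈ maximalIdeal R)
    (hX : ∀ i, algebraMap (MvPowerSeries (Fin d) K) S (X i) = algebraMap R S (x i))
    {s : ℕ} (hs : maximalIdeal R ^ (s + 1) ≤ Ideal.span (Set.range x) * maximalIdeal R ^ s) :
    ∃ (E : Subalgebra (MvPowerSeries (Fin d) K) S) (t : ℕ) (_ : Module.Basis (Fin t) E S)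
      (J : Ideal E), Module.Finite (MvPowerSeries (Fin d) K) E ∧
      (∀ z : E, ∃ a : K, z - algebraMap (MvPowerSeries (Fin d) K) E (C a) ∈ J) ∧ (1 : E) ∉ J ∧
      (∀ i, algebraMap (MvPowerSeries (Fin d) K) E (X i) ∈ J) ∧
      (J ^ (s + 1) ≤
        Ideal.span (Set.range fun i => algebraMap (MvPowerSeries (Fin d) K) E (X i)) * J ^ s) ∧
      J.map (algebraMap E S) = (maximalIdeal R).map (algebraMap R S) ∧
      ∀ N : ℕ, Module.length R (R ⧸ maximalIdeal R ^ N) ≤
        Module.length (MvPowerSeries (Fin d) K) (E ⧸ J ^ N) := by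
  classical
  set L := MvPowerSeries (Fin d) K with hL
  set E : Subalgebra L S := Algebra.adjoin L (Set.range (algebraMap R S)) with hE
  have hRE : ∀ r : R, algebraMap R S r ∈ E := fun r => Algebra.subset_adjoin ⟨r, rfl⟩
  let φ : R →+* E := (algebraMap R S).codRestrict E.toSubring hRE
  have hφ : ∀ r, ((φ r : E) : S) = algebraMap R S r := fun r => rfl
  let ι : E →+* S := algebraMap E S
  have hι : ∀ z : E, ι z = (z : S) := fun z => rfl
  have hιφ : ∀ r, ι (φ r) = algebraMap R S r := fun r => rfl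
  have hιφ' : ι.comp φ = algebraMap R S := RingHom.ext hιφ
  let τ : K →+* E := (algebraMap L E).comp (C (σ := Fin d) (R := K))
  have hτ : ∀ a, ι (τ a) = σS a := fun a => by rw [← hC a]; rfl
  set J : Ideal E := (maximalIdeal R).map φ with hJ
  have hXE : ∀ i, algebraMap L E (X i) = φ (x i) := by
    intro i
    apply Subtype.ext
    rw [hφ, ← hX i]
    rfl
  have hXJ : ∀ i, algebraMap L E (X i) ∈ J := fun i => by
    rw [hXE]; exact Ideal.mem_map_of_mem _ (hx i)
  have hloc : (maximalIdeal R).map (algebraMap R S) ≤ maximalIdeal S :=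
    (((local_hom_TFAE (algebraMap R S)).out 0 2 :
      IsLocalHom (algebraMap R S) ↔ _).mp inferInstance)
  -- power series are constants modulo `J`
  have hmL : ∀ f : L, constantCoeff f = 0 → algebraMap L E f ∈ J := by
    intro f hf
    have h1 := fgc_mem_span_X f hf
    have h2 : algebraMap L E f ∈
        (Ideal.span (Set.range (X : Fin d → L))).map (algebraMap L E) := Ideal.mem_map_of_mem _ h1
    refine (Ideal.map_le_iff_le_comap.mpr ?_) h2
    rw [Ideal.span_le]
    rintro _ ⟨i, rfl⟩
    exact hXJ i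
  have hEK : ∀ z : E, ∃ a : K, z - τ a ∈ J := by
    rintro ⟨z, hz⟩
    refine Algebra.adjoin_induction (R := L) (p := fun z hz => ∃ a : K, (⟨z, hz⟩ : E) - τ a ∈ J)
      ?_ ?_ ?_ ?_ hz
    · rintro _ ⟨r, rfl⟩
      obtain ⟨a, ha⟩ := hk r
      refine ⟨κ a, ?_⟩
      have h1 : φ (r - σR a) ∈ J := Ideal.mem_map_of_mem _ ha
      convert h1 using 1
      apply Subtype.ext
      rw [hφ, map_sub, hRS]
      change algebraMap R S r - ι (τ (κ a)) = _
      rw [hτ]
    · intro f
      refine ⟨constantCoeff f, ?_⟩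
      have h1 := hmL (f - C (constantCoeff f)) (by simp)
      rw [map_sub] at h1
      exact h1
    · rintro z1 z2 h1 h2 ⟨a, ha⟩ ⟨b, hb⟩
      refine ⟨a + b, ?_⟩
      have := J.add_mem ha hb
      convert this using 1
      rw [map_add]
      change (⟨z1, h1⟩ : E) + ⟨z2, h2⟩ - _ = _
      ring
    · rintro z1 z2 h1 h2 ⟨a, ha⟩ ⟨b, hb⟩
      refine ⟨a * b, ?_⟩
      have := J.add_mem (J.mul_mem_left (⟨z2, h2⟩ : E) ha) (J.mul_mem_left (τ a) hb)
      convert this using 1
      rw [map_mul]
      change (⟨z1, h1⟩ : E) * ⟨z2, h2⟩ - _ = _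
      ring
  have hιJ : J.map ι = (maximalIdeal R).map (algebraMap R S) := by
    rw [hJ, Ideal.map_map, hιφ']
  have h1J : (1 : E) ∉ J := by
    intro h
    have h1 : ι 1 ∈ J.map ι := Ideal.mem_map_of_mem _ h
    rw [hιJ, map_one] at h1
    exact (Ideal.ne_top_iff_one _).mp (maximalIdeal.isMaximal S).ne_top (hloc h1)
  have hrange : Ideal.span (Set.range fun i => algebraMap L E (X i)) =
      (Ideal.span (Set.range x)).map φ := by
    rw [Ideal.map_span, ← Set.range_comp]
    congr 2
    funext i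
    exact hXE i
  have hJs : J ^ (s + 1) ≤
      Ideal.span (Set.range fun i => algebraMap L E (X i)) * J ^ s := by
    rw [hrange, hJ, ← Ideal.map_pow, ← Ideal.map_pow, ← Ideal.map_mul]
    exact Ideal.map_mono hs
  -- `S / m S` over `K`
  let algK : Algebra K S := σS.toAlgebra
  let Q := S ⧸ (maximalIdeal R).map (algebraMap R S)
  have hKsmul : ∀ (a : K) (z : S), a • z = σS a * z := fun a z => rfl
  have hQfin : Module.Finite K Q := by
    obtain ⟨T, hT⟩ := (Module.Finite.fg_top : (⊤ : Submodule L S).FG)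
    refine ⟨⟨T.image (Ideal.Quotient.mk _), ?_⟩⟩
    rw [eq_top_iff]
    rintro q -
    obtain ⟨z, rfl⟩ := Ideal.Quotient.mk_surjective q
    have hz : z ∈ Submodule.span L (T : Set S) := by rw [hT]; trivial
    rw [Finset.coe_image]
    induction hz using Submodule.span_induction with
    | mem z hz => exact Submodule.subset_span ⟨z, hz, rfl⟩
    | zero => rw [map_zero]; exact Submodule.zero_mem _
    | add z1 z2 _ _ h1 h2 => rw [map_add]; exact Submodule.add_mem _ h1 h2
    | smul f z _ h1 =>
      have h3 : Ideal.Quotient.mk ((maximalIdeal R).map (algebraMap R S)) (f • z) =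
          (constantCoeff f) • Ideal.Quotient.mk ((maximalIdeal R).map (algebraMap R S)) z := by
        change Ideal.Quotient.mk _ (f • z) = Ideal.Quotient.mk _ (constantCoeff f • z)
        rw [Ideal.Quotient.eq, hKsmul, Algebra.smul_def, ← sub_mul]
        refine Ideal.mul_mem_right _ _ ?_
        rw [← hC, ← map_sub]
        have h4 := hmL (f - C (constantCoeff f)) (by simp)
        have h5 := Ideal.mem_map_of_mem ι h4
        rw [hιJ] at h5
        exact h5
      rw [h3]
      exact Submodule.smul_mem _ _ h1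
  set t := Module.finrank K Q with ht
  let bQ : Module.Basis (Fin t) K Q := Module.finBasis K Q
  have hsurj : ∀ i, ∃ z : S, Ideal.Quotient.mk ((maximalIdeal R).map (algebraMap R S)) z = bQ i :=
    fun i => Ideal.Quotient.mk_surjective _
  choose v hv using hsurj
  have hmkKs : ∀ (a : K) (z : S),
      Ideal.Quotient.mk ((maximalIdeal R).map (algebraMap R S)) (σS a * z) =
      a • (Ideal.Quotient.mk ((maximalIdeal R).map (algebraMap R S)) z : Q) := fun a z => rfl
  have hvspan : ∀ z : S, ∃ c : Fin t → K,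
      z - ∑ i, σS (c i) * v i ∈ (maximalIdeal R).map (algebraMap R S) := by
    intro z
    refine ⟨fun i => bQ.repr (Ideal.Quotient.mk _ z) i, ?_⟩
    rw [← Ideal.Quotient.eq, map_sum]
    simp only [hmkKs, hv]
    exact (bQ.sum_repr _).symm
  have hvind : ∀ c : Fin t → K,
      ∑ i, ι (τ (c i)) * v i ∈ (maximalIdeal R).map (algebraMap R S) → ∀ i, c i = 0 := by
    intro c hc
    rw [← Ideal.Quotient.eq_zero_iff_mem, map_sum] at hc
    simp only [hτ, hmkKs, hv] at hc
    exact Fintype.linearIndependent_iff.mp bQ.linearIndependent c hc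
  -- generation
  have hgen : Submodule.span E (Set.range v) = ⊤ := by
    refine fm_gen J (s := s) ?_ _ ?_
    · refine hJs.trans (Ideal.mul_le_left.trans ?_)
      rw [Ideal.span_le]
      rintro _ ⟨i, rfl⟩
      refine Ideal.mem_map_of_mem _ ?_
      rw [IsLocalRing.mem_maximalIdeal, mem_nonunits_iff]
      intro h
      have := MvPowerSeries.isUnit_constantCoeff _ h
      rw [constantCoeff_X] at this
      exact not_isUnit_zero this
    · intro z _
      obtain ⟨c, hc⟩ := hvspan z
      rw [← hιJ] at hc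
      refine Submodule.mem_sup.mpr ⟨∑ i, σS (c i) * v i, ?_, z - ∑ i, σS (c i) * v i, ?_, by ring⟩
      · refine Submodule.sum_mem _ fun i _ => ?_
        have h1 : σS (c i) * v i = (τ (c i)) • v i := by
          rw [Algebra.smul_def]; change _ = ι (τ (c i)) * v i; rw [hτ]
        rw [h1]
        exact Submodule.smul_mem _ _ (Submodule.subset_span ⟨i, rfl⟩)
      · rw [Ideal.smul_top_eq_map, Submodule.restrictScalars_mem]
        exact hc
  -- independence
  have hind : LinearIndependent E v := by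
    rw [Fintype.linearIndependent_iff]
    intro r hr i
    apply Subtype.ext
    have h1 : ∀ N : ℕ, ((r i : E) : S) ∈ maximalIdeal S ^ N := by
      intro N
      have h2 := fm_star φ ι hιφ τ hEK v hvind N (maximalIdeal R ^ N) le_rfl r (by
        have h3 : ∑ i, ι (r i) * v i = 0 := by
          rw [← hr]
          refine Finset.sum_congr rfl fun i _ => ?_
          rw [Algebra.smul_def]
        rw [h3]; exact Ideal.zero_mem _) i
      have h4 : ι (r i) ∈ ((maximalIdeal R ^ N).map φ).map ι := Ideal.mem_map_of_mem _ h2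
      rw [Ideal.map_map, hιφ', Ideal.map_pow] at h4
      exact Ideal.pow_right_mono hloc N h4
    have h5 : ((r i : E) : S) ∈ ⨅ N : ℕ, maximalIdeal S ^ N := by
      rw [Ideal.mem_iInf]; exact h1
    rw [Ideal.iInf_pow_eq_bot_of_isLocalRing _ (maximalIdeal.isMaximal S).ne_top] at h5
    exact h5
  have hfin : Module.Finite L E := by
    have : IsNoetherian L S := inferInstance
    change Module.Finite L (Subalgebra.toSubmodule E)
    infer_instance
  have : Module.FaithfullyFlat R S := Module.FaithfullyFlat.of_flat_of_isLocalHom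
  refine ⟨E, t, Module.Basis.mk hind (by rw [hgen]), J, hfin, hEK, h1J, hXJ, hJs, hιJ, ?_⟩
  intro N
  exact fm_length φ ι hιφ _ _ (by rw [hJ, Ideal.map_pow])

end Vale.Agent.P202.CZ
end

section

/-!
Langton's algorithm: from a filtration with slope bounds to a balanced filtration.
-/

namespace Vale.Agent.P202

namespace EvLin

variable {f g h : ℕ → ℕ∞} {a b x y : ℤ}

theorem addL (hf : EvLin f a x) (hg : EvLin g b y) : EvLin (fun j => f j + g j) (a + b) (x + y) := by
  obtain ⟨j₁, h₁⟩ := hf
  obtain ⟨j₂, h₂⟩ := hg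
  refine ⟨max j₁ j₂, fun j hj => ?_⟩
  obtain ⟨n₁, e₁, e₁'⟩ := h₁ j (le_trans (le_max_left _ _) hj)
  obtain ⟨n₂, e₂, e₂'⟩ := h₂ j (le_trans (le_max_right _ _) hj)
  refine ⟨n₁ + n₂, by simp only [e₁, e₂]; push_cast; rfl, ?_⟩
  push_cast
  rw [e₁', e₂']; ring

theorem congrL (hf : EvLin f a x) (h : ∀ j, g j = f j) : EvLin g a x := by
  have : g = f := funext h
  rw [this]; exact hf

theorem congrL' (hf : EvLin f a x) (ha : a = b) (hx : x = y) : EvLin f b y := by
  subst ha; subst hx; exact hf

theorem subL (hf : EvLin f a x) (hg : EvLin g b y) (hh : ∀ j, f j = g j + h j) :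
    EvLin h (a - b) (x - y) := by
  obtain ⟨j₁, h₁⟩ := hf
  obtain ⟨j₂, h₂⟩ := hg
  refine ⟨max j₁ j₂, fun j hj => ?_⟩
  obtain ⟨n₁, e₁, e₁'⟩ := h₁ j (le_trans (le_max_left _ _) hj)
  obtain ⟨n₂, e₂, e₂'⟩ := h₂ j (le_trans (le_max_right _ _) hj)
  have h3 := hh j
  rw [e₁, e₂] at h3
  have hne : h j ≠ ⊤ := by
    intro ht
    rw [ht] at h3
    simp at h3
  obtain ⟨n, hn⟩ := ENat.ne_top_iff_exists.1 hne
  rw [← hn] at h3
  have h4 : n₁ = n₂ + n := by exact_mod_cast h3
  refine ⟨n, hn.symm, ?_⟩
  have h5 : (n₁ : ℤ) = n₂ + n := by exact_mod_cast h4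
  rw [e₁', e₂'] at h5
  linear_combination -h5

theorem shiftL (hf : EvLin f a x) : EvLin (fun j => f (j + 1)) a (x + a) := by
  obtain ⟨j₁, h₁⟩ := hf
  refine ⟨j₁, fun j hj => ?_⟩
  obtain ⟨n, e, e'⟩ := h₁ (j + 1) (by omega)
  refine ⟨n, e, ?_⟩
  rw [e']; push_cast; ring

theorem uniqueL (hf : EvLin f a x) (hg : EvLin f b y) : a = b ∧ x = y := by
  obtain ⟨j₁, h₁⟩ := hf
  obtain ⟨j₂, h₂⟩ := hg
  set j := max j₁ j₂
  obtain ⟨n₁, e₁, e₁'⟩ := h₁ j (le_max_left _ _)
  obtain ⟨n₂, e₂, e₂'⟩ := h₂ j (le_max_right _ _)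
  obtain ⟨n₃, e₃, e₃'⟩ := h₁ (j + 1) (le_trans (le_max_left _ _) (Nat.le_succ _))
  obtain ⟨n₄, e₄, e₄'⟩ := h₂ (j + 1) (le_trans (le_max_right _ _) (Nat.le_succ _))
  have h5 : n₁ = n₂ := by
    have : (n₁ : ℕ∞) = n₂ := e₁.symm.trans e₂
    exact_mod_cast this
  have h6 : n₃ = n₄ := by
    have : (n₃ : ℕ∞) = n₄ := e₃.symm.trans e₄
    exact_mod_cast this
  rw [h5] at e₁'
  rw [h6] at e₃'
  push_cast at e₃' e₄'
  have h7 : a * j + x = b * j + y := by rw [← e₁', ← e₂']
  have h8 : a * (j + 1) + x = b * (j + 1) + y := by rw [← e₃', ← e₄']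
  have h9 : a = b := by linear_combination h8 - h7
  refine ⟨h9, ?_⟩
  rw [h9] at h7
  linarith

theorem nonnegL (hf : EvLin f a x) : 0 ≤ a := by
  by_contra hneg
  push Not at hneg
  obtain ⟨j₁, h₁⟩ := hf
  obtain ⟨n, -, e'⟩ := h₁ (j₁ + x.natAbs + 1) (by omega)
  have h2 : (0 : ℤ) ≤ n := Int.natCast_nonneg n
  rw [e'] at h2
  push_cast at h2
  have h3 : a ≤ -1 := by omega
  have h4 : a * ((j₁ : ℤ) + |x| + 1) ≤ -1 * ((j₁ : ℤ) + |x| + 1) :=
    mul_le_mul_of_nonneg_right h3 (by positivity)
  have h5 : x ≤ |x| := le_abs_self x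
  have h6 : (0 : ℤ) ≤ j₁ := Int.natCast_nonneg _
  linarith

end EvLin

section
variable {A : Type*} [CommRing A] {M : Type*} [AddCommGroup M] [Module A M]
  {m : Ideal A} {F : ℕ → Submodule A M}

/-- One step of Langton's algorithm. -/
theorem langton_step (hF : Fil m F) {lo hi e c : ℤ} (hlohi : lo + 1 ≤ hi - 1)
    (h : Pr m F lo hi) (he : EvLin (fun j => rl (F (j + 1)) (F j)) e c) :
    ∃ (P : ℕ → Submodule A M) (c' : ℤ), SubFil m F P ∧ Fil m P ∧ Pr m P (lo + 1) hi ∧
      EvLin (fun j => rl (P (j + 1)) (P j)) e c' := by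
  set lam : ℤ := hi - 1 with hlam
  have hadd : ∀ P, SubFil m F P → ∀ j,
      rl (F (j + 1)) (F j) = rl (F (j + 1)) (P j) + rl (P j) (F j) :=
    fun P hP j => rl_add (hP.ge j) (hP.le j)
  -- values of the functional
  let S : Set ℤ := {z | ∃ P : ℕ → Submodule A M, SubFil m F P ∧ ∃ b y : ℤ,
    EvLin (fun j => rl (F (j + 1)) (P j)) b y ∧ z = y - lam * b}
  have hbd : ∀ z ∈ S, z ≤ e := by
    rintro z ⟨P, hP, b, y, hb, rfl⟩
    obtain ⟨a, x, b', y', h1, h2, h3, h4⟩ := h P hP
    obtain ⟨rfl, rfl⟩ := hb.uniqueL h2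
    have h5 : EvLin (fun j => rl (F (j + 1)) (F j)) (b + a) (y + x) :=
      (h2.addL h1).congrL (hadd P hP)
    obtain ⟨h6, -⟩ := he.uniqueL h5
    have h7 := h1.nonnegL
    rw [hlam]
    linarith
  have hne : ∃ z, z ∈ S := by
    refine ⟨0 - lam * 0, fun j => F (j + 1), ⟨hF.anti, fun j => le_rfl, fun j => hF.smul (j + 1)⟩,
      0, 0, ?_, rfl⟩
    refine ⟨0, fun j _ => ⟨0, ?_, by ring⟩⟩
    simp
  obtain ⟨z₀, ⟨P, hP, b, y, hb, rfl⟩, hmax⟩ :=
    Int.exists_greatest_of_bdd (P := fun z => z ∈ S) ⟨e, hbd⟩ hne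
  obtain ⟨a, x, b', y', ha, hb', hlo, hhi⟩ := h P hP
  obtain ⟨rfl, rfl⟩ := hb.uniqueL hb'
  have hmax' : ∀ P', SubFil m F P' → ∀ b₂ y₂ : ℤ,
      EvLin (fun j => rl (F (j + 1)) (P' j)) b₂ y₂ → y₂ - lam * b₂ ≤ y - lam * b :=
    fun P' hP' b₂ y₂ h2 => hmax _ ⟨P', hP', b₂, y₂, h2, rfl⟩
  have hPanti : ∀ j, P (j + 1) ≤ P j := fun j => (hP.le (j + 1)).trans (hP.ge j)
  have hPrl : ∀ j, rl (P (j + 1)) (P j) = rl (P (j + 1)) (F (j + 1)) + rl (F (j + 1)) (P j) :=
    fun j => rl_add (hP.le (j + 1)) (hP.ge j)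
  have hfin1 : ∀ j, rl (F (j + 1)) (P j) ≠ ⊤ := fun j ht => by
    apply hF.fin j
    rw [hadd P hP j, ht, top_add]
  have hfin2 : ∀ j, rl (P j) (F j) ≠ ⊤ := fun j ht => by
    apply hF.fin j
    rw [hadd P hP j, ht, add_top]
  refine ⟨P, a + x + y, hP, ⟨hPanti, hP.smul, fun j => ?_⟩, ?_, ?_⟩
  · rw [hPrl]
    exact WithTop.add_ne_top.2 ⟨hfin2 _, hfin1 _⟩
  · -- the slope property
    intro Q hQ
    -- `P'' = Q ⊔ F (· + 1)`
    have hP2 : SubFil m F (fun j => Q j ⊔ F (j + 1)) := by
      refine ⟨fun j => sup_le ((hQ.le j).trans (hP.le j)) (hF.anti j), fun j => le_sup_right,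
        fun j => ?_⟩
      rw [Submodule.smul_sup]
      exact sup_le_sup (hQ.smul j) (hF.smul (j + 1))
    -- `P''' (j+1) = F (j+1) ⊓ Q j`
    let R : ℕ → Submodule A M := fun j => Nat.casesOn j (F 1) (fun i => F (i + 1) ⊓ Q i)
    have hR1 : ∀ j, R (j + 1) = F (j + 1) ⊓ Q j := fun j => rfl
    have hR0 : R 0 = F 1 := rfl
    have hFQ : ∀ j, F (j + 2) ≤ Q j := fun j => (hP.ge (j + 1)).trans (hQ.ge j)
    have hP3 : SubFil m F R := by
      refine ⟨fun j => ?_, fun j => ?_, fun j => ?_⟩
      · rcases j with _ | j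
        · exact hF.anti 0
        · exact inf_le_left
      · rcases j with _ | j
        · exact le_rfl
        · rw [hR1]
          exact le_inf (hF.anti (j + 1)) (hFQ j)
      · rcases j with _ | j
        · rw [hR0, hR1]
          exact le_inf ((hF.smul 1).trans (hF.anti 1)) ((hF.smul 1).trans (hFQ 0))
        · rw [hR1, hR1]
          refine le_inf ?_ ?_
          · exact (smul_mono_right _ inf_le_left).trans (hF.smul (j + 1))
          · exact (smul_mono_right _ inf_le_right).trans (hQ.smul j)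
    obtain ⟨a2, x2, b2, y2, ea2, eb2, hlo2, hhi2⟩ := h _ hP2
    obtain ⟨a3, x3, b3, y3, ea3, eb3, hlo3, hhi3⟩ := h _ hP3
    have m2 := hmax' _ hP2 b2 y2 eb2
    have m3 := hmax' _ hP3 b3 y3 eb3
    -- quotient
    have q1 : ∀ j, rl (Q j) (P j) = rl (Q j ⊔ F (j + 1)) (P j) + rl (R (j + 1)) (F (j + 1)) := by
      intro j
      have e1 : rl (Q j) (P j) = rl (Q j) (Q j ⊔ F (j + 1)) + rl (Q j ⊔ F (j + 1)) (P j) :=
        rl_add le_sup_left (sup_le (hQ.le j) (hP.ge j))
      rw [e1, rl_sup_right, add_comm, hR1, inf_comm, rl_inf_left]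
    have q2 : ∀ j, rl (F (j + 1)) (P j) =
        rl (F (j + 1)) (Q j ⊔ F (j + 1)) + rl (Q j ⊔ F (j + 1)) (P j) := fun j =>
      rl_add le_sup_right (sup_le (hQ.le j) (hP.ge j))
    have q3 : EvLin (fun j => rl (Q j ⊔ F (j + 1)) (P j)) (b - b2) (y - y2) := hb.subL eb2 q2
    have q4 : EvLin (fun j => rl (R (j + 1)) (F (j + 1))) a3 (x3 + a3) := ea3.shiftL
    have q5 := (q3.addL q4).congrL q1
    -- sub
    have s1 : ∀ j, rl (P (j + 1)) (Q j) =
        rl (P (j + 1)) (R (j + 1)) + rl (F (j + 1)) (Q j ⊔ F (j + 1)) := by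
      intro j
      have e1 : rl (P (j + 1)) (Q j) = rl (P (j + 1)) (F (j + 1) ⊓ Q j) + rl (F (j + 1) ⊓ Q j) (Q j) :=
        rl_add (le_inf (hP.le (j + 1)) (hQ.ge j)) inf_le_right
      rw [e1, hR1, rl_sup_inf, sup_comm]
    have s2 : ∀ j, rl (F (j + 1 + 1)) (R (j + 1)) =
        rl (F (j + 1 + 1)) (P (j + 1)) + rl (P (j + 1)) (R (j + 1)) := fun j =>
      rl_add (hP.ge (j + 1)) (by rw [hR1]; exact le_inf (hP.le (j + 1)) (hQ.ge j))
    have s3 : EvLin (fun j => rl (P (j + 1)) (R (j + 1))) (b3 - b) (y3 + b3 - (y + b)) :=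
      eb3.shiftL.subL hb.shiftL s2
    have s4 := (s3.addL eb2).congrL s1
    refine ⟨_, _, _, _, q5, s4, ?_, ?_⟩
    · have n1 := q3.nonnegL
      have n2 := q4.nonnegL
      have k1 : lam * (b - b2) ≤ y - y2 := by linarith
      have k2 : (lo + 1) * (b - b2) ≤ lam * (b - b2) :=
        mul_le_mul_of_nonneg_right hlohi n1
      linarith
    · have n1 := s3.nonnegL
      have k1 : y3 - y ≤ lam * (b3 - b) := by linarith
      rw [hlam] at k1
      linarith
  · have h5 : EvLin (fun j => rl (F (j + 1)) (F j)) (b + a) (y + x) :=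
      (hb.addL ha).congrL (hadd P hP)
    obtain ⟨h6, -⟩ := he.uniqueL h5
    have h7 := (ha.shiftL.addL hb).congrL hPrl
    exact h7.congrL' (by rw [h6]; ring) (by ring)

/-- TASK L (Langton). -/
theorem exists_balanced {A : Type*} [CommRing A] {M : Type*} [AddCommGroup M] [Module A M]
    {m : Ideal A} {F : ℕ → Submodule A M} (hF : Fil m F) {lo hi e c : ℤ}
    (h : Pr m F lo hi) (he : EvLin (fun j => rl (F (j + 1)) (F j)) e c) :
    ∃ (G : ℕ → Submodule A M) (t : ℕ) (l c' : ℤ), Fil m G ∧ (∀ j, G j ≤ F j) ∧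
      (∀ j, F (j + t) ≤ G j) ∧ Pr m G l (l + 1) ∧
      EvLin (fun j => rl (G (j + 1)) (G j)) e c' := by
  obtain ⟨n, hn⟩ : ∃ n : ℕ, hi - lo ≤ n := ⟨(hi - lo).toNat, Int.self_le_toNat _⟩
  induction n generalizing F lo c with
  | zero =>
    refine ⟨F, 0, lo, c, hF, fun j => le_rfl, fun j => le_rfl, ?_, he⟩
    intro P hP
    obtain ⟨a, x, b, y, h1, h2, h3, h4⟩ := h P hP
    refine ⟨a, x, b, y, h1, h2, h3, h4.trans ?_⟩
    have h5 := h2.nonnegL
    exact mul_le_mul_of_nonneg_right (by push_cast at hn; linarith) h5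
  | succ n ih =>
    by_cases hc : lo + 1 ≤ hi - 1
    · obtain ⟨P, c₁, hP, hPF, hPr, hPe⟩ := langton_step hF hc h he
      obtain ⟨G, t, l, c', hG, hle, hge, hGPr, hGe⟩ := ih hPF hPr hPe (by push_cast at hn; linarith)
      refine ⟨G, t + 1, l, c', hG, fun j => (hle j).trans (hP.le j), fun j => ?_, hGPr, hGe⟩
      exact le_trans (hP.ge (j + t)) (hge j)
    · refine ⟨F, 0, lo, c, hF, fun j => le_rfl, fun j => le_rfl, ?_, he⟩
      intro P hP
      obtain ⟨a, x, b, y, h1, h2, h3, h4⟩ := h P hP
      refine ⟨a, x, b, y, h1, h2, h3, h4.trans ?_⟩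
      have h5 := h2.nonnegL
      exact mul_le_mul_of_nonneg_right (by linarith) h5

end

end Vale.Agent.P202
end

section

/-!
P202, mixed characteristic: the ring `E = S ⊗_A (A ⊗_Λ B/p^N)`, `p`-bases of the base.
-/

namespace Vale.Agent.P202.Mix

open Polynomial TensorProduct IsLocalRing

universe u

section

variable {p : ℕ} [Fact p.Prime] {k : Type u} [Field k] [CharP k p] {r : ℕ}
variable {Λ : Type u} [CommRing Λ] (ψ : Λ →+* WittVector p (Rp p k r))
variable (A S : Type u) [CommRing A] [CommRing S] [Algebra Λ A] [Algebra A S]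
variable (C : Type u) [CommRing C] [Algebra (Rp p k r) C] (N : ℕ)

/-- `A ⊗_Λ B/p^N`. -/
abbrev EA : Type u := A ⊗[Λ] BN ψ C N

/-- `S ⊗_A (A ⊗_Λ B/p^N)`. -/
abbrev ES : Type u := S ⊗[A] EA ψ A C N

/-- `B/p^N → S ⊗_A (A ⊗_Λ B/p^N)`. -/
noncomputable def toES : BN ψ C N →+* ES ψ A S C N :=
  (Algebra.TensorProduct.includeRight (R := A) (A := S) (B := EA ψ A C N)).toRingHom.comp
    (Algebra.TensorProduct.includeRight (R := Λ) (A := A) (B := BN ψ C N)).toRingHom

end

section

variable (p : ℕ) [Fact p.Prime] (k : Type u) [Field k] [CharP k p] (r : ℕ)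

/-- A base with a `p`-basis: `Λ` local with maximal ideal `(p, u)`, residue field `k0`, `b_i ∈ Λ`
lift a `p`-basis of `k0`, `ψ(b_i) = [β_i]`, `k` is the perfect closure of `k0` via `res`. -/
structure IsBaseX {Λ : Type u} [CommRing Λ] [IsLocalRing Λ] (u : Fin r → Λ)
    (ψ : Λ →+* WittVector p (Rp p k r))
    (red : Λ →+* R0 k r ⧸ Ideal.span {(MvPowerSeries.X 0 : R0 k r)}) {ι : Type u} (b : ι → Λ)
    (β : ι → k) (res : ResidueField Λ →+* k) : Prop extends IsBase p k r Λ u ψ red where
  max : maximalIdeal Λ = Ideal.span (insert (p : Λ) (Set.range u))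
  psi_b : ∀ i, ψ (b i) =
    WittVector.teichmuller p (PerfectClosure.of (R0 k r) p (MvPowerSeries.C (β i)))
  res_red : ∀ l g, red l = Ideal.Quotient.mk _ g →
    res (residue Λ l) = MvPowerSeries.constantCoeff g
  pbasis : IsPBasis p (fun i => residue Λ (b i))
  perf : PerfectRing k p
  perfClosure : ∀ y : k, ∃ (e : ℕ) (x : ResidueField Λ), y ^ p ^ e = res x

end

end Vale.Agent.P202.Mix
end

section

set_option linter.all false

/-!
P202 MIX, M13a: devissage.
-/

namespace Vale.Agent.P202.Mix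

open Polynomial TensorProduct IsLocalRing
open scoped ENNReal

universe u

section M13a

/-- devissage. `Φ` additive on the `S`-modules killed by `𝔠`. Then
`Φ Y = l(Y) Φ(k_S)` for `Y` of finite length killed by `𝔠`. -/
theorem devissage {S : Type u} [CommRing S] [IsLocalRing S] [IsNoetherianRing S] (𝔠 : Ideal S)
    (Φ : ∀ (Y : Type u) [AddCommGroup Y] [Module S Y], ℝ≥0∞) (h0 : Φ PUnit.{u + 1} = 0)
    (hadd : ∀ {M N K : Type u} [AddCommGroup M] [Module S M] [AddCommGroup N] [Module S N]
      [AddCommGroup K] [Module S K] (f : M →ₗ[S] N) (g : N →ₗ[S] K),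
      (∀ a ∈ 𝔠, ∀ x : N, a • x = 0) →
      Function.Injective f → Function.Surjective g → Function.Exact f g → Φ N = Φ M + Φ K)
    (Y : Type u) [AddCommGroup Y] [Module S Y] (hY : ∀ a ∈ 𝔠, ∀ x : Y, a • x = 0)
    (hfin : Module.length S Y ≠ ⊤) :
    Φ Y = ENat.toENNReal (Module.length S Y) * Φ (S ⧸ maximalIdeal S) := by
  have hiso : ∀ (M N : Type u) [AddCommGroup M] [Module S M] [AddCommGroup N] [Module S N]
      (e : M ≃ₗ[S] N), (∀ a ∈ 𝔠, ∀ x : N, a • x = 0) → Φ N = Φ M := by
    intro M N _ _ _ _ e hN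
    have := hadd (e : M →ₗ[S] N) (0 : N →ₗ[S] PUnit.{u + 1}) hN e.injective
      (fun x => ⟨0, Subsingleton.elim _ _⟩) (fun x => ⟨fun _ => ⟨e.symm x, by simp⟩,
        fun _ => Subsingleton.elim _ _⟩)
    rw [this, h0, add_zero]
  have hF : IsFiniteLength S Y := Module.length_ne_top_iff.1 hfin
  clear hfin
  induction hF with
  | @of_subsingleton M _ _ _ =>
    rw [Module.length_eq_zero, ENat.toENNReal_zero, zero_mul]
    rw [hiso PUnit.{u + 1} M ⟨⟨⟨fun _ => 0, fun _ _ => Subsingleton.elim _ _⟩,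
      fun _ _ => Subsingleton.elim _ _⟩, fun _ => PUnit.unit, fun _ => Subsingleton.elim _ _,
      fun _ => Subsingleton.elim _ _⟩ hY, h0]
  | @of_simple_quotient M _ _ N _ hN ih =>
    have h1 := ih (by
      intro a ha x
      apply Subtype.ext
      exact hY a ha x)
    obtain ⟨I, hI, ⟨e⟩⟩ := isSimpleModule_iff_quot_maximal.1 (inferInstance : IsSimpleModule S (M ⧸ N))
    have hIm : I = maximalIdeal S := IsLocalRing.eq_maximalIdeal hI
    subst hIm
    have hk : ∀ a ∈ 𝔠, ∀ x : M ⧸ N, a • x = 0 := by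
      intro a ha x
      obtain ⟨y, rfl⟩ := Submodule.Quotient.mk_surjective N x
      rw [← Submodule.Quotient.mk_smul, hY a ha, Submodule.Quotient.mk_zero]
    have h2 : Φ (M ⧸ N) = Φ (S ⧸ maximalIdeal S) := hiso _ _ e.symm hk
    have h3 := hadd N.subtype N.mkQ hY N.subtype_injective N.mkQ_surjective
      (LinearMap.exact_subtype_mkQ N)
    have h4 := Module.length_eq_add_of_exact N.subtype N.mkQ N.subtype_injective
      N.mkQ_surjective (LinearMap.exact_subtype_mkQ N)
    have h5 : Module.length S (M ⧸ N) = 1 := Module.length_eq_one S (M ⧸ N)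
    rw [h3, h4, h5, h1, h2, ENat.toENNReal_add, ENat.toENNReal_one, add_mul, one_mul]

/-- the inequality version, for `Φ` only subadditive (right exact functors). -/
theorem devissage_le {S : Type u} [CommRing S] [IsLocalRing S] [IsNoetherianRing S]
    (Φ : ∀ (Y : Type u) [AddCommGroup Y] [Module S Y], ℝ≥0∞) (h0 : Φ PUnit.{u + 1} = 0)
    (hadd : ∀ {M N K : Type u} [AddCommGroup M] [Module S M] [AddCommGroup N] [Module S N]
      [AddCommGroup K] [Module S K] (f : M →ₗ[S] N) (g : N →ₗ[S] K),
      Function.Injective f → Function.Surjective g → Function.Exact f g → Φ N ≤ Φ M + Φ K)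
    (Y : Type u) [AddCommGroup Y] [Module S Y] (hfin : Module.length S Y ≠ ⊤) :
    Φ Y ≤ ENat.toENNReal (Module.length S Y) * Φ (S ⧸ maximalIdeal S) := by
  have hiso : ∀ (M N : Type u) [AddCommGroup M] [Module S M] [AddCommGroup N] [Module S N]
      (e : M ≃ₗ[S] N), Φ N ≤ Φ M := by
    intro M N _ _ _ _ e
    have := hadd (e : M →ₗ[S] N) (0 : N →ₗ[S] PUnit.{u + 1}) e.injective
      (fun x => ⟨0, Subsingleton.elim _ _⟩) (fun x => ⟨fun _ => ⟨e.symm x, by simp⟩,
        fun _ => Subsingleton.elim _ _⟩)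
    rwa [h0, add_zero] at this
  have hF : IsFiniteLength S Y := Module.length_ne_top_iff.1 hfin
  clear hfin
  induction hF with
  | @of_subsingleton M _ _ _ =>
    rw [Module.length_eq_zero, ENat.toENNReal_zero, zero_mul]
    refine (hiso PUnit.{u + 1} M ⟨⟨⟨fun _ => 0, fun _ _ => Subsingleton.elim _ _⟩,
      fun _ _ => Subsingleton.elim _ _⟩, fun _ => PUnit.unit, fun _ => Subsingleton.elim _ _,
      fun _ => Subsingleton.elim _ _⟩).trans ?_
    rw [h0]
  | @of_simple_quotient M _ _ N _ hN ih =>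
    obtain ⟨I, hI, ⟨e⟩⟩ := isSimpleModule_iff_quot_maximal.1 (inferInstance : IsSimpleModule S (M ⧸ N))
    have hIm : I = maximalIdeal S := IsLocalRing.eq_maximalIdeal hI
    subst hIm
    have h2 : Φ (M ⧸ N) ≤ Φ (S ⧸ maximalIdeal S) := hiso _ _ e.symm
    have h3 := hadd N.subtype N.mkQ N.subtype_injective N.mkQ_surjective
      (LinearMap.exact_subtype_mkQ N)
    have h4 := Module.length_eq_add_of_exact N.subtype N.mkQ N.subtype_injective
      N.mkQ_surjective (LinearMap.exact_subtype_mkQ N)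
    have h5 : Module.length S (M ⧸ N) = 1 := Module.length_eq_one S (M ⧸ N)
    rw [h4, h5, ENat.toENNReal_add, ENat.toENNReal_one, add_mul, one_mul]
    exact h3.trans (add_le_add ih h2)

end M13a

end Vale.Agent.P202.Mix
end

section

/-!
P202 MIX, TASKS M13, M14: additive lengths of `E/𝔟E`.
-/

namespace Vale.Agent.P202.Mix

open Polynomial TensorProduct IsLocalRing
open scoped ENNReal

universe u

section General

/-- base change along `A → S` and injectivity. -/
theorem rTensor_baseChange_injective {A S : Type u} [CommRing A] [CommRing S] [Algebra A S]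
    (V : Type u) [AddCommGroup V] [Module A V] {M M' : Type u} [AddCommGroup M] [Module S M]
    [Module A M] [IsScalarTower A S M] [AddCommGroup M'] [Module S M'] [Module A M']
    [IsScalarTower A S M'] (f : M →ₗ[S] M')
    (h : Function.Injective ((f.restrictScalars A).rTensor V)) :
    Function.Injective (f.rTensor (S ⊗[A] V)) := by
  have hnat : ∀ z, AlgebraTensorModule.cancelBaseChange A S S M' V (f.rTensor (S ⊗[A] V) z) =
      (f.restrictScalars A).rTensor V (AlgebraTensorModule.cancelBaseChange A S S M V z) := by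
    intro z
    induction z with
    | zero => simp
    | add x y hx hy => rw [map_add, map_add, hx, hy, map_add, map_add]
    | tmul m w =>
      induction w with
      | zero => simp
      | add x y hx hy =>
        rw [tmul_add, map_add, map_add, hx, hy, map_add, map_add]
      | tmul s v =>
        rw [LinearMap.rTensor_tmul, AlgebraTensorModule.cancelBaseChange_tmul,
          AlgebraTensorModule.cancelBaseChange_tmul, LinearMap.rTensor_tmul,
          LinearMap.restrictScalars_apply, map_smul]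
  intro z z' hz
  apply (AlgebraTensorModule.cancelBaseChange A S S M V).injective
  apply h
  rw [← hnat, ← hnat, hz]

/-- The additive function `Y ↦ L(X ⊗_S Y)`, for an `E`-module `X`. -/
theorem len_tensor_add {S E : Type u} [CommRing S] [CommRing E] [Algebra S E] (L : AddLen E)
    (X : Type u) [AddCommGroup X] [Module E X] [Module S X] [IsScalarTower S E X]
    {M N K : Type u} [AddCommGroup M] [Module S M] [AddCommGroup N] [Module S N]
    [AddCommGroup K] [Module S K] (f : M →ₗ[S] N) (g : N →ₗ[S] K)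
    (hf : Function.Injective (f.lTensor X)) (hg : Function.Surjective g)
    (hfg : Function.Exact f g) :
    L.len (X ⊗[S] N) = L.len (X ⊗[S] M) + L.len (X ⊗[S] K) := by
  refine L.add (AlgebraTensorModule.lTensor E X f) (AlgebraTensorModule.lTensor E X g) ?_ ?_ ?_
  · exact hf
  · exact LinearMap.lTensor_surjective X hg
  · exact lTensor_exact X hfg hg

/-- the length of `X ⊗_S (S/𝔟)` for `X = E`. -/
theorem len_tensor_quot {S E : Type u} [CommRing S] [CommRing E] [Algebra S E] (L : AddLen E)
    (𝔟 : Ideal S) : L.len (E ⊗[S] (S ⧸ 𝔟)) = L.len (E ⧸ 𝔟.map (algebraMap S E)) :=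
  (len_congr L (Ideal.qoutMapEquivTensorQout E)).symm

/-- the main computation, `X = E`. -/
theorem len_quot_of_inj {S E : Type u} [CommRing S] [IsLocalRing S] [IsNoetherianRing S]
    [CommRing E] [Algebra S E] (L : AddLen E) (𝔠 𝔟 : Ideal S) (hcb : 𝔠 ≤ 𝔟)
    (hinj : ∀ {M N : Type u} [AddCommGroup M] [Module S M] [AddCommGroup N] [Module S N]
      (f : M →ₗ[S] N), (∀ a ∈ 𝔠, ∀ x : N, a • x = 0) → Function.Injective f →
      Function.Injective (f.lTensor E))
    (hfin : Module.length S (S ⧸ 𝔟) ≠ ⊤) :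
    L.len (E ⧸ 𝔟.map (algebraMap S E)) = ENat.toENNReal (Module.length S (S ⧸ 𝔟)) *
      L.len (E ⧸ (maximalIdeal S).map (algebraMap S E)) := by
  rw [← len_tensor_quot, ← len_tensor_quot]
  refine devissage 𝔠 (fun Y _ _ => L.len (E ⊗[S] Y)) ?_ ?_ (S ⧸ 𝔟) ?_ hfin
  · exact len_subsingleton_aux L
  · intro M N K _ _ _ _ _ _ f g hN hf hg hfg
    exact len_tensor_add L E f g (hinj f hN hf) hg hfg
  · intro a ha x
    obtain ⟨x, rfl⟩ := Ideal.Quotient.mk_surjective x
    rw [← Ideal.Quotient.mk_eq_mk, ← Submodule.Quotient.mk_smul, Submodule.Quotient.mk_eq_zero]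
    exact 𝔟.mul_mem_right x (hcb ha)

/-- the length of `(E/Q) ⊗_S (S/𝔟)`. -/
theorem len_tensor_quot_sup {S E : Type u} [CommRing S] [CommRing E] [Algebra S E] (L : AddLen E)
    (Q : Ideal E) (𝔟 : Ideal S) :
    L.len ((E ⧸ Q) ⊗[S] (S ⧸ 𝔟)) = L.len (E ⧸ (𝔟.map (algebraMap S E) ⊔ Q)) := by
  refine len_congr L ?_
  let e1 : (E ⧸ Q) ⊗[S] (S ⧸ 𝔟) ≃ₗ[E] ((E ⧸ Q) ⧸ 𝔟.map (algebraMap S (E ⧸ Q))) :=
    (Ideal.qoutMapEquivTensorQout (E ⧸ Q)).symm.restrictScalars E
  have h : 𝔟.map (algebraMap S (E ⧸ Q)) = (𝔟.map (algebraMap S E)).map (Ideal.Quotient.mk Q) := by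
    rw [Ideal.map_map]
    rfl
  let e2 : ((E ⧸ Q) ⧸ 𝔟.map (algebraMap S (E ⧸ Q))) ≃ₗ[E]
      ((E ⧸ Q) ⧸ (𝔟.map (algebraMap S E)).map (Ideal.Quotient.mk Q)) :=
    (Ideal.quotientEquivAlgOfEq E h).toLinearEquiv
  let e3 : ((E ⧸ Q) ⧸ (𝔟.map (algebraMap S E)).map (Ideal.Quotient.mk Q)) ≃ₗ[E]
      (E ⧸ (Q ⊔ 𝔟.map (algebraMap S E))) :=
    (DoubleQuot.quotQuotEquivQuotSupₐ E Q (𝔟.map (algebraMap S E))).toLinearEquiv
  let e4 : (E ⧸ (Q ⊔ 𝔟.map (algebraMap S E))) ≃ₗ[E] (E ⧸ (𝔟.map (algebraMap S E) ⊔ Q)) :=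
    (Ideal.quotientEquivAlgOfEq E (sup_comm _ _)).toLinearEquiv
  exact e1 ≪≫ₗ e2 ≪≫ₗ e3 ≪≫ₗ e4

/-- an injection into a module killed by the maximal ideal splits. -/
theorem exists_retraction {A : Type u} [CommRing A] [IsLocalRing A] {M N : Type u}
    [AddCommGroup M] [Module A M] [AddCommGroup N] [Module A N] (f : M →ₗ[A] N)
    (hf : Function.Injective f) (hN : ∀ a ∈ maximalIdeal A, ∀ x : N, a • x = 0) :
    ∃ g : N →ₗ[A] M, g ∘ₗ f = LinearMap.id := by
  have hM : ∀ a ∈ maximalIdeal A, ∀ x : M, a • x = 0 := by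
    intro a ha x
    apply hf
    rw [map_smul, hN a ha, map_zero]
  have hN' : Module.IsTorsionBySet A N (maximalIdeal A : Set A) := fun x a => hN a.1 a.2 x
  have hM' : Module.IsTorsionBySet A M (maximalIdeal A : Set A) := fun x a => hM a.1 a.2 x
  let _ : Field (A ⧸ maximalIdeal A) := Ideal.Quotient.field _
  let _ : Module (A ⧸ maximalIdeal A) N := hN'.module
  let _ : Module (A ⧸ maximalIdeal A) M := hM'.module
  let f' : M →ₗ[A ⧸ maximalIdeal A] N :=
    { toFun := f
      map_add' := f.map_add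
      map_smul' := by
        intro c x
        obtain ⟨c, rfl⟩ := Ideal.Quotient.mk_surjective c
        exact f.map_smul c x }
  obtain ⟨g', hg'⟩ := LinearMap.exists_leftInverse_of_injective f' (LinearMap.ker_eq_bot.2 hf)
  refine ⟨{ toFun := g', map_add' := g'.map_add, map_smul' := fun c x => ?_ }, ?_⟩
  · exact g'.map_smul (Ideal.Quotient.mk _ c) x
  · ext x
    exact LinearMap.congr_fun hg' x

end General

section M14

variable {A S : Type u} [CommRing A] [CommRing S] [IsLocalRing A] [IsLocalRing S]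
  [IsNoetherianRing S] [Algebra A S]

omit [IsLocalRing S] [IsNoetherianRing S] in
theorem lTensor_quot_injective {EA : Type u} [CommRing EA] [Algebra A EA] (Q0 : Ideal EA)
    {M N : Type u} [AddCommGroup M] [Module S M] [AddCommGroup N] [Module S N] (f : M →ₗ[S] N)
    (hN : ∀ a ∈ (maximalIdeal A).map (algebraMap A S), ∀ x : N, a • x = 0)
    (hf : Function.Injective f) :
    Function.Injective (f.lTensor ((S ⊗[A] EA) ⧸
      Q0.map (Algebra.TensorProduct.includeRight (R := A) (A := S) (B := EA)).toRingHom)) := by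
  let _ : Module A M := Module.compHom M (algebraMap A S)
  let _ : Module A N := Module.compHom N (algebraMap A S)
  have : IsScalarTower A S M := ⟨fun a b x => by
    change (a • b) • x = (algebraMap A S a) • (b • x)
    rw [smul_smul, Algebra.smul_def]⟩
  have : IsScalarTower A S N := ⟨fun a b x => by
    change (a • b) • x = (algebraMap A S a) • (b • x)
    rw [smul_smul, Algebra.smul_def]⟩
  obtain ⟨g, hg⟩ := exists_retraction (f.restrictScalars A) hf (fun a ha x =>
    hN _ (Ideal.mem_map_of_mem _ ha) x)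
  have h1 : Function.Injective ((f.restrictScalars A).rTensor (EA ⧸ Q0)) := by
    refine Function.LeftInverse.injective (g := g.rTensor (EA ⧸ Q0)) fun z => ?_
    rw [← LinearMap.comp_apply, ← LinearMap.rTensor_comp, hg, LinearMap.rTensor_id]
    rfl
  have h2 := rTensor_baseChange_injective (EA ⧸ Q0) f h1
  rw [← LinearMap.lTensor_inj_iff_rTensor_inj] at h2
  let e : (S ⊗[A] (EA ⧸ Q0)) ≃ₗ[S] ((S ⊗[A] EA) ⧸
      Q0.map (Algebra.TensorProduct.includeRight (R := A) (A := S) (B := EA)).toRingHom) :=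
    (Algebra.TensorProduct.tensorQuotientEquiv (R := A) S EA S Q0).toLinearEquiv
  have hnat : ∀ z, f.lTensor ((S ⊗[A] EA) ⧸
      Q0.map (Algebra.TensorProduct.includeRight (R := A) (A := S) (B := EA)).toRingHom)
      (e.rTensor M z) = e.rTensor N (f.lTensor (S ⊗[A] (EA ⧸ Q0)) z) := by
    intro z
    rw [LinearEquiv.rTensor, LinearEquiv.rTensor]
    induction z with
    | zero => rw [map_zero, map_zero, map_zero, map_zero]
    | add x y hx hy => rw [map_add, map_add, hx, hy, map_add, map_add]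
    | tmul x m => rfl
  intro z z' hz
  obtain ⟨z, rfl⟩ := (e.rTensor M).surjective z
  obtain ⟨z', rfl⟩ := (e.rTensor M).surjective z'
  rw [hnat, hnat] at hz
  exact congrArg _ (h2 ((e.rTensor N).injective hz))

/-- M14: for an ideal `Q0 ⊇ mE_A` of an `A`-algebra `E_A`, `E = S ⊗_A E_A`, and
`𝔟 ⊇ mS`: `L(E/(Q0 E + 𝔟 E)) = l(S/𝔟) L(E/(Q0 E + n_S E))`. -/
theorem len_quot_vec {EA : Type u} [CommRing EA] [Algebra A EA] (L : AddLen (S ⊗[A] EA))
    (Q0 : Ideal EA) (hQ : (maximalIdeal A).map (algebraMap A EA) ≤ Q0) (𝔟 : Ideal S)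
    (hb : (maximalIdeal A).map (algebraMap A S) ≤ 𝔟) (hfin : Module.length S (S ⧸ 𝔟) ≠ ⊤) :
    L.len ((S ⊗[A] EA) ⧸ (𝔟.map (algebraMap S (S ⊗[A] EA)) ⊔
      Q0.map (Algebra.TensorProduct.includeRight (R := A) (A := S) (B := EA)).toRingHom)) =
    ENat.toENNReal (Module.length S (S ⧸ 𝔟)) *
      L.len ((S ⊗[A] EA) ⧸ ((maximalIdeal S).map (algebraMap S (S ⊗[A] EA)) ⊔
        Q0.map (Algebra.TensorProduct.includeRight (R := A) (A := S) (B := EA)).toRingHom)) := by
  have _ := hQ
  rw [← len_tensor_quot_sup, ← len_tensor_quot_sup]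
  refine devissage ((maximalIdeal A).map (algebraMap A S)) (fun Y _ _ => L.len (((S ⊗[A] EA) ⧸
      Q0.map (Algebra.TensorProduct.includeRight (R := A) (A := S) (B := EA)).toRingHom) ⊗[S] Y))
    ?_ ?_ (S ⧸ 𝔟) ?_ hfin
  · exact len_subsingleton_aux L
  · intro M N K _ _ _ _ _ _ f g hN hf hg hfg
    exact len_tensor_add L _ f g (lTensor_quot_injective Q0 f hN hf) hg hfg
  · intro a ha x
    obtain ⟨x, rfl⟩ := Ideal.Quotient.mk_surjective x
    rw [← Ideal.Quotient.mk_eq_mk, ← Submodule.Quotient.mk_smul, Submodule.Quotient.mk_eq_zero]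
    exact 𝔟.mul_mem_right x (hb ha)

end M14

section M13

variable {p : ℕ} [Fact p.Prime] {k : Type u} [Field k] [CharP k p] {r : ℕ}
variable {Λ : Type u} [CommRing Λ] {ψ : Λ →+* WittVector p (Rp p k r)}
variable {A S : Type u} [CommRing A] [CommRing S] [Algebra Λ A] [Algebra A S]

/-- the functor `Y ↦ E ⊗_S Y` is exact on modules killed by `p^N`, if `M ↦ M ⊗_Λ B/p^N` is. -/
theorem lTensor_ES_injective (C : Type u) [CommRing C] [Algebra (Rp p k r) C] (N : ℕ)
    (hBN : ∀ {M M' : Type u} [AddCommGroup M] [Module Λ M] [AddCommGroup M'] [Module Λ M']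
      (f : M →ₗ[Λ] M'), Function.Injective f → (∀ m : M', (p : Λ) ^ N • m = 0) →
      Function.Injective (f.rTensor (BN ψ C N)))
    {M M' : Type u} [AddCommGroup M] [Module S M] [AddCommGroup M'] [Module S M']
    (f : M →ₗ[S] M') (hf : Function.Injective f) (hM' : ∀ m : M', (p : S) ^ N • m = 0) :
    Function.Injective (f.lTensor (ES ψ A S C N)) := by
  let _ : Module A M := Module.compHom M (algebraMap A S)
  let _ : Module A M' := Module.compHom M' (algebraMap A S)
  let _ : Module Λ M := Module.compHom M ((algebraMap A S).comp (algebraMap Λ A))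
  let _ : Module Λ M' := Module.compHom M' ((algebraMap A S).comp (algebraMap Λ A))
  have : IsScalarTower A S M := ⟨fun a b x => by
    change (a • b) • x = (algebraMap A S a) • (b • x)
    rw [smul_smul, Algebra.smul_def]⟩
  have : IsScalarTower A S M' := ⟨fun a b x => by
    change (a • b) • x = (algebraMap A S a) • (b • x)
    rw [smul_smul, Algebra.smul_def]⟩
  have : IsScalarTower Λ A M := ⟨fun a b x => by
    change (algebraMap A S (a • b)) • x = (algebraMap A S (algebraMap Λ A a)) •
      ((algebraMap A S b) • x)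
    rw [smul_smul, ← map_mul, Algebra.smul_def]⟩
  have : IsScalarTower Λ A M' := ⟨fun a b x => by
    change (algebraMap A S (a • b)) • x = (algebraMap A S (algebraMap Λ A a)) •
      ((algebraMap A S b) • x)
    rw [smul_smul, ← map_mul, Algebra.smul_def]⟩
  rw [LinearMap.lTensor_inj_iff_rTensor_inj]
  refine rTensor_baseChange_injective (EA ψ A C N) f ?_
  refine rTensor_baseChange_injective (BN ψ C N) (f.restrictScalars A) ?_
  refine hBN ((f.restrictScalars A).restrictScalars Λ) hf fun m => ?_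
  change ((algebraMap A S) (algebraMap Λ A ((p : Λ) ^ N))) • m = 0
  rw [map_pow, map_pow, map_natCast, map_natCast, hM' m]

end M13

end Vale.Agent.P202.Mix
end

section

/-!
P202-MIX, TASK HON-9, auxiliary part: cokernels of products, and the limit inequality with the
three inputs as hypotheses.
-/

namespace Vale.Agent.P202.Mix

open Vale.Agent.P202.CharP
open scoped ENNReal Topology

universe u

section GHFinite

variable {R : Type u} [CommRing R] (L : AddLen R) {M N : Type u} [AddCommGroup M] [Module R M]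
  [AddCommGroup N] [Module R N]

theorem gh_len_le_inj (f : M →ₗ[R] N) (hf : Function.Injective f) : L.len M ≤ L.len N := by
  have h1 := len_congr L (LinearEquiv.ofInjective f hf)
  rw [h1, len_sub_quot L (LinearMap.range f)]
  exact le_self_add

theorem gh_len_le_surj (f : M →ₗ[R] N) (hf : Function.Surjective f) : L.len N ≤ L.len M := by
  have h1 := len_congr L (f.quotKerEquivOfSurjective hf)
  rw [← h1, len_sub_quot L (LinearMap.ker f)]
  exact le_add_self

theorem gh_len_quot_range (g : M →ₗ[R] M) (hM : L.len M ≠ ⊤) :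
    L.len (M ⧸ LinearMap.range g) = L.len ↥(LinearMap.ker g) := by
  have h1 := len_sub_quot L (LinearMap.ker g)
  have h2 := len_sub_quot L (LinearMap.range g)
  have h3 := len_congr L g.quotKerEquivRange
  rw [h3] at h1
  have h4 : L.len ↥(LinearMap.range g) ≠ ⊤ := by
    intro h
    rw [h, top_add] at h2
    exact hM h2
  have h5 : L.len ↥(LinearMap.range g) + L.len (M ⧸ LinearMap.range g) =
      L.len ↥(LinearMap.range g) + L.len ↥(LinearMap.ker g) := by
    rw [← h2, h1, add_comm]
  exact (ENNReal.add_right_inj h4).mp h5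

/-- if `a Y ⊆ X`, `Y ⊆ Q^m`, the length of `Y / (X ∩ Y)` is at most `m` times that of `Q / a`. -/
theorem gh_coker_le {α β : Type} [Fintype α] [Fintype β] {Q : Type u} [AddCommGroup Q]
    [Module R Q] (hQ : L.len Q ≠ ⊤) (a : R) (X Y : Submodule R (α → β → Q))
    (h : ∀ y ∈ Y, a • y ∈ X) :
    L.rl X Y ≤ (Fintype.card α * Fintype.card β : ℕ) *
      L.len (Q ⧸ LinearMap.range (a • (LinearMap.id : Q →ₗ[R] Q))) := by
  have hfun : L.len (α → β → Q) = Fintype.card α * (Fintype.card β * L.len Q) := by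
    rw [len_pi L α, len_pi L β]
  have hfin : L.len (α → β → Q) ≠ ⊤ := by
    rw [hfun]
    exact ENNReal.mul_ne_top (ENNReal.natCast_ne_top _)
      (ENNReal.mul_ne_top (ENNReal.natCast_ne_top _) hQ)
  have hY : L.len ↥Y ≠ ⊤ :=
    ne_top_of_le_ne_top hfin (gh_len_le_inj L Y.subtype Y.injective_subtype)
  let g : ↥Y →ₗ[R] ↥Y := a • LinearMap.id
  have s1 : L.rl X Y ≤ L.len (↥Y ⧸ LinearMap.range g) := by
    have hle : LinearMap.range g ≤ X.submoduleOf Y := by
      rintro _ ⟨y, rfl⟩
      exact h y.1 y.2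
    exact gh_len_le_surj L (Submodule.factor hle) (Submodule.factor_surjective hle)
  rw [gh_len_quot_range L g hY] at s1
  refine s1.trans ?_
  rw [gh_len_quot_range L _ hQ]
  have s2 : L.len ↥(LinearMap.ker g) ≤
      L.len (α → β → ↥(LinearMap.ker (a • (LinearMap.id : Q →ₗ[R] Q)))) := by
    let F : ↥(LinearMap.ker g) →ₗ[R] (α → β → ↥(LinearMap.ker (a • (LinearMap.id : Q →ₗ[R] Q)))) :=
      { toFun := fun y i j => ⟨y.1.1 i j, by
          have h1 : a • y.1 = 0 := y.2
          have h2 : a • y.1.1 = 0 := congrArg Subtype.val h1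
          have h3 : (a • y.1.1) i j = 0 := by rw [h2]; rfl
          exact h3⟩
        map_add' := fun _ _ => rfl
        map_smul' := fun _ _ => rfl }
    refine gh_len_le_inj L F ?_
    intro y y' hyy
    apply Subtype.ext
    apply Subtype.ext
    funext i j
    exact congrArg Subtype.val (congrFun (congrFun hyy i) j)
  refine s2.trans (le_of_eq ?_)
  rw [len_pi L α, len_pi L β]
  push_cast
  ring

end GHFinite

section GHProd

variable {n : ℕ}

theorem gh_mem_span_range {R : Type u} [CommRing R] {M : Type u} [AddCommGroup M] [Module R M]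
    (y : Fin n → R) (m : M) :
    m ∈ Ideal.span (Set.range y) • (⊤ : Submodule R M) ↔ ∃ c : Fin n → M, m = ∑ l, y l • c l := by
  constructor
  · intro hm
    refine Submodule.smul_induction_on hm ?_ ?_
    · intro a ha x _
      obtain ⟨c, hc⟩ := (Ideal.mem_span_range_iff_exists_fun).mp ha
      refine ⟨fun l => c l • x, ?_⟩
      rw [← hc, Finset.sum_smul]
      refine Finset.sum_congr rfl fun l _ => ?_
      rw [mul_comm, mul_smul]
    · rintro x x' ⟨c, rfl⟩ ⟨c', rfl⟩
      refine ⟨fun l => c l + c' l, ?_⟩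
      rw [← Finset.sum_add_distrib]
      exact Finset.sum_congr rfl fun l _ => (smul_add _ _ _).symm
  · rintro ⟨c, rfl⟩
    exact Submodule.sum_mem _ fun l _ =>
      Submodule.smul_mem_smul (Ideal.subset_span ⟨l, rfl⟩) trivial

variable (R : ℕ → Type u) [∀ e, CommRing (R e)] (Q : ℕ → Type u) [∀ e, AddCommGroup (Q e)]
  [∀ e, Module (R e) (Q e)] (z : ∀ e, Fin n → R e)

/-- the evaluation of a Koszul chain at `e`. -/
def ghev {α β : Type} (e : ℕ) (v : α → β → ∀ e, Q e) : α → β → Q e := fun J a => v J a e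

theorem ghev_T (W : MRep n) (l : Fin n) (f : W.ι → ∀ e, Q e) (e : ℕ) (a : W.ι) :
    W.T (∀ e, Q e) (fun l e => z e l) l f a e = W.T (Q e) (z e) l (fun b => f b e) a := by
  unfold MRep.T
  rw [LinearMap.sub_apply, LinearMap.sub_apply, Pi.sub_apply, Pi.sub_apply, Pi.sub_apply]
  congr 1
  change (∑ b, W.X l a b • f b) e = ∑ b, W.X l a b • f b e
  rw [Finset.sum_apply]
  rfl

theorem ghev_kz (W : MRep n) (v : Finset (Fin n) → W.ι → ∀ e, Q e) (e : ℕ) :
    ghev Q e (kz (W.T (∀ e, Q e) (fun l e => z e l)) v) =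
      kz (W.T (Q e) (z e)) (ghev Q e v) := by
  funext J a
  change (∑ l ∈ Jᶜ, ksg l J • W.T (∀ e, Q e) (fun l e => z e l) l (v (insert l J))) a e =
    (∑ l ∈ Jᶜ, ksg l J • W.T (Q e) (z e) l (fun b => v (insert l J) b e)) a
  rw [Finset.sum_apply, Finset.sum_apply, Finset.sum_apply]
  refine Finset.sum_congr rfl fun l _ => ?_
  rw [Pi.smul_apply, Pi.smul_apply, Pi.smul_apply, ghev_T]

omit [∀ e, AddCommGroup (Q e)] in
theorem ghev_inj {α β : Type} {v v' : α → β → ∀ e, Q e} (h : ∀ e, ghev Q e v = ghev Q e v') :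
    v = v' := by
  funext J a e
  exact congrFun (congrFun (h e) J) a

theorem ghev_mem_kgr (W : MRep n) (i : ℤ) (v : Finset (Fin n) → W.ι → ∀ e, Q e) :
    v ∈ kgr (∀ e, R e) (W.ι → ∀ e, Q e) n i ↔
      ∀ e, ghev Q e v ∈ kgr (R e) (W.ι → Q e) n i := by
  constructor
  · intro h e J hJ
    refine h J fun h0 => hJ ?_
    funext a
    change v J a e = 0
    rw [h0]
    rfl
  · intro h J hJ
    by_contra hne
    apply hJ
    funext a e
    by_contra h1
    exact hne (h e J fun h0 => h1 (congrFun h0 a))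

theorem ghev_mem_kcyc (W : MRep n) (i : ℤ) (v : Finset (Fin n) → W.ι → ∀ e, Q e) :
    v ∈ kcyc (W.T (∀ e, Q e) (fun l e => z e l)) i ↔
      ∀ e, ghev Q e v ∈ kcyc (W.T (Q e) (z e)) i := by
  unfold kcyc
  rw [Submodule.mem_inf, ghev_mem_kgr]
  constructor
  · rintro ⟨h1, h2⟩ e
    refine ⟨h1 e, ?_⟩
    rw [SetLike.mem_coe, LinearMap.mem_ker, ← ghev_kz, LinearMap.mem_ker.mp h2]
    rfl
  · intro h
    refine ⟨fun e => (h e).1, ?_⟩
    rw [LinearMap.mem_ker]
    refine ghev_inj Q fun e => ?_
    rw [ghev_kz]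
    exact LinearMap.mem_ker.mp (h e).2

theorem ghev_kmap (W W' : MRep n) (P : Matrix W'.ι W.ι ℤ)
    (v : Finset (Fin n) → W.ι → ∀ e, Q e) (e : ℕ) :
    ghev Q e (kmap n (za P (∀ e, R e) (∀ e, Q e)) v) = kmap n (za P (R e) (Q e)) (ghev Q e v) := by
  funext J a
  change (∑ b, P a b • v J b) e = ∑ b, P a b • v J b e
  rw [Finset.sum_apply]
  rfl

theorem ghev_mem_map (W W' : MRep n) (P : Matrix W'.ι W.ι ℤ) (i : ℤ)
    (v : Finset (Fin n) → W'.ι → ∀ e, Q e) :
    v ∈ (kcyc (W.T (∀ e, Q e) (fun l e => z e l)) i).map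
        (kmap n (za P (∀ e, R e) (∀ e, Q e))) ↔
      ∀ e, ghev Q e v ∈ (kcyc (W.T (Q e) (z e)) i).map (kmap n (za P (R e) (Q e))) := by
  constructor
  · rintro ⟨u, hu, rfl⟩ e
    rw [ghev_kmap]
    exact ⟨_, (ghev_mem_kcyc R Q z W i u).mp hu e, rfl⟩
  · intro h
    choose u hu hu' using h
    refine ⟨fun J a e => u e J a, ?_, ?_⟩
    · refine (ghev_mem_kcyc R Q z W i _).mpr fun e => ?_
      exact hu e
    · refine ghev_inj Q fun e => ?_
      rw [ghev_kmap]
      exact hu' e

/-- relative length on a product. -/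
theorem gh_rl_prod (LU : AddLen (∀ e, R e)) {M : Type u} [AddCommGroup M]
    [Module (∀ e, R e) M] (X Y : Submodule (∀ e, R e) M) (M' : ℕ → Type u)
    [∀ e, AddCommGroup (M' e)] [∀ e, Module (R e) (M' e)]
    (Xe Ye : ∀ e, Submodule (R e) (M' e)) (ev : ∀ e, M → M' e)
    (hadd : ∀ e x y, ev e (x + y) = ev e x + ev e y)
    (hsmul : ∀ e (c : ∀ e, R e) x, ev e (c • x) = c e • ev e x)
    (hsurj : ∀ t : ∀ e, M' e, ∃ y, ∀ e, ev e y = t e)
    (hX : ∀ y, y ∈ X ↔ ∀ e, ev e y ∈ Xe e) (hY : ∀ y, y ∈ Y ↔ ∀ e, ev e y ∈ Ye e) :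
    LU.rl X Y = LU.len (∀ e, ↥(Ye e) ⧸ (Xe e).submoduleOf (Ye e)) := by
  let F : ↥Y →ₗ[∀ e, R e] (∀ e, ↥(Ye e) ⧸ (Xe e).submoduleOf (Ye e)) :=
    { toFun := fun y e => Submodule.Quotient.mk ⟨ev e y.1, (hY y.1).mp y.2 e⟩
      map_add' := fun x y => by
        funext e
        have h : (⟨ev e (x + y).1, (hY (x + y).1).mp (x + y).2 e⟩ : ↥(Ye e)) =
            ⟨ev e x.1, (hY x.1).mp x.2 e⟩ + ⟨ev e y.1, (hY y.1).mp y.2 e⟩ :=
          Subtype.ext (hadd e _ _)
        exact congrArg (Submodule.Quotient.mk (p := (Xe e).submoduleOf (Ye e))) h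
      map_smul' := fun c y => by
        funext e
        have h : (⟨ev e (c • y).1, (hY (c • y).1).mp (c • y).2 e⟩ : ↥(Ye e)) =
            c e • ⟨ev e y.1, (hY y.1).mp y.2 e⟩ :=
          Subtype.ext (hsmul e c _)
        exact congrArg (Submodule.Quotient.mk (p := (Xe e).submoduleOf (Ye e))) h }
  refine rl_eq_len_aux LU F ?_ ?_
  · intro y
    choose t ht using fun e => Submodule.mkQ_surjective _ (y e)
    obtain ⟨y0, hy0⟩ := hsurj fun e => (t e).1
    refine ⟨⟨y0, (hY y0).mpr fun e => by rw [hy0]; exact (t e).2⟩, ?_⟩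
    funext e
    rw [← ht e]
    have h : (⟨ev e y0, (hY y0).mp ((hY y0).mpr fun e => by rw [hy0]; exact (t e).2) e⟩ :
        ↥(Ye e)) = t e := Subtype.ext (hy0 e)
    exact congrArg (Submodule.Quotient.mk (p := (Xe e).submoduleOf (Ye e))) h
  · ext y
    rw [LinearMap.mem_ker]
    have h2 : y ∈ X.submoduleOf Y ↔ ∀ e, ev e y.1 ∈ Xe e := hX y.1
    rw [h2]
    constructor
    · intro h e
      have h3 := congrFun h e
      exact (Submodule.Quotient.mk_eq_zero ((Xe e).submoduleOf (Ye e))).mp h3
    · intro h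
      funext e
      exact (Submodule.Quotient.mk_eq_zero ((Xe e).submoduleOf (Ye e))).mpr (h e)

/-- the cokernel on the product is the product of the cokernels. -/
theorem gh_coker (LU : AddLen (∀ e, R e)) (W W' : MRep n) (f : W.Surj W') (i : ℤ) :
    ∃ (C : ℕ → Type u) (_ : ∀ e, AddCommGroup (C e)) (_ : ∀ e, Module (R e) (C e)),
      cokerCyc LU (∀ e, Q e) (fun l e => z e l) f i = LU.len (∀ e, C e) ∧
      ∀ e (L : AddLen (R e)), L.len (C e) = cokerCyc L (Q e) (z e) f i := by
  refine ⟨fun e => ↥(kcyc (W'.T (Q e) (z e)) i) ⧸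
        ((kcyc (W.T (Q e) (z e)) i).map (kmap n (za f.P (R e) (Q e)))).submoduleOf
          (kcyc (W'.T (Q e) (z e)) i), fun e => inferInstance, fun e => inferInstance, ?_, ?_⟩
  · exact gh_rl_prod R LU _ _ (fun e => Finset (Fin n) → W'.ι → Q e)
      (fun e => (kcyc (W.T (Q e) (z e)) i).map (kmap n (za f.P (R e) (Q e))))
      (fun e => kcyc (W'.T (Q e) (z e)) i) (fun e v => ghev Q e v) (fun _ _ _ => rfl)
      (fun _ _ _ => rfl) (fun t => ⟨fun J a e => t e J a, fun _ => rfl⟩)
      (ghev_mem_map R Q z W W' f.P i) (ghev_mem_kcyc R Q z W' i)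
  · intro e L
    rfl

/-- the quotient by the sequence on the product is the product of the quotients. -/
theorem gh_quot (LU : AddLen (∀ e, R e)) :
    LU.len ((∀ e, Q e) ⧸ (Ideal.span (Set.range (fun (l : Fin n) (e : ℕ) => z e l)) •
        (⊤ : Submodule (∀ e, R e) (∀ e, Q e)))) =
      LU.len (∀ e, Q e ⧸ (Ideal.span (Set.range (z e)) • (⊤ : Submodule (R e) (Q e)))) := by
  let F : (∀ e, Q e) →ₗ[∀ e, R e]
      (∀ e, Q e ⧸ (Ideal.span (Set.range (z e)) • (⊤ : Submodule (R e) (Q e)))) :=
    { toFun := fun y e => Submodule.Quotient.mk (y e)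
      map_add' := fun _ _ => rfl
      map_smul' := fun _ _ => rfl }
  have hF : Function.Surjective F := by
    intro y
    choose t ht using fun e => Submodule.mkQ_surjective _ (y e)
    exact ⟨t, funext ht⟩
  have hk : LinearMap.ker F = Ideal.span (Set.range (fun (l : Fin n) (e : ℕ) => z e l)) •
      (⊤ : Submodule (∀ e, R e) (∀ e, Q e)) := by
    ext y
    rw [LinearMap.mem_ker, gh_mem_span_range]
    constructor
    · intro h
      have h1 : ∀ e, ∃ c : Fin n → Q e, y e = ∑ l, z e l • c l := fun e =>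
        (gh_mem_span_range (z e) (y e)).mp ((Submodule.Quotient.mk_eq_zero _).mp (congrFun h e))
      choose c hc using h1
      refine ⟨fun l e => c e l, ?_⟩
      funext e
      rw [Finset.sum_apply, hc e]
      rfl
    · rintro ⟨c, hc⟩
      funext e
      refine (Submodule.Quotient.mk_eq_zero _).mpr ?_
      rw [gh_mem_span_range]
      refine ⟨fun l => c l e, ?_⟩
      rw [hc, Finset.sum_apply]
      rfl
  rw [← hk]
  exact len_congr LU (F.quotKerEquivOfSurjective hF)

/-- nilpotency on the product. -/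
theorem gh_nil (N : ℕ)
    (h : ∀ e, Ideal.span (Set.range (z e)) ^ N • (⊤ : Submodule (R e) (Q e)) = ⊥) :
    Ideal.span (Set.range (fun (l : Fin n) (e : ℕ) => z e l)) ^ N •
      (⊤ : Submodule (∀ e, R e) (∀ e, Q e)) = ⊥ := by
  rw [eq_bot_iff, Submodule.smul_le]
  intro a ha q _
  rw [Submodule.mem_bot]
  funext e
  have h1 : (Pi.evalRingHom R e) a ∈ Ideal.span (Set.range (z e)) ^ N := by
    have h2 := Ideal.mem_map_of_mem (Pi.evalRingHom R e) ha
    rw [Ideal.map_pow, Ideal.map_span, ← Set.range_comp] at h2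
    exact h2
  have h3 : a e • q e ∈ Ideal.span (Set.range (z e)) ^ N • (⊤ : Submodule (R e) (Q e)) :=
    Submodule.smul_mem_smul h1 trivial
  rw [h e, Submodule.mem_bot] at h3
  exact h3

end GHProd

/-- the limit inequality, with the three inputs (cycle lifting, ultralimits, core inequality) as
hypotheses. -/
theorem geo_hon_of (R : ℕ → Type u) [∀ e, CommRing (R e)] (Q : ℕ → Type u)
    [∀ e, AddCommGroup (Q e)] [∀ e, Module (R e) (Q e)] {r : ℕ} (h : ∀ e, R e)
    (z : ∀ e, Fin (r + 1) → R e) (w : ℕ)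
    (hnil : ∃ N : ℕ, ∀ e, Ideal.span (Set.range (z e)) ^ N • (⊤ : Submodule (R e) (Q e)) = ⊥)
    (L : ∀ e, AddLen (R e)) (ρ : ℕ → ℝ≥0∞) (hρ0 : ∀ e, ρ e ≠ 0) (hρ : ∀ e, ρ e ≠ ⊤)
    (hfin : ∃ C : ℝ≥0∞, C ≠ ⊤ ∧ ∀ e, (L e).len (Q e) ≤ C * ρ e)
    (hsmall : ∀ c : ℕ, Filter.Tendsto (fun e => (L e).len
      (Q e ⧸ LinearMap.range (h e ^ c • (LinearMap.id : Q e →ₗ[R e] Q e))) / ρ e)
      Filter.atTop (𝓝 0))
    (ε : ℝ≥0∞) (hε : ε ≠ 0)
    (hhon : ∀ (W W' : MRep (r + 1)), W.IsNil w → W'.IsNil w → ∀ (f : W.Surj W') (i : ℤ),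
      ∃ c e₀ : ℕ, ∀ e, e₀ ≤ e → ∀ ζ ∈ kcyc (W'.T (Q e) (z e)) i,
        h e ^ c • ζ ∈ (kcyc (W.T (Q e) (z e)) i).map (kmap (r + 1) (za f.P (R e) (Q e))))
    (hult : ∀ U : Ultrafilter ℕ, ∃ LU : AddLen (∀ e, R e), ∀ (X : ℕ → Type u)
      [∀ e, AddCommGroup (X e)] [∀ e, Module (R e) (X e)],
      Filter.Tendsto (fun e => (L e).len (X e) / ρ e) U (𝓝 (LU.len (∀ e, X e))))
    (hcore : ∀ LU : AddLen (∀ e, R e), LU.len (∀ e, Q e) ≠ ⊤ →
      ∀ x : Fin (r + 1) → (∀ e, R e),
      (∃ N : ℕ, Ideal.span (Set.range x) ^ N • (⊤ : Submodule (∀ e, R e) (∀ e, Q e)) = ⊥) →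
      CLnull LU (r + 1) w (∀ e, Q e) x →
      (w : ℝ≥0∞) ^ (r + 1) * LU.len ((∀ e, Q e) ⧸ (Ideal.span (Set.range x) •
        (⊤ : Submodule (∀ e, R e) (∀ e, Q e)))) ≤ LU.len (∀ e, Q e)) :
    ∀ᶠ e in Filter.atTop, (w : ℝ≥0∞) ^ (r + 1) * (L e).len
        (Q e ⧸ (Ideal.span (Set.range (z e)) • (⊤ : Submodule (R e) (Q e)))) ≤
      (L e).len (Q e) + ε * ρ e := by
  by_contra hcon
  rw [Filter.not_eventually] at hcon
  obtain ⟨C, hC, hfinC⟩ := hfin
  -- an ultrafilter on the bad set
  have hne := Filter.frequently_iff_neBot.mp hcon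
  let U : Ultrafilter ℕ := @Ultrafilter.of ℕ _ hne
  have hU : (U : Filter ℕ) ≤ Filter.atTop ⊓ Filter.principal {x | ¬ ((w : ℝ≥0∞) ^ (r + 1) *
      (L x).len (Q x ⧸ (Ideal.span (Set.range (z x)) • (⊤ : Submodule (R x) (Q x)))) ≤
      (L x).len (Q x) + ε * ρ x)} := @Ultrafilter.of_le ℕ _ hne
  have hU1 : (U : Filter ℕ) ≤ Filter.atTop := hU.trans inf_le_left
  have hU2 : ∀ᶠ x in (U : Filter ℕ), ¬ ((w : ℝ≥0∞) ^ (r + 1) *
      (L x).len (Q x ⧸ (Ideal.span (Set.range (z x)) • (⊤ : Submodule (R x) (Q x)))) ≤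
      (L x).len (Q x) + ε * ρ x) :=
    (hU.trans inf_le_right) (Filter.mem_principal_self _)
  obtain ⟨LU, hLU⟩ := hult U
  have hQfin : ∀ e, (L e).len (Q e) ≠ ⊤ := fun e =>
    ne_top_of_le_ne_top (ENNReal.mul_ne_top hC (hρ e)) (hfinC e)
  have hb := hLU Q
  have hbC : LU.len (∀ e, Q e) ≤ C := by
    refine le_of_tendsto hb (Filter.Eventually.of_forall fun e => ?_)
    rw [ENNReal.div_le_iff (hρ0 e) (hρ e)]
    exact hfinC e
  have hbtop : LU.len (∀ e, Q e) ≠ ⊤ := ne_top_of_le_ne_top hC hbC
  obtain ⟨N, hN⟩ := hnil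
  have hCL : CLnull LU (r + 1) w (∀ e, Q e) (fun l e => z e l) := by
    intro W W' hW hW' f i
    obtain ⟨Ck, i1, i2, hCk, hCk'⟩ := gh_coker R Q z LU W W' f i
    rw [hCk]
    have h1 := hLU Ck
    obtain ⟨c, e₀, hc⟩ := hhon W W' hW hW' f i
    set m : ℕ := Fintype.card (Finset (Fin (r + 1))) * Fintype.card W'.ι with hm
    have h2 : Filter.Tendsto (fun e => (m : ℝ≥0∞) * ((L e).len
      (Q e ⧸ LinearMap.range (h e ^ c • (LinearMap.id : Q e →ₗ[R e] Q e))) / ρ e))
      Filter.atTop (𝓝 0) := by
      have := ENNReal.Tendsto.const_mul (a := (m : ℝ≥0∞)) (hsmall c)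
        (Or.inr (ENNReal.natCast_ne_top m))
      rwa [mul_zero] at this
    have h3 : Filter.Tendsto (fun e => (L e).len (Ck e) / ρ e) Filter.atTop (𝓝 0) := by
      refine tendsto_of_tendsto_of_tendsto_of_le_of_le' tendsto_const_nhds h2
        (Filter.Eventually.of_forall fun e => zero_le) ?_
      filter_upwards [Filter.eventually_ge_atTop e₀] with e he
      rw [← mul_div_assoc]
      refine ENNReal.div_le_div_right ?_ _
      rw [hCk' e (L e)]
      exact gh_coker_le (L e) (hQfin e) (h e ^ c) _ _ (hc e he)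
    exact tendsto_nhds_unique h1 (h3.mono_left hU1)
  have hmain := hcore LU hbtop (fun l e => z e l) ⟨N, gh_nil R Q z N hN⟩ hCL
  rw [gh_quot R Q z LU] at hmain
  have ha := hLU (fun e => Q e ⧸ (Ideal.span (Set.range (z e)) • (⊤ : Submodule (R e) (Q e))))
  have ha' := ENNReal.Tendsto.const_mul (a := (w : ℝ≥0∞) ^ (r + 1)) ha
    (Or.inr (ENNReal.pow_ne_top (ENNReal.natCast_ne_top w)))
  have hb' : Filter.Tendsto (fun e => (L e).len (Q e) / ρ e + ε) U
      (𝓝 (LU.len (∀ e, Q e) + ε)) := hb.add_const ε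
  have hle := le_of_tendsto_of_tendsto hb' ha' (by
    filter_upwards [hU2] with e he
    have he' := (not_le.mp he).le
    have h4 : (L e).len (Q e) / ρ e + ε = ((L e).len (Q e) + ε * ρ e) / ρ e := by
      rw [ENNReal.add_div, mul_div_assoc, ENNReal.div_self (hρ0 e) (hρ e), mul_one]
    rw [h4, ← mul_div_assoc]
    exact ENNReal.div_le_div_right he' _)
  have h5 := hle.trans hmain
  have h6 : LU.len (∀ e, Q e) + ε ≤ LU.len (∀ e, Q e) + 0 := by rw [add_zero]; exact h5
  have h7 := (ENNReal.add_le_add_iff_left hbtop).mp h6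
  exact hε (le_antisymm h7 zero_le)

end Vale.Agent.P202.Mix
end

section

/-!
P202-CHARP, task S1: the staircase. Instead of a minimal model of the complex we use that, modulo
the maximal ideal, all inclusions of submodules of `V` split.
-/

namespace Vale.Agent.P202.CharP

open Submodule TensorProduct IsLocalRing

section Compl

variable {A : Type*} [CommRing A] {V : Type*} [AddCommGroup V] [Module A V]

end Compl

section Elim

variable {S : Type*} [CommRing S] {ι : Type*} [Fintype ι] {M : Type*} [AddCommGroup M]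
  [Module S M]

end Elim

section Chain

variable {A : Type*} [CommRing A] {V : Type*} [AddCommGroup V] [Module A V]

variable (S : Type*) [CommRing S] [Algebra A S] [Module.Flat A S]

end Chain

section Climb

variable {A : Type*} [CommRing A] [IsLocalRing A] {V : Type*} [AddCommGroup V] [Module A V]
  {S : Type*} [CommRing S] [Algebra A S] [Module.Flat A S] {ι : Type*} [Fintype ι]

end Climb

section Main

variable {A : Type*} [CommRing A] {V : Type*} [AddCommGroup V] [Module A V]
  (S : Type*) [CommRing S] [Algebra A S] {ι : Type*} [Fintype ι]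
  [IsLocalRing A] [Module.Flat A S]

end Main

end Vale.Agent.P202.CharP
end

section

/-!
P202-G3-C1: acyclicity up to a shift of the level, column by column, elementwise.
-/

namespace Vale.Agent.P202.CharP.Gen2

open Submodule TensorProduct Gen

section GA

variable {S : Type*} [CommRing S] {𝕋 : Type*} [AddCommGroup 𝕋] [Module S 𝕋]

/-- TASK G3-C1: acyclicity up to a shift of the level, column by column, relative to a bottom
family `X`, elementwise. -/
theorem gacyc_el (D : 𝕋 →ₗ[S] 𝕋) (hD : ∀ x, D (D x) = 0)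
    (X : ℤ → Submodule S 𝕋) (hX : Stab D X) (U : ℕ → ℤ → Submodule S 𝕋)
    (hU : ∀ k, Stab D (U k)) (mono : ∀ k δ, U k δ ≤ U (k + 1) δ) (hXU : ∀ δ, X δ ≤ U 0 δ)
    (r1 : ℕ) (Fil : ℕ → Submodule S 𝕋) (h0 : Fil 0 = ⊤) (h1 : ∀ k δ, U k δ ⊓ Fil r1 ≤ X δ)
    (hF : ∀ p, ∀ x ∈ Fil p, D x ∈ Fil p)
    (H : ∀ p, p < r1 → ∀ k δ, ∀ x ∈ U k δ, x ∈ Fil p → D x ∈ X (δ - 1) →
      ∃ w ∈ U (k + 1) (δ + 1), x - D w ∈ Fil (p + 1) ⊔ X δ) (δ : ℤ) :
    zz D (U 0) X δ ≤ bb D (U r1) X δ := by
  clear hF
  have mono0 : ∀ k δ, U 0 δ ≤ U k δ := by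
    intro k δ
    induction k with
    | zero => exact le_rfl
    | succ k ih => exact ih.trans (mono k δ)
  intro z hz
  obtain ⟨hz0, hz1⟩ := Submodule.mem_inf.1 hz
  have hDz : D z ∈ X (δ - 1) := hz1
  have key : ∀ p, p ≤ r1 → ∃ w ∈ U p (δ + 1), ∃ f ∈ U p δ, f ∈ Fil p ∧
      ∃ x ∈ X δ, z - D w = f + x := by
    intro p
    induction p with
    | zero =>
      intro _
      refine ⟨0, Submodule.zero_mem _, z, hz0, ?_, 0, Submodule.zero_mem _, ?_⟩
      · rw [h0]
        exact Submodule.mem_top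
      · rw [map_zero, sub_zero, add_zero]
    | succ p ih =>
      intro hp
      obtain ⟨w, hw, f, hfU, hfF, x, hx, e⟩ := ih (by omega)
      have hDf : D f ∈ X (δ - 1) := by
        have e1 : D f = D z - D x := by
          have e2 := congrArg D e
          rw [map_sub, hD, sub_zero, map_add] at e2
          rw [e2]
          abel
        rw [e1]
        exact Submodule.sub_mem _ hDz (hX δ x hx)
      obtain ⟨v, hv, hfv⟩ := H p (by omega) p δ f hfU hfF hDf
      have hw' : w + v ∈ U (p + 1) (δ + 1) :=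
        Submodule.add_mem _ (mono p (δ + 1) hw) hv
      obtain ⟨f', hf', x', hx', e'⟩ := Submodule.mem_sup.1 hfv
      have hx'' : x' + x ∈ X δ := Submodule.add_mem _ hx' hx
      have e3 : z - D (w + v) = f' + (x' + x) := by
        have e4 : z - D (w + v) = (z - D w) - D v := by
          rw [map_add]
          abel
        have e5 : f' + (x' + x) = (f' + x') + x := by abel
        rw [e4, e, e5, e']
        abel
      refine ⟨w + v, hw', f', ?_, hf', x' + x, hx'', e3⟩
      have e6 : f' = (z - D (w + v)) - (x' + x) := by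
        rw [e3]
        abel
      rw [e6]
      refine Submodule.sub_mem _ (Submodule.sub_mem _ (mono0 _ _ hz0) ?_)
        (mono0 _ _ (hXU _ hx''))
      have h3 := hU (p + 1) (δ + 1) _ hw'
      rwa [add_sub_cancel_right] at h3
  obtain ⟨w, hw, f, hfU, hfF, x, hx, e⟩ := key r1 le_rfl
  have hfX : f ∈ X δ := h1 r1 δ (Submodule.mem_inf.2 ⟨hfU, hfF⟩)
  have e1 : z = D w + (f + x) := by
    rw [← e]
    abel
  rw [e1]
  exact Submodule.add_mem _ (Submodule.mem_sup_left (Submodule.mem_map_of_mem hw))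
    (Submodule.mem_sup_right (Submodule.add_mem _ hfX hx))

end GA

end Vale.Agent.P202.CharP.Gen2
end
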