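import Vale.Agent.P202.MathlibUsed
import Vale.Agent.P202.Bdl.B4
import Vale.Agent.P202.Bdl.B2
import Vale.Agent.P202.Bdl.B1
import Vale.Agent.P202.Bdl.B3
attribute [-instance] DenselyNormedField.toNontriviallyNormedField DenselyNormedField.toNormedField NontriviallyNormedField.toNormedField RCLike.toDenselyNormedField NormedField.toField NormedField.toNormedDivisionRing NormedDivisionRing.toDivisionRing KleeneAlgebra.toIdemSemiring DivisionRing.toDivisionSemiring SemiRingCat.instSemiringObjForgetRingHomCarrier AddMonCat.addMonoidObj CommSemiRingCat.instCommSemiringObjForgetRingHomCarrier SemimoduleCat.isAddCommMonoid TopologicalSpace.Compacts.instSetLike NormedField.toNormedCommRing NormedCommRing.toNormedRing NormedDivisionRing.toNormedRing NormedCommRing.toSeminormedCommRing SeminormedCommRing.toSeminormedRing NormedRing.toSeminormedRing EuclideanDomain.toCommRing NormedCommRing.toCommRing SeminormedCommRing.toCommRing NormedRing.toRing SeminormedRing.toRing Algebra.Extension.commRing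 Ring.toNonAssocRing instCoeT NonAssocCommRing.toNonAssocCommSemiring CommSemiring.toNonAssocCommSemiring NonAssocCommSemiring.toNonAssocSemiring CommRing.toAddCommGroupWithOne LinearOrderedAddCommGroupWithTop.instLinearOrderedAddCommMonoidWithTop LinearOrderedAddCommGroupWithTop.toAddCommMonoid AddCommGroupWithOne.toAddCommMonoidWithOne NormedCommRing.toNonUnitalNormedCommRing NonUnitalNormedCommRing.toNonUnitalNormedRing NormedRing.toNonUnitalNormedRing NonUnitalNormedCommRing.toNonUnitalSeminormedCommRing SeminormedCommRing.toNonUnitalSeminormedCommRing NonUnitalNormedRing.toNonUnitalSeminormedRing NonUnitalSeminormedCommRing.toNonUnitalSeminormedRing SeminormedRing.toNonUnitalSeminormedRing NonUnitalNormedCommRing.toNonUnitalCommRing NonUnitalSeminormedCommRing.toNonUnitalCommRing NonAssocCommRing.toNonUnitalNonAssocCommRing NonAssocRing.toNonUnitalNonAssocRing NonUnitalCommRing.toNonUnitalRing NonUnitalNormedRing.toNonUnitalRing NonUnitalRing.toNonUnitalNonAssocRing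 NonUnitalSeminormedRing.toNonUnitalRing Ring.toNonUnitalRing NonAssocCommSemiring.toNonUnitalNonAssocCommSemiring NonUnitalNonAssocCommSemiring.toNonUnitalNonAssocSemiring NonUnitalRing.toNonUnitalSemiring AbsoluteValue.funLike AddCommMonoidWithOne.toAddCommMonoid ModuleCat.isModule instCoeTC instCoeTOfCoeDep instCoeTCOfCoe Pi.nonUnitalNonAssocSemiring Filter.instMembership LinearOrderedAddCommGroupWithTop.toSubNegMonoid RingCat.instRingObjForgetRingHomCarrier instCoeHTC instCoeHTCT ContinuousAddMonoidHom.instCoeOutOfAddMonoidHomClassOfContinuousMapClass ContinuousMonoidHom.instCoeOutOfMonoidHomClassOfContinuousMapClass HomeomorphClass.instCoeOutHomeomorph IsometryClass.instCoeOutIsometryEquiv LieRing.toAddCommGroup MulSemiringAction.toDistribMulAction AddGrpCat.str NormedCommGroup.toNormedGroup Std.DTreeMap.Raw.instSingletonSigma NormedCommGroup.toSeminormedCommGroup NormedGroup.toSeminormedGroup SeminormedCommGroup.toSeminormedGroup MonCat.monoidObj SetLike.GradeZero.instCommSemiring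 NormedCommGroup.toCommGroup SeminormedCommGroup.toCommGroup CommGroup.toGroup NormedGroup.toGroup SeminormedGroup.toGroup Pi.instTopForall LinearOrderedCommGroupWithZero.toLinearOrderedCommMonoidWithZero boolToProp SubfieldClass.toNormedField instCoeHTCOfCoeHeadOfCoeOTC Std.DTreeMap.Raw.instInsertSigma CommMonCat.str instDistribSMul LieAlgebra.toModule LinearOrderedCommGroupWithZero.toCommGroupWithZero NonUnitalNonAssocSemiring.toDistribSMul NormedSpace.toModule Semifield.toCommGroupWithZero Pi.seminormedAddCommGroup Pi.preorder CommGroupWithZero.toGroupWithZero DivisionSemiring.toGroupWithZero instRingHomSurjectiveForallEvalRingHom CompleteAtomicBooleanAlgebra.toCompleteBooleanAlgebra SubfieldClass.toField SubfieldClass.toDivisionRing NormedAlgebra.toAlgebra Pi.mulZeroOneClass NonUnitalNormedRing.toNormedAddCommGroup CommGroupWithZero.toCommMonoidWithZero LinearOrderedCommMonoidWithZero.toCommMonoidWithZero SetLike.GradeZero.instSemiring CompleteAtomicBooleanAlgebra.toCompletelyDistribLattice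 GroupWithZero.toMonoidWithZero MonoidWithZero.toSemigroupWithZero SemigroupWithZero.toMulZeroClass instCoeHTCTOfCoeTailOfCoeHTC instCoeOutOfCoeFun instCoeTailIntOfIntCast instCoeTailNatOfNatCast instCoeTailRatOfRatCast DivisionRing.toNNRatCast DivisionRing.toRatCast DivisionSemiring.toNNRatCast LinearMapClass.instCoeToLinearMap NNRatCast.toCoeTail NonUnitalStarRingHomClass.instCoeHeadNonUnitalStarRingHom SemilinearMapClass.instCoeToSemilinearMap StarAlgEquivClass.instCoeHead StarRingEquivClass.instCoeHead Matrix.instIntCastOfZero Matrix.instNatCastOfZero Matrix.SpecialLinearGroup.hasCoeToMatrix OrderAddMonoidHom.instAddMonoidHomClass instSMulZeroClass TwoSidedIdeal.instIsTwoSidedCoeOrderHomIdealAsIdeal CompleteLinearOrder.toConditionallyCompleteLinearOrderBot CompleteBooleanAlgebra.toCompleteDistribLattice CompletelyDistribLattice.toCompleteDistribLattice AbsoluteValue.zeroHomClass AbsoluteValue.mulHomClass CompleteBooleanAlgebra.toCompleteLattice Pi.instSemilatticeSup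 AddGroupWithOne.toIntCast Matrix.instNonAssocRing Matrix.instRing Matrix.nonAssocSemiring ConditionallyCompleteLinearOrderBot.toConditionallyCompleteLinearOrder Matrix.instAddCommGroupWithOne Matrix.instAddCommMonoidWithOne Matrix.instAddGroupWithOne Matrix.instAddMonoidWithOne Torsor.toMulAction GradedMonoid.GradeZero.mulAction CompleteDistribLattice.toCoframe CompleteDistribLattice.toFrame ModuleCat.instAddCommGroupCarrierMkOfSMul' NormedAlgebra.id NormedAddCommGroup.toNormedAddGroup Pi.instMaxForall_mathlib Vector.instHMul CompleteLinearOrder.toCompleteLattice Order.Coframe.toCompleteLattice Order.Frame.toCompleteLattice ValuationClass.toMonoidWithZeroHomClass Pi.nonUnitalSemiring NonUnitalSeminormedRing.toSeminormedAddCommGroup NormedAddCommGroup.toSeminormedAddCommGroup CompleteBooleanAlgebra.toBooleanAlgebra instNonUnitalAlgHomClassOfNonUnitalAlgEquivClass MulOpposite.instMulOne Pi.instOne ChainCompletePartialOrder.instOfCompleteLattice ChainCompletePartialOrder.instOmegaCompletePartialOrder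 ChainCompletePartialOrder.toPartialOrder CompletePartialOrder.toOmegaCompletePartialOrder OmegaCompletePartialOrder.toPartialOrder LinearOrderedCommMonoidWithZero.toIsBotZeroClass CompleteLinearOrder.toLinearOrder ConditionallyCompleteLinearOrder.toLinearOrder LinearOrderedAddCommGroupWithTop.toLinearOrder LinearOrderedCommMonoidWithZero.toLinearOrder Invertible.toNeZero NeZero.of_gt' Nat.AtLeastTwo.toNeZero AddOpposite.instAddZero CategoryTheory.instFinCategoryOfFintypeOfIsThin SetLike.instFintype Unique.fintype CategoryTheory.FinCategory.fintypeObj BooleanAlgebra.toBiheytingAlgebra CompleteDistribLattice.toBiheytingAlgebra CompleteLinearOrder.toBiheytingAlgebra CompletelyDistribLattice.toBiheytingAlgebra Pi.distribSMul' Pi.semigroup AddCommGroupWithOne.toAddCommGroup NormedAddCommGroup.toAddCommGroup NormedAddGroup.toSeminormedAddGroup SeminormedAddCommGroup.toAddCommGroup SeminormedAddCommGroup.toSeminormedAddGroup NormedAddGroup.toAddGroup SeminormedAddGroup.toAddGroup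 Pi.commGroup Pi.group Pi.normedCommGroup Pi.normedGroup Pi.seminormedCommGroup Pi.seminormedGroup instFiniteProp OrderRingHom.instRingHomClass coePNatNat Nat.Primes.coeNat Nat.Primes.coePNat BiheytingAlgebra.toCoheytingAlgebra BiheytingAlgebra.toHeytingAlgebra BooleanAlgebra.toGeneralizedBooleanAlgebra Order.Coframe.toCoheytingAlgebra Order.Frame.toHeytingAlgebra Monoid.End.instMonoidHomClass Nat.instNontrivial Nat.instOne Nat.Prime.one_lt' SubfieldClass.toSubringClass LinearOrderedAddCommGroupWithTop.toSubtractionMonoid instSubsingleton AddCancelCommMonoid.toAddCommMonoid AddCommGroup.toAddCancelCommMonoid ENormedAddCommMonoid.toESeminormedAddCommMonoid ESeminormedAddCommMonoid.toAddCommMonoid NormedAddCommGroup.toENormedAddCommMonoid IsEmpty.instSubsingleton EMetricSpace.toPseudoEMetricSpace MetricSpace.toEMetricSpace MetricSpace.toPseudoMetricSpace NonUnitalNormedRing.toMetricSpace NonUnitalSeminormedRing.toPseudoMetricSpace NormedAddCommGroup.toMetricSpace NormedAddGroup.toMetricSpace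 NormedCommGroup.toMetricSpace NormedDivisionRing.toMetricSpace NormedField.toMetricSpace NormedGroup.toMetricSpace NormedRing.toMetricSpace PseudoEMetricSpace.toUniformSpace PseudoMetricSpace.toPseudoEMetricSpace PseudoMetricSpace.toUniformSpace SeminormedAddCommGroup.toPseudoMetricSpace SeminormedAddGroup.toPseudoMetricSpace SeminormedCommGroup.toPseudoMetricSpace SeminormedGroup.toPseudoMetricSpace SeminormedRing.toPseudoMetricSpace UniformSpace.toTopologicalSpace Valued.toUniformSpace WithIdeal.instTopologicalSpace WithIdeal.instUniformSpace MulSemiringActionSemiHomClass.toDistribMulActionSemiHomClass NonUnitalAlgSemiHomClass.toDistribMulActionSemiHomClass CoheytingAlgebra.toGeneralizedCoheytingAlgebra GeneralizedBooleanAlgebra.toGeneralizedCoheytingAlgebra HeytingAlgebra.toGeneralizedHeytingAlgebra AddCancelCommMonoid.toAddCancelMonoid AddCancelCommMonoid.toAddLeftCancelMonoid AddCancelMonoid.toAddLeftCancelMonoid AddLeftCancelMonoid.toAddMonoid AddRightCancelMonoid.toAddMonoid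 ENormedAddCommMonoid.toENormedAddMonoid ENormedAddMonoid.toESeminormedAddMonoid ESeminormedAddCommMonoid.toESeminormedAddMonoid ESeminormedAddMonoid.toAddMonoid NormedAddGroup.toENormedAddMonoid OrderDual.instDivisionRing OrderDual.instDivisionSemiring MulCharClass.toMonoidHomClass MulDistribMulActionSemiHomClass.toMonoidHomClass Pi.instBotForall instSMulCommClassOfIsScalarTower instConditionallyCompletePartialOrderSup ConditionallyCompletePartialOrder.toConditionallyCompletePartialOrderInf Pi.nonUnitalNonAssocRing OneHom.oneHomClass ENat.instPow Set.instEmptyCollection AlgEquivClass.toAlgHomClass instDistribLatticeOfLinearOrder BooleanAlgebra.toDistribLattice CompleteLattice.toLattice CompleteLattice.toPartialOrder' ConditionallyCompletePartialOrderInf.toPartialOrder DistribLattice.toLattice GeneralizedBooleanAlgebra.toDistribLattice GeneralizedCoheytingAlgebra.toDistribLattice GeneralizedCoheytingAlgebra.toLattice GeneralizedHeytingAlgebra.toDistribLattice GeneralizedHeytingAlgebra.toLattice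 LinearOrder.toLattice Order.Coframe.toDistribLattice Order.Frame.toDistribLattice Fin.completeLinearOrder Pi.mulOneClass Pi.mulZeroClass Pi.normedCommutativeRing Pi.seminormedCommRing Pi.normedRing Pi.seminormedRing FloorSemiring.instCharZero IsStrictOrderedRing.toCharZero NumberField.to_charZero RCLike.charZero_rclike Pi.partialOrder OrderDual.instRightDistribClass instIntCastInt Matrix.SpecialLinearGroup.instCoeInt Pi.smulZeroClass' Pi.instSubtractionCommMonoid Pi.commSemiring Submodule.instIdemCommSemiring CommRing.toGrindCommRing Field.toGrindField Ring.toGrindRing OrderDual.instPow_1 Set.instAddLeftMono Fin.instBiheytingAlgebra AddCommGroup.toGrindIntModule Pi.commSemigroup instMulActionSemiHomClassMulActionHom Pi.instIdemCommSemiringForall Pi.instIdemSemiring Pi.instKleeneAlgebraForall Pi.instMinForall_mathlib Part.ofOptionDecidable Set.instAddRightMono SubringClass.toCommRing SubringClass.toNormedCommRing SubringClass.toSeminormedCommRing SetLike.GradeZero.instCommRing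 ContinuousSemilinearEquivClass.continuousSemilinearMapClass ContinuousSemilinearMapClass.toSemilinearMapClass RingHomClass.toLinearMapClassNNRat RingHomClass.toLinearMapClassRat SemilinearIsometryClass.toContinuousSemilinearMapClass SemilinearIsometryClass.toSemilinearMapClass RCLike.toDecidableEq Pi.instOrderTop instIsDedekindDomainOfIsDomainOfIsDedekindRing CommSemiring.toGrindCommSemiring IsDedekindDomainDvr.isDedekindDomain IsPrincipalIdealRing.isDedekindDomain Semiring.toGrindSemiring Ideal.Quotient.instRingHomSurjectiveQuotientMk MonomialOrder.orderBot SubalgebraClass.normedRing SubalgebraClass.seminormedRing SubringClass.toNormedRing SubringClass.toRing SubringClass.toSeminormedRing SetLike.GradeZero.instRing Field.henselian Field.instIsLocalRing HenselianLocalRing.toIsLocalRing IsDiscreteValuationRing.toIsLocalRing IsRegularLocalRing.instOfIsLocalRingOfIsDomainOfIsPrincipalIdealRing IsRegularLocalRing.toIsLocalRing ValuationRing.isLocalRing MulEquivClass.toMonoidWithZeroHomClass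 MulRingSeminormClass.toMonoidWithZeroHomClass ENormedCommMonoid.toESeminormedCommMonoid NormedCommGroup.toENormedCommMonoid instIsDomain AddCommMonoid.toGrindNatModule DivisionRing.isDomain EuclideanDomain.instIsDomain Field.isDomain IsDedekindDomain.toIsDomain IsDomain.of_isSimpleRing IsStrictOrderedRing.isDomain MulZeroClass.toSMulWithZero Pi.topologicalSpace NonUnitalAlgHomClass.toNonUnitalRingHomClass RingEquivClass.toNonUnitalRingHomClass AlgHomClass.linearMapClass NonUnitalAlgHomClass.instSemilinearMapClassOfNonUnitalAlgSemiHomClassToMonoidHomRingHom SemilinearEquivClass.instSemilinearMapClass decidableEq_of_subsingleton Pi.subNegMonoid Fin.instCoheytingAlgebra Fin.instHeytingAlgebra instInhabitedOfMonad MulZeroClass.negZeroClass Unique.instInhabited HasDistribNeg.toInvolutiveNeg NonUnitalNonAssocRing.toHasDistribNeg LinOrd.str Std.LinearOrderPackage.toLinearPreorderPackage Std.LinearPreorderPackage.toPreorderPackage Pi.commMagma AlgHom.instRingHomCompTripleComp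 MonoidWithZero.toMulActionWithZero of_isDiscreteValuationRing ValuationRing.instOfIsLocalRingOfIsBezout ValuationRing.of_field instMonadLiftT instMonadLiftTOfMonadLift instNonemptyOfInhabited instNontrivialOfCharZero CancelCommMonoid.toCancelMonoid CancelCommMonoid.toCommMonoid CancelCommMonoid.toLeftCancelMonoid CancelMonoid.toLeftCancelMonoid CancelMonoid.toRightCancelMonoid CommGroup.toCancelCommMonoid CommGroup.toCommMonoid CommGroup.toDivisionCommMonoid CommGroupWithZero.toDivisionCommMonoid CommMonoidWithZero.toCommMonoid DivInvMonoid.toMonoid DivInvOneMonoid.toDivInvMonoid DivisionCommMonoid.toCommMonoid DivisionCommMonoid.toDivisionMonoid DivisionMonoid.toDivInvMonoid DivisionMonoid.toDivInvOneMonoid DivisionRing.toDivInvMonoid DivisionRing.toNontrivial ENormedCommMonoid.toENormedMonoid ENormedMonoid.toESeminormedMonoid ESeminormedCommMonoid.toCommMonoid ESeminormedCommMonoid.toESeminormedMonoid ESeminormedMonoid.toMonoid Group.toCancelMonoid Group.toDivInvMonoid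 Group.toDivisionMonoid GroupWithZero.toDivInvMonoid GroupWithZero.toDivisionMonoid IsDomain.toNontrivial IsLocalRing.toNontrivial IsSimpleOrder.toNontrivial LeftCancelMonoid.toMonoid LinearOrderedAddCommGroupWithTop.toNontrivial MonoidWithZero.toMonoid NormedGroup.toENormedMonoid RightCancelMonoid.toMonoid Zero.ofOfNat0 GradedMonoid.GradeZero.commMonoid GradedMonoid.GradeZero.monoid SubalgebraClass.toAlgebra Pi.instSemilatticeInf Pi.addCommMagma Nat.instDvd Finite.of_subsingleton SetLike.instFinite Pi.instSubsingleton SubringClass.toNonAssocCommRing SubsemiringClass.toSemiring Finset.fintype -- iprune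

set_option linter.all false

namespace AFast5a6b4bx8a
@[reducible] noncomputable def a0.{u1} {x1 : Type u1} [x2 : Field x1] {x3 : ℕ} : Pow (Submodule (Vale.Agent.P202.Mix.R0 x1 x3) (Vale.Agent.P202.Mix.R0 x1 x3)) ℕ := inferInstance
@[reducible] def a1.{u1} {x1 : Type u1} [x2 : CommRing x1] : Pow (Submodule x1 x1) ℕ := inferInstance
@[reducible] noncomputable def a2.{u1} {x1 : ℕ} {x2 : Type u1} [x3 : Field x2] : SMulZeroClass (MvPolynomial (Fin (x1 + 1)) x2) (Vale.Agent.P202.CharP.Lam x2 x1) := inferInstance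
@[reducible] def a3.{u1} {x1 : Type u1} [x2 : CommRing x1] : Mul (Submodule x1 x1) := inferInstance
@[reducible] noncomputable def a4.{u1} {x1 : ℕ} {x2 : Type u1} [x3 : Field x2] : SemigroupAction (MvPolynomial (Fin (x1 + 1)) x2) (Vale.Agent.P202.CharP.Lam x2 x1) := inferInstance
@[reducible] noncomputable def a5.{u1} {x1 : ℕ} {x2 : Type u1} [x3 : Field x2] : MulAction (MvPolynomial (Fin (x1 + 1)) x2) (Finset (Fin x1) → Vale.Agent.P202.CharP.Lau x2 x1) := inferInstance
@[reducible] noncomputable def a6.{u1} {x1 : ℕ} {x2 : Type u1} [x3 : Field x2] : SMul (MvPolynomial (Fin (x1 + 1)) x2) (Finset (Fin x1) → Vale.Agent.P202.CharP.Lau x2 x1) := inferInstance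
theorem a7.{u1} {x1 : Type u1} [x2 : Field x1] {x3 : ℕ} : AddMonoidHomClass (MvPowerSeries (Fin (x3 + 1)) x1 →ₗ[x1] x1) (MvPowerSeries (Fin (x3 + 1)) x1) x1 := inferInstance
@[reducible] noncomputable def a8.{u1} {x1 : ℕ} {x2 : Type u1} [x3 : Field x2] : SMul (MvPolynomial (Fin (x1 + 1)) x2) (Vale.Agent.P202.CharP.Lau x2 x1) := inferInstance
@[reducible] noncomputable def a9.{u1} {x1 : ℕ} {x2 : Type u1} [x3 : Field x2] : DistribMulAction (MvPolynomial (Fin (x1 + 1)) x2) (Vale.Agent.P202.CharP.Lau x2 x1) := inferInstance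
theorem a10.{u1} {x1 : Type u1} [x2 : Field x1] {x3 : ℕ} : DistribMulActionSemiHomClass (MvPowerSeries (Fin (x3 + 1)) x1 →ₗ[x1] x1) (⇑(RingHom.id x1)) (MvPowerSeries (Fin (x3 + 1)) x1) x1 := inferInstance
theorem a11 : MulLeftMono ℕ∞ := inferInstance
@[reducible] noncomputable def a12.{u1} {x1 : Type u1} [x2 : Field x1] {x3 : ℕ} : Module (Vale.Agent.P202.CharP.PP x1 x3) (Finset (Fin x3) → Vale.Agent.P202.CharP.Lau x1 x3) := inferInstance
@[reducible] def a13.{u1} {x1 : Type u1} [x2 : CommRing x1] : Pow (Ideal x1) ℕ := inferInstance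
@[reducible] noncomputable def a14.{u1} {x1 : ℕ} {x2 : Type u1} {x3 : Type u1} [x4 : Field x2] [x5 : CommRing x3] [x6 : Algebra (MvPowerSeries (Fin x1) x2) x3] : Module (MvPowerSeries (Fin x1) x2) x3 := inferInstance
@[reducible] def a15.{u1} {x1 : Type u1} [x2 : CommRing x1] : NPow (Ideal x1) := inferInstance
@[reducible] noncomputable def a16.{u1} {x1 : ℕ} {x2 : Type u1} [x3 : Field x2] : SMul (MvPolynomial (Fin (x1 + 1)) x2) (Vale.Agent.P202.CharP.Lam x2 x1) := inferInstance
@[reducible] def a17.{u1} {x1 : Type u1} [x2 : CommRing x1] : Monoid (Ideal x1) := inferInstance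
@[reducible] noncomputable def a18.{u1} {x1 : ℕ} {x2 : ℕ} {x3 : Type u1} [x4 : Field x3] [x5 : Fact (Nat.Prime x2)] {x6 : ℕ} : Semiring (MvPolynomial (Fin x1) (WittVector x2 x3) ⧸ MvPolynomial.idealOfVars (Fin x1) (WittVector x2 x3) ^ x6) := inferInstance
theorem a19.{u1} {x1 : Type u1} {x2 : Type u1} [x3 : CommRing x1] [x4 : CommRing x2] : MulHomClass (x1 →+* x2) x1 x2 := inferInstance
@[reducible] def a20.{u1, u2} {x1 : Type u1} {x2 : Type u2} [x3 : CommRing x1] [x4 : AddCommGroup x2] [x5 : Module x1 x2] : Max (Submodule x1 (x2 × x2)) := inferInstance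
@[reducible] noncomputable def a21.{u1} {x1 : Type u1} [x2 : Field x1] {x3 : ℕ} : Pow (Ideal (Vale.Agent.P202.Mix.R0 x1 x3)) ℕ := inferInstance
@[reducible] def a22.{u1, u2} {x1 : Type u1} {x2 : Type u2} [x3 : CommRing x1] [x4 : AddCommGroup x2] [x5 : Module x1 x2] : SemilatticeSup (Submodule x1 (x2 × x2)) := inferInstance
@[reducible] def a23.{u1} {x1 : Type u1} [x2 : CommRing x1] : Semiring (Ideal x1) := inferInstance
theorem a24 : IsPrincipalIdealRing ℤ := inferInstance
@[reducible] noncomputable def a25.{u1} {x1 : Type u1} [x2 : Field x1] {x3 : ℕ} : NPow (Ideal (Vale.Agent.P202.Mix.R0 x1 x3)) := inferInstance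
@[reducible] noncomputable def a26.{u1} {x1 : Type u1} [x2 : Field x1] {x3 : ℕ} : Monoid (Ideal (Vale.Agent.P202.Mix.R0 x1 x3)) := inferInstance
@[reducible] def a27.{u1} {x1 : Type u1} [x2 : CommRing x1] : Max (Ideal x1) := inferInstance
theorem a28.{u1} {x1 : Type u1} [x2 : Field x1] {x3 : ℕ} : IsScalarTower (Vale.Agent.P202.Mix.R0 x1 x3) (Vale.Agent.P202.Mix.R0 x1 x3) (Vale.Agent.P202.Mix.R0 x1 x3) := inferInstance
@[reducible] noncomputable def a29.{u1} {x1 : ℕ} {x2 : ℕ} {x3 : Type u1} [x4 : Field x3] [x5 : Fact (Nat.Prime x2)] {x6 : ℕ} : Algebra (MvPolynomial (Fin x1) (WittVector x2 x3)) (MvPolynomial (Fin x1) (WittVector x2 x3) ⧸ MvPolynomial.idealOfVars (Fin x1) (WittVector x2 x3) ^ x6) := inferInstance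
@[reducible] def a30.{u1} {x1 : Type u1} [x2 : CommRing x1] : SemilatticeSup (Ideal x1) := inferInstance
@[reducible] noncomputable def a31.{u1} {x1 : Type u1} [x2 : Field x1] {x3 : ℕ} : Module (Vale.Agent.P202.CharP.PP x1 x3) (Vale.Agent.P202.CharP.Lau x1 x3) := inferInstance
@[reducible] noncomputable def a32.{u1} {x1 : ℕ} {x2 : Type u1} [x3 : Field x2] : Module (MvPolynomial (Fin (x1 + 1)) x2) (Vale.Agent.P202.CharP.Lau x2 x1) := inferInstance
theorem a33.{u1} {x1 : Type u1} [x2 : CommRing x1] {x3 : Type u1} [x4 : AddCommGroup x3] [x5 : Module x1 x3] : ZeroHomClass (x3 →ₗ[x1] x3) x3 x3 := inferInstance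
@[reducible] def a34.{u1} {x1 : ℕ → Type u1} [x2 : (e : ℕ) → CommRing (x1 e)] : Monoid ((i : ℕ) → x1 i) := inferInstance
@[reducible] noncomputable def a35.{u1} {x1 : ℕ} {x2 : Type u1} [x3 : Field x2] : DistribSMul (MvPolynomial (Fin (x1 + 1)) x2) (Vale.Agent.P202.CharP.Lam x2 x1) := inferInstance
@[reducible] noncomputable def a36.{u1} {x1 : ℕ} {x2 : Type u1} [x3 : Field x2] : DistribMulAction (MvPolynomial (Fin (x1 + 1)) x2) (Vale.Agent.P202.CharP.Lam x2 x1) := inferInstance
@[reducible] def a37.{u1} {x1 : Type u1} [x2 : CommRing x1] {x3 : Subring x1} {x4 : Type u1} [x5 : CommRing x4] [x6 : Algebra x1 x4] : Algebra (↥x3) x4 := inferInstance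
@[reducible] noncomputable def a38.{u1} {x1 : Type u1} [x2 : Field x1] {x3 : ℕ} : Semiring (Ideal (Vale.Agent.P202.Mix.R0 x1 x3)) := inferInstance
theorem a39.{u1} {x1 : ℕ → Type u1} [x2 : (e : ℕ) → CommRing (x1 e)] {x3 : Type u1} {x4 : Type u1} [x5 : AddCommGroup x3] [x6 : AddCommGroup x4] [x7 : Module ((e : ℕ) → x1 e) x3] [x8 : Module ((e : ℕ) → x1 e) x4] : MulActionSemiHomClass (x3 →ₗ[(e : ℕ) → x1 e] x4) (⇑(RingHom.id ((e : ℕ) → x1 e))) x3 x4 := inferInstance
theorem a40.{u1} {x1 : Type u1} [x2 : CommRing x1] {x3 : Type u1} [x4 : AddCommGroup x3] [x5 : Module x1 x3] : AddMonoidHomClass (x3 →ₗ[x1] x3) x3 x3 := inferInstance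
@[reducible] noncomputable def a41.{u1} {x1 : ℕ} {x2 : Type u1} [x3 : Field x2] : DistribSMul (MvPolynomial (Fin (x1 + 1)) x2) (Finset (Fin x1) → Vale.Agent.P202.CharP.Lau x2 x1) := inferInstance
@[reducible] def a42.{u1} {x1 : Type u1} [x2 : CommRing x1] : IdemSemiring (Submodule x1 x1) := inferInstance
@[reducible] def a43.{u1} {x1 : ℕ} {x2 : Type u1} [x3 : AddCommGroup x2] : AddCommMonoid (Fin x1 → x2) := inferInstance
@[reducible] def a44.{u1} {x1 : Type u1} [x2 : CommRing x1] : SemilatticeSup (Submodule x1 x1) := inferInstance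
@[reducible] noncomputable def a45.{u1} {x1 : ℕ} [x2 : Fact (Nat.Prime x1)] {x3 : Type u1} [x4 : Field x3] [x5 : CharP x3 x1] {x6 : ℕ} : NonAssocSemiring (WittVector x1 (Vale.Agent.P202.Mix.Rp x1 x3 x6)) := inferInstance
theorem a46.{u1} {x1 : Type u1} [x2 : CommRing x1] {x3 : Type u1} [x4 : AddCommGroup x3] [x5 : Module x1 x3] : DistribMulActionSemiHomClass (x3 →ₗ[x1] x3) (⇑(RingHom.id x1)) x3 x3 := inferInstance
@[reducible] noncomputable def a47.{u1} {x1 : ℕ} [x2 : Fact (Nat.Prime x1)] {x3 : Type u1} [x4 : Field x3] [x5 : CharP x3 x1] {x6 : ℕ} : Semiring (WittVector x1 (Vale.Agent.P202.Mix.Rp x1 x3 x6)) := inferInstance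
@[reducible] def a48.{u1} {x1 : Type u1} [x2 : CommRing x1] : Mul (Ideal x1) := inferInstance
theorem a49.{u1} {x1 : ℕ} {x2 : Type u1} [x3 : Fact (Nat.Prime x1)] [x4 : CommRing x2] {x5 : x2} : MulHomClass (WittVector x1 x2 →+* Vale.Agent.P202.Mix.Bt x1 x2 x5) (WittVector x1 x2) (Vale.Agent.P202.Mix.Bt x1 x2 x5) := inferInstance
@[reducible] def a50.{u1} {x1 : Type u1} [x2 : CommRing x1] : MulOne (Ideal x1) := inferInstance
@[reducible] noncomputable def a51.{u1} {x1 : ℕ} {x2 : Type u1} {x3 : Type u1} [x4 : CommRing x3] [x5 : Field x2] [x6 : Algebra (MvPowerSeries (Fin x1) x2) x3] : SMulZeroClass (MvPowerSeries (Fin x1) x2) x3 := inferInstance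
@[reducible] def a52.{u1} {x1 : Type u1} [x2 : CommRing x1] : MulOneClass (Ideal x1) := inferInstance
@[reducible] def a53.{u1} {x1 : Type u1} [x2 : CommRing x1] {x3 : Subring x1} {x4 : Type u1} [x5 : CommRing x4] [x6 : Algebra x1 x4] : Module (↥x3) x4 := inferInstance
theorem a54.{u1} {x1 : Type u1} {x2 : Type u1} [x3 : CommRing x1] [x4 : CommRing x2] : NonUnitalRingHomClass (x1 →+* x2) x1 x2 := inferInstance
@[reducible] def a55.{u1} {x1 : Type u1} [x2 : CommRing x1] : Max (Submodule x1 x1) := inferInstance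
@[reducible] noncomputable def a56.{u1} {x1 : ℕ} [x2 : Fact (Nat.Prime x1)] {x3 : Type u1} [x4 : Field x3] [x5 : CharP x3 x1] {x6 : ℕ} : CommSemiring (WittVector x1 (Vale.Agent.P202.Mix.Rp x1 x3 x6)) := inferInstance
theorem a57.{u1, u2} {x1 : Type u1} {x2 : Type u2} [x3 : CommRing x1] [x4 : CommRing x2] : MulHomClass (x1 →+* x2) x1 x2 := inferInstance
end AFast5a6b4bx8a
attribute [local instance] AFast5a6b4bx8a.a0 AFast5a6b4bx8a.a1 AFast5a6b4bx8a.a2 AFast5a6b4bx8a.a3
  AFast5a6b4bx8a.a4 AFast5a6b4bx8a.a5 AFast5a6b4bx8a.a6 AFast5a6b4bx8a.a7 AFast5a6b4bx8a.a8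
  AFast5a6b4bx8a.a9 AFast5a6b4bx8a.a10 AFast5a6b4bx8a.a11 AFast5a6b4bx8a.a12 AFast5a6b4bx8a.a13
  AFast5a6b4bx8a.a14 AFast5a6b4bx8a.a15 AFast5a6b4bx8a.a16 AFast5a6b4bx8a.a17 AFast5a6b4bx8a.a18
  AFast5a6b4bx8a.a19 AFast5a6b4bx8a.a20 AFast5a6b4bx8a.a21 AFast5a6b4bx8a.a22 AFast5a6b4bx8a.a23
  AFast5a6b4bx8a.a24 AFast5a6b4bx8a.a25 AFast5a6b4bx8a.a26 AFast5a6b4bx8a.a27 AFast5a6b4bx8a.a28
  AFast5a6b4bx8a.a29 AFast5a6b4bx8a.a30 AFast5a6b4bx8a.a31 AFast5a6b4bx8a.a32 AFast5a6b4bx8a.a33
  AFast5a6b4bx8a.a34 AFast5a6b4bx8a.a35 AFast5a6b4bx8a.a36 AFast5a6b4bx8a.a37 AFast5a6b4bx8a.a38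
  AFast5a6b4bx8a.a39 AFast5a6b4bx8a.a40 AFast5a6b4bx8a.a41 AFast5a6b4bx8a.a42 AFast5a6b4bx8a.a43
  AFast5a6b4bx8a.a44 AFast5a6b4bx8a.a45 AFast5a6b4bx8a.a46 AFast5a6b4bx8a.a47 AFast5a6b4bx8a.a48
  AFast5a6b4bx8a.a49 AFast5a6b4bx8a.a50 AFast5a6b4bx8a.a51 AFast5a6b4bx8a.a52 AFast5a6b4bx8a.a53
  AFast5a6b4bx8a.a54 AFast5a6b4bx8a.a55 AFast5a6b4bx8a.a56 AFast5a6b4bx8a.a57
namespace AFast5a6b4bx8b
theorem a0.{u1} {x1 : Type u1} {x2 : Type u1} [x3 : CommRing x1] [x4 : CommRing x2] : AddMonoidHomClass (x1 →+* x2) x1 x2 := inferInstance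
theorem a1.{u1} {x1 : Type u1} {x2 : Type u1} [x3 : Field x1] [x4 : CommRing x2] : AddHomClass (x1 →+* x2) x1 x2 := inferInstance
theorem a2.{u1, u2} {x1 : Type u1} {x2 : Type u2} [x3 : CommRing x1] [x4 : CommRing x2] : AddHomClass (x1 →+* x2) x1 x2 := inferInstance
theorem a3.{u1, u2} {x1 : Type u1} {x2 : Type u2} [x3 : CommRing x1] [x4 : CommRing x2] : AddMonoidHomClass (x1 →+* x2) x1 x2 := inferInstance
theorem a4.{u1, u2} {x1 : Type u1} {x2 : ℕ} [x3 : CommRing x1] {x4 : Type u2} [x5 : CommRing x4] [x6 : Algebra x1 x4] : AddHomClass (MvPolynomial (Fin x2) x1 →ₐ[x1] x4) (MvPolynomial (Fin x2) x1) x4 := inferInstance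
theorem a5.{u1, u2} {x1 : Type u1} {x2 : ℕ} [x3 : CommRing x1] {x4 : Type u2} [x5 : CommRing x4] [x6 : Algebra x1 x4] : LinearMapClass (MvPolynomial (Fin x2) x1 →ₐ[x1] x4) x1 (MvPolynomial (Fin x2) x1) x4 := inferInstance
end AFast5a6b4bx8b
attribute [local instance] AFast5a6b4bx8b.a0 AFast5a6b4bx8b.a1 AFast5a6b4bx8b.a2 AFast5a6b4bx8b.a3
  AFast5a6b4bx8b.a4 AFast5a6b4bx8b.a5
section

/-!
Existence of models over finitely generated rings of power series.
-/

namespace Vale.Agent.P202.CZ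

open MvPowerSeries Filter

open scoped Pointwise

universe u

section General

/-- only finitely many coefficients are needed for a linear combination. -/
lemma mx_ev_span {A M : Type u} [CommRing A] [AddCommGroup M] [Module A M] {H : Set M} {p : M}
    (hp : p ∈ Submodule.span A H) :
    ∃ C : Finset A, ∀ (R : Type u) [CommRing R] [Algebra R A] [Module R M] [IsScalarTower R A M],
      (∀ c ∈ C, ∃ r : R, algebraMap R A r = c) → p ∈ Submodule.span R H := by
  classical
  obtain ⟨n, f, g, hfg⟩ := Submodule.mem_span_set'.mp hp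
  refine ⟨Finset.univ.image f, ?_⟩
  intro R _ _ _ _ hC
  rw [← hfg]
  refine Submodule.sum_mem _ fun i _ => ?_
  obtain ⟨r, hr⟩ := hC (f i) (Finset.mem_image_of_mem _ (Finset.mem_univ i))
  rw [← hr, algebraMap_smul]
  exact Submodule.smul_mem _ _ (Submodule.subset_span (g i).2)

lemma mx_adjoin {R A : Type*} [CommRing R] [CommRing A] [Algebra R A] (W : Set A)
    (h1 : (1 : A) ∈ Submodule.span R W)
    (hm : ∀ x ∈ W, ∀ y ∈ W, x * y ∈ Submodule.span R W) :
    Subalgebra.toSubmodule (Algebra.adjoin R W) = Submodule.span R W := by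
  apply le_antisymm
  · have hmul : ∀ x y, x ∈ Submodule.span R W → y ∈ Submodule.span R W →
        x * y ∈ Submodule.span R W := by
      intro x y hx hy
      have h2 : Submodule.span R W * Submodule.span R W ≤ Submodule.span R W := by
        rw [Submodule.span_mul_span, Submodule.span_le]
        rintro _ ⟨a, ha, b, hb, rfl⟩
        exact hm a ha b hb
      exact h2 (Submodule.mul_mem_mul hx hy)
    have h3 : Algebra.adjoin R W ≤ (Submodule.span R W).toSubalgebra h1 hmul :=
      Algebra.adjoin_le Submodule.subset_span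
    intro z hz
    exact h3 hz
  · exact Submodule.span_le.mpr Algebra.subset_adjoin

lemma mx_top {R A A' : Type*} [CommRing R] [AddCommGroup A] [Module R A] [AddCommGroup A']
    [Module R A'] (f : A' →ₗ[R] A) (hf : Function.Injective f) (W' : Set A') (W : Set A)
    (hW : f '' W' = W) (h : ∀ z, f z ∈ Submodule.span R W) : Submodule.span R W' = ⊤ := by
  rw [eq_top_iff]
  rintro z -
  have h1 := h z
  rw [← hW, ← Submodule.map_span] at h1
  obtain ⟨z', hz', hzz⟩ := h1
  rwa [← hf hzz]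

lemma mx_ideal {R A : Type*} [CommRing R] [CommRing A] [Algebra R A]
    (hinj : Function.Injective (algebraMap R A)) (H : Set R) (H' : Set A)
    (hH : algebraMap R A '' H = H') (p : R)
    (h : algebraMap R A p ∈ Submodule.span R H') : p ∈ Ideal.span H := by
  rw [← hH] at h
  have h2 : Submodule.map (Algebra.linearMap R A) (Submodule.span R H) =
      Submodule.span R (algebraMap R A '' H) := by
    rw [Submodule.map_span]
    rfl
  rw [← h2] at h
  obtain ⟨z', hz', hzz⟩ := h
  have h3 : z' = p := hinj hzz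
  rw [← h3]
  exact hz'

lemma mx_span_pow {R : Type*} [CommRing R] (H : Set R) (n : ℕ) :
    Ideal.span H ^ n = Ideal.span (H ^ n) := by
  induction n with
  | zero => simp
  | succ n ih => rw [pow_succ, pow_succ, ih, Ideal.span_mul_span']

lemma mx_pow_le {R A : Type*} [CommRing R] [CommRing A] [Algebra R A]
    (hinj : Function.Injective (algebraMap R A)) (G H : Set R) (G' H' : Set A)
    (hG : algebraMap R A '' G = G') (hH : algebraMap R A '' H = H') (n : ℕ)
    (h : ∀ p ∈ G' ^ n, p ∈ Submodule.span R H') : Ideal.span G ^ n ≤ Ideal.span H := by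
  rw [mx_span_pow, Ideal.span_le]
  intro p hp
  refine mx_ideal hinj H H' hH p (h _ ?_)
  rw [← hG, ← Set.image_pow]
  exact ⟨p, hp, rfl⟩

/-- the augmentation attached to an ideal with residue ring `K`. -/
lemma mx_eps {K A : Type*} [Field K] [CommRing A] (φ : K →+* A) (J : Ideal A)
    (hJ : ∀ z : A, ∃ a : K, z - φ a ∈ J) (hJ1 : (1 : A) ∉ J) :
    ∃ ε : A →+* K, (∀ z ∈ J, ε z = 0) ∧ (∀ a, ε (φ a) = a) ∧ ∀ z, ε z = 0 → z ∈ J := by
  have hne : Nontrivial (A ⧸ J) :=
    Ideal.Quotient.nontrivial_iff.mpr ((Ideal.ne_top_iff_one J).mpr hJ1)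
  have hbij : Function.Bijective ((Ideal.Quotient.mk J).comp φ) := by
    constructor
    · exact RingHom.injective _
    · intro x
      obtain ⟨z, rfl⟩ := Ideal.Quotient.mk_surjective x
      obtain ⟨a, ha⟩ := hJ z
      exact ⟨a, (Ideal.Quotient.eq.mpr ha).symm⟩
  let f := RingEquiv.ofBijective _ hbij
  refine ⟨f.symm.toRingHom.comp (Ideal.Quotient.mk J), ?_, ?_, ?_⟩
  · intro z hz
    change f.symm (Ideal.Quotient.mk J z) = 0
    rw [Ideal.Quotient.eq_zero_iff_mem.mpr hz, map_zero]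
  · intro a
    change f.symm (f a) = a
    exact f.symm_apply_apply a
  · intro z hz
    change f.symm (Ideal.Quotient.mk J z) = 0 at hz
    rw [← Ideal.Quotient.eq_zero_iff_mem]
    exact (map_eq_zero_iff _ f.symm.injective).mp hz

lemma mx_eq_span {K A : Type*} [Field K] [CommRing A] (φ : K →+* A) (J : Ideal A)
    (ε : A →+* K) (hεJ : ∀ z ∈ J, ε z = 0) (hεφ : ∀ a, ε (φ a) = a)
    (hε : ∀ z, ε z = 0 → z ∈ J) (G : Set A) (hG : ∀ x ∈ G, ε x = 0)
    (hdec : ∀ z, ∃ a, z - φ a ∈ Ideal.span G) : J = Ideal.span G := by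
  have h1 : Ideal.span G ≤ RingHom.ker ε := Ideal.span_le.mpr hG
  apply le_antisymm
  · intro z hz
    obtain ⟨a, ha⟩ := hdec z
    have h2 : ε (z - φ a) = 0 := h1 ha
    rw [map_sub, hεJ z hz, hεφ, zero_sub, neg_eq_zero] at h2
    rwa [h2, map_zero, sub_zero] at ha
  · exact fun z hz => hε z (h1 hz)

end General

section Abs

variable {K : Type u} [Field K] {d : ℕ}

/-- the finitely generated ring `B`. -/
noncomputable abbrev mxB (T : Finset (MvPowerSeries (Fin d) K)) :
    Subring (MvPowerSeries (Fin d) K) :=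
  Subring.closure (T : Set (MvPowerSeries (Fin d) K))

theorem mx_abs (T : Finset (MvPowerSeries (Fin d) K))
    (hX : ∀ i, (X i : MvPowerSeries (Fin d) K) ∈ mxB T)
    {E S : Type u} [CommRing E] [CommRing S] [Algebra (mxB T) E] [Algebra E S]
    [Module.Finite (mxB T) E] {t : ℕ} (v : Module.Basis (Fin t) E S)
    {r : ℕ} (e : Fin r → E) (he : LinearIndependent (mxB T) e)
    {g : ℕ} (w : Fin g → E)
    (hEtop : Submodule.span (mxB T) (insert 1 (Set.range w)) = ⊤)
    (xE : Fin d → E) (hxE : xE = fun i => algebraMap (mxB T) E ⟨X i, hX i⟩)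
    (GE : Set E) (hGE : GE = Set.range xE ∪ Set.range w)
    (ε : E →+* K) (hε : ∀ b : mxB T, ε (algebraMap (mxB T) E b) =
      constantCoeff (b : MvPowerSeries (Fin d) K)) (hεw : ∀ i, ε (w i) = 0)
    {s : ℕ} (hJs : Ideal.span GE ^ (s + 1) ≤ Ideal.span (Set.range xE) * Ideal.span GE ^ s)
    (εS : S →+* K) (hεS : ∀ z : E, εS (algebraMap E S z) = ε z)
    (κ : Fin t → mxB T) (hκ : ∀ i, (κ i : MvPowerSeries (Fin d) K) = C (εS (v i)))
    (NS : Set S) (hNS : NS = (Set.range fun i => algebraMap E S (xE i)) ∪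
      (Set.range fun i => algebraMap E S (w i)) ∪
      Set.range fun i => v i - algebraMap E S (algebraMap (mxB T) E (κ i)))
    {M : ℕ}
    (hnM : Ideal.span NS ^ M ≤ Ideal.span (Set.range fun i => algebraMap E S (xE i)))
    (y : Fin d → S) (hy : ∀ i, y i ∈ Ideal.span NS) {j c : ℕ}
    (hc : Ideal.span (Set.range fun i => algebraMap E S (xE i)) ^ c ≤
      Ideal.span (Set.range y) ^ j)
    {l : ℕ} (b : Fin l → S)
    (hb1 : ∀ x ∈ insert 1 (Set.range w), ∀ i, ∃ β : Fin l → mxB T,
      algebraMap E S x * v i - ∑ q, algebraMap E S (algebraMap (mxB T) E (β q)) * b q ∈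
        Ideal.span (Set.range y) ^ j)
    (hb2 : ∀ i q, ∃ β : Fin l → mxB T,
      (∀ q', ∃ a : K, (β q' : MvPowerSeries (Fin d) K) = C a) ∧
      algebraMap E S (xE i) * b q -
        ∑ q', algebraMap E S (algebraMap (mxB T) E (β q')) * b q' ∈
        Ideal.span (Set.range y) ^ j) :
    Nonempty (Model K d r j c l) := by
  have hJ : ∀ z : E, ∃ b : mxB T, z - algebraMap (mxB T) E b ∈ Ideal.span GE := by
    intro z
    have hz : z ∈ Submodule.span (mxB T) (insert 1 (Set.range w)) := by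
      rw [hEtop]
      exact Submodule.mem_top
    induction hz using Submodule.span_induction with
    | mem x hx =>
      rcases hx with rfl | ⟨i, rfl⟩
      · exact ⟨1, by rw [map_one, sub_self]; exact Ideal.zero_mem _⟩
      · exact ⟨0, by
          rw [map_zero, sub_zero, hGE]
          exact Ideal.subset_span (Or.inr ⟨i, rfl⟩)⟩
    | zero => exact ⟨0, by rw [map_zero, sub_zero]; exact Ideal.zero_mem _⟩
    | add x y _ _ h1 h2 =>
      obtain ⟨b1, h1⟩ := h1
      obtain ⟨b2, h2⟩ := h2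
      refine ⟨b1 + b2, ?_⟩
      rw [map_add, add_sub_add_comm]
      exact Ideal.add_mem _ h1 h2
    | smul a x _ h1 =>
      obtain ⟨b1, h1⟩ := h1
      refine ⟨a * b1, ?_⟩
      rw [map_mul, Algebra.smul_def, ← mul_sub]
      exact Ideal.mul_mem_left _ _ h1
  have hJx : ∀ i, xE i ∈ Ideal.span GE := fun i =>
    Ideal.subset_span (by rw [hGE]; exact Or.inl ⟨i, rfl⟩)
  have hεx : ∀ i, ε (xE i) = 0 := by
    intro i
    rw [hxE]
    change ε (algebraMap (mxB T) E ⟨X i, hX i⟩) = 0
    rw [hε]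
    exact constantCoeff_X i
  have hεJ : ∀ z ∈ Ideal.span GE, ε z = 0 := by
    have h1 : Ideal.span GE ≤ RingHom.ker ε := by
      rw [Ideal.span_le, hGE]
      rintro _ (⟨i, rfl⟩ | ⟨i, rfl⟩)
      · exact hεx i
      · exact hεw i
    exact fun z hz => h1 hz
  have hJn : (Ideal.span GE).map (algebraMap E S) ≤ Ideal.span NS := by
    rw [Ideal.map_span, Ideal.span_le, hGE, hNS]
    rintro _ ⟨z, ⟨i, rfl⟩ | ⟨i, rfl⟩, rfl⟩
    · exact Ideal.subset_span (Or.inl (Or.inl ⟨i, rfl⟩))
    · exact Ideal.subset_span (Or.inl (Or.inr ⟨i, rfl⟩))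
  -- induction principle for `S`
  have key : ∀ P : S → Prop, P 0 → (∀ a b, P a → P b → P (a + b)) →
      (∀ (b : mxB T) z, P z → P (algebraMap E S (algebraMap (mxB T) E b) * z)) →
      (∀ x ∈ insert 1 (Set.range w), ∀ i, P (algebraMap E S x * v i)) → ∀ z, P z := by
    intro P h0 hadd hmul hgen
    have h1 : ∀ (z : E) (i : Fin t), P (algebraMap E S z * v i) := by
      intro z i
      have hz : z ∈ Submodule.span (mxB T) (insert 1 (Set.range w)) := by
        rw [hEtop]
        exact Submodule.mem_top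
      induction hz using Submodule.span_induction with
      | mem x hx => exact hgen x hx i
      | zero => rw [map_zero, zero_mul]; exact h0
      | add x y _ _ h1 h2 => rw [map_add, add_mul]; exact hadd _ _ h1 h2
      | smul a x _ h1 =>
        rw [Algebra.smul_def, map_mul, mul_assoc]
        exact hmul a _ h1
    intro z
    rw [← v.sum_repr z]
    refine Finset.sum_induction _ P hadd h0 fun i _ => ?_
    rw [Algebra.smul_def]
    exact h1 _ i
  have hn : ∀ z : S, ∃ b : mxB T,
      z - algebraMap E S (algebraMap (mxB T) E b) ∈ Ideal.span NS := by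
    apply key
    · exact ⟨0, by rw [map_zero, map_zero, sub_zero]; exact Ideal.zero_mem _⟩
    · rintro a b ⟨b1, h1⟩ ⟨b2, h2⟩
      refine ⟨b1 + b2, ?_⟩
      rw [map_add, map_add, add_sub_add_comm]
      exact Ideal.add_mem _ h1 h2
    · rintro b z ⟨b1, h1⟩
      refine ⟨b * b1, ?_⟩
      rw [map_mul, map_mul, ← mul_sub]
      exact Ideal.mul_mem_left _ _ h1
    · rintro x (rfl | ⟨l, rfl⟩) i
      · refine ⟨κ i, ?_⟩
        rw [map_one, one_mul, hNS]
        exact Ideal.subset_span (Or.inr ⟨i, rfl⟩)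
      · refine ⟨0, ?_⟩
        rw [map_zero, map_zero, sub_zero, hNS]
        exact Ideal.mul_mem_right _ _ (Ideal.subset_span (Or.inl (Or.inr ⟨l, rfl⟩)))
  have hεn : ∀ z ∈ Ideal.span NS, εS z = 0 := by
    have h1 : Ideal.span NS ≤ RingHom.ker εS := by
      rw [Ideal.span_le, hNS]
      rintro _ ((⟨i, rfl⟩ | ⟨i, rfl⟩) | ⟨i, rfl⟩)
      · exact (hεS _).trans (hεx i)
      · exact (hεS _).trans (hεw i)
      · change εS (v i - algebraMap E S (algebraMap (mxB T) E (κ i))) = 0
        rw [map_sub, hεS, hε, hκ, constantCoeff_C, sub_self]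
    exact fun z hz => h1 hz
  have hb1' : ∀ z : S, ∃ β : Fin l → mxB T,
      z - ∑ q, algebraMap E S (algebraMap (mxB T) E (β q)) * b q ∈
        Ideal.span (Set.range y) ^ j := by
    apply key
    · exact ⟨0, by simp⟩
    · rintro z1 z2 ⟨b1, h1⟩ ⟨b2, h2⟩
      refine ⟨b1 + b2, ?_⟩
      have h3 : z1 + z2 - ∑ q, algebraMap E S (algebraMap (mxB T) E ((b1 + b2) q)) * b q =
          (z1 - ∑ q, algebraMap E S (algebraMap (mxB T) E (b1 q)) * b q) +
          (z2 - ∑ q, algebraMap E S (algebraMap (mxB T) E (b2 q)) * b q) := by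
        simp only [Pi.add_apply, map_add, add_mul, Finset.sum_add_distrib]
        ring
      rw [h3]
      exact Ideal.add_mem _ h1 h2
    · rintro a z ⟨b1, h1⟩
      refine ⟨fun q => a * b1 q, ?_⟩
      have h3 : algebraMap E S (algebraMap (mxB T) E a) * z -
          ∑ q, algebraMap E S (algebraMap (mxB T) E (a * b1 q)) * b q =
          algebraMap E S (algebraMap (mxB T) E a) *
          (z - ∑ q, algebraMap E S (algebraMap (mxB T) E (b1 q)) * b q) := by
        rw [mul_sub, Finset.mul_sum]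
        simp only [map_mul, mul_assoc]
      rw [h3]
      exact Ideal.mul_mem_left _ _ h1
    · exact hb1
  subst hxE
  exact ⟨{
    T := T
    hT := hX
    E := E
    S := S
    t := t
    v := v
    e := e
    he := he
    J := Ideal.span GE
    hJ := hJ
    hJx := hJx
    εE := ε
    hεE := hε
    hεJ := hεJ
    s := s
    hJs := hJs
    n := Ideal.span NS
    hn := hn
    hJn := hJn
    εS := εS
    hεS := hεS
    hεn := hεn
    M := M
    hnM := hnM
    y := y
    hy := hy
    hc := hc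
    b := b
    hb1 := hb1'
    hb2 := hb2 }⟩

end Abs

section Mid

variable {K : Type u} [Field K] {d : ℕ}

/-- the power series `b` in `E`. -/
noncomputable abbrev mxa (E : Type u) [CommRing E] [Algebra (MvPowerSeries (Fin d) K) E]
    (b : MvPowerSeries (Fin d) K) : E := algebraMap (MvPowerSeries (Fin d) K) E b

/-- the power series `b` in `S`. -/
noncomputable abbrev mxb (E S : Type u) [CommRing E] [CommRing S]
    [Algebra (MvPowerSeries (Fin d) K) E] [Algebra E S]
    (b : MvPowerSeries (Fin d) K) : S := algebraMap E S (algebraMap (MvPowerSeries (Fin d) K) E b)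

theorem mx_mid (T : Finset (MvPowerSeries (Fin d) K))
    (hX : ∀ i, (X i : MvPowerSeries (Fin d) K) ∈ mxB T)
    {E S : Type u} [CommRing E] [CommRing S]
    [Algebra (MvPowerSeries (Fin d) K) E] [Algebra E S]
    {E' S' : Type u} [CommRing E'] [CommRing S'] [Algebra (mxB T) E'] [Algebra E' S']
    [Algebra E' E] [Algebra S' S]
    (hinjE : Function.Injective (algebraMap E' E)) (hinjS : Function.Injective (algebraMap S' S))
    (hcE : ∀ b : mxB T, algebraMap E' E (algebraMap (mxB T) E' b) =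
      mxa E (b : MvPowerSeries (Fin d) K))
    (hcS : ∀ z : E', algebraMap S' S (algebraMap E' S' z) = algebraMap E S (algebraMap E' E z))
    {g : ℕ} (w : Fin g → E) (w' : Fin g → E') (hw' : ∀ i, algebraMap E' E (w' i) = w i)
    (hEtop : Submodule.span (mxB T) (insert 1 (Set.range w')) = ⊤)
    {t : ℕ} (v : Module.Basis (Fin t) E S) (v' : Fin t → S')
    (hv' : ∀ i, algebraMap S' S (v' i) = v i)
    (hStop : Submodule.span E' (Set.range v') = ⊤)
    {r : ℕ} (e : Fin r → E) (he : LinearIndependent (MvPowerSeries (Fin d) K) e)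
    (e' : Fin r → E') (hee : ∀ i, algebraMap E' E (e' i) = e i)
    (ε : E →+* K) (hε : ∀ b : MvPowerSeries (Fin d) K, ε (mxa E b) = constantCoeff b)
    (hεw : ∀ i, ε (w i) = 0)
    {s : ℕ}
    (hJs : ∀ p ∈ ((Set.range fun i => mxa E (X i : MvPowerSeries (Fin d) K)) ∪
        Set.range w) ^ (s + 1),
      p ∈ Submodule.span E'
        ((Set.range fun i => mxa E (X i : MvPowerSeries (Fin d) K)) *
          ((Set.range fun i => mxa E (X i : MvPowerSeries (Fin d) K)) ∪ Set.range w) ^ s))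
    (εS : S →+* K) (hεS : ∀ z : E, εS (algebraMap E S z) = ε z)
    (hκ : ∀ i, (C (εS (v i)) : MvPowerSeries (Fin d) K) ∈ mxB T)
    {M : ℕ}
    (hnM : ∀ p ∈ ((Set.range fun i => mxb E S (X i : MvPowerSeries (Fin d) K)) ∪
        (Set.range fun i => algebraMap E S (w i)) ∪
        (Set.range fun i => v i - mxb E S (C (εS (v i)) : MvPowerSeries (Fin d) K))) ^ M,
      p ∈ Submodule.span S' (Set.range fun i => mxb E S (X i : MvPowerSeries (Fin d) K)))
    (y : Fin d → S) (y' : Fin d → S') (hyy : ∀ i, algebraMap S' S (y' i) = y i)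
    (hy : ∀ i, y i ∈ Submodule.span S'
      ((Set.range fun i => mxb E S (X i : MvPowerSeries (Fin d) K)) ∪
        (Set.range fun i => algebraMap E S (w i)) ∪
        (Set.range fun i => v i - mxb E S (C (εS (v i)) : MvPowerSeries (Fin d) K))))
    {j c : ℕ}
    (hc : ∀ p ∈ (Set.range fun i => mxb E S (X i : MvPowerSeries (Fin d) K)) ^ c,
      p ∈ Submodule.span S' ((Set.range y) ^ j))
    {l : ℕ} (b : Fin l → S) (b' : Fin l → S') (hbb : ∀ i, algebraMap S' S (b' i) = b i)
    (hb1 : ∀ x ∈ insert 1 (Set.range w), ∀ i, ∃ a : Fin l → K,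
      (∀ q, (C (a q) : MvPowerSeries (Fin d) K) ∈ mxB T) ∧
      algebraMap E S x * v i - ∑ q, mxb E S (C (a q) : MvPowerSeries (Fin d) K) * b q ∈
        Submodule.span S' ((Set.range y) ^ j))
    (hb2 : ∀ (i : Fin d) (q : Fin l), ∃ a : Fin l → K,
      (∀ q', (C (a q') : MvPowerSeries (Fin d) K) ∈ mxB T) ∧
      mxb E S (X i : MvPowerSeries (Fin d) K) * b q -
        ∑ q', mxb E S (C (a q') : MvPowerSeries (Fin d) K) * b q' ∈
        Submodule.span S' ((Set.range y) ^ j)) :
    Nonempty (Model K d r j c l) := by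
  classical
  have hfin : Module.Finite (mxB T) E' :=
    ⟨Submodule.fg_def.mpr ⟨_, (Set.finite_range w').insert 1, hEtop⟩⟩
  have hv'li : LinearIndependent E' v' := by
    rw [Fintype.linearIndependent_iff]
    intro f hf i
    have h1 : ∑ i, algebraMap E' E (f i) • v i = 0 := by
      have h2 := congrArg (algebraMap S' S) hf
      rw [map_sum, map_zero] at h2
      rw [← h2]
      refine Finset.sum_congr rfl fun i _ => ?_
      rw [Algebra.smul_def, Algebra.smul_def, map_mul, hcS, hv']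
    have h3 := (Fintype.linearIndependent_iff.mp v.linearIndependent) _ h1 i
    exact hinjE (by rw [h3, map_zero])
  let vb : Module.Basis (Fin t) E' S' := Module.Basis.mk hv'li hStop.ge
  have hvb : ∀ i, algebraMap S' S (vb i) = v i := fun i => by
    rw [Module.Basis.mk_apply, hv']
  have he' : LinearIndependent (mxB T) e' := by
    rw [Fintype.linearIndependent_iff]
    intro f hf i
    have h1 : ∑ i, (f i : MvPowerSeries (Fin d) K) • e i = 0 := by
      have h2 := congrArg (algebraMap E' E) hf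
      rw [map_sum, map_zero] at h2
      rw [← h2]
      refine Finset.sum_congr rfl fun i _ => ?_
      rw [Algebra.smul_def, Algebra.smul_def, map_mul, hcE, hee]
    exact Subtype.ext ((Fintype.linearIndependent_iff.mp he) _ h1 i)
  -- the ideal `J_B`
  let xE : Fin d → E' := fun i => algebraMap (mxB T) E' ⟨X i, hX i⟩
  have hxE0 : ∀ i, algebraMap E' E (xE i) = mxa E (X i : MvPowerSeries (Fin d) K) :=
    fun i => hcE _
  have hxE : algebraMap E' E '' Set.range xE =
      Set.range fun i => mxa E (X i : MvPowerSeries (Fin d) K) := by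
    rw [← Set.range_comp]
    congr 1
    funext i
    exact hxE0 i
  have hGE : algebraMap E' E '' (Set.range xE ∪ Set.range w') =
      (Set.range fun i => mxa E (X i : MvPowerSeries (Fin d) K)) ∪ Set.range w := by
    rw [Set.image_union, hxE, ← Set.range_comp]
    congr 2
    funext i
    exact hw' i
  have hJs' : Ideal.span (Set.range xE ∪ Set.range w') ^ (s + 1) ≤
      Ideal.span (Set.range xE) * Ideal.span (Set.range xE ∪ Set.range w') ^ s := by
    rw [mx_span_pow _ s, Ideal.span_mul_span']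
    refine mx_pow_le hinjE _ _ _ _ hGE ?_ _ hJs
    rw [Set.image_mul, Set.image_pow, hGE, hxE]
  -- the ideal `n_B`
  let NS : Set S' := (Set.range fun i => algebraMap E' S' (xE i)) ∪
    (Set.range fun i => algebraMap E' S' (w' i)) ∪
    Set.range fun i => vb i - algebraMap E' S' (algebraMap (mxB T) E' ⟨C (εS (v i)), hκ i⟩)
  have hxS : algebraMap S' S '' (Set.range fun i => algebraMap E' S' (xE i)) =
      Set.range fun i => mxb E S (X i : MvPowerSeries (Fin d) K) := by
    rw [← Set.range_comp]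
    congr 1
    funext i
    change algebraMap S' S (algebraMap E' S' (xE i)) = _
    rw [hcS, hxE0]
  have hwS : algebraMap S' S '' (Set.range fun i => algebraMap E' S' (w' i)) =
      Set.range fun i => algebraMap E S (w i) := by
    rw [← Set.range_comp]
    congr 1
    funext i
    change algebraMap S' S (algebraMap E' S' (w' i)) = _
    rw [hcS, hw']
  have hvS : algebraMap S' S '' (Set.range fun i => vb i -
        algebraMap E' S' (algebraMap (mxB T) E' ⟨C (εS (v i)), hκ i⟩)) =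
      Set.range fun i => v i - mxb E S (C (εS (v i)) : MvPowerSeries (Fin d) K) := by
    rw [← Set.range_comp]
    congr 1
    funext i
    change algebraMap S' S (vb i -
      algebraMap E' S' (algebraMap (mxB T) E' ⟨C (εS (v i)), hκ i⟩)) = _
    rw [map_sub, hvb, hcS, hcE]
  have hNS : algebraMap S' S '' NS =
      (Set.range fun i => mxb E S (X i : MvPowerSeries (Fin d) K)) ∪
        (Set.range fun i => algebraMap E S (w i)) ∪
        (Set.range fun i => v i - mxb E S (C (εS (v i)) : MvPowerSeries (Fin d) K)) := by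
    rw [Set.image_union, Set.image_union, hxS, hwS, hvS]
  have hyr : algebraMap S' S '' (Set.range y') ^ j = Set.range y ^ j := by
    rw [Set.image_pow, ← Set.range_comp]
    congr 2
    funext i
    exact hyy i
  have hc' : Ideal.span (Set.range fun i => algebraMap E' S' (xE i)) ^ c ≤
      Ideal.span (Set.range y') ^ j := by
    rw [mx_span_pow _ j]
    exact mx_pow_le hinjS _ _ _ _ hxS hyr _ hc
  have hsum : ∀ (a : Fin l → K) (ha : ∀ q, (C (a q) : MvPowerSeries (Fin d) K) ∈ mxB T),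
      algebraMap S' S (∑ q, algebraMap E' S' (algebraMap (mxB T) E' ⟨C (a q), ha q⟩) * b' q) =
      ∑ q, mxb E S (C (a q) : MvPowerSeries (Fin d) K) * b q := by
    intro a ha
    rw [map_sum]
    refine Finset.sum_congr rfl fun q _ => ?_
    rw [map_mul, hcS, hcE, hbb]
  refine mx_abs T hX vb e' he' w' hEtop xE rfl _ rfl
    (ε.comp (algebraMap E' E)) (fun b => ?_) (fun i => ?_) hJs'
    (εS.comp (algebraMap S' S)) (fun z => ?_)
    (fun i => ⟨C (εS (v i)), hκ i⟩) (fun i => ?_) NS rfl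
    (mx_pow_le hinjS _ _ _ _ hNS hxS _ hnM) y'
    (fun i => mx_ideal hinjS _ _ hNS _ (by rw [hyy]; exact hy i)) hc' b' ?_ ?_
  · rw [RingHom.comp_apply, hcE, hε]
  · rw [RingHom.comp_apply, hw', hεw]
  · rw [RingHom.comp_apply, RingHom.comp_apply, hcS, hεS]
  · rw [RingHom.comp_apply, hvb]
  · intro x hx i
    have hx' : algebraMap E' E x ∈ insert 1 (Set.range w) := by
      rcases hx with rfl | ⟨q, rfl⟩
      · rw [map_one]
        exact Set.mem_insert _ _
      · rw [hw']
        exact Set.mem_insert_of_mem _ ⟨q, rfl⟩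
    obtain ⟨a, ha, hax⟩ := hb1 _ hx' i
    refine ⟨fun q => ⟨C (a q), ha q⟩, ?_⟩
    rw [mx_span_pow _ j]
    refine mx_ideal hinjS _ _ hyr _ ?_
    rw [map_sub, hsum a ha, map_mul, hcS, hvb]
    exact hax
  · intro i q
    obtain ⟨a, ha, hax⟩ := hb2 i q
    refine ⟨fun q => ⟨C (a q), ha q⟩, fun q' => ⟨a q', rfl⟩, ?_⟩
    rw [mx_span_pow _ j]
    refine mx_ideal hinjS _ _ hyr _ ?_
    rw [map_sub, hsum a ha, map_mul, hcS, hxE0, hbb]
    exact hax

end Mid

section Build

variable {K : Type u} [Field K] {d : ℕ} {E S : Type u} [CommRing E] [CommRing S]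
  [Algebra (MvPowerSeries (Fin d) K) E] [Algebra E S]

theorem mx_build (T : Finset (MvPowerSeries (Fin d) K))
    (hX : ∀ i, (X i : MvPowerSeries (Fin d) K) ∈ mxB T)
    (E' : Subring E) (S' : Subring S)
    (hBE : ∀ b : mxB T, mxa E (b : MvPowerSeries (Fin d) K) ∈ E')
    (hES : ∀ z : E', algebraMap E S (z : E) ∈ S')
    {g : ℕ} (w : Fin g → E) (hwE : ∀ i, w i ∈ E')
    (hEW : ∀ z ∈ E', z ∈ Submodule.span (mxB T) (insert 1 (Set.range w)))
    {t : ℕ} (v : Module.Basis (Fin t) E S) (hvS : ∀ i, v i ∈ S')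
    (hSV : ∀ z ∈ S', z ∈ Submodule.span E' (Set.range v))
    {r : ℕ} (e : Fin r → E) (he : LinearIndependent (MvPowerSeries (Fin d) K) e)
    (heE : ∀ i, e i ∈ E')
    (ε : E →+* K) (hε : ∀ b : MvPowerSeries (Fin d) K, ε (mxa E b) = constantCoeff b)
    (hεw : ∀ i, ε (w i) = 0)
    {s : ℕ}
    (hJs : ∀ p ∈ ((Set.range fun i => mxa E (X i : MvPowerSeries (Fin d) K)) ∪
        Set.range w) ^ (s + 1),
      p ∈ Submodule.span E' ((Set.range fun i => mxa E (X i : MvPowerSeries (Fin d) K)) *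
          ((Set.range fun i => mxa E (X i : MvPowerSeries (Fin d) K)) ∪ Set.range w) ^ s))
    (εS : S →+* K) (hεS : ∀ z : E, εS (algebraMap E S z) = ε z)
    (hκ : ∀ i, (C (εS (v i)) : MvPowerSeries (Fin d) K) ∈ mxB T)
    {M : ℕ}
    (hnM : ∀ p ∈ ((Set.range fun i => mxb E S (X i : MvPowerSeries (Fin d) K)) ∪
        (Set.range fun i => algebraMap E S (w i)) ∪
        (Set.range fun i => v i - mxb E S (C (εS (v i)) : MvPowerSeries (Fin d) K))) ^ M,
      p ∈ Submodule.span S' (Set.range fun i => mxb E S (X i : MvPowerSeries (Fin d) K)))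
    (y : Fin d → S) (hyS : ∀ i, y i ∈ S')
    (hy : ∀ i, y i ∈ Submodule.span S'
      ((Set.range fun i => mxb E S (X i : MvPowerSeries (Fin d) K)) ∪
        (Set.range fun i => algebraMap E S (w i)) ∪
        (Set.range fun i => v i - mxb E S (C (εS (v i)) : MvPowerSeries (Fin d) K))))
    {j c : ℕ}
    (hc : ∀ p ∈ (Set.range fun i => mxb E S (X i : MvPowerSeries (Fin d) K)) ^ c,
      p ∈ Submodule.span S' ((Set.range y) ^ j))
    {l : ℕ} (b : Fin l → S) (hbS : ∀ i, b i ∈ S')
    (hb1 : ∀ x ∈ insert 1 (Set.range w), ∀ i, ∃ a : Fin l → K,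
      (∀ q, (C (a q) : MvPowerSeries (Fin d) K) ∈ mxB T) ∧
      algebraMap E S x * v i - ∑ q, mxb E S (C (a q) : MvPowerSeries (Fin d) K) * b q ∈
        Submodule.span S' ((Set.range y) ^ j))
    (hb2 : ∀ (i : Fin d) (q : Fin l), ∃ a : Fin l → K,
      (∀ q', (C (a q') : MvPowerSeries (Fin d) K) ∈ mxB T) ∧
      mxb E S (X i : MvPowerSeries (Fin d) K) * b q -
        ∑ q', mxb E S (C (a q') : MvPowerSeries (Fin d) K) * b q' ∈
        Submodule.span S' ((Set.range y) ^ j)) :
    Nonempty (Model K d r j c l) := by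
  classical
  letI i1 : Algebra (mxB T) E' :=
    (((algebraMap (MvPowerSeries (Fin d) K) E).comp (mxB T).subtype).codRestrict E' hBE).toAlgebra
  letI i2 : Algebra E' S' :=
    (((algebraMap E S).comp E'.subtype).codRestrict S' hES).toAlgebra
  let f : E' →ₗ[mxB T] E :=
    { toFun := fun z => z
      map_add' := fun _ _ => rfl
      map_smul' := fun _ _ => (Algebra.smul_def _ _).symm }
  let f' : S' →ₗ[E'] S :=
    { toFun := fun z => z
      map_add' := fun _ _ => rfl
      map_smul' := fun _ _ => (Algebra.smul_def _ _).symm }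
  have hE'top : Submodule.span (mxB T)
      (insert 1 (Set.range fun i => (⟨w i, hwE i⟩ : E'))) = ⊤ := by
    refine mx_top f Subtype.val_injective _ (insert 1 (Set.range w)) ?_ (fun z => hEW z z.2)
    rw [Set.image_insert_eq, ← Set.range_comp]
    rfl
  have hS'top : Submodule.span E' (Set.range fun i => (⟨v i, hvS i⟩ : S')) = ⊤ := by
    refine mx_top f' Subtype.val_injective _ (Set.range v) ?_ (fun z => hSV z z.2)
    rw [← Set.range_comp]
    rfl
  exact mx_mid T hX (E' := E') (S' := S')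
    Subtype.val_injective Subtype.val_injective (fun _ => rfl) (fun _ => rfl) w _
    (fun _ => rfl) hE'top v _ (fun _ => rfl) hS'top e he (fun i => ⟨e i, heE i⟩) (fun _ => rfl)
    ε hε hεw hJs εS hεS hκ hnM y (fun i => ⟨y i, hyS i⟩) (fun _ => rfl) hy hc b
    (fun i => ⟨b i, hbS i⟩) (fun _ => rfl) hb1 hb2

end Build

section Ev

lemma mx_ev_mem {τ : Type*} (F : Filter τ) {A M : Type u} [CommRing A] [AddCommGroup M]
    [Module A M] (R : τ → Subring A) (hR : ∀ a : A, ∀ᶠ i in F, a ∈ R i) {H : Set M} {p : M}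
    (hp : p ∈ Submodule.span A H) : ∀ᶠ i in F, p ∈ Submodule.span (R i) H := by
  obtain ⟨C, hC⟩ := mx_ev_span hp
  have h1 : ∀ᶠ i in F, ∀ c ∈ C, c ∈ R i :=
    (Filter.eventually_all_finset C).mpr fun c _ => hR c
  filter_upwards [h1] with i hi
  exact hC (R i) fun c hc => ⟨⟨c, hi c hc⟩, rfl⟩

lemma mx_ev_pow {τ : Type*} (F : Filter τ) {A : Type u} [CommRing A]
    (R : τ → Subring A) (hR : ∀ a : A, ∀ᶠ i in F, a ∈ R i) {G H : Set A} (hG : G.Finite) (n : ℕ)
    (h : Ideal.span G ^ n ≤ Ideal.span H) :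
    ∀ᶠ i in F, ∀ p ∈ G ^ n, p ∈ Submodule.span (R i) H := by
  rw [mx_span_pow, Ideal.span_le] at h
  have h2 : (G ^ n).Finite := by
    clear h
    induction n with
    | zero =>
      rw [pow_zero]
      exact Set.finite_singleton 1
    | succ n ih =>
      rw [pow_succ]
      exact ih.mul hG
  exact h2.eventually_all.mpr fun p hp => mx_ev_mem F R hR (h hp)

variable {K : Type u} [Field K] {d : ℕ} {E S : Type u} [CommRing E] [CommRing S]
  [Algebra (MvPowerSeries (Fin d) K) E] [Algebra E S]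

/-- the ring `E_B`. -/
noncomputable def mxE (W : Set E) (T : Finset (MvPowerSeries (Fin d) K)) : Subring E :=
  (Algebra.adjoin (mxB T) W).toSubring

/-- the ring `S_B`. -/
noncomputable def mxS (V : Set S) (R : Subring E) : Subring S :=
  (Algebra.adjoin R V).toSubring

lemma mx_ev_B (x : MvPowerSeries (Fin d) K) :
    ∀ᶠ T : Finset (MvPowerSeries (Fin d) K) in atTop, x ∈ mxB T := by
  filter_upwards [eventually_ge_atTop {x}] with T hT
  exact Subring.subset_closure (Finset.mem_coe.mpr (hT (Finset.mem_singleton_self x)))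

lemma mxE_base (W : Set E) (T : Finset (MvPowerSeries (Fin d) K)) (b : mxB T) :
    mxa E (b : MvPowerSeries (Fin d) K) ∈ mxE W T :=
  (Algebra.adjoin (mxB T) W).algebraMap_mem b

lemma mxE_sub (W : Set E) (T : Finset (MvPowerSeries (Fin d) K)) {x : E} (hx : x ∈ W) :
    x ∈ mxE W T := Algebra.subset_adjoin hx

lemma mxE_of_span (W : Set E) (T : Finset (MvPowerSeries (Fin d) K)) {x : E}
    (hx : x ∈ Submodule.span (mxB T) W) : x ∈ mxE W T := by
  have h : Submodule.span (mxB T) W ≤ Subalgebra.toSubmodule (Algebra.adjoin (mxB T) W) :=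
    Submodule.span_le.mpr Algebra.subset_adjoin
  exact h hx

lemma mxS_base (V : Set S) (R : Subring E) (z : R) : algebraMap E S (z : E) ∈ mxS V R :=
  (Algebra.adjoin R V).algebraMap_mem z

lemma mxS_of_span (V : Set S) (R : Subring E) {x : S}
    (hx : x ∈ Submodule.span R V) : x ∈ mxS V R := by
  have h : Submodule.span R V ≤ Subalgebra.toSubmodule (Algebra.adjoin R V) :=
    Submodule.span_le.mpr Algebra.subset_adjoin
  exact h hx

lemma mx_ev_E {W : Set E} (hW : Submodule.span (MvPowerSeries (Fin d) K) W = ⊤) (z : E) :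
    ∀ᶠ T : Finset (MvPowerSeries (Fin d) K) in atTop, z ∈ Submodule.span (mxB T) W :=
  mx_ev_mem atTop (fun T => mxB T) mx_ev_B (by rw [hW]; exact Submodule.mem_top)

lemma mx_ev_E' {W : Set E} (hW : Submodule.span (MvPowerSeries (Fin d) K) W = ⊤) (z : E) :
    ∀ᶠ T : Finset (MvPowerSeries (Fin d) K) in atTop, z ∈ mxE W T :=
  (mx_ev_E hW z).mono fun T hT => mxE_of_span W T hT

lemma mx_ev_E_all {W : Set E} (hW : Submodule.span (MvPowerSeries (Fin d) K) W = ⊤)
    (hf : W.Finite) (h1 : (1 : E) ∈ W) :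
    ∀ᶠ T : Finset (MvPowerSeries (Fin d) K) in atTop,
      ∀ z ∈ mxE W T, z ∈ Submodule.span (mxB T) W := by
  have h2 : ∀ᶠ T : Finset (MvPowerSeries (Fin d) K) in atTop,
      ∀ x ∈ W, ∀ y ∈ W, x * y ∈ Submodule.span (mxB T) W :=
    hf.eventually_all.mpr fun x _ => hf.eventually_all.mpr fun y _ => mx_ev_E hW (x * y)
  filter_upwards [h2] with T hT z hz
  have h3 := mx_adjoin W (Submodule.subset_span h1) hT
  rw [← h3]
  exact hz

lemma mx_ev_S {W : Set E} (hW : Submodule.span (MvPowerSeries (Fin d) K) W = ⊤)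
    {V : Set S} (hV : Submodule.span E V = ⊤) (z : S) :
    ∀ᶠ T : Finset (MvPowerSeries (Fin d) K) in atTop, z ∈ Submodule.span (mxE W T) V :=
  mx_ev_mem atTop (fun T => mxE W T) (mx_ev_E' hW) (by rw [hV]; exact Submodule.mem_top)

lemma mx_ev_S' {W : Set E} (hW : Submodule.span (MvPowerSeries (Fin d) K) W = ⊤)
    {V : Set S} (hV : Submodule.span E V = ⊤) (z : S) :
    ∀ᶠ T : Finset (MvPowerSeries (Fin d) K) in atTop, z ∈ mxS V (mxE W T) :=
  (mx_ev_S hW hV z).mono fun _ hT => mxS_of_span V _ hT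

lemma mx_ev_S_all {W : Set E} (hW : Submodule.span (MvPowerSeries (Fin d) K) W = ⊤)
    {V : Set S} (hV : Submodule.span E V = ⊤) (hf : V.Finite) :
    ∀ᶠ T : Finset (MvPowerSeries (Fin d) K) in atTop,
      ∀ z ∈ mxS V (mxE W T), z ∈ Submodule.span (mxE W T) V := by
  have h2 : ∀ᶠ T : Finset (MvPowerSeries (Fin d) K) in atTop,
      ∀ x ∈ V, ∀ y ∈ V, x * y ∈ Submodule.span (mxE W T) V :=
    hf.eventually_all.mpr fun x _ => hf.eventually_all.mpr fun y _ => mx_ev_S hW hV (x * y)
  filter_upwards [h2, mx_ev_S hW hV 1] with T hT h1 z hz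
  have h3 := mx_adjoin V h1 hT
  rw [← h3]
  exact hz

end Ev

/-- D8: existence of the model. -/
theorem exists_model {K : Type u} [Field K] {d : ℕ}
    {E S : Type u} [CommRing E] [CommRing S] [Algebra (MvPowerSeries (Fin d) K) E]
    [Algebra E S] [Module.Finite (MvPowerSeries (Fin d) K) E]
    {t : ℕ} (v : Module.Basis (Fin t) E S)
    {r : ℕ} (e : Fin r → E) (he : LinearIndependent (MvPowerSeries (Fin d) K) e)
    (J : Ideal E) (hJ : ∀ z : E, ∃ a : K, z - algebraMap (MvPowerSeries (Fin d) K) E (C a) ∈ J)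
    (hJ1 : (1 : E) ∉ J) (hJx : ∀ i, algebraMap (MvPowerSeries (Fin d) K) E (X i) ∈ J)
    {s : ℕ} (hJs : J ^ (s + 1) ≤
      Ideal.span (Set.range fun i => algebraMap (MvPowerSeries (Fin d) K) E (X i)) * J ^ s)
    (n : Ideal S) (hn : ∀ z : S, ∃ a : K,
      z - algebraMap E S (algebraMap (MvPowerSeries (Fin d) K) E (C a)) ∈ n)
    (hn1 : (1 : S) ∉ n) (hJn : J.map (algebraMap E S) ≤ n)
    {M : ℕ} (hnM : n ^ M ≤
      Ideal.span (Set.range fun i => algebraMap E S
        (algebraMap (MvPowerSeries (Fin d) K) E (X i))))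
    (y : Fin d → S) (hy : ∀ i, y i ∈ n) {j c : ℕ}
    (hc : Ideal.span (Set.range fun i => algebraMap E S
        (algebraMap (MvPowerSeries (Fin d) K) E (X i))) ^ c ≤
      Ideal.span (Set.range y) ^ j)
    {l : ℕ} (b : Fin l → S)
    (hb : ∀ z : S, ∃ a : Fin l → K,
      z - ∑ q, algebraMap E S (algebraMap (MvPowerSeries (Fin d) K) E (C (a q))) * b q ∈
        Ideal.span (Set.range y) ^ j) :
    Nonempty (Model K d r j c l) := by
  classical
  -- the augmentations
  obtain ⟨ε, hεJ, hεC, hεJ'⟩ := mx_eps ((algebraMap (MvPowerSeries (Fin d) K) E).comp C) J hJ hJ1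
  obtain ⟨εS, hεn, hεSC, hεn'⟩ := mx_eps ((algebraMap E S).comp
    ((algebraMap (MvPowerSeries (Fin d) K) E).comp C)) n hn hn1
  have hdec : ∀ b : MvPowerSeries (Fin d) K, mxa E (b - C (constantCoeff b)) ∈
      Ideal.span (Set.range fun i => mxa E (X i : MvPowerSeries (Fin d) K)) := by
    intro b
    have h1 := fgc_mem_span_X (b - C (constantCoeff b)) (by
      rw [map_sub, constantCoeff_C, sub_self])
    have h2 := Ideal.mem_map_of_mem (algebraMap (MvPowerSeries (Fin d) K) E) h1
    rw [Ideal.map_span, ← Set.range_comp] at h2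
    exact h2
  have hXJ : Ideal.span (Set.range fun i => mxa E (X i : MvPowerSeries (Fin d) K)) ≤ J := by
    rw [Ideal.span_le]
    rintro _ ⟨i, rfl⟩
    exact hJx i
  have hε : ∀ b : MvPowerSeries (Fin d) K, ε (mxa E b) = constantCoeff b := by
    intro b
    have h1 := hεJ _ (hXJ (hdec b))
    rw [mxa, map_sub, map_sub, sub_eq_zero] at h1
    exact h1.trans (hεC _)
  have hεS : ∀ z : E, εS (algebraMap E S z) = ε z := by
    intro z
    obtain ⟨a, ha⟩ := hJ z
    have h1 := hεJ _ ha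
    have h2 := hεn _ (hJn (Ideal.mem_map_of_mem _ ha))
    rw [map_sub, map_sub, sub_eq_zero] at h2
    rw [map_sub, sub_eq_zero] at h1
    rw [h1, h2]
    exact (hεSC a).trans (hεC a).symm
  -- generators of `E`
  obtain ⟨g, w0, hw0⟩ := Module.Finite.exists_fin (R := MvPowerSeries (Fin d) K) (M := E)
  let w : Fin g → E := fun i => w0 i - mxa E (C (ε (w0 i)) : MvPowerSeries (Fin d) K)
  have hεw : ∀ i, ε (w i) = 0 := by
    intro i
    change ε (w0 i - mxa E (C (ε (w0 i)) : MvPowerSeries (Fin d) K)) = 0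
    rw [map_sub, hε, constantCoeff_C, sub_self]
  have hW : Submodule.span (MvPowerSeries (Fin d) K) (insert 1 (Set.range w)) = ⊤ := by
    rw [eq_top_iff, ← hw0, Submodule.span_le]
    rintro _ ⟨i, rfl⟩
    have h1 : w0 i = w i + (C (ε (w0 i)) : MvPowerSeries (Fin d) K) • (1 : E) := by
      rw [Algebra.smul_def, mul_one]
      exact (sub_add_cancel _ _).symm
    rw [h1]
    exact Submodule.add_mem _ (Submodule.subset_span (Set.mem_insert_of_mem _ ⟨i, rfl⟩))
      (Submodule.smul_mem _ _ (Submodule.subset_span (Set.mem_insert _ _)))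
  -- the ideal `J`
  set xE : Fin d → E := fun i => mxa E (X i : MvPowerSeries (Fin d) K) with hxEdef
  set GE : Set E := Set.range xE ∪ Set.range w with hGEdef
  have hxG : Ideal.span (Set.range xE) ≤ Ideal.span GE := Ideal.span_mono Set.subset_union_left
  have hdecJ : ∀ z : E, ∃ a : K, z - ((algebraMap (MvPowerSeries (Fin d) K) E).comp C) a ∈
      Ideal.span GE := by
    intro z
    have hz : z ∈ Submodule.span (MvPowerSeries (Fin d) K) (insert 1 (Set.range w)) := by
      rw [hW]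
      exact Submodule.mem_top
    induction hz using Submodule.span_induction with
    | mem x hx =>
      rcases hx with rfl | ⟨i, rfl⟩
      · exact ⟨1, by rw [map_one, sub_self]; exact Ideal.zero_mem _⟩
      · exact ⟨0, by rw [map_zero, sub_zero]; exact Ideal.subset_span (Or.inr ⟨i, rfl⟩)⟩
    | zero => exact ⟨0, by rw [map_zero, sub_zero]; exact Ideal.zero_mem _⟩
    | add x y _ _ h1 h2 =>
      obtain ⟨b1, h1⟩ := h1
      obtain ⟨b2, h2⟩ := h2
      refine ⟨b1 + b2, ?_⟩
      rw [map_add, add_sub_add_comm]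
      exact Ideal.add_mem _ h1 h2
    | smul a x _ h1 =>
      obtain ⟨b1, h1⟩ := h1
      refine ⟨constantCoeff a * b1, ?_⟩
      have h3 : a • x - ((algebraMap (MvPowerSeries (Fin d) K) E).comp C)
          (constantCoeff a * b1) =
          mxa E a * (x - ((algebraMap (MvPowerSeries (Fin d) K) E).comp C) b1) +
          ((algebraMap (MvPowerSeries (Fin d) K) E).comp C) b1 *
            mxa E (a - C (constantCoeff a)) := by
        rw [Algebra.smul_def, map_mul, mxa, mxa, map_sub, RingHom.comp_apply, RingHom.comp_apply]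
        ring
      rw [h3]
      exact Ideal.add_mem _ (Ideal.mul_mem_left _ _ h1)
        (Ideal.mul_mem_left _ _ (hxG (hdec a)))
  have hGε : ∀ x ∈ GE, ε x = 0 := by
    rintro _ (⟨i, rfl⟩ | ⟨i, rfl⟩)
    · exact (hε _).trans (constantCoeff_X i)
    · exact hεw i
  have hJG : J = Ideal.span GE := mx_eq_span _ J ε hεJ hεC hεJ' GE hGε hdecJ
  -- the ideal `n`
  set xS : Fin d → S := fun i => mxb E S (X i : MvPowerSeries (Fin d) K) with hxSdef
  set NS : Set S := (Set.range xS) ∪ (Set.range fun i => algebraMap E S (w i)) ∪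
    (Set.range fun i => v i - mxb E S (C (εS (v i)) : MvPowerSeries (Fin d) K)) with hNSdef
  have hGN : ∀ z ∈ Ideal.span GE, algebraMap E S z ∈ Ideal.span NS := by
    intro z hz
    have h1 := Ideal.mem_map_of_mem (algebraMap E S) hz
    rw [Ideal.map_span] at h1
    refine Ideal.span_mono ?_ h1
    rintro _ ⟨z, ⟨i, rfl⟩ | ⟨i, rfl⟩, rfl⟩
    · exact Or.inl (Or.inl ⟨i, rfl⟩)
    · exact Or.inl (Or.inr ⟨i, rfl⟩)
  have hdecN : ∀ z : S, ∃ a : K, z - ((algebraMap E S).comp
      ((algebraMap (MvPowerSeries (Fin d) K) E).comp C)) a ∈ Ideal.span NS := by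
    intro z
    rw [← v.sum_repr z]
    refine Finset.sum_induction _ (fun z => ∃ a : K, z - ((algebraMap E S).comp
      ((algebraMap (MvPowerSeries (Fin d) K) E).comp C)) a ∈ Ideal.span NS) ?_ ?_ ?_
    · rintro z1 z2 ⟨a1, h1⟩ ⟨a2, h2⟩
      refine ⟨a1 + a2, ?_⟩
      rw [map_add, add_sub_add_comm]
      exact Ideal.add_mem _ h1 h2
    · exact ⟨0, by rw [map_zero, sub_zero]; exact Ideal.zero_mem _⟩
    · intro i _
      obtain ⟨a, ha⟩ := hdecJ (v.repr z i)
      refine ⟨a * εS (v i), ?_⟩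
      have h3 : v.repr z i • v i - ((algebraMap E S).comp
          ((algebraMap (MvPowerSeries (Fin d) K) E).comp C)) (a * εS (v i)) =
          v i * algebraMap E S (v.repr z i -
            ((algebraMap (MvPowerSeries (Fin d) K) E).comp C) a) +
          ((algebraMap E S).comp ((algebraMap (MvPowerSeries (Fin d) K) E).comp C)) a *
            (v i - mxb E S (C (εS (v i)) : MvPowerSeries (Fin d) K)) := by
        rw [Algebra.smul_def, map_mul, map_sub, mxb]
        simp only [RingHom.comp_apply]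
        ring
      rw [h3]
      exact Ideal.add_mem _ (Ideal.mul_mem_left _ _ (hGN _ ha))
        (Ideal.mul_mem_left _ _ (Ideal.subset_span (Or.inr ⟨i, rfl⟩)))
  have hNε : ∀ x ∈ NS, εS x = 0 := by
    rintro _ ((⟨i, rfl⟩ | ⟨i, rfl⟩) | ⟨i, rfl⟩)
    · exact (hεS _).trans ((hε _).trans (constantCoeff_X i))
    · exact (hεS _).trans (hεw i)
    · change εS (v i - mxb E S (C (εS (v i)) : MvPowerSeries (Fin d) K)) = 0
      rw [map_sub, hεS, hε, constantCoeff_C, sub_self]
  have hnN : n = Ideal.span NS := mx_eq_span _ n εS hεn hεSC hεn' NS hNε hdecN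
  -- finiteness
  have hWfin : (insert 1 (Set.range w) : Set E).Finite := (Set.finite_range w).insert 1
  have hGfin : GE.Finite := (Set.finite_range xE).union (Set.finite_range w)
  have hNfin : NS.Finite := ((Set.finite_range xS).union (Set.finite_range _)).union
    (Set.finite_range _)
  have hV : Submodule.span E (Set.range v) = ⊤ := v.span_eq
  have hES' := mx_ev_E' hW
  have hSS' := mx_ev_S' hW hV
  have hX : ∀ᶠ T : Finset (MvPowerSeries (Fin d) K) in atTop,
      ∀ i, (X i : MvPowerSeries (Fin d) K) ∈ mxB T := Filter.eventually_all.mpr fun i => mx_ev_B _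
  have he' : ∀ᶠ T : Finset (MvPowerSeries (Fin d) K) in atTop,
      ∀ i, e i ∈ mxE (insert 1 (Set.range w)) T := Filter.eventually_all.mpr fun i => hES' _
  have hJs' : Ideal.span GE ^ (s + 1) ≤ Ideal.span (Set.range xE * GE ^ s) := by
    rw [← Ideal.span_mul_span', ← mx_span_pow, ← hJG]
    exact hJs
  have hJs'' := mx_ev_pow atTop (fun T : Finset (MvPowerSeries (Fin d) K) =>
    mxE (insert 1 (Set.range w)) T) hES' hGfin (s + 1) hJs'
  have hκ : ∀ᶠ T : Finset (MvPowerSeries (Fin d) K) in atTop,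
      ∀ i, (C (εS (v i)) : MvPowerSeries (Fin d) K) ∈ mxB T :=
    Filter.eventually_all.mpr fun i => mx_ev_B _
  have hnM' := mx_ev_pow atTop (fun T : Finset (MvPowerSeries (Fin d) K) =>
    mxS (Set.range v) (mxE (insert 1 (Set.range w)) T)) hSS' hNfin M (H := Set.range xS)
    (by rw [← hnN]; exact hnM)
  have hyS : ∀ᶠ T : Finset (MvPowerSeries (Fin d) K) in atTop,
      ∀ i, y i ∈ mxS (Set.range v) (mxE (insert 1 (Set.range w)) T) :=
    Filter.eventually_all.mpr fun i => hSS' _
  have hyN : ∀ᶠ T : Finset (MvPowerSeries (Fin d) K) in atTop,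
      ∀ i, y i ∈ Submodule.span (mxS (Set.range v) (mxE (insert 1 (Set.range w)) T)) NS :=
    Filter.eventually_all.mpr fun i => mx_ev_mem atTop
      (fun T : Finset (MvPowerSeries (Fin d) K) =>
        mxS (Set.range v) (mxE (insert 1 (Set.range w)) T)) hSS'
      (by
        have h1 := hy i
        rw [hnN] at h1
        exact h1)
  have hyj : Ideal.span (Set.range y) ^ j = Submodule.span S (Set.range y ^ j) :=
    mx_span_pow _ _
  have hc' := mx_ev_pow atTop (fun T : Finset (MvPowerSeries (Fin d) K) =>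
    mxS (Set.range v) (mxE (insert 1 (Set.range w)) T)) hSS' (Set.finite_range xS) c
    (H := Set.range y ^ j) (by rw [← mx_span_pow]; exact hc)
  have hbS : ∀ᶠ T : Finset (MvPowerSeries (Fin d) K) in atTop,
      ∀ i, b i ∈ mxS (Set.range v) (mxE (insert 1 (Set.range w)) T) :=
    Filter.eventually_all.mpr fun i => hSS' _
  have hbz : ∀ z : S, ∀ᶠ T : Finset (MvPowerSeries (Fin d) K) in atTop, ∃ a : Fin l → K,
      (∀ q, (C (a q) : MvPowerSeries (Fin d) K) ∈ mxB T) ∧
      z - ∑ q, mxb E S (C (a q) : MvPowerSeries (Fin d) K) * b q ∈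
        Submodule.span (mxS (Set.range v) (mxE (insert 1 (Set.range w)) T))
          ((Set.range y) ^ j) := by
    intro z
    obtain ⟨a, ha⟩ := hb z
    have h1 : ∀ᶠ T : Finset (MvPowerSeries (Fin d) K) in atTop,
        ∀ q, (C (a q) : MvPowerSeries (Fin d) K) ∈ mxB T :=
      Filter.eventually_all.mpr fun i => mx_ev_B _
    rw [hyj] at ha
    filter_upwards [h1, mx_ev_mem atTop (fun T : Finset (MvPowerSeries (Fin d) K) =>
        mxS (Set.range v) (mxE (insert 1 (Set.range w)) T)) hSS' ha] with T hT1 hT2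
    exact ⟨a, hT1, hT2⟩
  have hb1 := hWfin.eventually_all.mpr fun x _ => Filter.eventually_all.mpr fun i : Fin t =>
    hbz (algebraMap E S x * v i)
  have hb2 := Filter.eventually_all.mpr fun i : Fin d => Filter.eventually_all.mpr
    fun q : Fin l => hbz (mxb E S (X i : MvPowerSeries (Fin d) K) * b q)
  obtain ⟨T, hT⟩ := (hX.and (he'.and (hJs''.and (hκ.and (hnM'.and (hyS.and (hyN.and (hc'.and
    (hbS.and (hb1.and (hb2.and ((mx_ev_E_all hW hWfin (Set.mem_insert _ _)).and
      ((mx_ev_S_all hW hV (Set.finite_range v))))))))))))))).exists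
  obtain ⟨a1, a2, a3, a4, a5, a6, a7, a8, a9, a10, a11, a12, a13⟩ := hT
  exact mx_build T a1 (mxE (insert 1 (Set.range w)) T)
    (mxS (Set.range v) (mxE (insert 1 (Set.range w)) T)) (mxE_base _ T) (mxS_base _ _) w
    (fun i => mxE_sub _ T (Set.mem_insert_of_mem _ ⟨i, rfl⟩)) a12 v
    (fun i => mxS_of_span _ _ (Submodule.subset_span ⟨i, rfl⟩)) a13 e he a2 ε hε hεw a3
    εS hεS a4 a5 y a6 a7 a8 b a9 a10 a11

end Vale.Agent.P202.CZ
end
namespace AFast5a6b4bx946a
@[reducible] noncomputable def a0.{u1} {x1 : ℕ} {x2 : Type u1} [x3 : Field x2] {x4 : Finset (MvPowerSeries (Fin x1) x2)} {x5 : Type u1} [x6 : CommRing x5] [x7 : Algebra (MvPowerSeries (Fin x1) x2) x5] : Module (↥(Vale.Agent.P202.CZ.mxB x4)) x5 := inferInstance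
@[reducible] noncomputable def a1.{u1} {x1 : ℕ} {x2 : Type u1} [x3 : Field x2] {x4 : Finset (MvPowerSeries (Fin x1) x2)} : Semiring ↥(Vale.Agent.P202.CZ.mxB x4) := inferInstance
@[reducible] noncomputable def a2.{u1} {x1 : ℕ} {x2 : Type u1} [x3 : Field x2] {x4 : Finset (MvPowerSeries (Fin x1) x2)} : CommSemiring ↥(Vale.Agent.P202.CZ.mxB x4) := inferInstance
@[reducible] noncomputable def a3.{u1} {x1 : ℕ} {x2 : Type u1} [x3 : Field x2] {x4 : Finset (MvPowerSeries (Fin x1) x2)} {x5 : Type u1} [x6 : CommRing x5] [x7 : Algebra (MvPowerSeries (Fin x1) x2) x5] : Algebra (↥(Vale.Agent.P202.CZ.mxB x4)) x5 := inferInstance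
@[reducible] noncomputable def a4.{u1} {x1 : Type u1} [x2 : CommRing x1] {x3 : Type u1} [x4 : Field x3] {x5 : ℕ} [x6 : Algebra (MvPowerSeries (Fin x5) x3) x1] {x7 : Set x1} {x8 : Finset (MvPowerSeries (Fin x5) x3)} {x9 : Type u1} [x10 : CommRing x9] [x11 : Algebra x1 x9] : Module (↥(Vale.Agent.P202.CZ.mxE x7 x8)) x9 := inferInstance
@[reducible] noncomputable def a5.{u1} {x1 : ℕ} {x2 : Type u1} [x3 : Field x2] {x4 : Finset (MvPowerSeries (Fin x1) x2)} : NonAssocSemiring ↥(Vale.Agent.P202.CZ.mxB x4) := inferInstance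
@[reducible] noncomputable def a6.{u1} {x1 : ℕ} {x2 : Type u1} [x3 : Field x2] {x4 : Finset (MvPowerSeries (Fin x1) x2)} : Monoid ↥(Vale.Agent.P202.CZ.mxB x4) := inferInstance
@[reducible] noncomputable def a7.{u1} {x1 : Type u1} [x2 : CommRing x1] {x3 : Type u1} [x4 : Field x3] {x5 : ℕ} [x6 : Algebra (MvPowerSeries (Fin x5) x3) x1] {x7 : Set x1} {x8 : Finset (MvPowerSeries (Fin x5) x3)} : Semiring ↥(Vale.Agent.P202.CZ.mxE x7 x8) := inferInstance
@[reducible] noncomputable def a8.{u1} {x1 : Type u1} [x2 : CommRing x1] {x3 : Type u1} [x4 : Field x3] {x5 : ℕ} [x6 : Algebra (MvPowerSeries (Fin x5) x3) x1] {x7 : Set x1} {x8 : Finset (MvPowerSeries (Fin x5) x3)} {x9 : Type u1} [x10 : CommRing x9] [x11 : Algebra x1 x9] : Algebra (↥(Vale.Agent.P202.CZ.mxE x7 x8)) x9 := inferInstance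
end AFast5a6b4bx946a
attribute [local instance] AFast5a6b4bx946a.a0 AFast5a6b4bx946a.a1 AFast5a6b4bx946a.a2
  AFast5a6b4bx946a.a3 AFast5a6b4bx946a.a4 AFast5a6b4bx946a.a5 AFast5a6b4bx946a.a6
  AFast5a6b4bx946a.a7 AFast5a6b4bx946a.a8
namespace AFast5a6b4bx946b
@[reducible] noncomputable def a0.{u1} {x1 : ℕ} {x2 : Type u1} [x3 : Field x2] {x4 : Finset (MvPowerSeries (Fin x1) x2)} {x5 : Type u1} [x6 : CommRing x5] [x7 : Algebra (↥(Vale.Agent.P202.CZ.mxB x4)) x5] : SMulZeroClass (↥(Vale.Agent.P202.CZ.mxB x4)) x5 := inferInstance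
@[reducible] noncomputable def a1.{u1} {x1 : ℕ} {x2 : Type u1} [x3 : Field x2] {x4 : Finset (MvPowerSeries (Fin x1) x2)} {x5 : Type u1} [x6 : CommRing x5] [x7 : Algebra (↥(Vale.Agent.P202.CZ.mxB x4)) x5] : DistribSMul (↥(Vale.Agent.P202.CZ.mxB x4)) x5 := inferInstance
@[reducible] noncomputable def a2.{u1} {x1 : ℕ} {x2 : Type u1} [x3 : Field x2] {x4 : Finset (MvPowerSeries (Fin x1) x2)} {x5 : Type u1} [x6 : CommRing x5] [x7 : Algebra (↥(Vale.Agent.P202.CZ.mxB x4)) x5] : DistribMulAction (↥(Vale.Agent.P202.CZ.mxB x4)) x5 := inferInstance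
end AFast5a6b4bx946b
attribute [local instance] AFast5a6b4bx946b.a0 AFast5a6b4bx946b.a1 AFast5a6b4bx946b.a2

section

/-!
The Koszul identity, and regularity of pairs with finite length quotient.
-/

namespace Vale.Agent.P202

open IsLocalRing

/-- Powers of a regular pair form a regular pair. -/
lemma pow_regular_pair {S : Type*} [CommRing S] {N : Type*} [AddCommGroup N] [Module S N]
    (x1 x2 : S) (r1 : ∀ v : N, x1 • v = 0 → v = 0)
    (r2 : ∀ v w : N, x2 • v = x1 • w → ∃ u : N, v = x1 • u) (k : ℕ) :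
    (∀ v : N, x1 ^ k • v = 0 → v = 0) ∧
      ∀ (l : ℕ) (v w : N), x2 ^ l • v = x1 ^ k • w → ∃ u : N, v = x1 ^ k • u := by
  have h1 : ∀ (k : ℕ) (v : N), x1 ^ k • v = 0 → v = 0 := by
    intro k
    induction k with
    | zero => intro v h; simpa using h
    | succ k ih =>
      intro v h
      rw [pow_succ, mul_smul] at h
      exact r1 v (ih _ h)
  have h2 : ∀ (l : ℕ) (v w : N), x2 ^ l • v = x1 • w → ∃ u : N, v = x1 • u := by
    intro l
    induction l with
    | zero => intro v w h; exact ⟨w, by simpa using h⟩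
    | succ l ih =>
      intro v w h
      rw [pow_succ, mul_smul] at h
      obtain ⟨u, hu⟩ := ih _ w h
      exact r2 v u hu
  refine ⟨h1 k, ?_⟩
  intro l
  induction k with
  | zero => intro v w _; exact ⟨v, by simp⟩
  | succ k ih =>
    intro v w h
    obtain ⟨u, rfl⟩ := h2 l v (x1 ^ k • w) (by rw [h, pow_succ', mul_smul])
    have h' : x1 • (x2 ^ l • u - x1 ^ k • w) = 0 := by
      rw [smul_sub, smul_comm x1 (x2 ^ l) u, h, pow_succ', mul_smul, sub_self]
    obtain ⟨u', rfl⟩ := ih u w (sub_eq_zero.mp (r1 _ h'))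
    exact ⟨u', by rw [pow_succ', mul_smul]⟩

/-- A power of the maximal ideal lies in `(y1, y2) + ann N` when `N / (y1, y2) N` has finite
length. -/
lemma exists_pow_le_of_length {S : Type*} [CommRing S] [IsLocalRing S] [IsNoetherianRing S]
    {N : Type*} [AddCommGroup N] [Module S N] [Module.Finite S N] (I : Ideal S)
    (hfin : Module.length S (N ⧸ (I • (⊤ : Submodule S N))) ≠ ⊤) :
    ∃ K : ℕ, maximalIdeal S ^ K ≤ I ⊔ Module.annihilator S N := by
  have hL : IsFiniteLength S (N ⧸ (I • (⊤ : Submodule S N))) := Module.length_ne_top_iff.mp hfin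
  obtain ⟨hNo, hAr⟩ := isFiniteLength_iff_isNoetherian_isArtinian.mp hL
  -- a power of the maximal ideal kills the quotient
  obtain ⟨k, hk⟩ : ∃ k : ℕ, maximalIdeal S ^ k • (⊤ : Submodule S (N ⧸ (I • (⊤ : Submodule S N))))
      = ⊥ := by
    let f : ℕ →o (Submodule S (N ⧸ (I • (⊤ : Submodule S N))))ᵒᵈ :=
      ⟨fun k => OrderDual.toDual (maximalIdeal S ^ k • ⊤), fun a b hab =>
        Submodule.smul_mono_left (Ideal.pow_le_pow_right hab)⟩
    obtain ⟨k, hk⟩ := IsArtinian.monotone_stabilizes f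
    refine ⟨k, ?_⟩
    have h1 : maximalIdeal S ^ k • (⊤ : Submodule S (N ⧸ (I • (⊤ : Submodule S N))))
        = maximalIdeal S ^ (k + 1) • ⊤ := hk (k + 1) (Nat.le_succ k)
    refine Submodule.eq_bot_of_le_smul_of_le_jacobson_bot (maximalIdeal S) _
      (IsNoetherian.noetherian _) ?_ (IsLocalRing.maximalIdeal_le_jacobson _)
    rw [← mul_smul, ← pow_succ']
    exact h1.le
  have hann : maximalIdeal S ^ k ≤ Module.annihilator S (N ⧸ (I • (⊤ : Submodule S N))) := by
    intro a ha
    rw [Module.mem_annihilator]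
    intro m
    have : a • m ∈ maximalIdeal S ^ k • (⊤ : Submodule S (N ⧸ (I • (⊤ : Submodule S N)))) :=
      Submodule.smul_mem_smul ha trivial
    rw [hk] at this
    exact (Submodule.mem_bot S).mp this
  have hrad : maximalIdeal S ≤ (I ⊔ Module.annihilator S N).radical := by
    rw [Ideal.radical_eq_sInf]
    refine le_sInf ?_
    rintro P ⟨hP, hPp⟩
    have hs : (⟨P, hPp⟩ : PrimeSpectrum S) ∈ Module.support S (N ⧸ (I • (⊤ : Submodule S N))) := by
      rw [Module.support_quotient]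
      refine ⟨?_, ?_⟩
      · rw [Module.support_eq_zeroLocus, PrimeSpectrum.mem_zeroLocus]
        exact (le_sup_right.trans hP : Module.annihilator S N ≤ P)
      · rw [PrimeSpectrum.mem_zeroLocus]
        exact (le_sup_left.trans hP : I ≤ P)
    have := hann.trans (Module.annihilator_le_of_mem_support hs)
    exact hPp.le_of_pow_le this
  exact Ideal.exists_pow_le_of_le_radical_of_fg hrad (IsNoetherian.noetherian _)

/-- TASK F2: in a module of depth two over a local ring, any pair with finite length quotient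
is regular. -/
theorem regular_of_finite_length {S : Type*} [CommRing S] [IsLocalRing S] [IsNoetherianRing S]
    {N : Type*} [AddCommGroup N] [Module S N] [Module.Finite S N]
    (x1 x2 : S) (hx1 : x1 ∈ maximalIdeal S) (hx2 : x2 ∈ maximalIdeal S)
    (r1 : ∀ v : N, x1 • v = 0 → v = 0)
    (r2 : ∀ v w : N, x2 • v = x1 • w → ∃ u : N, v = x1 • u)
    (y1 y2 : S) (hy1 : y1 ∈ maximalIdeal S) (hy2 : y2 ∈ maximalIdeal S)
    (hfin : Module.length S (N ⧸ (Ideal.span {y1, y2} • (⊤ : Submodule S N))) ≠ ⊤) :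
    (∀ v : N, y1 • v = 0 → v = 0) ∧
      (∀ v w : N, y2 • v = y1 • w → ∃ u : N, v = y1 • u) := by
  obtain ⟨K, hK⟩ := exists_pow_le_of_length (Ideal.span {y1, y2}) hfin
  obtain ⟨p1, p2⟩ := pow_regular_pair x1 x2 r1 r2 K
  have key : ∀ a ∈ maximalIdeal S ^ K, ∃ s t : S, ∀ v : N, a • v = s • y1 • v + t • y2 • v := by
    intro a ha
    obtain ⟨b, hb, c, hc, rfl⟩ := Submodule.mem_sup.mp (hK ha)
    obtain ⟨s, t, rfl⟩ := Ideal.mem_span_pair.mp hb
    refine ⟨s, t, fun v => ?_⟩
    rw [add_smul, Module.mem_annihilator.mp hc v, add_zero, add_smul, mul_smul, mul_smul]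
  obtain ⟨s1, t1, k1⟩ := key (x1 ^ K) (Ideal.pow_mem_pow hx1 K)
  obtain ⟨s2, t2, k2⟩ := key (x2 ^ K) (Ideal.pow_mem_pow hx2 K)
  -- second Koszul homology vanishes
  have H2 : ∀ v : N, y1 • v = 0 → y2 • v = 0 → v = 0 := by
    intro v h1 h2
    apply p1
    rw [k1, h1, h2, smul_zero, smul_zero, add_zero]
  -- first Koszul homology vanishes
  have H1 : ∀ a b : N, y1 • a + y2 • b = 0 → ∃ u : N, a = -(y2 • u) ∧ b = y1 • u := by
    intro a b hab
    have hab1 : y1 • a = -(y2 • b) := eq_neg_of_add_eq_zero_left hab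
    have hab2 : y2 • b = -(y1 • a) := by rw [hab1, neg_neg]
    -- for each `c` with `c = s y1 + t y2` on `N`, `c • (a, b) = d (s b - t a)`
    have step : ∀ c s t : S, (∀ v : N, c • v = s • y1 • v + t • y2 • v) →
        c • a = -(y2 • (s • b - t • a)) ∧ c • b = y1 • (s • b - t • a) := by
      intro c s t h
      constructor
      · rw [h a, hab1, smul_sub, smul_comm y2 s b, smul_comm y2 t a, smul_neg]
        abel
      · rw [h b, hab2, smul_sub, smul_comm y1 s b, smul_comm y1 t a, smul_neg]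
        abel
    obtain ⟨e1, f1⟩ := step (x1 ^ K) s1 t1 k1
    obtain ⟨e2, f2⟩ := step (x2 ^ K) s2 t2 k2
    set v1 := s1 • b - t1 • a with hv1
    set v2 := s2 • b - t2 • a with hv2
    have hz : x2 ^ K • v1 - x1 ^ K • v2 = 0 := by
      apply H2
      · rw [smul_sub, smul_comm y1 (x2 ^ K) v1, smul_comm y1 (x1 ^ K) v2, ← f1, ← f2,
          smul_comm, sub_self]
      · rw [smul_sub, smul_comm y2 (x2 ^ K) v1, smul_comm y2 (x1 ^ K) v2,
          neg_eq_iff_eq_neg.mp e1.symm, neg_eq_iff_eq_neg.mp e2.symm, smul_neg, smul_neg,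
          smul_comm (x2 ^ K) (x1 ^ K) a, sub_self]
    obtain ⟨u, hu⟩ := p2 K v1 v2 (sub_eq_zero.mp hz)
    refine ⟨u, ?_, ?_⟩
    · have : x1 ^ K • (a + y2 • u) = 0 := by
        rw [smul_add, e1, hu, smul_comm y2 (x1 ^ K) u, neg_add_cancel]
      exact eq_neg_of_add_eq_zero_left (p1 _ this)
    · have : x1 ^ K • (b - y1 • u) = 0 := by
        rw [smul_sub, f1, hu, smul_comm y1 (x1 ^ K) u, sub_self]
      exact sub_eq_zero.mp (p1 _ this)
  refine ⟨?_, ?_⟩
  · -- Nakayama for the kernel of `y1`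
    let Kr : Submodule S N := LinearMap.ker (LinearMap.lsmul S N y1)
    have hKr : Kr ≤ maximalIdeal S • Kr := by
      intro v hv
      have hv' : y1 • v = 0 := hv
      obtain ⟨u, hu1, hu2⟩ := H1 v 0 (by rw [hv', smul_zero, add_zero])
      rw [hu1]
      exact Submodule.neg_mem _ (Submodule.smul_mem_smul hy2 (hu2.symm : y1 • u = 0))
    have hbot : Kr = ⊥ := Submodule.eq_bot_of_le_smul_of_le_jacobson_bot (maximalIdeal S) _
      (IsNoetherian.noetherian _) hKr (IsLocalRing.maximalIdeal_le_jacobson _)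
    intro v hv
    have : v ∈ Kr := hv
    rw [hbot] at this
    exact (Submodule.mem_bot S).mp this
  · intro v w h
    obtain ⟨u, -, hu⟩ := H1 (-w) v (by rw [h, smul_neg, neg_add_cancel])
    exact ⟨u, hu⟩

section koszul
variable {A : Type*} [CommRing A] {V : Type*} [AddCommGroup V] [Module A V]

/-- relative length of a square. -/
lemma rl_prod_self (N W : Submodule A V) (h : N ≤ W) :
    rl (N.prod N) (W.prod W) = rl N W + rl N W := by
  have h1 : rl (N.prod N) (W.prod N) = rl N W := by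
    have e1 : W.prod N = N.prod N ⊔ W.map (LinearMap.inl A V V) := by
      ext ⟨a, b⟩
      simp only [Submodule.mem_prod, Submodule.mem_sup, Submodule.mem_map, Prod.exists,
        LinearMap.inl_apply]
      constructor
      · rintro ⟨ha, hb⟩
        exact ⟨0, b, ⟨N.zero_mem, hb⟩, a, 0, ⟨a, ha, rfl⟩, by simp⟩
      · rintro ⟨a', b', ⟨ha', hb'⟩, c, d, ⟨e, he, hed⟩, hsum⟩
        simp only [Prod.mk.injEq, Prod.mk_add_mk] at hed hsum
        obtain ⟨rfl, rfl⟩ := hed
        obtain ⟨rfl, rfl⟩ := hsum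
        exact ⟨W.add_mem (h ha') he, by simpa using hb'⟩
    have e2 : N.prod N ⊓ W.map (LinearMap.inl A V V) = N.map (LinearMap.inl A V V) := by
      ext ⟨a, b⟩
      simp only [Submodule.mem_prod, Submodule.mem_inf, Submodule.mem_map,
        LinearMap.inl_apply, Prod.mk.injEq]
      constructor
      · rintro ⟨⟨ha, hb⟩, c, hc, rfl, rfl⟩
        exact ⟨c, ha, rfl, rfl⟩
      · rintro ⟨c, hc, rfl, rfl⟩
        exact ⟨⟨hc, N.zero_mem⟩, c, h hc, rfl, rfl⟩
    rw [e1, rl_sup_right, ← rl_inf_left, e2, rl_map_of_injective _ LinearMap.inl_injective]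
  have h2 : rl (W.prod N) (W.prod W) = rl N W := by
    have e1 : W.prod W = W.prod N ⊔ W.map (LinearMap.inr A V V) := by
      ext ⟨a, b⟩
      simp only [Submodule.mem_prod, Submodule.mem_sup, Submodule.mem_map, Prod.exists,
        LinearMap.inr_apply]
      constructor
      · rintro ⟨ha, hb⟩
        exact ⟨a, 0, ⟨ha, N.zero_mem⟩, 0, b, ⟨b, hb, rfl⟩, by simp⟩
      · rintro ⟨a', b', ⟨ha', hb'⟩, c, d, ⟨e, he, hed⟩, hsum⟩
        simp only [Prod.mk.injEq, Prod.mk_add_mk] at hed hsum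
        obtain ⟨rfl, rfl⟩ := hed
        obtain ⟨rfl, rfl⟩ := hsum
        exact ⟨by simpa using ha', W.add_mem (h hb') he⟩
    have e2 : W.prod N ⊓ W.map (LinearMap.inr A V V) = N.map (LinearMap.inr A V V) := by
      ext ⟨a, b⟩
      simp only [Submodule.mem_prod, Submodule.mem_inf, Submodule.mem_map,
        LinearMap.inr_apply, Prod.mk.injEq]
      constructor
      · rintro ⟨⟨ha, hb⟩, c, hc, rfl, rfl⟩
        exact ⟨c, hb, rfl, rfl⟩
      · rintro ⟨c, hc, rfl, rfl⟩
        exact ⟨⟨W.zero_mem, hc⟩, c, h hc, rfl, rfl⟩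
    rw [e1, rl_sup_right, ← rl_inf_left, e2, rl_map_of_injective _ LinearMap.inr_injective]
  rw [rl_add (Submodule.prod_mono h le_rfl : N.prod N ≤ W.prod N)
    (Submodule.prod_mono le_rfl h : W.prod N ≤ W.prod W), h1, h2]

/-- TASK F1 (Koszul identity). -/
theorem koszul_identity
    (y1 y2 : V →ₗ[A] V) (hc : y1 ∘ₗ y2 = y2 ∘ₗ y1)
    (W N : Submodule A V) (hNW : N ≤ W) (hfin : rl N W ≠ ⊤)
    (hW1 : W.map y1 ≤ W) (hW2 : W.map y2 ≤ W) (hN1 : N.map y1 ≤ N) (hN2 : N.map y2 ≤ N)
    (r1 : ∀ v ∈ W, y1 v = 0 → v = 0)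
    (r2 : ∀ v ∈ W, ∀ w ∈ W, y2 v = y1 w → ∃ u ∈ W, v = y1 u)
    (_hfin2 : rl (W.map y1 ⊔ W.map y2) W ≠ ⊤) :
    rl (N.map y1 ⊔ N.map y2) N =
      rl (W.map y1 ⊔ W.map y2) W + rl N (W ⊓ N.comap y1 ⊓ N.comap y2) := by
  have hcc : ∀ v, y1 (y2 v) = y2 (y1 v) := fun v => LinearMap.congr_fun hc v
  set X : Submodule A V := W ⊓ N.comap y1 ⊓ N.comap y2 with hX
  let ψ : (V × V) →ₗ[A] V := y1.coprod y2
  let d : V →ₗ[A] (V × V) := (-y2).prod y1
  have hψ : ∀ a b, ψ (a, b) = y1 a + y2 b := fun a b => LinearMap.coprod_apply _ _ _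
  have hd : ∀ v, d v = (-(y2 v), y1 v) := fun v => rfl
  have hNX : N ≤ X := by
    intro v hv
    exact ⟨⟨hNW hv, hN1 (Submodule.mem_map_of_mem hv)⟩, hN2 (Submodule.mem_map_of_mem hv)⟩
  have hXW : X ≤ W := inf_le_left.trans inf_le_left
  have hWψ : (W.prod W).map ψ = W.map y1 ⊔ W.map y2 := LinearMap.map_coprod_prod y1 y2 W W
  have hNψ : (N.prod N).map ψ = N.map y1 ⊔ N.map y2 := LinearMap.map_coprod_prod y1 y2 N N
  have hN2W2 : N.prod N ≤ W.prod W := Submodule.prod_mono hNW hNW
  -- the kernel of `ψ` on `W × W`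
  have hker : LinearMap.ker ψ ⊓ W.prod W = W.map d := by
    ext ⟨a, b⟩
    simp only [Submodule.mem_inf, LinearMap.mem_ker, hψ, Submodule.mem_prod, Submodule.mem_map, hd,
      Prod.mk.injEq]
    constructor
    · rintro ⟨h, ha, hb⟩
      obtain ⟨u, hu, rfl⟩ := r2 b hb (-a) (W.neg_mem ha) (by
        rw [map_neg]; exact eq_neg_of_add_eq_zero_right h)
      refine ⟨u, hu, ?_, rfl⟩
      have : y1 (a + y2 u) = 0 := by rw [map_add, hcc, h]
      have hz := r1 _ (W.add_mem ha (hW2 (Submodule.mem_map_of_mem hu))) this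
      exact (eq_neg_of_add_eq_zero_left hz).symm
    · rintro ⟨u, hu, rfl, rfl⟩
      refine ⟨by rw [map_neg, hcc, neg_add_cancel], W.neg_mem (hW2 (Submodule.mem_map_of_mem hu)),
        hW1 (Submodule.mem_map_of_mem hu)⟩
  have hq : rl (N.map y1 ⊔ N.map y2) (W.map y1 ⊔ W.map y2) = rl (N.prod N ⊔ W.map d) (W.prod W) := by
    rw [← hWψ, ← hNψ, rl_map, ← rl_inf_left, ← hker, sup_inf_assoc_of_le _ hN2W2]
  have hWd : W.map d ≤ W.prod W := by rw [← hker]; exact inf_le_right
  have hinf : N.prod N ⊓ W.map d = X.map d := by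
    ext ⟨a, b⟩
    simp only [Submodule.mem_inf, Submodule.mem_prod, Submodule.mem_map, hd, Prod.mk.injEq, hX,
      Submodule.mem_comap]
    constructor
    · rintro ⟨⟨ha, hb⟩, u, hu, rfl, rfl⟩
      exact ⟨u, ⟨⟨hu, hb⟩, by simpa using ha⟩, rfl, rfl⟩
    · rintro ⟨u, ⟨⟨hu, hb⟩, ha⟩, rfl, rfl⟩
      exact ⟨⟨N.neg_mem ha, hb⟩, u, hu, rfl, rfl⟩
  have hz : rl (N.prod N) (W.map d) = rl X W := by
    rw [← rl_inf_left, hinf, rl_map, ← rl_inf_left, sup_inf_assoc_of_le _ hXW]
    have hbot : LinearMap.ker d ⊓ W = ⊥ := by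
      rw [eq_bot_iff]
      rintro v ⟨h, hv⟩
      have h' : d v = 0 := h
      rw [hd] at h'
      exact (Submodule.mem_bot A).mpr (r1 v hv (congrArg Prod.snd h'))
    rw [hbot, sup_bot_eq]
  have E1 : rl (N.map y1 ⊔ N.map y2) N + rl N W =
      rl (N.map y1 ⊔ N.map y2) (W.map y1 ⊔ W.map y2) + rl (W.map y1 ⊔ W.map y2) W := by
    rw [← rl_add (sup_le hN1 hN2) hNW, ← rl_add (sup_le_sup (Submodule.map_mono hNW)
      (Submodule.map_mono hNW)) (sup_le hW1 hW2)]
  have E2 : rl N W + rl N W =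
      rl X W + rl (N.map y1 ⊔ N.map y2) (W.map y1 ⊔ W.map y2) := by
    rw [← rl_prod_self N W hNW, rl_add (le_sup_left : N.prod N ≤ N.prod N ⊔ W.map d)
      (sup_le hN2W2 hWd), rl_sup_right, hz, hq]
  have E3 : rl N W = rl N X + rl X W := rl_add hNX hXW
  have hzt : rl X W ≠ ⊤ := by
    intro h
    rw [h, add_top] at E3
    exact hfin E3
  have E4 : rl (N.map y1 ⊔ N.map y2) (W.map y1 ⊔ W.map y2) = rl N W + rl N X := by
    have : rl X W + rl (N.map y1 ⊔ N.map y2) (W.map y1 ⊔ W.map y2) =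
        rl X W + (rl N W + rl N X) := by
      rw [← E2]
      nth_rewrite 2 [E3]
      ac_rfl
    exact ENat.add_right_injective_of_ne_top hzt this
  have E5 : rl N W + rl (N.map y1 ⊔ N.map y2) N = rl N W + (rl (W.map y1 ⊔ W.map y2) W + rl N X) := by
    rw [add_comm, E1, E4]
    ac_rfl
  exact ENat.add_right_injective_of_ne_top hfin E5

end koszul

end Vale.Agent.P202
end

section

/-!
A complete local domain of dimension two has an ideal which is a maximal Cohen-Macaulay module,
and a growth comparison for nonzero ideals of a domain.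
-/

set_option linter.unusedSectionVars false

namespace Vale.Agent.P202

open IsLocalRing

namespace Mcm

section chevalley

variable {D : Type*} [CommRing D] [IsLocalRing D] [IsNoetherianRing D]

/-- Chevalley's theorem: in a complete local ring a decreasing sequence of ideals with zero
intersection is eventually contained in every power of the maximal ideal. -/
lemma closed_of_forall (C : Ideal D) (L : D) (h : ∀ n, L ∈ C ⊔ maximalIdeal D ^ n) : L ∈ C := by
  have hk : (⨅ n : ℕ, maximalIdeal D ^ n • (⊤ : Submodule D (D ⧸ C))) = ⊥ := by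
    exact Ideal.iInf_pow_smul_eq_bot_of_isLocalRing _ (Ideal.IsPrime.ne_top inferInstance)
  have h1 : (Submodule.Quotient.mk L : D ⧸ C) ∈
      (⨅ n : ℕ, maximalIdeal D ^ n • (⊤ : Submodule D (D ⧸ C))) := by
    rw [Submodule.mem_iInf]
    intro n
    obtain ⟨c, hc, d, hd, hcd⟩ := Submodule.mem_sup.mp (h n)
    have h2 : (Submodule.Quotient.mk L : D ⧸ C) = d • (Submodule.Quotient.mk 1 : D ⧸ C) := by
      rw [← Submodule.Quotient.mk_smul, Submodule.Quotient.eq, ← hcd]
      simpa using hc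
    rw [h2]
    exact Submodule.smul_mem_smul hd trivial
  rw [hk, Submodule.mem_bot, Submodule.Quotient.mk_eq_zero] at h1
  exact h1

lemma exists_stable (C : ℕ → Ideal D) (hC : Antitone C) (n : ℕ) :
    ∃ i₀, ∀ i, i₀ ≤ i → C i ⊔ maximalIdeal D ^ n = C i₀ ⊔ maximalIdeal D ^ n := by
  have hart : IsArtinianRing (D ⧸ maximalIdeal D ^ n) := isArtinianRing_quot (s := n) le_rfl
  obtain ⟨i₀, hi₀⟩ := IsArtinian.monotone_stabilizes (R := D ⧸ maximalIdeal D ^ n)
    (M := D ⧸ maximalIdeal D ^ n)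
    ⟨fun i => OrderDual.toDual ((C i).map (Ideal.Quotient.mk (maximalIdeal D ^ n))),
      fun i j hij => Ideal.map_mono (hC hij)⟩
  refine ⟨i₀, fun i hi => ?_⟩
  have h1 : (C i₀).map (Ideal.Quotient.mk (maximalIdeal D ^ n)) =
      (C i).map (Ideal.Quotient.mk (maximalIdeal D ^ n)) := hi₀ i hi
  have h2 := congrArg (Ideal.comap (Ideal.Quotient.mk (maximalIdeal D ^ n))) h1
  rw [Ideal.comap_map_of_surjective _ Ideal.Quotient.mk_surjective,
    Ideal.comap_map_of_surjective _ Ideal.Quotient.mk_surjective] at h2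
  have h3 : Ideal.comap (Ideal.Quotient.mk (maximalIdeal D ^ n)) ⊥ = maximalIdeal D ^ n := by
    rw [← RingHom.ker_eq_comap_bot, Ideal.mk_ker]
  rw [h3] at h2
  exact h2.symm

lemma chevalley [IsAdicComplete (maximalIdeal D) D] (C : ℕ → Ideal D) (hC : Antitone C)
    (hinf : ∀ b, (∀ i, b ∈ C i) → b = 0) (n₀ : ℕ) : ∃ i, C i ≤ maximalIdeal D ^ n₀ := by
  by_contra hcon
  push Not at hcon
  let E : ℕ → Ideal D := fun n => ⨅ i, C i ⊔ maximalIdeal D ^ n
  have hE : ∀ n i, E n ≤ C i ⊔ maximalIdeal D ^ n := fun n i => iInf_le _ i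
  have hE' : ∀ n, ∃ i₀, ∀ i, i₀ ≤ i → C i ⊔ maximalIdeal D ^ n ≤ E n := by
    intro n
    obtain ⟨i₀, hi₀⟩ := exists_stable C hC n
    refine ⟨i₀, fun i hi => ?_⟩
    rw [hi₀ i hi]
    refine le_iInf fun j => ?_
    rcases le_total i₀ j with h | h
    · rw [hi₀ j h]
    · exact sup_le_sup_right (hC h) _
  have hstep : ∀ n, ∀ y ∈ E n, ∃ z ∈ E (n + 1), y - z ∈ maximalIdeal D ^ n := by
    intro n y hy
    obtain ⟨i₀, hi₀⟩ := hE' (n + 1)
    obtain ⟨c, hc, d, hd, hcd⟩ := Submodule.mem_sup.mp (hE n i₀ hy)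
    refine ⟨c, hi₀ i₀ le_rfl (Ideal.mem_sup_left hc), ?_⟩
    rw [← hcd]
    simpa using hd
  -- starting point
  have hstart : ∃ y ∈ E n₀, y ∉ maximalIdeal D ^ n₀ := by
    obtain ⟨i₀, hi₀⟩ := hE' n₀
    obtain ⟨y, hy, hy'⟩ := SetLike.not_le_iff_exists.mp (hcon i₀)
    exact ⟨y, hi₀ i₀ le_rfl (Ideal.mem_sup_left hy), hy'⟩
  obtain ⟨y₀, hy₀, hy₀'⟩ := hstart
  choose! f hfE hf using hstep
  let y : ℕ → D := fun k => Nat.rec y₀ (fun k y => f (n₀ + k) y) k
  have hy0 : y 0 = y₀ := rfl
  have hys : ∀ k, y (k + 1) = f (n₀ + k) (y k) := fun k => rfl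
  have hyE : ∀ k, y k ∈ E (n₀ + k) := by
    intro k
    induction k with
    | zero => exact hy₀
    | succ k ih => rw [hys]; exact hfE _ _ ih
  have hyd : ∀ k, y k - y (k + 1) ∈ maximalIdeal D ^ (n₀ + k) := by
    intro k
    rw [hys]
    exact hf _ _ (hyE k)
  have hyd2 : ∀ k j, y k - y (k + j) ∈ maximalIdeal D ^ (n₀ + k) := by
    intro k j
    induction j with
    | zero => simp
    | succ j ih =>
      have h1 : y k - y (k + (j + 1)) = (y k - y (k + j)) + (y (k + j) - y (k + j + 1)) := by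
        rw [← add_assoc]; ring
      rw [h1]
      exact Ideal.add_mem _ ih (Ideal.pow_le_pow_right (by omega) (hyd (k + j)))
  obtain ⟨L, hL⟩ := IsPrecomplete.prec' (I := maximalIdeal D) (M := D) y (by
    intro a b hab
    rw [SModEq.sub_mem]
    obtain ⟨j, rfl⟩ := Nat.exists_eq_add_of_le hab
    have h1 := Ideal.pow_le_pow_right (by omega : a ≤ n₀ + a) (hyd2 a j)
    rwa [smul_eq_mul, Ideal.mul_top])
  have hL' : ∀ n, y n - L ∈ maximalIdeal D ^ n := by
    intro n
    have h1 := hL n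
    rw [SModEq.sub_mem] at h1
    rwa [smul_eq_mul, Ideal.mul_top] at h1
  have hLC : ∀ i, L ∈ C i := by
    intro i
    refine closed_of_forall _ _ fun n => ?_
    have h1 : y n ∈ C i ⊔ maximalIdeal D ^ n :=
      (sup_le_sup_left (Ideal.pow_le_pow_right (show n ≤ n₀ + n by omega)) (C i) :
        C i ⊔ maximalIdeal D ^ (n₀ + n) ≤ C i ⊔ maximalIdeal D ^ n) (hE (n₀ + n) i (hyE n))
    have h2 : L = y n - (y n - L) := by ring
    rw [h2]
    exact Ideal.sub_mem _ h1 (Ideal.mem_sup_right (hL' n))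
  have hL0 : L = 0 := hinf L hLC
  apply hy₀'
  have h1 : y 0 - y (0 + n₀) ∈ maximalIdeal D ^ (n₀ + 0) := hyd2 0 n₀
  rw [hy0, zero_add, add_zero] at h1
  have h2 := hL' n₀
  rw [hL0, sub_zero] at h2
  have h3 : y₀ = (y₀ - y n₀) + y n₀ := by ring
  rw [h3]
  exact Ideal.add_mem _ h1 h2

end chevalley

section sat

variable {D : Type*} [CommRing D]

/-- saturation of `x1 ^ i D` with respect to `x2`. -/
def sat (x1 x2 : D) (i : ℕ) : Ideal D where
  carrier := {b | ∃ j, x1 ^ i ∣ x2 ^ j * b}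
  zero_mem' := ⟨0, by simp⟩
  add_mem' := by
    rintro a b ⟨j, hj⟩ ⟨k, hk⟩
    refine ⟨j + k, ?_⟩
    have : x2 ^ (j + k) * (a + b) = x2 ^ k * (x2 ^ j * a) + x2 ^ j * (x2 ^ k * b) := by
      rw [pow_add]; ring
    rw [this]
    exact dvd_add (Dvd.dvd.mul_left hj _) (Dvd.dvd.mul_left hk _)
  smul_mem' := by
    rintro c a ⟨j, hj⟩
    refine ⟨j, ?_⟩
    have : x2 ^ j * (c • a) = c * (x2 ^ j * a) := by rw [smul_eq_mul]; ring
    rw [this]
    exact Dvd.dvd.mul_left hj _

lemma sat_anti (x1 x2 : D) : Antitone (sat x1 x2) := by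
  intro i j hij b hb
  obtain ⟨k, hk⟩ := hb
  exact ⟨k, (pow_dvd_pow x1 hij).trans hk⟩

lemma pow_mem_sat (x1 x2 : D) (i : ℕ) : x1 ^ i ∈ sat x1 x2 i := ⟨0, by simp⟩

lemma mem_sat_of_mul [IsDomain D] {x1 x2 : D} (h1 : x1 ≠ 0) {i : ℕ} {c : D}
    (h : x1 * c ∈ sat x1 x2 (i + 1)) : c ∈ sat x1 x2 i := by
  obtain ⟨j, d, hd⟩ := h
  refine ⟨j, d, ?_⟩
  apply mul_left_cancel₀ h1
  calc x1 * (x2 ^ j * c) = x2 ^ j * (x1 * c) := by ring
    _ = x1 * (x1 ^ i * d) := by rw [hd]; ring

lemma eq_zero_of_mem_sat [IsDomain D] [IsNoetherianRing D] (x1 x2 : D)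
    (hrad : x2 ∉ (Ideal.span {x1}).radical) (b : D) (hb : ∀ i, b ∈ sat x1 x2 i) : b = 0 := by
  have hrad' : ∃ P : Ideal D, (Ideal.span {x1} ≤ P ∧ P.IsPrime) ∧ x2 ∉ P := by
    by_contra hcon
    push Not at hcon
    apply hrad
    rw [Ideal.radical_eq_sInf, Submodule.mem_sInf]
    intro P hP
    exact hcon P hP
  obtain ⟨P, ⟨hxP, hP⟩, hx2P⟩ := hrad'
  have hx1P : x1 ∈ P := hxP (Ideal.mem_span_singleton_self x1)
  have hP' : P.IsPrime := hP
  let L := Localization.AtPrime P
  have hinj : Function.Injective (algebraMap D L) :=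
    IsLocalization.injective L (Ideal.primeCompl_le_nonZeroDivisors P)
  have : IsNoetherianRing L := IsLocalization.isNoetherianRing P.primeCompl L inferInstance
  have : IsDomain L := IsLocalization.isDomain_of_atPrime L P
  have hx1L : algebraMap D L x1 ∈ maximalIdeal L := by
    rw [IsLocalization.AtPrime.to_map_mem_maximal_iff L P]
    exact hx1P
  have hk := Ideal.iInf_pow_eq_bot_of_isLocalRing (R := L) (maximalIdeal L)
    (Ideal.IsPrime.ne_top inferInstance)
  have hb' : algebraMap D L b ∈ (⨅ n : ℕ, maximalIdeal L ^ n) := by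
    rw [Submodule.mem_iInf]
    intro i
    obtain ⟨j, d, hd⟩ := hb i
    have hu : IsUnit (algebraMap D L (x2 ^ j)) := by
      refine IsLocalization.map_units L (⟨x2 ^ j, ?_⟩ : P.primeCompl)
      intro h
      exact hx2P (hP.mem_of_pow_mem _ h)
    have h1 : algebraMap D L (x2 ^ j) * algebraMap D L b =
        algebraMap D L x1 ^ i * algebraMap D L d := by
      rw [← map_mul, hd, map_mul, map_pow]
    have h2 : algebraMap D L (x2 ^ j) * algebraMap D L b ∈ maximalIdeal L ^ i := by
      rw [h1]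
      exact Ideal.mul_mem_right _ _ (Ideal.pow_mem_pow hx1L i)
    exact (Ideal.unit_mul_mem_iff_mem _ hu).mp h2
  rw [hk] at hb'
  have h3 : algebraMap D L b = 0 := hb'
  rw [← map_zero (algebraMap D L)] at h3
  exact hinj h3

lemma exists_pow_mul_sat_le [IsLocalRing D] [IsNoetherianRing D] (x1 x2 : D)
    {s : ℕ} (hs : maximalIdeal D ^ s ≤ Ideal.span {x1, x2}) :
    ∃ t, maximalIdeal D ^ t * sat x1 x2 1 ≤ Ideal.span {x1} := by
  obtain ⟨J, hJ⟩ := monotone_stabilizes_iff_noetherian.mpr (inferInstance : IsNoetherian D D)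
    ⟨fun j => col (Ideal.span {x1}) (x2 ^ j), by
      intro a b hab z hz
      rw [mem_col] at hz ⊢
      obtain ⟨c, rfl⟩ := Nat.exists_eq_add_of_le hab
      rw [pow_add, ← mul_assoc]
      exact Ideal.mul_mem_right _ _ hz⟩
  have hJ' : ∀ b ∈ sat x1 x2 1, x2 ^ J * b ∈ Ideal.span {x1} := by
    rintro b ⟨j, hj⟩
    rw [pow_one] at hj
    have h1 : b ∈ col (Ideal.span {x1}) (x2 ^ (max J j)) := by
      rw [mem_col, Ideal.mem_span_singleton]
      obtain ⟨c, hc⟩ := Nat.exists_eq_add_of_le (le_max_right J j)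
      rw [hc, pow_add]
      have : b * (x2 ^ j * x2 ^ c) = x2 ^ c * (x2 ^ j * b) := by ring
      rw [this]
      exact Dvd.dvd.mul_left hj _
    have h2 : col (Ideal.span {x1}) (x2 ^ J) = col (Ideal.span {x1}) (x2 ^ (max J j)) :=
      hJ _ (le_max_left J j)
    rw [← h2, mem_col, mul_comm] at h1
    exact h1
  refine ⟨s * (1 + J), ?_⟩
  have h1 : maximalIdeal D ^ (s * (1 + J)) ≤ Ideal.span {x1} ⊔ Ideal.span {x2 ^ J} := by
    rw [pow_mul]
    refine (Ideal.pow_right_mono hs _).trans ?_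
    have h2 : Ideal.span {x1, x2} = Ideal.span {x1} ⊔ Ideal.span {x2} := by
      rw [← Ideal.span_union]; rfl
    rw [h2]
    refine (Ideal.sup_pow_add_le_pow_sup_pow).trans ?_
    rw [pow_one, Ideal.span_singleton_pow]
  refine (Ideal.mul_mono_left h1).trans ?_
  rw [Ideal.sup_mul]
  refine sup_le Ideal.mul_le_left ?_
  rw [Ideal.mul_le]
  intro r hr b hb
  obtain ⟨c, rfl⟩ := Ideal.mem_span_singleton'.mp hr
  rw [mul_assoc]
  exact Ideal.mul_mem_left _ _ (hJ' b hb)

end sat

section growth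

variable {D : Type*} [CommRing D]

lemma span_mul_eq_map (x : D) (N : Ideal D) :
    Ideal.span {x} * N = Submodule.map (LinearMap.lsmul D D x) N := by
  ext z
  rw [mul_comm, Ideal.mem_mul_span_singleton, Submodule.mem_map]
  constructor
  · rintro ⟨y, hy, rfl⟩; exact ⟨y, hy, by simp [mul_comm]⟩
  · rintro ⟨y, hy, rfl⟩; exact ⟨y, hy, by simp [mul_comm]⟩

lemma rl_span_mul_le (x : D) (K N : Ideal D) :
    rl (Ideal.span {x} * K) (Ideal.span {x} * N) ≤ rl K N := by
  rw [span_mul_eq_map, span_mul_eq_map]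
  exact rl_map_le _ _ _

lemma rl_sup_le (K A B : Ideal D) : rl K (A ⊔ B) ≤ rl K A + rl K B := by
  calc rl K (A ⊔ B) = rl K (K ⊔ (A ⊔ B)) := (rl_sup_right _ _).symm
    _ = rl K (K ⊔ A) + rl (K ⊔ A) (K ⊔ (A ⊔ B)) :=
      rl_add le_sup_left (sup_le_sup_left le_sup_left _)
    _ = rl K A + rl (K ⊔ A) B := by
      rw [rl_sup_right, ← sup_assoc, rl_sup_right]
    _ ≤ rl K A + rl K B := add_le_add le_rfl (rl_anti_left le_sup_left)

lemma pow_mul_le (x1 x2 : D) (N : Ideal D) (i : ℕ) :
    Ideal.span {x1, x2} ^ (i + 1) * N ≤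
      Ideal.span {x1 ^ (i + 1)} * N ⊔ Ideal.span {x2} * (Ideal.span {x1, x2} ^ i * N) := by
  have hq : Ideal.span {x1, x2} = Ideal.span {x1} ⊔ Ideal.span {x2} := by
    rw [← Ideal.span_union]; rfl
  induction i with
  | zero =>
    rw [zero_add, pow_one, pow_one, pow_zero, one_mul, hq, Ideal.sup_mul]
  | succ i ih =>
    have h1 : Ideal.span {x1, x2} ^ (i + 1 + 1) * N =
        Ideal.span {x1} * (Ideal.span {x1, x2} ^ (i + 1) * N) ⊔
        Ideal.span {x2} * (Ideal.span {x1, x2} ^ (i + 1) * N) := by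
      conv_lhs => rw [pow_succ' _ (i + 1)]
      rw [← Ideal.sup_mul, ← hq, mul_assoc]
    rw [h1]
    refine sup_le ?_ le_sup_right
    refine (Ideal.mul_mono_right ih).trans ?_
    rw [Ideal.mul_sup]
    refine sup_le ?_ ?_
    · rw [← mul_assoc, Ideal.span_singleton_mul_span_singleton, ← pow_succ']
      exact le_sup_left
    · refine le_trans ?_ le_sup_right
      have h2 : Ideal.span {x1} * (Ideal.span {x2} * (Ideal.span {x1, x2} ^ i * N)) =
          Ideal.span {x2} * (Ideal.span {x1} * (Ideal.span {x1, x2} ^ i * N)) := by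
        rw [← mul_assoc, mul_comm (Ideal.span {x1}), mul_assoc]
      rw [h2]
      refine Ideal.mul_mono_right ?_
      rw [pow_succ', mul_assoc]
      refine Ideal.mul_mono_left ?_
      rw [hq]
      exact le_sup_left

lemma rl_pow_succ_le (x1 x2 : D) (N : Ideal D) (i : ℕ) :
    rl (Ideal.span {x1, x2} ^ (i + 1) * N) (Ideal.span {x1, x2} ^ i * N) ≤
      (i + 1 : ℕ) * rl (Ideal.span {x1, x2} * N) N := by
  induction i with
  | zero => simp
  | succ i ih =>
    have h1 : Ideal.span {x1 ^ (i + 1)} * (Ideal.span {x1, x2} * N) ≤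
        Ideal.span {x1, x2} ^ (i + 1 + 1) * N := by
      rw [← mul_assoc, pow_succ _ (i + 1)]
      refine Ideal.mul_mono_left (Ideal.mul_mono_left ?_)
      rw [Ideal.span_singleton_le_iff_mem]
      exact Ideal.pow_mem_pow (Ideal.subset_span (by simp)) _
    have h2 : Ideal.span {x2} * (Ideal.span {x1, x2} ^ (i + 1) * N) ≤
        Ideal.span {x1, x2} ^ (i + 1 + 1) * N := by
      rw [← mul_assoc, pow_succ' _ (i + 1)]
      refine Ideal.mul_mono_left (Ideal.mul_mono_left ?_)
      rw [Ideal.span_singleton_le_iff_mem]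
      exact Ideal.subset_span (by simp)
    calc rl (Ideal.span {x1, x2} ^ (i + 1 + 1) * N) (Ideal.span {x1, x2} ^ (i + 1) * N)
        ≤ rl (Ideal.span {x1, x2} ^ (i + 1 + 1) * N)
          (Ideal.span {x1 ^ (i + 1)} * N ⊔
            Ideal.span {x2} * (Ideal.span {x1, x2} ^ i * N)) := rl_mono_right (pow_mul_le _ _ _ _)
      _ ≤ rl (Ideal.span {x1, x2} ^ (i + 1 + 1) * N) (Ideal.span {x1 ^ (i + 1)} * N) +
          rl (Ideal.span {x1, x2} ^ (i + 1 + 1) * N)
            (Ideal.span {x2} * (Ideal.span {x1, x2} ^ i * N)) := rl_sup_le _ _ _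
      _ ≤ rl (Ideal.span {x1 ^ (i + 1)} * (Ideal.span {x1, x2} * N))
            (Ideal.span {x1 ^ (i + 1)} * N) +
          rl (Ideal.span {x2} * (Ideal.span {x1, x2} ^ (i + 1) * N))
            (Ideal.span {x2} * (Ideal.span {x1, x2} ^ i * N)) :=
          add_le_add (rl_anti_left h1) (rl_anti_left h2)
      _ ≤ rl (Ideal.span {x1, x2} * N) N + (i + 1 : ℕ) * rl (Ideal.span {x1, x2} * N) N :=
          add_le_add (rl_span_mul_le _ _ _) ((rl_span_mul_le _ _ _).trans ih)
      _ = (i + 1 + 1 : ℕ) * rl (Ideal.span {x1, x2} * N) N := by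
          push_cast; ring

lemma pow_succ_mul_le (q N : Ideal D) (i : ℕ) : q ^ (i + 1) * N ≤ q ^ i * N :=
  Ideal.mul_mono_left (Ideal.pow_le_pow_right (Nat.le_succ i))

lemma two_mul_rl_pow_le (x1 x2 : D) (N : Ideal D) (j : ℕ) :
    2 * rl (Ideal.span {x1, x2} ^ j * N) N ≤
      (j * (j + 1) : ℕ) * rl (Ideal.span {x1, x2} * N) N := by
  induction j with
  | zero => simp
  | succ j ih =>
    have h1 : rl (Ideal.span {x1, x2} ^ (j + 1) * N) N =
        rl (Ideal.span {x1, x2} ^ (j + 1) * N) (Ideal.span {x1, x2} ^ j * N) +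
        rl (Ideal.span {x1, x2} ^ j * N) N :=
      rl_add (pow_succ_mul_le _ _ _) Ideal.mul_le_right
    rw [h1, mul_add]
    refine (add_le_add (mul_le_mul_right (rl_pow_succ_le x1 x2 N j) 2) ih).trans (le_of_eq ?_)
    push_cast; ring

lemma rl_pow_le (x1 x2 : D) (i c : ℕ) :
    rl (Ideal.span {x1, x2} ^ (i + c)) (Ideal.span {x1, x2} ^ i) ≤
      (c * (i + c) : ℕ) * ell (Ideal.span {x1, x2}) := by
  induction c with
  | zero => simp
  | succ c ih =>
    have h0 := rl_pow_succ_le x1 x2 (⊤ : Ideal D) (i + c)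
    rw [Ideal.mul_top, Ideal.mul_top, Ideal.mul_top, rl_top] at h0
    have h1 : rl (Ideal.span {x1, x2} ^ (i + (c + 1))) (Ideal.span {x1, x2} ^ i) =
        rl (Ideal.span {x1, x2} ^ (i + c + 1)) (Ideal.span {x1, x2} ^ (i + c)) +
        rl (Ideal.span {x1, x2} ^ (i + c)) (Ideal.span {x1, x2} ^ i) :=
      rl_add (Ideal.pow_le_pow_right (by omega)) (Ideal.pow_le_pow_right (by omega))
    rw [h1]
    refine (add_le_add h0 ih).trans ?_
    change (i + c + 1 : ℕ) * ell (Ideal.span {x1, x2}) + _ ≤ _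
    rw [← add_mul, ← Nat.cast_add]
    refine mul_le_mul_left ?_ _
    rw [Nat.cast_le]
    nlinarith

end growth

end Mcm

open Mcm in
/-- growth comparison for a nonzero ideal of a domain. -/
theorem growth_le {D : Type*} [CommRing D] [IsDomain D] [IsLocalRing D]
    [IsNoetherianRing D] (x1 x2 : D) (hx1 : x1 ∈ maximalIdeal D) (hx2 : x2 ∈ maximalIdeal D)
    (hfin : Module.length D (D ⧸ Ideal.span {x1, x2}) ≠ ⊤) (C : Ideal D) (hC : C ≠ ⊥) :
    ∃ K : ℕ, ∀ j : ℕ, 2 * Module.length D (D ⧸ maximalIdeal D ^ j) ≤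
      rl (Ideal.span {x1, x2} * C) C * (j : ℕ∞) ^ 2 + (K : ℕ∞) * ((j : ℕ∞) + 1) := by
  obtain ⟨s, hs⟩ := exists_pow_le_of_ell_ne_top hfin
  set q : Ideal D := Ideal.span {x1, x2} with hq
  by_cases htop : rl (q * C) C = ⊤
  · refine ⟨0, fun j => ?_⟩
    rw [htop]
    rcases Nat.eq_zero_or_pos j with rfl | hj
    · have : Module.length D (D ⧸ maximalIdeal D ^ 0) = 0 := by
        rw [pow_zero, Ideal.one_eq_top]; exact ell_top
      rw [this]; simp
    · have : (⊤ : ℕ∞) * (j : ℕ∞) ^ 2 = ⊤ := by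
        apply ENat.top_mul
        have : (j : ℕ∞) ≠ 0 := by exact_mod_cast hj.ne'
        exact pow_ne_zero 2 this
      rw [this]; simp
  obtain ⟨h, hh⟩ := ENat.ne_top_iff_exists.mp htop
  obtain ⟨e, he⟩ := ENat.ne_top_iff_exists.mp (show ell q ≠ ⊤ from hfin)
  obtain ⟨z, hzC, hz0⟩ := (Submodule.ne_bot_iff _).mp hC
  obtain ⟨k, hk⟩ := artin_rees_col q z
  have hcolbot : col (⊥ : Ideal D) z = ⊥ := by
    rw [eq_bot_iff]
    intro a ha
    rw [mem_col, Ideal.mem_bot] at ha
    exact (mul_eq_zero.mp ha).resolve_right hz0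
  have hell_pow : ∀ j, ell (q ^ j) ≠ ⊤ := by
    intro j
    refine ell_ne_top_of_pow_le (s := s * j) ?_
    rw [pow_mul]
    exact Ideal.pow_right_mono hs j
  obtain ⟨L, hL⟩ := ENat.ne_top_iff_exists.mp (hell_pow k)
  have hlin : ∀ j, ell (q ^ j ⊔ Ideal.span {z}) ≤ (k * j * e + L : ℕ) := by
    intro j
    rcases le_or_gt k j with hkj | hkj
    · have h1 := ell_eq_add (q ^ j) z
      have h2 : ell (q ^ (j - k)) ≤ ell (col (q ^ j) z) := by
        refine ell_mono ?_
        have := hk j hkj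
        rwa [hcolbot, sup_bot_eq] at this
      have h3 : ell (q ^ j) = rl (q ^ j) (q ^ (j - k)) + ell (q ^ (j - k)) := by
        have := rl_add (K := q ^ j) (L := q ^ (j - k)) (N := ⊤)
          (Ideal.pow_le_pow_right (by omega)) le_top
        rw [rl_top, rl_top] at this
        exact this
      have h4 : rl (q ^ j) (q ^ (j - k)) ≤ (k * j * e : ℕ) := by
        have := rl_pow_le x1 x2 (j - k) k
        rw [Nat.sub_add_cancel hkj, ← hq, ← he] at this
        exact_mod_cast this
      have h5 : ell (q ^ (j - k)) + ell (q ^ j ⊔ Ideal.span {z}) ≤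
          ell (q ^ (j - k)) + (k * j * e : ℕ) := by
        calc ell (q ^ (j - k)) + ell (q ^ j ⊔ Ideal.span {z})
            ≤ ell (col (q ^ j) z) + ell (q ^ j ⊔ Ideal.span {z}) := add_le_add h2 le_rfl
          _ = rl (q ^ j) (q ^ (j - k)) + ell (q ^ (j - k)) := by rw [← h1, h3]
          _ ≤ (k * j * e : ℕ) + ell (q ^ (j - k)) := add_le_add h4 le_rfl
          _ = _ := add_comm _ _
      have h6 := (ENat.add_le_add_iff_left (hell_pow (j - k))).mp h5
      refine h6.trans ?_
      exact_mod_cast Nat.le_add_right _ _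
    · have h1 : ell (q ^ j ⊔ Ideal.span {z}) ≤ ell (q ^ k) :=
        ell_mono ((Ideal.pow_le_pow_right hkj.le).trans le_sup_left)
      rw [← hL] at h1
      refine h1.trans ?_
      exact_mod_cast Nat.le_add_left _ _
  refine ⟨h + 2 * (k * e) + 2 * L, fun j => ?_⟩
  have g1 : Module.length D (D ⧸ maximalIdeal D ^ j) ≤ ell (q ^ j) := by
    refine ell_mono (Ideal.pow_right_mono ?_ j)
    rw [hq, Ideal.span_le]
    rintro w hw
    simp only [Set.mem_insert_iff, Set.mem_singleton_iff] at hw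
    rcases hw with rfl | rfl
    · exact hx1
    · exact hx2
  have g2 : ell (q ^ j) ≤ rl (q ^ j * C) C + (k * j * e + L : ℕ) := by
    have h1 : ell (q ^ j) = rl (q ^ j) ⊤ := (rl_top _).symm
    rw [h1]
    calc rl (q ^ j) ⊤ = rl (q ^ j) (q ^ j ⊔ C) + rl (q ^ j ⊔ C) ⊤ := rl_add le_sup_left le_top
      _ = rl (q ^ j) C + ell (q ^ j ⊔ C) := by rw [rl_sup_right, rl_top]; rfl
      _ ≤ rl (q ^ j * C) C + ell (q ^ j ⊔ Ideal.span {z}) :=
        add_le_add (rl_anti_left Ideal.mul_le_left)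
          (ell_mono (sup_le_sup_left ((Ideal.span_singleton_le_iff_mem _).mpr hzC) _))
      _ ≤ _ := add_le_add le_rfl (hlin j)
  have g3 := two_mul_rl_pow_le x1 x2 C j
  rw [← hq, ← hh] at g3
  rw [← hh]
  calc 2 * Module.length D (D ⧸ maximalIdeal D ^ j)
      ≤ 2 * (rl (q ^ j * C) C + (k * j * e + L : ℕ)) := mul_le_mul_right (g1.trans g2) 2
    _ = 2 * rl (q ^ j * C) C + 2 * (k * j * e + L : ℕ) := mul_add _ _ _
    _ ≤ (j * (j + 1) : ℕ) * (h : ℕ∞) + 2 * (k * j * e + L : ℕ) := add_le_add g3 le_rfl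
    _ ≤ _ := by
      norm_cast
      nlinarith [Nat.zero_le (h * j), Nat.zero_le (k * e), Nat.zero_le (L * j)]

open Mcm in
/-- existence of a maximal Cohen-Macaulay ideal, with a hypothesis on the two elements instead of
the dimension. -/
theorem exists_mcm_ideal' {D : Type*} [CommRing D] [IsDomain D] [IsLocalRing D]
    [IsNoetherianRing D] [IsAdicComplete (maximalIdeal D) D]
    (x1 x2 : D) (hx10 : x1 ≠ 0) (hrad : x2 ∉ (Ideal.span {x1}).radical) {s : ℕ}
    (hs : maximalIdeal D ^ s ≤ Ideal.span {x1, x2}) :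
    ∃ C : Ideal D, C ≠ ⊥ ∧ (∀ v ∈ C, x1 * v = 0 → v = 0) ∧
      (∀ v ∈ C, ∀ w ∈ C, x2 * v = x1 * w → ∃ u ∈ C, v = x1 * u) := by
  obtain ⟨t, ht⟩ := exists_pow_mul_sat_le x1 x2 hs
  obtain ⟨k, hk⟩ := Ideal.exists_pow_inf_eq_pow_smul (M := D) (maximalIdeal D) (sat x1 x2 1)
  obtain ⟨i, hi⟩ := chevalley (sat x1 x2) (sat_anti x1 x2)
    (eq_zero_of_mem_sat x1 x2 hrad) (k + t)
  have hdvd : ∀ v ∈ sat x1 x2 (i + 1), x1 ∣ v := by
    intro v hv
    have h1 : v ∈ maximalIdeal D ^ (k + t) • (⊤ : Ideal D) ⊓ sat x1 x2 1 := by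
      refine ⟨?_, sat_anti x1 x2 (by omega) hv⟩
      have : v ∈ maximalIdeal D ^ (k + t) := hi (sat_anti x1 x2 (by omega) hv)
      simpa using this
    rw [hk (k + t) (by omega)] at h1
    have h2 : k + t - k = t := by omega
    rw [h2] at h1
    have h3 : v ∈ maximalIdeal D ^ t * sat x1 x2 1 := Submodule.smul_mono le_rfl inf_le_right h1
    exact Ideal.mem_span_singleton.mp (ht h3)
  refine ⟨sat x1 x2 i, ?_, ?_, ?_⟩
  · intro h
    have h1 := pow_mem_sat x1 x2 i
    rw [h] at h1
    exact pow_ne_zero i hx10 h1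
  · intro v _ hv
    exact (mul_eq_zero.mp hv).resolve_left hx10
  · intro v _ w hw h
    have h1 : v ∈ sat x1 x2 (i + 1) := by
      obtain ⟨j, d, hd⟩ := hw
      refine ⟨j + 1, d, ?_⟩
      have : x2 ^ (j + 1) * v = x2 ^ j * (x2 * v) := by rw [pow_succ]; ring
      rw [this, h, pow_succ']
      have : x2 ^ j * (x1 * w) = x1 * (x2 ^ j * w) := by ring
      rw [this, hd]; ring
    obtain ⟨u, rfl⟩ := hdvd v h1
    exact ⟨u, mem_sat_of_mul hx10 h1, rfl⟩

end Vale.Agent.P202
end

section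

/-!
P202, mixed characteristic: the norm package (M10).
-/

namespace Vale.Agent.P202.Mix

open Polynomial TensorProduct

universe u

section Core

variable {Λ A B T : Type*} [CommRing Λ] [CommRing A] [CommRing B] [CommRing T] [Algebra Λ A]
  [Algebra Λ B] (iA : A →+* T) (iB : B →+* T) {s D : ℕ} (a : Fin s → A) (F : Fin s → Λ[X])
  (t : Fin s → Fin D → B)

/-- the elements `ε_π`. -/
noncomputable def nmEps (π : Fin s → Fin D) : T :=
  ∏ j, ∏ i ∈ Finset.univ.erase (π j), (iA (a j) - iB (t j i))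

variable {iA iB a F t}

theorem nm_eval₂ (hc : ∀ l, iA (algebraMap Λ A l) = iB (algebraMap Λ B l)) (x : A) (G : Λ[X]) :
    iA (aeval x G) = eval₂ (iB.comp (algebraMap Λ B)) (iA x) G := by
  rw [aeval_def, hom_eval₂]
  congr 1
  ext l
  exact hc l

/-- product formula over any ring above `B`. -/
theorem nm_prod {T' : Type*} [CommRing T'] (f : B →+* T')
    (hs : ∀ j, (F j).map (algebraMap Λ B) = ∏ i, (X - C (t j i))) (j : Fin s) :
    (F j).map (f.comp (algebraMap Λ B)) = ∏ i, (X - C (f (t j i))) := by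
  rw [← Polynomial.map_map, hs, Polynomial.map_prod]
  refine Finset.prod_congr rfl fun i _ => ?_
  rw [Polynomial.map_sub, Polynomial.map_X, Polynomial.map_C]

theorem nm_deriv_prod {T' : Type*} [CommRing T'] (c : Fin D → T') (z : T') :
    eval z (derivative (∏ i, (X - C (c i)))) = ∑ i, ∏ i' ∈ Finset.univ.erase i, (z - c i') := by
  rw [derivative_prod_finset, eval_finsetSum]
  refine Finset.sum_congr rfl fun i _ => ?_
  rw [eval_mul, eval_prod, derivative_X_sub_C, eval_one, mul_one]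
  refine Finset.prod_congr rfl fun i' _ => ?_
  rw [eval_sub, eval_X, eval_C]

theorem nm_deriv {T' : Type*} [CommRing T'] (f : B →+* T')
    (hs : ∀ j, (F j).map (algebraMap Λ B) = ∏ i, (X - C (t j i))) (j : Fin s) (z : T') :
    eval₂ (f.comp (algebraMap Λ B)) z (derivative (F j)) =
      ∑ i, ∏ i' ∈ Finset.univ.erase i, (z - f (t j i')) := by
  rw [← eval_map, ← derivative_map, nm_prod f hs, nm_deriv_prod]

theorem nm_root (hc : ∀ l, iA (algebraMap Λ A l) = iB (algebraMap Λ B l))
    (hF : ∀ j, aeval (a j) (F j) = 0)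
    (hs : ∀ j, (F j).map (algebraMap Λ B) = ∏ i, (X - C (t j i))) (π : Fin s → Fin D)
    (j : Fin s) : (iA (a j) - iB (t j (π j))) * nmEps iA iB a t π = 0 := by
  have h1 : ∏ i, (iA (a j) - iB (t j i)) = 0 := by
    have h2 := nm_eval₂ (Λ := Λ) hc (a j) (F j)
    rw [hF, map_zero, ← eval_map, nm_prod iB hs, eval_prod] at h2
    rw [h2]
    refine Finset.prod_congr rfl fun i _ => ?_
    rw [eval_sub, eval_X, eval_C]
  unfold nmEps
  rw [← Finset.mul_prod_erase _ _ (Finset.mem_univ j), ← mul_assoc,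
    Finset.mul_prod_erase Finset.univ (fun i => iA (a j) - iB (t j i)) (Finset.mem_univ (π j)),
    h1, zero_mul]

/-- polynomials in `a` may be evaluated at the roots, in presence of `ε_π`. -/
theorem nm_eval (hc : ∀ l, iA (algebraMap Λ A l) = iB (algebraMap Λ B l))
    (hF : ∀ j, aeval (a j) (F j) = 0)
    (hs : ∀ j, (F j).map (algebraMap Λ B) = ∏ i, (X - C (t j i))) (π : Fin s → Fin D)
    (f : MvPolynomial (Fin s) Λ) :
    iA (MvPolynomial.aeval a f) * nmEps iA iB a t π =
      iB (MvPolynomial.eval₂ (algebraMap Λ B) (fun j => t j (π j)) f) * nmEps iA iB a t π := by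
  induction f using MvPolynomial.induction_on with
  | C l => rw [MvPolynomial.aeval_C, MvPolynomial.eval₂_C, hc]
  | add f g hf hg =>
    rw [map_add, map_add, add_mul, hf, hg, MvPolynomial.eval₂_add, map_add, add_mul]
  | mul_X f j hf =>
    have h1 : iA (a j) * nmEps iA iB a t π = iB (t j (π j)) * nmEps iA iB a t π := by
      rw [← sub_eq_zero, ← sub_mul]
      exact nm_root hc hF hs π j
    rw [map_mul, map_mul, MvPolynomial.aeval_X, MvPolynomial.eval₂_mul, MvPolynomial.eval₂_X,
      map_mul, mul_assoc, h1, mul_left_comm, hf, mul_left_comm, mul_assoc]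

theorem nm_core (hc : ∀ l, iA (algebraMap Λ A l) = iB (algebraMap Λ B l))
    (hind : ∀ q : T → Prop, (∀ x b, q (iA x * iB b)) → (∀ y z, q y → q z → q (y + z)) →
      q 0 → ∀ y, q y)
    (ha : Function.Surjective (MvPolynomial.aeval a : MvPolynomial (Fin s) Λ →ₐ[Λ] A))
    (hF : ∀ j, aeval (a j) (F j) = 0)
    (hs : ∀ j, (F j).map (algebraMap Λ B) = ∏ i, (X - C (t j i)))
    {E : MvPolynomial (Fin s) Λ} {g : Λ} (hEg : MvPolynomial.aeval a E = algebraMap Λ A g)
    (dq : (Fin s → Fin D) → B) {q : ℕ} (hq : 1 ≤ q)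
    (hδ : ∀ π, dq π ^ q = MvPolynomial.eval₂ (algebraMap Λ B) (fun j => t j (π j)) E)
    (φ : ∀ π : Fin s → Fin D, T →+* B ⧸ annI (dq π))
    (hφ1 : ∀ π b, φ π (iB b) = Ideal.Quotient.mk _ b)
    (hφ2 : ∀ π j, φ π (iA (a j)) = Ideal.Quotient.mk _ (t j (π j))) :
    (∀ π, ∀ y ∈ RingHom.ker (φ π), y * (nmEps iA iB a t π * iB (dq π)) = 0) ∧
    (∀ π π', π ≠ π' → nmEps iA iB a t π ∈ RingHom.ker (φ π')) ∧
    (∀ π, nmEps iA iB a t π - iA (∏ j, aeval (a j) (derivative (F j))) ∈ RingHom.ker (φ π)) ∧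
    iA (algebraMap Λ A g * ∏ j, aeval (a j) (derivative (F j))) ∈
      Ideal.span (Set.range fun π => nmEps iA iB a t π * iB (dq π)) := by
  have hφε : ∀ π π', φ π' (nmEps iA iB a t π) = ∏ j, ∏ i ∈ Finset.univ.erase (π j),
      (Ideal.Quotient.mk (annI (dq π')) (t j (π' j)) -
        Ideal.Quotient.mk (annI (dq π')) (t j i)) := by
    intro π π'
    unfold nmEps
    rw [map_prod]
    refine Finset.prod_congr rfl fun j _ => ?_
    rw [map_prod]
    refine Finset.prod_congr rfl fun i _ => ?_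
    rw [map_sub, hφ1, hφ2]
  refine ⟨fun π y hy => ?_, fun π π' hne => ?_, fun π => ?_, ?_⟩
  · -- kernel
    have h1 : ∀ y : T, ∃ b : B, y * nmEps iA iB a t π = iB b * nmEps iA iB a t π ∧
        φ π y = Ideal.Quotient.mk _ b := by
      refine hind _ (fun x b => ?_) ?_ ⟨0, by rw [map_zero], by rw [map_zero, map_zero]⟩
      · obtain ⟨f, rfl⟩ := ha x
        refine ⟨MvPolynomial.eval₂ (algebraMap Λ B) (fun j => t j (π j)) f * b, ?_, ?_⟩
        · rw [mul_right_comm, nm_eval hc hF hs π f, map_mul, mul_right_comm]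
        · rw [map_mul, hφ1, map_mul]
          congr 1
          induction f using MvPolynomial.induction_on with
          | C l => rw [MvPolynomial.aeval_C, MvPolynomial.eval₂_C, hc, hφ1]
          | add f g hf hg => rw [map_add, map_add, map_add, hf, hg, MvPolynomial.eval₂_add, map_add]
          | mul_X f j hf =>
            rw [map_mul, map_mul, map_mul, hf, MvPolynomial.aeval_X, hφ2,
              MvPolynomial.eval₂_mul, MvPolynomial.eval₂_X, map_mul]
      · rintro y z ⟨b, hb, hb'⟩ ⟨c, hc, hc'⟩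
        exact ⟨b + c, by rw [add_mul, hb, hc, map_add, add_mul], by rw [map_add, hb', hc', map_add]⟩
    obtain ⟨b, hb, hb'⟩ := h1 y
    have h2 : b * dq π = 0 := by
      rw [← mem_annI, ← Ideal.Quotient.eq_zero_iff_mem, ← hb']
      exact hy
    rw [← mul_assoc, hb, mul_right_comm, ← map_mul, h2, map_zero, zero_mul]
  · -- off diagonal
    rw [RingHom.mem_ker, hφε]
    obtain ⟨j, hj⟩ := Function.ne_iff.mp hne
    refine Finset.prod_eq_zero (Finset.mem_univ j)
      (Finset.prod_eq_zero (i := π' j) (Finset.mem_erase.mpr ⟨Ne.symm hj, Finset.mem_univ _⟩) ?_)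
    rw [sub_self]
  · -- diagonal
    rw [RingHom.mem_ker, map_sub, hφε, sub_eq_zero, map_prod, map_prod]
    refine Finset.prod_congr rfl fun j _ => ?_
    have h3 : (φ π).comp (iB.comp (algebraMap Λ B)) =
        (Ideal.Quotient.mk (annI (dq π))).comp (algebraMap Λ B) := by
      ext l
      exact hφ1 π _
    rw [nm_eval₂ (Λ := Λ) hc, hom_eval₂, h3, hφ2, nm_deriv _ hs,
      Finset.sum_eq_single (π j)]
    · intro i _ hi
      refine Finset.prod_eq_zero (Finset.mem_erase.mpr ⟨Ne.symm hi, Finset.mem_univ _⟩) ?_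
      rw [sub_self]
    · intro h
      exact absurd (Finset.mem_univ _) h
  · -- norm
    have h4 : iA (∏ j, aeval (a j) (derivative (F j))) = ∑ π, nmEps iA iB a t π := by
      rw [map_prod]
      have h5 : ∀ j, iA (aeval (a j) (derivative (F j))) =
          ∑ i, ∏ i' ∈ Finset.univ.erase i, (iA (a j) - iB (t j i')) := by
        intro j
        rw [nm_eval₂ (Λ := Λ) hc, nm_deriv _ hs]
      rw [Finset.prod_congr rfl fun j _ => h5 j, Finset.prod_univ_sum, Fintype.piFinset_univ]
      rfl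
    rw [map_mul, h4, Finset.mul_sum]
    refine Ideal.sum_mem _ fun π _ => ?_
    have h6 : iA (algebraMap Λ A g) * nmEps iA iB a t π =
        iB (dq π ^ (q - 1)) * (nmEps iA iB a t π * iB (dq π)) := by
      rw [← hEg, nm_eval hc hF hs π E, ← hδ, mul_comm (nmEps iA iB a t π) (iB (dq π)),
        ← mul_assoc, ← map_mul, ← pow_succ, Nat.sub_add_cancel hq]
    rw [h6]
    exact Ideal.mul_mem_left _ _ (Ideal.subset_span ⟨π, rfl⟩)

end Core

section

variable {p : ℕ} [Fact p.Prime] {k : Type u} [Field k] [CharP k p] {r : ℕ}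
variable {Λ : Type u} [CommRing Λ] {ψ : Λ →+* WittVector p (Rp p k r)}

theorem nm_teN_pow (C : Type u) [CommRing C] [Algebra (Rp p k r) C] (N : ℕ) (c : C) (n : ℕ) :
    teN ψ C N c ^ n = teN ψ C N (c ^ n) := by
  unfold teN te
  rw [map_pow (WittVector.teichmuller p), map_pow, map_pow]

theorem nm_rt_pow {C : Type u} [CommRing C] [CharP C p] [PerfectRing C p] (e : ℕ) (c : C) :
    rt p e c ^ p ^ e = c := by
  unfold rt
  have h := (iterateFrobeniusEquiv C p e).apply_symm_apply c
  rwa [iterateFrobeniusEquiv_apply, iterateFrobenius_def] at h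

theorem nm_mkN_zero (C : Type u) [CommRing C] [Algebra (Rp p k r) C] {N I : ℕ} (hN : N ≤ I + 1)
    {x : Bt p C (tC p k r C)} (hx : x ∈ Ideal.span {(p : Bt p C (tC p k r C)) ^ (I + 1)}) :
    mkN ψ C N x = 0 := by
  exact Ideal.Quotient.eq_zero_iff_mem.mpr
    (Ideal.span_singleton_le_span_singleton.mpr (pow_dvd_pow _ hN) hx)

variable {A : Type u} [CommRing A] [Algebra Λ A] {s D : ℕ} {a : Fin s → A}
  {F : Fin s → Λ[X]} {E : MvPolynomial (Fin s) Λ} {g : Λ} {I r0 : ℕ}

theorem nm_split (d : CData.{u} ψ (D := D) F E g I r0) {N : ℕ} (hN : N ≤ I + 1) (j : Fin s) :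
    (F j).map (algebraMap Λ (BN ψ d.C N)) = ∏ i, (X - C (teN ψ d.C N (d.c j i))) := by
  have h1 : ∏ i, (X - C (teN ψ d.C N (d.c j i))) =
      (∏ i, (X - C (te p d.C (tC p k r d.C) (d.c j i)))).map (mkN ψ d.C N) := by
    rw [Polynomial.map_prod]
    refine Finset.prod_congr rfl fun i _ => ?_
    rw [Polynomial.map_sub, Polynomial.map_X, Polynomial.map_C]
    rfl
  have h2 : (F j).map (algebraMap Λ (BN ψ d.C N)) = ((F j).map (laB ψ d.C)).map (mkN ψ d.C N) := by
    rw [Polynomial.map_map]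
    rfl
  rw [h1, h2, ← sub_eq_zero, ← Polynomial.map_sub]
  ext n
  rw [coeff_map, coeff_zero]
  exact nm_mkN_zero d.C hN (d.split j n)

theorem nm_delta (d : CData.{u} ψ (D := D) F E g I r0) {N : ℕ} (hN : N ≤ I + 1) (e : ℕ)
    (π : Fin s → Fin D) : dq d e N π ^ p ^ e = MvPolynomial.eval₂ (algebraMap Λ (BN ψ d.C N))
      (fun j => teN ψ d.C N (d.c j (π j))) E := by
  unfold dq
  rw [nm_teN_pow, nm_rt_pow]
  have h1 := nm_mkN_zero (ψ := ψ) d.C hN (d.hδ π)
  rw [map_sub, sub_eq_zero, MvPolynomial.eval₂_comp_left] at h1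
  exact h1

/-- the elements `ε_π` -/
noncomputable def epsPi (a : Fin s → A) (d : CData.{u} ψ (D := D) F E g I r0) (N : ℕ)
    (π : Fin s → Fin D) : A ⊗[Λ] BN ψ d.C N :=
  ∏ j, ∏ i ∈ Finset.univ.erase (π j),
    (a j ⊗ₜ[Λ] (1 : BN ψ d.C N) - (1 : A) ⊗ₜ[Λ] teN ψ d.C N (d.c j i))

/-- M10: NORM. -/
theorem norm_package (d : CData.{u} ψ (D := D) F E g I r0)
    (ha : Function.Surjective (MvPolynomial.aeval a : MvPolynomial (Fin s) Λ →ₐ[Λ] A))
    (hF : ∀ j, aeval (a j) (F j) = 0)
    (hEg : MvPolynomial.aeval a E = algebraMap Λ A g)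
    (e N : ℕ) (he : p ^ e * N ≤ I + 1)
    (φ : ∀ π : Fin s → Fin D, A ⊗[Λ] BN ψ d.C N →+* BN ψ d.C N ⧸ annI (dq d e N π))
    (hφ1 : ∀ π b, φ π (1 ⊗ₜ b) = Ideal.Quotient.mk _ b)
    (hφ2 : ∀ π j, φ π (a j ⊗ₜ 1) = Ideal.Quotient.mk _ (teN ψ d.C N (d.c j (π j)))) :
    (∀ π, ∀ y ∈ RingHom.ker (φ π), y * (epsPi a d N π * 1 ⊗ₜ dq d e N π) = 0) ∧
    (∀ π π', π ≠ π' → epsPi a d N π ∈ RingHom.ker (φ π')) ∧
    (∀ π, epsPi a d N π - (∏ j, aeval (a j) (derivative (F j))) ⊗ₜ 1 ∈ RingHom.ker (φ π)) ∧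
    (algebraMap Λ A g * ∏ j, aeval (a j) (derivative (F j))) ⊗ₜ 1 ∈
      Ideal.span (Set.range fun π => epsPi a d N π * 1 ⊗ₜ dq d e N π) := by
  have hp1 : 1 ≤ p ^ e := Nat.one_le_pow _ _ (Fact.out : p.Prime).pos
  have hN : N ≤ I + 1 := (Nat.le_mul_of_pos_left N hp1).trans he
  exact nm_core (iA := (Algebra.TensorProduct.includeLeftRingHom : A →+* A ⊗[Λ] BN ψ d.C N))
    (iB := ((Algebra.TensorProduct.includeRight : BN ψ d.C N →ₐ[Λ] A ⊗[Λ] BN ψ d.C N) :
      BN ψ d.C N →+* A ⊗[Λ] BN ψ d.C N))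
    (t := fun j i => teN ψ d.C N (d.c j i))
    (fun l => Algebra.TensorProduct.tmul_one_eq_one_tmul l) (fun q h1 h2 h0 y => by
      induction y using TensorProduct.induction_on with
      | zero => exact h0
      | tmul x b =>
        have h3 := h1 x b
        rw [Algebra.TensorProduct.includeLeftRingHom_apply] at h3
        have h4 : (x ⊗ₜ[Λ] (1 : BN ψ d.C N)) * ((1 : A) ⊗ₜ[Λ] b) = x ⊗ₜ b := by
          rw [Algebra.TensorProduct.tmul_mul_tmul, mul_one, one_mul]
        rw [← h4]
        exact h3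
      | add y z hy hz => exact h2 y z hy hz)
    ha hF (nm_split d hN) hEg (dq d e N) hp1 (nm_delta d hN e) φ hφ1 hφ2

end

end Vale.Agent.P202.Mix
end

section

/-!
P202, mixed characteristic, task M8b: Teichmueller lifts of the reduction.
-/

namespace Vale.Agent.P202.Mix

universe u

/-- rounding of exponents -/
theorem redB_pow_le {R : Type*} [CommRing R] {n : ℕ} (x : Fin n → R) (q k N : ℕ) (hq : 0 < q)
    (hN : q * k + n * q ≤ N) :
    Ideal.span (Set.range x) ^ N ≤ Ideal.span (Set.range fun l => x l ^ q) ^ k := by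
  classical
  rw [Ideal.span, Submodule.span_pow]
  refine Submodule.span_le.2 ?_
  intro a ha
  obtain ⟨f, hf⟩ := Set.mem_pow.1 ha
  choose g hg using fun i => (f i).2
  have ha' : a = ∏ i : Fin N, x (g i) := by
    rw [← hf, List.prod_ofFn]
    exact Finset.prod_congr rfl fun i _ => (hg i).symm
  rw [ha', Finset.prod_comp x g]
  set s : Finset (Fin n) := Finset.image g Finset.univ with hs
  set c : Fin n → ℕ := fun l => (Finset.univ.filter fun i => g i = l).card with hc
  have hsum : ∑ l ∈ s, c l = N := by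
    have := Finset.card_eq_sum_card_image g (Finset.univ : Finset (Fin N))
    rw [Finset.card_univ, Fintype.card_fin] at this
    exact this.symm
  have hmem : ∏ l ∈ s, x l ^ c l ∈
      Ideal.span (Set.range fun l => x l ^ q) ^ (∑ l ∈ s, c l / q) := by
    rw [← Finset.prod_pow_eq_pow_sum]
    refine Ideal.prod_mem_prod fun l _ => ?_
    have h1 : x l ^ c l = (x l ^ q) ^ (c l / q) * x l ^ (c l % q) := by
      rw [← pow_mul, ← pow_add, Nat.div_add_mod]
    rw [h1]
    have h0 : x l ^ q ∈ Ideal.span (Set.range fun l => x l ^ q) :=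
      Ideal.subset_span (Set.mem_range_self (f := fun l => x l ^ q) l)
    exact Ideal.mul_mem_right _ _ (Ideal.pow_mem_pow h0 _)
  have hk : k ≤ ∑ l ∈ s, c l / q := by
    have h2 : ∑ l ∈ s, c l ≤ ∑ l ∈ s, (q * (c l / q) + q) := by
      refine Finset.sum_le_sum fun l _ => ?_
      have h3 := Nat.div_add_mod (c l) q
      have h4 := Nat.mod_lt (c l) hq
      omega
    rw [Finset.sum_add_distrib, ← Finset.mul_sum, Finset.sum_const, smul_eq_mul] at h2
    have h5 : s.card ≤ n := by
      have := Finset.card_le_univ s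
      rwa [Fintype.card_fin] at this
    have h6 : s.card * q ≤ n * q := Nat.mul_le_mul_right _ h5
    have h7 : q * k ≤ q * ∑ l ∈ s, c l / q := by omega
    exact Nat.le_of_mul_le_mul_left h7 hq
  exact Ideal.pow_le_pow_right hk hmem

section
variable (p : ℕ) [Fact p.Prime] {C : Type u} [CommRing C] (t : C)

theorem redB_te_mul (a b : C) : te p C t (a * b) = te p C t a * te p C t b := by
  unfold te
  rw [map_mul, map_mul]

theorem redB_te_one : te p C t 1 = 1 := by
  unfold te
  rw [map_one, map_one]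

theorem redB_te_zero' : te p C t 0 = 0 := by
  unfold te
  rw [WittVector.teichmuller_zero, map_zero]

theorem redB_te_pow (a : C) (n : ℕ) : te p C t (a ^ n) = te p C t a ^ n := by
  unfold te
  rw [map_pow, map_pow]

theorem redB_te_t : te p C t t = (p : Bt p C t) := by
  have h : toB p C t ((p : WittVector p C) - WittVector.teichmuller p t) = 0 := by
    unfold toB
    exact Ideal.Quotient.eq_zero_iff_mem.2 (Ideal.subset_span rfl)
  rw [map_sub, map_natCast, sub_eq_zero] at h
  exact h.symm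

theorem redB_te_add_dvd [CharP C p] [PerfectRing C p] (a b : C) :
    (p : Bt p C t) ∣ te p C t (a + b) - (te p C t a + te p C t b) := by
  have h : (p : WittVector p C) ^ 1 ∣ WittVector.teichmuller p (a + b) -
      (WittVector.teichmuller p a + WittVector.teichmuller p b) := by
    rw [← Ideal.mem_span_singleton, WittVector.mem_span_p_pow_iff_le_coeff_eq_zero,
      ← WittVector.le_coeff_eq_iff_le_sub_coeff_eq_zero]
    intro i hi
    obtain rfl : i = 0 := by omega
    rw [WittVector.add_coeff_zero, WittVector.teichmuller_coeff_zero,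
      WittVector.teichmuller_coeff_zero, WittVector.teichmuller_coeff_zero]
  rw [pow_one] at h
  have h2 := map_dvd (toB p C t) h
  rw [map_natCast, RingHom.map_sub, RingHom.map_add] at h2
  exact h2

/-- `c ↦ [c] mod p` -/
noncomputable def redB_redHom (C : Type u) [CommRing C] [CharP C p] [PerfectRing C p] (t : C) :
    C →+* Bt p C t ⧸ Ideal.span {(p : Bt p C t)} where
  toFun c := Ideal.Quotient.mk _ (te p C t c)
  map_one' := by rw [redB_te_one, map_one]
  map_mul' a b := by rw [redB_te_mul, map_mul]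
  map_zero' := by rw [redB_te_zero', map_zero]
  map_add' a b := by
    rw [← map_add]
    exact Ideal.Quotient.eq.2 (Ideal.mem_span_singleton.2 (redB_te_add_dvd p t a b))

end

variable (p : ℕ) [Fact p.Prime]

theorem te_mem_pow_sup (C : Type u) [CommRing C] [CharP C p] [PerfectRing C p] (t : C) {n : ℕ}
    (ζ : Fin n → C) (m : ℕ) (α : C) (hα : α ∈ Ideal.span (Set.range ζ) ^ m) :
    te p C t α ∈ Ideal.span (Set.range fun l => te p C t (ζ l)) ^ m ⊔
      Ideal.span {(p : Bt p C t)} := by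
  have h1 : redB_redHom p C t α ∈ (Ideal.span (Set.range ζ) ^ m).map (redB_redHom p C t) :=
    Ideal.mem_map_of_mem _ hα
  rw [Ideal.map_pow, Ideal.map_span, ← Set.range_comp] at h1
  have h2 : Ideal.span (Set.range (redB_redHom p C t ∘ ζ)) ^ m =
      (Ideal.span (Set.range fun l => te p C t (ζ l)) ^ m).map
        (Ideal.Quotient.mk (Ideal.span {(p : Bt p C t)})) := by
    rw [Ideal.map_pow, Ideal.map_span, ← Set.range_comp]
    rfl
  rw [h2] at h1
  have h3 : Ideal.Quotient.mk (Ideal.span {(p : Bt p C t)}) (te p C t α) ∈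
      (Ideal.span (Set.range fun l => te p C t (ζ l)) ^ m).map
        (Ideal.Quotient.mk (Ideal.span {(p : Bt p C t)})) := h1
  exact (Ideal.mem_quotient_iff_mem_sup).1 h3

theorem p_mem_pow_sup (C : Type u) [CommRing C] [CharP C p] [PerfectRing C p] (t : C) {n : ℕ}
    (ζ : Fin n → C) (m : ℕ) (ht : t ∈ Ideal.span (Set.range ζ) ^ m) :
    (p : Bt p C t) ∈ Ideal.span (Set.range fun l => te p C t (ζ l)) ^ (m - n) ⊔
      Ideal.span {(p : Bt p C t) ^ 2} := by
  rcases le_total m n with hmn | hmn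
  · rw [Nat.sub_eq_zero_of_le hmn, pow_zero, Ideal.one_eq_top, top_sup_eq]
    exact Submodule.mem_top
  have hp : 0 < p := (Fact.out : p.Prime).pos
  have hroot : ∀ c : C, rt p 1 c ^ p = c := by
    intro c
    have := (iterateFrobeniusEquiv C p 1).apply_symm_apply c
    rw [iterateFrobeniusEquiv_def, pow_one] at this
    exact this
  have h1 : rt p 1 t ∈ Ideal.span (Set.range fun l => rt p 1 (ζ l)) ^ m := by
    have h := Ideal.mem_map_of_mem ((iterateFrobeniusEquiv C p 1).symm : C →+* C) ht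
    rw [Ideal.map_pow, Ideal.map_span, ← Set.range_comp] at h
    exact h
  have h2 := te_mem_pow_sup p C t _ m _ h1
  rw [Submodule.mem_sup] at h2
  obtain ⟨S, hS, y, hy, hSy⟩ := h2
  obtain ⟨w, rfl⟩ := Ideal.mem_span_singleton'.1 hy
  have h3 : (p : Bt p C t) ∣ te p C t (rt p 1 t) - S := ⟨w, by rw [← hSy]; ring⟩
  have h4 := dvd_sub_pow_of_dvd_sub h3 1
  rw [pow_one, ← redB_te_pow, hroot, redB_te_t] at h4
  have h5 : S ^ p ∈ Ideal.span (Set.range fun l => te p C t (ζ l)) ^ (m - n) := by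
    have h6 : S ^ p ∈ Ideal.span (Set.range fun l => te p C t (rt p 1 (ζ l))) ^ (m * p) := by
      rw [pow_mul]
      exact Ideal.pow_mem_pow hS p
    have h7 := redB_pow_le (fun l => te p C t (rt p 1 (ζ l))) p (m - n) (m * p) hp (by
      obtain ⟨d, rfl⟩ := Nat.exists_eq_add_of_le hmn
      rw [Nat.add_sub_cancel_left]
      exact le_of_eq (by ring))
    have h8 : (fun l => te p C t (rt p 1 (ζ l)) ^ p) = fun l => te p C t (ζ l) := by
      funext l
      rw [← redB_te_pow, hroot]
    rw [h8] at h7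
    exact h7 h6
  rw [Submodule.mem_sup]
  refine ⟨S ^ p, h5, (p : Bt p C t) - S ^ p, Ideal.mem_span_singleton.2 h4, by ring⟩

end Vale.Agent.P202.Mix
end

section

/-!
P202 MIX, task M3: the homomorphism `W(k)[[u_1, .., u_r]] → W(k[[t, u_1, .., u_r]])`.
-/

namespace Vale.Agent.P202.Mix

open MvPowerSeries
open Vale.Agent.P202.CZ

universe u

section M3
variable (p : ℕ) [Fact p.Prime] (k : Type u) [Field k] (r : ℕ)

/-- the maximal ideal of `k[[t, u_1, .., u_r]]`. -/
noncomputable abbrev p0m : Ideal (R0 k r) := Ideal.span (Set.range X)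

/-- the truncations of `k[[t, u_1, .., u_r]]`. -/
abbrev p0Q (n : ℕ) : Type u := R0 k r ⧸ (p0m k r) ^ n

/-- constants. -/
noncomputable def p0tau (n : ℕ) : WittVector p k →+* WittVector p (p0Q k r n) :=
  WittVector.map ((Ideal.Quotient.mk ((p0m k r) ^ n)).comp C)

/-- variables. -/
noncomputable def p0x (n : ℕ) (i : Fin r) : WittVector p (p0Q k r n) :=
  WittVector.teichmuller p (Ideal.Quotient.mk ((p0m k r) ^ n) (X i.succ))

theorem p0_prod (n : ℕ) (d : Fin r →₀ ℕ) (hd : n ≤ d.degree) :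
    ∏ i, p0x p k r n i ^ d i = 0 := by
  have h1 : ∏ i, p0x p k r n i ^ d i = WittVector.teichmuller p
      (Ideal.Quotient.mk ((p0m k r) ^ n) (∏ i, (X i.succ : R0 k r) ^ d i)) := by
    simp only [map_prod, map_pow, p0x]
  rw [h1]
  have h2 : (∏ i, (X i.succ : R0 k r) ^ d i) ∈ (p0m k r) ^ n := by
    have h3 : (∏ i, (X i.succ : R0 k r) ^ d i) ∈ ∏ i : Fin r, (p0m k r) ^ d i :=
      Ideal.prod_mem_prod fun i _ => Ideal.pow_mem_pow
        (Ideal.subset_span (Set.mem_range_self i.succ)) _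
    rw [Finset.prod_pow_eq_pow_sum, ← Finsupp.degree_eq_sum] at h3
    exact Ideal.pow_le_pow_right hd h3
  rw [Ideal.Quotient.eq_zero_iff_mem.2 h2, WittVector.teichmuller_zero]

theorem p0_eval_zero (n : ℕ) {q : MvPolynomial (Fin r) (WittVector p k)}
    (hq : q ∈ MvPolynomial.idealOfVars (Fin r) (WittVector p k) ^ n) :
    MvPolynomial.eval₂Hom (p0tau p k r n) (p0x p k r n) q = 0 := by
  rw [MvPolynomial.mem_pow_idealOfVars_iff] at hq
  rw [MvPolynomial.coe_eval₂Hom, MvPolynomial.eval₂_eq']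
  refine Finset.sum_eq_zero fun d hd => ?_
  rw [p0_prod p k r n d (hq d hd), mul_zero]

/-- the truncated homomorphisms. -/
noncomputable def p0phi (n : ℕ) : La p k r →+* WittVector p (p0Q k r n) :=
  (Ideal.Quotient.lift (MvPolynomial.idealOfVars (Fin r) (WittVector p k) ^ n)
    (MvPolynomial.eval₂Hom (p0tau p k r n) (p0x p k r n))
    (fun _ hq => p0_eval_zero p k r n hq)).comp
      (truncTotalAlgHom (Fin r) (WittVector p k) n).toRingHom

theorem p0phi_apply (n : ℕ) (f : La p k r) :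
    p0phi p k r n f =
      MvPolynomial.eval₂Hom (p0tau p k r n) (p0x p k r n) (f.truncTotal n) := rfl

theorem p0phi_coe (n : ℕ) (q : MvPolynomial (Fin r) (WittVector p k)) :
    p0phi p k r n (q : La p k r) =
      MvPolynomial.eval₂Hom (p0tau p k r n) (p0x p k r n) q := by
  have h := (truncTotalAlgHom (Fin r) (WittVector p k) n).commutes q
  have h2 : p0phi p k r n (q : La p k r) =
      (Ideal.Quotient.lift (MvPolynomial.idealOfVars (Fin r) (WittVector p k) ^ n)
    (MvPolynomial.eval₂Hom (p0tau p k r n) (p0x p k r n))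
    (fun _ hq => p0_eval_zero p k r n hq))
      (truncTotalAlgHom (Fin r) (WittVector p k) n (algebraMap (MvPolynomial (Fin r)
        (WittVector p k)) (MvPowerSeries (Fin r) (WittVector p k)) q)) := rfl
  rw [h2, h]
  rfl

theorem p0phi_map {m n : ℕ} (hle : m ≤ n) (f : La p k r) :
    WittVector.map (Ideal.Quotient.factorPow (p0m k r) hle) (p0phi p k r n f) =
      p0phi p k r m f := by
  have h1 : (WittVector.map (Ideal.Quotient.factorPow (p0m k r) hle)).comp
      (MvPolynomial.eval₂Hom (p0tau p k r n) (p0x p k r n)) =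
      MvPolynomial.eval₂Hom (p0tau p k r m) (p0x p k r m) := by
    refine MvPolynomial.ringHom_ext (fun a => ?_) (fun i => ?_)
    · rw [RingHom.comp_apply, MvPolynomial.eval₂Hom_C, MvPolynomial.eval₂Hom_C]
      ext j
      simp only [p0tau, WittVector.map_coeff, RingHom.comp_apply]
      rfl
    · rw [RingHom.comp_apply, MvPolynomial.eval₂Hom_X', MvPolynomial.eval₂Hom_X', p0x, p0x,
        WittVector.map_teichmuller]
      rfl
  rw [p0phi_apply, ← RingHom.comp_apply, h1, p0phi_apply, ← sub_eq_zero, ← map_sub]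
  exact p0_eval_zero p k r m (truncTotal_sub_truncTotal_mem_pow_idealOfVars hle (le_refl _) _)

theorem p0_ext {f g : R0 k r}
    (h : ∀ n, Ideal.Quotient.mk ((p0m k r) ^ n) f = Ideal.Quotient.mk ((p0m k r) ^ n) g) :
    f = g := by
  ext d
  have h1 := h (d.degree + 1)
  rw [Ideal.Quotient.eq, mem_pow_iff] at h1
  have h2 := h1 d (Nat.lt_succ_self _)
  rwa [map_sub, sub_eq_zero] at h2

theorem p0_extW {f g : WittVector p (R0 k r)}
    (h : ∀ n, WittVector.map (Ideal.Quotient.mk ((p0m k r) ^ n)) f =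
      WittVector.map (Ideal.Quotient.mk ((p0m k r) ^ n)) g) : f = g := by
  ext1 i
  refine p0_ext k r fun n => ?_
  have h1 := congrArg (fun w => WittVector.coeff w i) (h n)
  simpa only [WittVector.map_coeff] using h1

theorem p0_exists (f : La p k r) (i : ℕ) : ∃ L : R0 k r, ∀ n,
    Ideal.Quotient.mk ((p0m k r) ^ n) L = (p0phi p k r n f).coeff i := by
  have h1 : ∀ n, ∃ a : R0 k r,
      Ideal.Quotient.mk ((p0m k r) ^ n) a = (p0phi p k r n f).coeff i :=
    fun n => Ideal.Quotient.mk_surjective _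
  choose a ha using h1
  obtain ⟨L, hL⟩ : ∃ L : R0 k r, ∀ d, coeff d L = coeff d (a (d.degree + 1)) :=
    ⟨fun d => coeff d (a (d.degree + 1)), fun d => rfl⟩
  refine ⟨L, fun n => ?_⟩
  rw [← ha n, Ideal.Quotient.eq, mem_pow_iff]
  intro d hd
  rw [map_sub, hL]
  have h2 : a n - a (d.degree + 1) ∈ (p0m k r) ^ (d.degree + 1) := by
    rw [← Ideal.Quotient.eq, ha (d.degree + 1), ← p0phi_map p k r hd f, WittVector.map_coeff,
      ← ha n]
    rfl
  rw [mem_pow_iff] at h2
  have h3 := h2 d (Nat.lt_succ_self _)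
  rw [map_sub, sub_eq_zero] at h3
  rw [h3]
  exact sub_self _

/-- the homomorphism. -/
theorem p0_hom : ∃ ψ : La p k r →+* WittVector p (R0 k r), ∀ n f,
    WittVector.map (Ideal.Quotient.mk ((p0m k r) ^ n)) (ψ f) = p0phi p k r n f := by
  choose L hL using p0_exists p k r
  have key : ∀ n f, WittVector.map (Ideal.Quotient.mk ((p0m k r) ^ n))
      (WittVector.mk p (L f)) = p0phi p k r n f := by
    intro n f
    ext i
    rw [WittVector.map_coeff]
    exact hL f i n
  refine ⟨{ toFun := fun f => WittVector.mk p (L f), map_one' := ?_, map_mul' := ?_,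
            map_zero' := ?_, map_add' := ?_ }, key⟩
  · exact p0_extW p k r fun n => by rw [key, map_one, map_one]
  · exact fun f g => p0_extW p k r fun n => by rw [key, map_mul, map_mul, key, key]
  · exact p0_extW p k r fun n => by rw [key, map_zero, map_zero]
  · exact fun f g => p0_extW p k r fun n => by rw [key, map_add, map_add, key, key]

theorem p0_coeff_zero {ψ : La p k r →+* WittVector p (R0 k r)}
    (hψ : ∀ n f, WittVector.map (Ideal.Quotient.mk ((p0m k r) ^ n)) (ψ f) = p0phi p k r n f)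
    (f : La p k r) (n : ℕ) :
    Ideal.Quotient.mk ((p0m k r) ^ n) ((ψ f).coeff 0) = Ideal.Quotient.mk ((p0m k r) ^ n)
      ((MvPolynomial.rename Fin.succ (MvPolynomial.map (WittVector.constantCoeff (p := p))
        (f.truncTotal n)) : MvPolynomial (Fin (r + 1)) k) : R0 k r) := by
  have h1 : ((WittVector.constantCoeff (p := p)).comp
      (MvPolynomial.eval₂Hom (p0tau p k r n) (p0x p k r n))) =
      (Ideal.Quotient.mk ((p0m k r) ^ n)).comp ((MvPolynomial.coeToMvPowerSeries.ringHom).comp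
        ((MvPolynomial.rename (R := k) (Fin.succ (n := r))).toRingHom.comp
          (MvPolynomial.map (WittVector.constantCoeff (p := p))))) := by
    refine MvPolynomial.ringHom_ext (fun a => ?_) (fun i => ?_)
    · simp only [RingHom.comp_apply, MvPolynomial.eval₂Hom_C, MvPolynomial.map_C, p0tau,
        WittVector.constantCoeff_apply, WittVector.map_coeff, AlgHom.toRingHom_eq_coe,
        RingHom.coe_coe, MvPolynomial.rename_C, MvPolynomial.coeToMvPowerSeries.ringHom_apply,
        MvPolynomial.coe_C]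
    · simp only [RingHom.comp_apply, MvPolynomial.eval₂Hom_X', MvPolynomial.map_X, p0x,
        WittVector.constantCoeff_apply, WittVector.teichmuller_coeff_zero,
        AlgHom.toRingHom_eq_coe,
        RingHom.coe_coe, MvPolynomial.rename_X, MvPolynomial.coeToMvPowerSeries.ringHom_apply,
        MvPolynomial.coe_X]
  have h2 := congrArg (fun w => WittVector.coeff w 0) (hψ n f)
  simp only [WittVector.map_coeff] at h2
  rw [h2, p0phi_apply]
  exact congr($h1 (f.truncTotal n))

theorem p0_degree (β : Fin r →₀ ℕ) : (β.mapDomain Fin.succ).degree = β.degree := by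
  rw [Finsupp.degree_eq_sum, Finsupp.degree_eq_sum, Fin.sum_univ_succ,
    Finsupp.mapDomain_of_notMem_range _ _ (by
      rintro ⟨i, hi⟩
      exact Fin.succ_ne_zero i hi), zero_add]
  exact Finset.sum_congr rfl fun i _ => Finsupp.mapDomain_apply (Fin.succ_injective r) _ _

theorem p0_coeff {ψ : La p k r →+* WittVector p (R0 k r)}
    (hψ : ∀ n f, WittVector.map (Ideal.Quotient.mk ((p0m k r) ^ n)) (ψ f) = p0phi p k r n f)
    (f : La p k r) (β : Fin r →₀ ℕ) :
    coeff (β.mapDomain Fin.succ) ((ψ f).coeff 0) = (coeff β f).coeff 0 := by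
  have h1 := p0_coeff_zero p k r hψ f (β.degree + 1)
  rw [Ideal.Quotient.eq, mem_pow_iff] at h1
  have h2 := h1 (β.mapDomain Fin.succ) (by rw [p0_degree]; exact Nat.lt_succ_self _)
  rw [map_sub, sub_eq_zero, MvPolynomial.coeff_coe,
    MvPolynomial.coeff_rename_mapDomain _ (Fin.succ_injective r), MvPolynomial.coeff_map,
    coeff_truncTotal _ (Nat.lt_succ_self _)] at h2
  exact h2

theorem p0_mapDomain (α : Fin (r + 1) →₀ ℕ) (h : α 0 = 0) :
    ∃ β : Fin r →₀ ℕ, β.mapDomain Fin.succ = α := by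
  refine ⟨Finsupp.tail α, ?_⟩
  ext i
  refine Fin.cases ?_ (fun i => ?_) i
  · rw [Finsupp.mapDomain_of_notMem_range _ _ (by
      rintro ⟨i, hi⟩
      exact Fin.succ_ne_zero i hi), h]
  · rw [Finsupp.mapDomain_apply (Fin.succ_injective r), Finsupp.tail_apply]

end M3

section M3
variable (p : ℕ) [Fact p.Prime] (k : Type u) [Field k] [CharP k p] [PerfectRing k p] (r : ℕ)

/-- TASK M3: the homomorphism `W(k)[[u_1, .., u_r]] → W(k[[t, u_1, .., u_r]])`, `u_i ↦ [u_i]`. -/
theorem exists_psi0 : ∃ ψ : La p k r →+* WittVector p (R0 k r),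
    (∀ i, ψ (MvPowerSeries.X i) = WittVector.teichmuller p (MvPowerSeries.X i.succ)) ∧
    (∀ a, ψ (MvPowerSeries.C a) = WittVector.map MvPowerSeries.C a) ∧
    (∀ f, (ψ f).coeff 0 ∈ Ideal.span {(MvPowerSeries.X 0 : R0 k r)} →
      f ∈ Ideal.span {(p : La p k r)}) ∧
    ∀ g : R0 k r, ∃ f : La p k r, g - (ψ f).coeff 0 ∈ Ideal.span {(MvPowerSeries.X 0 : R0 k r)} := by
  obtain ⟨ψ, hψ⟩ := p0_hom p k r
  refine ⟨ψ, fun i => ?_, fun a => ?_, fun f hf => ?_, fun g => ?_⟩
  · refine p0_extW p k r fun n => ?_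
    have h1 : (X i : La p k r) = ((MvPolynomial.X i : MvPolynomial (Fin r) (WittVector p k)) :
        La p k r) := (MvPolynomial.coe_X i).symm
    rw [hψ, h1, p0phi_coe, MvPolynomial.eval₂Hom_X', WittVector.map_teichmuller]
    rfl
  · refine p0_extW p k r fun n => ?_
    have h1 : (C a : La p k r) = ((MvPolynomial.C a : MvPolynomial (Fin r) (WittVector p k)) :
        La p k r) := (MvPolynomial.coe_C a).symm
    rw [hψ, h1, p0phi_coe, MvPolynomial.eval₂Hom_C]
    ext j
    simp only [p0tau, WittVector.map_coeff, RingHom.comp_apply]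
  · rw [Ideal.mem_span_singleton, X_dvd_iff] at hf
    have h1 : ∀ β, ∃ c : WittVector p k, coeff β f = p * c := by
      intro β
      have h2 := hf (β.mapDomain Fin.succ) (Finsupp.mapDomain_of_notMem_range _ _ (by
        rintro ⟨i, hi⟩
        exact Fin.succ_ne_zero i hi))
      rw [p0_coeff p k r hψ, ← WittVector.mem_span_p_iff_coeff_zero_eq_zero,
        Ideal.mem_span_singleton] at h2
      exact h2
    choose c hc using h1
    obtain ⟨c', hc'⟩ : ∃ c' : La p k r, ∀ β, coeff β c' = c β := ⟨fun β => c β, fun β => rfl⟩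
    rw [Ideal.mem_span_singleton]
    refine ⟨c', ?_⟩
    ext1 β
    have h3 : (p : La p k r) = C (p : WittVector p k) := (map_natCast C p).symm
    rw [hc, h3, coeff_C_mul, hc']
  · obtain ⟨f, hf⟩ : ∃ f : La p k r, ∀ β, coeff β f =
        WittVector.teichmuller p (coeff (β.mapDomain Fin.succ) g) := ⟨fun β => _, fun β => rfl⟩
    refine ⟨f, ?_⟩
    rw [Ideal.mem_span_singleton, X_dvd_iff]
    intro α hα
    obtain ⟨β, rfl⟩ := p0_mapDomain r α hα
    rw [map_sub, p0_coeff p k r hψ, hf, WittVector.teichmuller_coeff_zero, sub_self]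

end M3

end Vale.Agent.P202.Mix
end
namespace AFast5a6b4bx2494a
@[reducible] noncomputable def a0.{u1} {x1 : Type u1} [x2 : Field x1] {x3 : ℕ} {x4 : ℕ} : Semiring (Vale.Agent.P202.Mix.R0 x1 x3 ⧸ Vale.Agent.P202.Mix.p0m x1 x3 ^ x4) := inferInstance
@[reducible] noncomputable def a1.{u1} {x1 : Type u1} [x2 : Field x1] {x3 : ℕ} {x4 : ℕ} : CommRing (Vale.Agent.P202.Mix.R0 x1 x3 ⧸ Vale.Agent.P202.Mix.p0m x1 x3 ^ x4) := inferInstance
theorem a2.{u1} {x1 : Type u1} [x2 : Field x1] {x3 : ℕ} {x4 : ℕ} : (Vale.Agent.P202.Mix.p0m x1 x3 ^ x4).IsTwoSided := inferInstance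
@[reducible] noncomputable def a3.{u1} {x1 : ℕ} {x2 : Type u1} [x3 : Field x2] {x4 : ℕ} {x5 : ℕ} [x6 : Fact (Nat.Prime x1)] : Semiring (WittVector x1 (Vale.Agent.P202.Mix.p0Q x2 x4 x5)) := inferInstance
@[reducible] noncomputable def a4.{u1} {x1 : Type u1} [x2 : Field x1] {x3 : ℕ} {x4 : ℕ} : NonAssocSemiring (Vale.Agent.P202.Mix.R0 x1 x3 ⧸ Vale.Agent.P202.Mix.p0m x1 x3 ^ x4) := inferInstance
@[reducible] noncomputable def a5.{u1} {x1 : Type u1} [x2 : Field x1] {x3 : ℕ} {x4 : ℕ} : Ring (Vale.Agent.P202.Mix.R0 x1 x3 ⧸ Vale.Agent.P202.Mix.p0m x1 x3 ^ x4) := inferInstance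
@[reducible] noncomputable def a6.{u1} {x1 : ℕ} {x2 : Type u1} [x3 : Field x2] {x4 : ℕ} {x5 : ℕ} [x6 : Fact (Nat.Prime x1)] : CommSemiring (WittVector x1 (Vale.Agent.P202.Mix.p0Q x2 x4 x5)) := inferInstance
@[reducible] noncomputable def a7.{u1} {x1 : ℕ} {x2 : Type u1} [x3 : Field x2] {x4 : ℕ} {x5 : ℕ} [x6 : Fact (Nat.Prime x1)] : CommRing (WittVector x1 (Vale.Agent.P202.Mix.p0Q x2 x4 x5)) := inferInstance
@[reducible] noncomputable def a8.{u1} {x1 : ℕ} {x2 : Type u1} [x3 : Field x2] {x4 : ℕ} {x5 : ℕ} [x6 : Fact (Nat.Prime x1)] : NonAssocSemiring (WittVector x1 (Vale.Agent.P202.Mix.p0Q x2 x4 x5)) := inferInstance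
@[reducible] noncomputable def a9.{u1} {x1 : ℕ} {x2 : Type u1} [x3 : Field x2] {x4 : ℕ} {x5 : ℕ} [x6 : Fact (Nat.Prime x1)] : MulOneClass (WittVector x1 (Vale.Agent.P202.Mix.p0Q x2 x4 x5)) := inferInstance
@[reducible] noncomputable def a10.{u1} {x1 : ℕ} {x2 : Type u1} [x3 : Field x2] {x4 : ℕ} {x5 : ℕ} [x6 : Fact (Nat.Prime x1)] : MulZeroOneClass (WittVector x1 (Vale.Agent.P202.Mix.p0Q x2 x4 x5)) := inferInstance
@[reducible] noncomputable def a11.{u1} {x1 : ℕ} {x2 : Type u1} [x3 : Field x2] {x4 : ℕ} {x5 : ℕ} [x6 : Fact (Nat.Prime x1)] : Semiring (WittVector x1 (Vale.Agent.P202.Mix.R0 x2 x4 ⧸ Vale.Agent.P202.Mix.p0m x2 x4 ^ x5)) := inferInstance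
@[reducible] noncomputable def a12.{u1} {x1 : ℕ} {x2 : Type u1} [x3 : Field x2] {x4 : ℕ} {x5 : ℕ} [x6 : Fact (Nat.Prime x1)] : MulOne (WittVector x1 (Vale.Agent.P202.Mix.p0Q x2 x4 x5)) := inferInstance
@[reducible] noncomputable def a13.{u1} {x1 : ℕ} {x2 : Type u1} [x3 : Field x2] {x4 : ℕ} {x5 : ℕ} [x6 : Fact (Nat.Prime x1)] : NonAssocSemiring (WittVector x1 (Vale.Agent.P202.Mix.R0 x2 x4 ⧸ Vale.Agent.P202.Mix.p0m x2 x4 ^ x5)) := inferInstance
@[reducible] noncomputable def a14.{u1} {x1 : Type u1} [x2 : Field x1] {x3 : ℕ} {x4 : ℕ} : MulOne (Vale.Agent.P202.Mix.p0Q x1 x3 x4) := inferInstance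
@[reducible] noncomputable def a15.{u1} {x1 : Type u1} [x2 : Field x1] {x3 : ℕ} {x4 : ℕ} : MulOneClass (Vale.Agent.P202.Mix.p0Q x1 x3 x4) := inferInstance
@[reducible] noncomputable def a16.{u1} {x1 : Type u1} [x2 : Field x1] {x3 : ℕ} {x4 : ℕ} : MulZeroOneClass (Vale.Agent.P202.Mix.p0Q x1 x3 x4) := inferInstance
@[reducible] noncomputable def a17.{u1} {x1 : ℕ} {x2 : Type u1} [x3 : Field x2] {x4 : ℕ} {x5 : ℕ} [x6 : Fact (Nat.Prime x1)] : CommSemiring (WittVector x1 (Vale.Agent.P202.Mix.R0 x2 x4 ⧸ Vale.Agent.P202.Mix.p0m x2 x4 ^ x5)) := inferInstance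
@[reducible] noncomputable def a18.{u1} {x1 : Type u1} [x2 : Field x1] {x3 : ℕ} {x4 : ℕ} : CommSemiring (Vale.Agent.P202.Mix.p0Q x1 x3 x4) := inferInstance
@[reducible] noncomputable def a19.{u1} {x1 : Type u1} [x2 : Field x1] {x3 : ℕ} {x4 : ℕ} : Semiring (Vale.Agent.P202.Mix.p0Q x1 x3 x4) := inferInstance
@[reducible] noncomputable def a20.{u1} {x1 : ℕ} {x2 : Type u1} [x3 : Field x2] {x4 : ℕ} {x5 : ℕ} [x6 : Fact (Nat.Prime x1)] : MulOne (WittVector x1 (Vale.Agent.P202.Mix.R0 x2 x4 ⧸ Vale.Agent.P202.Mix.p0m x2 x4 ^ x5)) := inferInstance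
end AFast5a6b4bx2494a
attribute [local instance] AFast5a6b4bx2494a.a0 AFast5a6b4bx2494a.a1 AFast5a6b4bx2494a.a2
  AFast5a6b4bx2494a.a3 AFast5a6b4bx2494a.a4 AFast5a6b4bx2494a.a5 AFast5a6b4bx2494a.a6
  AFast5a6b4bx2494a.a7 AFast5a6b4bx2494a.a8 AFast5a6b4bx2494a.a9 AFast5a6b4bx2494a.a10
  AFast5a6b4bx2494a.a11 AFast5a6b4bx2494a.a12 AFast5a6b4bx2494a.a13 AFast5a6b4bx2494a.a14
  AFast5a6b4bx2494a.a15 AFast5a6b4bx2494a.a16 AFast5a6b4bx2494a.a17 AFast5a6b4bx2494a.a18
  AFast5a6b4bx2494a.a19 AFast5a6b4bx2494a.a20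

section

/-!
P202-MIX, part GEO, task C2a: the cycles of an exact complex of representations.
-/

namespace Vale.Agent.P202.Mix

open scoped ENNReal

universe u

/-! ### integer matrices acting on modules -/

section Za

variable {α β γ : Type} [Fintype β] [Fintype γ] (R : Type u) [CommRing R] (M : Type u)
  [AddCommGroup M] [Module R M]

theorem repcyc_za_mul (A : Matrix α β ℤ) (B : Matrix β γ ℤ) (f : γ → M) :
    za (A * B) R M f = za A R M (za B R M f) := by
  ext a
  show ∑ c, (A * B) a c • f c = ∑ b, A a b • ∑ c, B b c • f c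
  simp only [Matrix.mul_apply, Finset.sum_smul, Finset.smul_sum, mul_smul]
  exact Finset.sum_comm

theorem repcyc_za_one [DecidableEq β] (f : β → M) : za (1 : Matrix β β ℤ) R M f = f := by
  ext a
  show ∑ b, (1 : Matrix β β ℤ) a b • f b = f a
  rw [Finset.sum_eq_single a]
  · simp
  · intro b _ hb
    simp [Matrix.one_apply_ne hb.symm]
  · intro h
    exact absurd (Finset.mem_univ a) h

theorem repcyc_za_zero (f : β → M) : za (0 : Matrix α β ℤ) R M f = 0 := by
  ext a
  show ∑ b, (0 : Matrix α β ℤ) a b • f b = 0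
  simp

theorem repcyc_za_sub (A B : Matrix α β ℤ) (f : β → M) :
    za (A - B) R M f = za A R M f - za B R M f := by
  ext a
  show ∑ b, (A - B) a b • f b = ∑ b, A a b • f b - ∑ b, B a b • f b
  simp [sub_smul, Finset.sum_sub_distrib]

end Za

/-! ### splittings over `ℤ` -/

section Split

theorem repcyc_section {α β : Type} [Fintype α] [Fintype β]
    (f : (α → ℤ) →ₗ[ℤ] (β → ℤ)) :
    ∃ s : LinearMap.range f →ₗ[ℤ] (α → ℤ), ∀ y, f.rangeRestrict (s y) = y := by
  obtain ⟨s, hs⟩ := Module.projective_lifting_property f.rangeRestrict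
    (LinearMap.id : LinearMap.range f →ₗ[ℤ] LinearMap.range f) f.surjective_rangeRestrict
  exact ⟨s, fun y => LinearMap.congr_fun hs y⟩

/-- a map whose range is a kernel has a generalized inverse. -/
theorem repcyc_ginv {α β γ : Type} [Fintype α] [Fintype β] [Fintype γ]
    (f : (α → ℤ) →ₗ[ℤ] (β → ℤ)) (g : (β → ℤ) →ₗ[ℤ] (γ → ℤ)) (hgf : ∀ v, g (f v) = 0)
    (hex : ∀ w, g w = 0 → ∃ v, f v = w) :
    ∃ S : (β → ℤ) →ₗ[ℤ] (α → ℤ), ∀ v, f (S (f v)) = f v := by
  obtain ⟨s, hs⟩ := repcyc_section f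
  obtain ⟨t, ht⟩ := repcyc_section g
  have h1 : ∀ w, g (w - t (g.rangeRestrict w)) = 0 := by
    intro w
    have := congrArg Subtype.val (ht (g.rangeRestrict w))
    rw [map_sub, sub_eq_zero]
    exact this.symm
  let ρ : (β → ℤ) →ₗ[ℤ] LinearMap.range f :=
    LinearMap.codRestrict (LinearMap.range f) (LinearMap.id - t ∘ₗ g.rangeRestrict) (by
      intro w
      obtain ⟨v, hv⟩ := hex _ (h1 w)
      exact ⟨v, hv⟩)
  refine ⟨s ∘ₗ ρ, fun v => ?_⟩
  have h2 : f (s (ρ (f v))) = (ρ (f v) : β → ℤ) := congrArg Subtype.val (hs (ρ (f v)))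
  have h3 : (ρ (f v) : β → ℤ) = f v - t (g.rangeRestrict (f v)) := rfl
  have h4 : g.rangeRestrict (f v) = 0 := Subtype.ext (hgf v)
  rw [LinearMap.comp_apply, h2, h3, h4, map_zero, sub_zero]

/-- idempotent integer matrices split. -/
theorem repcyc_idem {ι : Type} [Fintype ι] [DecidableEq ι] (e : Matrix ι ι ℤ) (he : e * e = e) :
    ∃ (k : ℕ) (E : Matrix ι (Fin k) ℤ) (ρ : Matrix (Fin k) ι ℤ), E * ρ = e ∧ ρ * E = 1 := by
  let f : (ι → ℤ) →ₗ[ℤ] (ι → ℤ) := Matrix.toLin' e
  have hf : ∀ v, f (f v) = f v := by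
    intro v
    show Matrix.toLin' e (Matrix.toLin' e v) = Matrix.toLin' e v
    rw [← LinearMap.comp_apply, ← Matrix.toLin'_mul, he]
  obtain ⟨k, ⟨b⟩⟩ := Submodule.nonempty_basis_of_pid (Pi.basisFun ℤ ι) (LinearMap.range f)
  let φ : LinearMap.range f ≃ₗ[ℤ] (Fin k → ℤ) := b.equivFun
  refine ⟨k, LinearMap.toMatrix' ((LinearMap.range f).subtype ∘ₗ φ.symm.toLinearMap),
    LinearMap.toMatrix' (φ.toLinearMap ∘ₗ f.rangeRestrict), ?_, ?_⟩
  · rw [← LinearMap.toMatrix'_comp]
    have : ((LinearMap.range f).subtype ∘ₗ φ.symm.toLinearMap) ∘ₗ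
        (φ.toLinearMap ∘ₗ f.rangeRestrict) = f := by
      refine LinearMap.ext fun v => ?_
      show ((φ.symm (φ (f.rangeRestrict v)) : LinearMap.range f) : ι → ℤ) = f v
      rw [LinearEquiv.symm_apply_apply]
      rfl
    rw [this]
    exact LinearMap.toMatrix'_toLin' e
  · rw [← LinearMap.toMatrix'_comp]
    have : (φ.toLinearMap ∘ₗ f.rangeRestrict) ∘ₗ
        ((LinearMap.range f).subtype ∘ₗ φ.symm.toLinearMap) = LinearMap.id := by
      refine LinearMap.ext fun v => ?_
      obtain ⟨w, hw⟩ := (φ.symm v).2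
      have h1 : f.rangeRestrict ((φ.symm v : LinearMap.range f) : ι → ℤ) = φ.symm v := by
        refine Subtype.ext ?_
        show f ((φ.symm v : LinearMap.range f) : ι → ℤ) = _
        rw [← hw, hf]
      show φ (f.rangeRestrict ((φ.symm v : LinearMap.range f) : ι → ℤ)) = v
      rw [h1, LinearEquiv.apply_symm_apply]
    rw [this, LinearMap.toMatrix'_id]

end Split

theorem repcyc_za_toLin {α β : Type} [Fintype β] [DecidableEq β] (A : Matrix α β ℤ) :
    za A ℤ ℤ = Matrix.toLin' A := by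
  refine LinearMap.ext fun v => funext fun a => ?_
  rfl

/-- a matrix whose image is a kernel has a generalized inverse. -/
theorem repcyc_ginv_mat {α β γ : Type} [Fintype α] [Fintype β] [Fintype γ] [DecidableEq α]
    [DecidableEq β] [DecidableEq γ] (A : Matrix β α ℤ) (B : Matrix γ β ℤ) (hBA : B * A = 0)
    (hex : ∀ w : β → ℤ, za B ℤ ℤ w = 0 → ∃ v, za A ℤ ℤ v = w) :
    ∃ S : Matrix α β ℤ, A * S * A = A := by
  obtain ⟨S, hS⟩ := repcyc_ginv (za A ℤ ℤ) (za B ℤ ℤ) (by
    intro v
    rw [← repcyc_za_mul, hBA, repcyc_za_zero]) hex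
  refine ⟨LinearMap.toMatrix' S, ?_⟩
  apply Matrix.toLin'.injective
  rw [Matrix.toLin'_mul, Matrix.toLin'_mul, Matrix.toLin'_toMatrix', ← repcyc_za_toLin]
  exact LinearMap.ext hS

/-- lifting of matrices. -/
theorem repcyc_lift_mat {α β γ : Type} [Fintype α] [Fintype β] [Fintype γ]
    {k : ℕ} (A : Matrix β α ℤ) (B : Matrix γ β ℤ)
    (hex : ∀ w : β → ℤ, za B ℤ ℤ w = 0 → ∃ v, za A ℤ ℤ v = w) (E : Matrix β (Fin k) ℤ)
    (hE : B * E = 0) : ∃ σ : Matrix α (Fin k) ℤ, A * σ = E := by
  have h : ∀ b : Fin k, ∃ v, za A ℤ ℤ v = fun a => E a b := by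
    intro b
    refine hex _ (funext fun c => ?_)
    exact congrFun (congrFun hE c) b
  choose v hv using h
  refine ⟨Matrix.of fun a b => v b a, ?_⟩
  ext a b
  exact congrFun (hv b) a

/-! ### relative lengths -/

section Rl

variable {R : Type u} [CommRing R] (L : AddLen R) {M N : Type u} [AddCommGroup M] [Module R M]
  [AddCommGroup N] [Module R N]

theorem repcyc_len_le (f : M →ₗ[R] N) (hf : Function.Surjective f) : L.len N ≤ L.len M := by
  rw [L.add (LinearMap.ker f).subtype f (Submodule.subtype_injective _) hf (by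
    intro x
    constructor
    · intro h
      exact ⟨⟨x, h⟩, rfl⟩
    · rintro ⟨y, rfl⟩
      exact y.2)]
  exact le_add_self

theorem repcyc_rl_map_le (f : M →ₗ[R] N) (X Y : Submodule R M) :
    L.rl (X.map f) (Y.map f) ≤ L.rl X Y := by
  unfold AddLen.rl
  refine repcyc_len_le L (Submodule.mapQ (X.submoduleOf Y) ((X.map f).submoduleOf (Y.map f))
    (f.submoduleMap Y) ?_) ?_
  · rintro ⟨y, hy⟩ hx
    exact ⟨y, hx, rfl⟩
  · intro z
    obtain ⟨z, rfl⟩ := Submodule.mkQ_surjective _ z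
    obtain ⟨y, rfl⟩ := f.submoduleMap_surjective Y z
    exact ⟨Submodule.mkQ _ y, rfl⟩

end Rl

/-! ### Koszul complexes -/

section Kz

variable {R : Type u} [CommRing R] {V W : Type u} [AddCommGroup V] [Module R V]
  [AddCommGroup W] [Module R W] {n : ℕ}

theorem repcyc_kz_kmap (T : Fin n → V →ₗ[R] V) (T' : Fin n → W →ₗ[R] W) (f : V →ₗ[R] W)
    (h : ∀ l v, f (T l v) = T' l (f v)) (v : Finset (Fin n) → V) :
    kmap n f (kz T v) = kz T' (kmap n f v) := by
  ext J
  show f (∑ l ∈ Jᶜ, ksg l J • T l (v (insert l J))) =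
    ∑ l ∈ Jᶜ, ksg l J • T' l (f (v (insert l J)))
  rw [map_sum]
  refine Finset.sum_congr rfl fun l _ => ?_
  rw [map_zsmul, h]

end Kz

section Rep

variable {R : Type u} [CommRing R] (L : AddLen R) {n q : ℕ} (Q : Type u) [AddCommGroup Q]
  [Module R Q] (x : Fin n → R)

theorem repcyc_za_T {W W' : MRep n} (A : Matrix W'.ι W.ι ℤ) (l : Fin n)
    (h : A * W.X l = W'.X l * A) (v : W.ι → Q) :
    za A R Q (W.T Q x l v) = W'.T Q x l (za A R Q v) := by
  show za A R Q (za (W.X l) R Q v - x l • v) = za (W'.X l) R Q (za A R Q v) - x l • za A R Q v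
  rw [map_sub, map_smul, ← repcyc_za_mul, ← repcyc_za_mul, h]

/-- the cycles of an exact complex form a complex exact up to null modules (above the degree of
the cohomology). -/
theorem cyc_null (hCL : CLnull L n q Q x) (C : MCx n) (hC : C.IsCx q) (top : ℕ)
    (htop : ∀ p, top ≤ p → IsEmpty (C.W p).ι) (p₀ : ℕ) (hex : ∀ p, p ≠ p₀ → C.ExAt p) (p : ℕ)
    (hp : p₀ < p + 1) (i : ℤ) :
    L.rl ((kcyc ((C.W p).T Q x) i).map (kmap n (za (C.D p) R Q)))
      (kcyc ((C.W (p + 1)).T Q x) i ⊓ LinearMap.ker (kmap n (za (C.D (p + 1)) R Q))) = 0 := by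
  have hex1 : ∀ w : (C.W (p + 1)).ι → ℤ, za (C.D (p + 1)) ℤ ℤ w = 0 →
      ∃ v, za (C.D p) ℤ ℤ v = w := hex (p + 1) (by omega) ℤ
  have hex2 : ∀ w : (C.W (p + 2)).ι → ℤ, za (C.D (p + 2)) ℤ ℤ w = 0 →
      ∃ v, za (C.D (p + 1)) ℤ ℤ v = w := hex (p + 2) (by omega) ℤ
  obtain ⟨S, hS⟩ := repcyc_ginv_mat (C.D (p + 1)) (C.D (p + 2)) (hC.dd (p + 1)) hex2
  have hidem : (1 - S * C.D (p + 1)) * (1 - S * C.D (p + 1)) = 1 - S * C.D (p + 1) := by
    have h1 : S * C.D (p + 1) * (S * C.D (p + 1)) = S * C.D (p + 1) := by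
      rw [Matrix.mul_assoc, ← Matrix.mul_assoc (C.D (p + 1)), hS]
    rw [Matrix.sub_mul, Matrix.mul_sub, Matrix.mul_sub, h1]
    simp
  obtain ⟨k, E, ρ, hEρ, hρE⟩ := repcyc_idem _ hidem
  have hDE : C.D (p + 1) * E = 0 := by
    have h1 : C.D (p + 1) * E = C.D (p + 1) * (E * ρ) * E := by
      rw [Matrix.mul_assoc, Matrix.mul_assoc, hρE, Matrix.mul_one]
    rw [h1, hEρ, Matrix.mul_sub, Matrix.mul_one, ← Matrix.mul_assoc, hS, sub_self,
      Matrix.zero_mul]
  -- matrices with image in the kernel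
  have hY : ∀ {κ : Type} (Y : Matrix (C.W (p + 1)).ι κ ℤ), C.D (p + 1) * Y = 0 →
      E * (ρ * Y) = Y := by
    intro κ Y hY
    rw [← Matrix.mul_assoc, hEρ, Matrix.sub_mul, Matrix.one_mul, Matrix.mul_assoc, hY,
      Matrix.mul_zero, sub_zero]
  have hDXE : ∀ l, C.D (p + 1) * ((C.W (p + 1)).X l * E) = 0 := by
    intro l
    rw [← Matrix.mul_assoc, hC.comm, Matrix.mul_assoc, hDE, Matrix.mul_zero]
  let V : MRep n := { ι := Fin k, X := fun l => ρ * ((C.W (p + 1)).X l * E) }
  have hEX : ∀ l, E * V.X l = (C.W (p + 1)).X l * E := fun l => hY _ (hDXE l)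
  have hprod : ∀ s : List (Fin n), E * (s.map V.X).prod = (s.map (C.W (p + 1)).X).prod * E := by
    intro s
    induction s with
    | nil => simp [V]
    | cons l s ih =>
      rw [List.map_cons, List.prod_cons, List.map_cons, List.prod_cons]
      show E * (V.X l * (s.map V.X).prod) = _
      rw [← Matrix.mul_assoc, hEX, Matrix.mul_assoc, ih, Matrix.mul_assoc]
  have hinj : ∀ {κ : Type} (A B : Matrix (Fin k) κ ℤ), E * A = E * B → A = B := by
    intro κ A B h
    have := congrArg (fun Z => ρ * Z) h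
    simpa only [← Matrix.mul_assoc, hρE, Matrix.one_mul] using this
  have hV : V.IsNil q := by
    constructor
    · intro a b
      apply hinj
      show E * (V.X a * V.X b) = E * (V.X b * V.X a)
      have h2 : ∀ a b, E * (V.X a * V.X b) =
          (C.W (p + 1)).X a * (C.W (p + 1)).X b * E := fun a b => by
        calc E * (V.X a * V.X b) = (E * V.X a) * V.X b := (Matrix.mul_assoc _ _ _).symm
          _ = ((C.W (p + 1)).X a * E) * V.X b := by rw [hEX]
          _ = (C.W (p + 1)).X a * (E * V.X b) := Matrix.mul_assoc _ _ _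
          _ = (C.W (p + 1)).X a * ((C.W (p + 1)).X b * E) := by rw [hEX]
          _ = _ := (Matrix.mul_assoc _ _ _).symm
      rw [h2, h2, (hC.nil (p + 1)).comm]
    · intro f
      have h1 := hprod (List.ofFn f)
      have h2 := (hC.nil (p + 1)).nil f
      rw [List.map_ofFn, List.map_ofFn] at h1
      have h3 : (List.ofFn ((C.W (p + 1)).X ∘ f)).prod = 0 := h2
      rw [h3, Matrix.zero_mul] at h1
      apply hinj
      show E * (List.ofFn (V.X ∘ f)).prod = E * (0 : Matrix (Fin k) (Fin k) ℤ)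
      rw [h1, Matrix.mul_zero]
  obtain ⟨σ, hσ⟩ := repcyc_lift_mat (C.D p) (C.D (p + 1)) hex1 E hDE
  have hEP : E * (ρ * C.D p) = C.D p := hY _ (hC.dd p)
  let F : (C.W p).Surj V :=
    { P := ρ * C.D p
      σ := σ
      split := by
        rw [Matrix.mul_assoc, hσ]
        exact hρE
      comm := by
        intro l
        apply hinj
        show E * (ρ * C.D p * (C.W p).X l) = E * (V.X l * (ρ * C.D p))
        rw [← Matrix.mul_assoc, hEP, ← Matrix.mul_assoc, hEX, Matrix.mul_assoc _ E, hEP, hC.comm] }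
  have key : L.rl ((kcyc ((C.W p).T Q x) i).map (kmap n (za F.P R Q))) (kcyc (V.T Q x) i) = 0 :=
    hCL (C.W p) V (hC.nil p) hV F i
  have hmap : ((kcyc ((C.W p).T Q x) i).map (kmap n (za F.P R Q))).map (kmap n (za E R Q)) =
      (kcyc ((C.W p).T Q x) i).map (kmap n (za (C.D p) R Q)) := by
    rw [← Submodule.map_comp]
    congr 1
    refine LinearMap.ext fun v => funext fun J => ?_
    show za E R Q (za (ρ * C.D p) R Q (v J)) = za (C.D p) R Q (v J)
    rw [← repcyc_za_mul, hEP]
  have hEinj : ∀ v : Fin k → Q, za E R Q v = 0 → v = 0 := by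
    intro v hv
    have := congrArg (za ρ R Q) hv
    rwa [← repcyc_za_mul, hρE, repcyc_za_one, map_zero] at this
  have hcomm : ∀ v, kmap n (za E R Q) (kz (V.T Q x) v) =
      kz ((C.W (p + 1)).T Q x) (kmap n (za E R Q) v) := fun v =>
    repcyc_kz_kmap _ _ _ (fun l w => repcyc_za_T Q x (W := V) (W' := C.W (p + 1)) E l (hEX l) w) v
  have hY2 : kcyc ((C.W (p + 1)).T Q x) i ⊓ LinearMap.ker (kmap n (za (C.D (p + 1)) R Q)) =
      (kcyc (V.T Q x) i).map (kmap n (za E R Q)) := by
    refine le_antisymm ?_ ?_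
    · rintro v ⟨⟨hv1, hv2⟩, hv3⟩
      have hv3' : ∀ J, za (C.D (p + 1)) R Q (v J) = 0 := fun J => congrFun hv3 J
      have hEv : ∀ J, za E R Q (za ρ R Q (v J)) = v J := by
        intro J
        rw [← repcyc_za_mul, hEρ, repcyc_za_sub, repcyc_za_one, repcyc_za_mul, hv3' J, map_zero,
          sub_zero]
      have hEv' : kmap n (za E R Q) (kmap n (za ρ R Q) v) = v := funext hEv
      refine ⟨kmap n (za ρ R Q) v, ⟨?_, ?_⟩, hEv'⟩
      · intro J hJ
        refine hv1 J fun h => hJ ?_
        show za ρ R Q (v J) = 0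
        rw [h, map_zero]
      · have h1 : kmap n (za E R Q) (kz (V.T Q x) (kmap n (za ρ R Q) v)) = 0 := by
          rw [hcomm, hEv']
          exact hv2
        exact funext fun J => hEinj _ (congrFun h1 J)
    · rintro _ ⟨v, ⟨hv1, hv2⟩, rfl⟩
      refine ⟨⟨?_, ?_⟩, ?_⟩
      · intro J hJ
        refine hv1 J fun h => hJ ?_
        show za E R Q (v J) = 0
        rw [h, map_zero]
      · show kz ((C.W (p + 1)).T Q x) (kmap n (za E R Q) v) = 0
        rw [← hcomm]
        have : kz (V.T Q x) v = 0 := hv2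
        rw [this, map_zero]
      · refine funext fun J => ?_
        show za (C.D (p + 1)) R Q (za E R Q (v J)) = 0
        rw [← repcyc_za_mul, hDE, repcyc_za_zero]
  rw [hY2, ← hmap]
  exact le_antisymm ((repcyc_rl_map_le L _ _ _).trans key.le) zero_le

end Rep

end Vale.Agent.P202.Mix
end

section

/-!
P202-MIX, HON-8: ultralimits of additive lengths.
-/

namespace Vale.Agent.P202.Mix

open Vale.Agent.P202.CharP
open scoped ENNReal Topology

universe u

section UltraAux

variable (R : ℕ → Type u) [∀ e, CommRing (R e)]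

/-- the idempotent of the `e`-th factor. -/
def ultraId (e : ℕ) : ∀ e, R e := Pi.single e 1

/-- the `e`-th component of a module over the product ring. -/
def ultraSub (e : ℕ) (M : Type u) [AddCommGroup M] [Module (∀ e, R e) M] : AddSubgroup M where
  carrier := {m | ultraId R e • m = m}
  add_mem' := by
    intro a b ha hb
    show ultraId R e • (a + b) = a + b
    rw [smul_add]
    exact congrArg₂ _ ha hb
  zero_mem' := by simp
  neg_mem' := by
    intro a ha
    show ultraId R e • (-a) = -a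
    rw [smul_neg]
    exact congrArg _ ha

/-- the `e`-th component, as a type. -/
def UltraT (e : ℕ) (M : Type u) [AddCommGroup M] [Module (∀ e, R e) M] : Type u :=
  ↥(ultraSub R e M)

variable (e : ℕ) (M : Type u) [AddCommGroup M] [Module (∀ e, R e) M]

instance : AddCommGroup (UltraT R e M) := inferInstanceAs (AddCommGroup ↥(ultraSub R e M))

theorem ultra_mul (e : ℕ) (r : R e) : ultraId R e * Pi.single e r = Pi.single e r := by
  unfold ultraId
  rw [← Pi.single_mul, one_mul]

instance : SMul (R e) (UltraT R e M) where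
  smul r m := ⟨(Pi.single e r : ∀ e, R e) • (m : ↥(ultraSub R e M)).1, by
    show ultraId R e • _ = _
    rw [smul_smul, ultra_mul]⟩

theorem ultra_smul_val (r : R e) (m : UltraT R e M) :
    (r • m : UltraT R e M).1 = (Pi.single e r : ∀ e, R e) • m.1 := rfl

instance : Module (R e) (UltraT R e M) where
  one_smul m := Subtype.ext (by
    rw [ultra_smul_val]
    exact m.2)
  mul_smul a b m := Subtype.ext (by
    rw [ultra_smul_val, ultra_smul_val, ultra_smul_val, smul_smul, ← Pi.single_mul])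
  smul_zero a := Subtype.ext (by
    rw [ultra_smul_val]
    exact smul_zero _)
  smul_add a m n := Subtype.ext (by
    rw [ultra_smul_val]
    show _ • (m.1 + n.1) = _ • m.1 + _ • n.1
    rw [smul_add])
  add_smul a b m := Subtype.ext (by
    rw [ultra_smul_val]
    show _ = (Pi.single e a : ∀ e, R e) • m.1 + (Pi.single e b : ∀ e, R e) • m.1
    rw [Pi.single_add, add_smul])
  zero_smul m := Subtype.ext (by
    rw [ultra_smul_val, Pi.single_zero, zero_smul]
    rfl)

variable {M} {N : Type u} [AddCommGroup N] [Module (∀ e, R e) N]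

/-- functoriality. -/
def ultraMap (f : M →ₗ[∀ e, R e] N) : UltraT R e M →ₗ[R e] UltraT R e N where
  toFun m := ⟨f m.1, by
    show ultraId R e • f m.1 = f m.1
    rw [← map_smul]
    congr 1
    exact m.2⟩
  map_add' m n := Subtype.ext (by
    show f (m.1 + n.1) = f m.1 + f n.1
    rw [map_add])
  map_smul' r m := Subtype.ext (by
    show f (r • m).1 = (Pi.single e r : ∀ e, R e) • f m.1
    rw [ultra_smul_val, map_smul])

theorem ultraMap_val (f : M →ₗ[∀ e, R e] N) (m : UltraT R e M) : (ultraMap R e f m).1 = f m.1 :=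
  rfl

/-- projection to a component. -/
def ultraPr (m : M) : UltraT R e M := ⟨ultraId R e • m, by
  show ultraId R e • _ = _
  rw [smul_smul]
  exact congrArg (fun t : ∀ e, R e => t • m) (ultra_mul R e 1)⟩

theorem ultraMap_inj (f : M →ₗ[∀ e, R e] N) (hf : Function.Injective f) :
    Function.Injective (ultraMap R e f) := by
  intro a b h
  have h1 := congrArg Subtype.val h
  rw [ultraMap_val, ultraMap_val] at h1
  exact Subtype.ext (hf h1)

theorem ultraMap_surj (f : M →ₗ[∀ e, R e] N) (hf : Function.Surjective f) :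
    Function.Surjective (ultraMap R e f) := by
  intro b
  obtain ⟨a, ha⟩ := hf b.1
  refine ⟨ultraPr R e a, Subtype.ext ?_⟩
  rw [ultraMap_val]
  show f (ultraId R e • a) = b.1
  rw [map_smul, ha]
  exact b.2

theorem ultraMap_exact {K : Type u} [AddCommGroup K] [Module (∀ e, R e) K]
    (f : M →ₗ[∀ e, R e] N) (g : N →ₗ[∀ e, R e] K) (h : Function.Exact f g) :
    Function.Exact (ultraMap R e f) (ultraMap R e g) := by
  intro b
  constructor
  · intro hb
    have h1 : g b.1 = 0 := by
      have := congrArg Subtype.val hb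
      exact this
    obtain ⟨a, ha⟩ := (h b.1).1 h1
    refine ⟨ultraPr R e a, Subtype.ext ?_⟩
    rw [ultraMap_val]
    show f (ultraId R e • a) = b.1
    rw [map_smul, ha]
    exact b.2
  · rintro ⟨a, rfl⟩
    refine Subtype.ext ?_
    rw [ultraMap_val, ultraMap_val]
    exact (h _).2 ⟨_, rfl⟩

/-- the components of a product module. -/
def ultraPi (X : ℕ → Type u) [∀ e, AddCommGroup (X e)] [∀ e, Module (R e) (X e)] :
    UltraT R e (∀ e, X e) ≃ₗ[R e] X e where
  toFun m := m.1 e
  invFun x := ⟨Pi.single e x, by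
    show ultraId R e • (Pi.single e x : ∀ e, X e) = Pi.single e x
    ext i
    rw [Pi.smul_apply']
    by_cases h : i = e
    · subst h
      rw [ultraId, Pi.single_eq_same, Pi.single_eq_same, one_smul]
    · rw [Pi.single_eq_of_ne h, smul_zero]⟩
  left_inv m := by
    refine Subtype.ext ?_
    have hm : ultraId R e • m.1 = m.1 := m.2
    ext i
    show (Pi.single e (m.1 e) : ∀ e, X e) i = m.1 i
    by_cases h : i = e
    · subst h
      rw [Pi.single_eq_same]
    · rw [Pi.single_eq_of_ne h, ← hm, Pi.smul_apply', ultraId, Pi.single_eq_of_ne h, zero_smul]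
  right_inv x := by
    show (Pi.single e x : ∀ e, X e) e = x
    rw [Pi.single_eq_same]
  map_add' m n := rfl
  map_smul' r m := by
    show (r • m).1 e = r • m.1 e
    rw [ultra_smul_val, Pi.smul_apply', Pi.single_eq_same]

/-- the limit. -/
noncomputable def ultraLen (U : Ultrafilter ℕ) (L : ∀ e, AddLen (R e)) (ρ : ℕ → ℝ≥0∞)
    (M : Type u) [AddCommGroup M] [Module (∀ e, R e) M] : ℝ≥0∞ :=
  (U.map fun e => (L e).len (UltraT R e M) / ρ e).lim

theorem ultraLen_tendsto (U : Ultrafilter ℕ) (L : ∀ e, AddLen (R e)) (ρ : ℕ → ℝ≥0∞)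
    (M : Type u) [AddCommGroup M] [Module (∀ e, R e) M] :
    Filter.Tendsto (fun e => (L e).len (UltraT R e M) / ρ e) U (𝓝 (ultraLen R U L ρ M)) :=
  (U.map fun e => (L e).len (UltraT R e M) / ρ e).le_nhds_lim

theorem exists_ultra (U : Ultrafilter ℕ) (L : ∀ e, AddLen (R e)) (ρ : ℕ → ℝ≥0∞) :
    ∃ LU : AddLen (∀ e, R e), ∀ (X : ℕ → Type u) [∀ e, AddCommGroup (X e)]
      [∀ e, Module (R e) (X e)],
      Filter.Tendsto (fun e => (L e).len (X e) / ρ e) U (𝓝 (LU.len (∀ e, X e))) := by
  refine ⟨⟨fun M _ _ => ultraLen R U L ρ M, ?_, ?_⟩, ?_⟩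
  · refine tendsto_nhds_unique (ultraLen_tendsto R U L ρ PUnit.{u + 1}) ?_
    have h : (fun e => (L e).len (UltraT R e PUnit.{u + 1}) / ρ e) = fun _ => 0 := by
      funext e
      have hs : Subsingleton (UltraT R e PUnit.{u + 1}) :=
        ⟨fun a b => Subtype.ext (Subsingleton.elim _ _)⟩
      rw [len_subsingleton_aux (L e), ENNReal.zero_div]
    rw [h]
    exact tendsto_const_nhds
  · intro M N K _ _ _ _ _ _ f g hf hg hfg
    refine tendsto_nhds_unique (ultraLen_tendsto R U L ρ N) ?_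
    have h : (fun e => (L e).len (UltraT R e N) / ρ e) =
        fun e => (L e).len (UltraT R e M) / ρ e + (L e).len (UltraT R e K) / ρ e := by
      funext e
      rw [(L e).add (ultraMap R e f) (ultraMap R e g) (ultraMap_inj R e f hf)
        (ultraMap_surj R e g hg) (ultraMap_exact R e f g hfg), ENNReal.add_div]
    rw [h]
    exact (ultraLen_tendsto R U L ρ M).add (ultraLen_tendsto R U L ρ K)
  · intro X _ _
    have h := ultraLen_tendsto R U L ρ (∀ e, X e)
    have h2 : (fun e => (L e).len (UltraT R e (∀ e, X e)) / ρ e) =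
        fun e => (L e).len (X e) / ρ e := by
      funext e
      rw [len_congr (L e) (ultraPi R e X)]
    rw [h2] at h
    exact h

end UltraAux

end Vale.Agent.P202.Mix
end
namespace AFast5a6b4bx3056a
@[reducible] def a0.{u1} {x1 : ℕ → Type u1} [x2 : (e : ℕ) → CommRing (x1 e)] {x3 : ℕ} {x4 : Type u1} [x5 : AddCommGroup x4] [x6 : Module ((e : ℕ) → x1 e) x4] : AddCommMonoid (Vale.Agent.P202.Mix.UltraT x1 x3 x4) := inferInstance
@[reducible] def a1.{u1} {x1 : ℕ → Type u1} [x2 : (e : ℕ) → CommRing (x1 e)] {x3 : ℕ} {x4 : Type u1} [x5 : AddCommGroup x4] [x6 : Module ((e : ℕ) → x1 e) x4] : Add (Vale.Agent.P202.Mix.UltraT x1 x3 x4) := inferInstance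
@[reducible] def a2.{u1} {x1 : ℕ → Type u1} [x2 : (e : ℕ) → CommRing (x1 e)] {x3 : ℕ} {x4 : Type u1} [x5 : AddCommGroup x4] [x6 : Module ((e : ℕ) → x1 e) x4] : AddMonoid (Vale.Agent.P202.Mix.UltraT x1 x3 x4) := inferInstance
end AFast5a6b4bx3056a
attribute [local instance] AFast5a6b4bx3056a.a0 AFast5a6b4bx3056a.a1 AFast5a6b4bx3056a.a2

section

/-!
P202-MIX, part GEO-B1b: lengths of the Koszul cycles in degrees `0` and `1`.
-/

namespace Vale.Agent.P202.Mix

open Vale.Agent.P202.CharP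
open scoped ENNReal

universe u

section KzLen

variable {R : Type u} [CommRing R] (L : AddLen R) {V : Type u} [AddCommGroup V] [Module R V]
  {n : ℕ}

private theorem kl_congr {M N : Type u} [AddCommGroup M] [Module R M] [AddCommGroup N]
    [Module R N] (e : M ≃ₗ[R] N) : L.len M = L.len N := by
  have h := L.add (e : M →ₗ[R] N) (0 : N →ₗ[R] PUnit.{u + 1}) e.injective
    (fun y => ⟨0, Subsingleton.elim _ _⟩) (fun y => ⟨fun _ => ⟨e.symm y, by simp⟩, fun _ => rfl⟩)
  rw [h, L.zero, add_zero]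

private theorem kl_pi : ∀ n : ℕ, L.len (Fin n → V) = n * L.len V
  | 0 => by
    have e : (Fin 0 → V) ≃ₗ[R] PUnit.{u + 1} :=
      { toFun := fun _ => PUnit.unit
        invFun := fun _ => 0
        left_inv := fun _ => Subsingleton.elim _ _
        right_inv := fun _ => rfl
        map_add' := fun _ _ => rfl
        map_smul' := fun _ _ => rfl }
    rw [kl_congr L e, L.zero, Nat.cast_zero, zero_mul]
  | n + 1 => by
    have h := L.add (LinearMap.single R (fun _ : Fin (n + 1) => V) 0)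
      (LinearMap.funLeft R V (Fin.succ : Fin n → Fin (n + 1)))
      (fun a b hab => by simpa using congrFun hab 0)
      (fun v => ⟨Fin.cons 0 v, by ext i; simp [LinearMap.funLeft]⟩)
      (fun v => by
        constructor
        · intro hv
          refine ⟨v 0, ?_⟩
          ext i
          refine Fin.cases ?_ (fun j => ?_) i
          · simp
          · have := congrFun hv j
            simp only [LinearMap.funLeft_apply, Pi.zero_apply] at this
            simp [this]
        · rintro ⟨a, rfl⟩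
          ext i
          simp [LinearMap.funLeft_apply])
    rw [h, kl_pi n, Nat.cast_succ, add_mul, one_mul, add_comm]

/-- an element of degree `0` is determined by its value at `∅`. -/
private theorem kgr_zero_apply {v : Finset (Fin n) → V} (hv : v ∈ kgr R V n 0)
    {J : Finset (Fin n)} (hJ : J ≠ ∅) : v J = 0 := by
  by_contra h
  have := hv J h
  exact hJ (Finset.card_eq_zero.1 (by exact_mod_cast this))

private theorem kgr_one_apply {v : Finset (Fin n) → V} (hv : v ∈ kgr R V n 1)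
    {J : Finset (Fin n)} (hJ : J.card ≠ 1) : v J = 0 := by
  by_contra h
  have := hv J h
  exact hJ (by exact_mod_cast this)

/-- the lengths `κ_0` of the Koszul cycles of `-x` on `Q`. -/
theorem len_cyc_zero (x : Fin n → R) :
    L.len ↥(kcyc (fun l => -(x l • (LinearMap.id : V →ₗ[R] V))) 0) = L.len V := by
  apply kl_congr L
  refine LinearEquiv.ofBijective ((LinearMap.proj (∅ : Finset (Fin n))).comp
    (Submodule.subtype _)) ⟨?_, ?_⟩
  · rw [injective_iff_map_eq_zero]
    rintro ⟨v, hv⟩ h0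
    apply Subtype.ext
    funext J
    by_cases hJ : J = ∅
    · subst hJ
      exact h0
    · exact kgr_zero_apply (R := R) hv.1 hJ
  · intro a
    refine ⟨⟨Pi.single ∅ a, ?_, ?_⟩, ?_⟩
    · intro J hJ
      by_cases h : J = ∅
      · subst h; simp
      · exact absurd (Pi.single_eq_of_ne (M := fun _ => V) h a) hJ
    · change kz _ _ = 0
      funext J
      refine Finset.sum_eq_zero fun l _ => ?_
      rw [Pi.single_eq_of_ne (Finset.insert_ne_empty l J), map_zero, smul_zero]
    · simp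

/-- the differential from degree `1` to degree `0`. -/
private def kph (x : Fin n → R) : (Fin n → V) →ₗ[R] V where
  toFun v := ∑ l, x l • v l
  map_add' v w := by simp [Finset.sum_add_distrib]
  map_smul' c v := by
    simp only [Pi.smul_apply, RingHom.id_apply, Finset.smul_sum]
    exact Finset.sum_congr rfl fun l _ => smul_comm _ _ _

private theorem range_kph (x : Fin n → R) :
    LinearMap.range (kph (V := V) x) = Ideal.span (Set.range x) • (⊤ : Submodule R V) := by
  apply le_antisymm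
  · rintro _ ⟨v, rfl⟩
    change ∑ l, x l • v l ∈ _
    exact Submodule.sum_mem _ fun l _ =>
      Submodule.smul_mem_smul (Ideal.subset_span (Set.mem_range_self l)) Submodule.mem_top
  · rw [Submodule.smul_le]
    intro r hr m _
    obtain ⟨c, rfl⟩ := Ideal.mem_span_range_iff_exists_fun.1 hr
    refine ⟨fun l => c l • m, ?_⟩
    change ∑ l, x l • c l • m = _
    rw [Finset.sum_smul]
    exact Finset.sum_congr rfl fun l _ => by rw [smul_smul, mul_comm]

/-- the lengths `κ_1` of the Koszul cycles of `-x` on `Q`. -/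
theorem len_cyc_one (x : Fin n → R) :
    L.len ↥(kcyc (fun l => -(x l • (LinearMap.id : V →ₗ[R] V))) 1) + L.len V =
      n * L.len V + L.len (V ⧸ (Ideal.span (Set.range x) • (⊤ : Submodule R V))) := by
  have h1 : L.len ↥(kcyc (fun l => -(x l • (LinearMap.id : V →ₗ[R] V))) 1) =
      L.len ↥(LinearMap.ker (kph (V := V) x)) := by
    apply kl_congr L
    refine LinearEquiv.ofBijective (LinearMap.codRestrict (LinearMap.ker (kph (V := V) x))
      ((LinearMap.pi fun l : Fin n => LinearMap.proj ({l} : Finset (Fin n))).comp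
        (Submodule.subtype _)) ?_) ⟨?_, ?_⟩
    · rintro ⟨v, hv⟩
      rw [LinearMap.mem_ker]
      change ∑ l, x l • v {l} = 0
      have h2 : kz (fun l => -(x l • (LinearMap.id : V →ₗ[R] V))) v ∅ = 0 := by
        rw [LinearMap.mem_ker.1 hv.2]
        rfl
      have h3 : kz (fun l => -(x l • (LinearMap.id : V →ₗ[R] V))) v ∅ =
          - ∑ l, x l • v {l} := by
        change ∑ l ∈ (∅ : Finset (Fin n))ᶜ, _ = _
        rw [Finset.compl_empty, ← Finset.sum_neg_distrib]
        refine Finset.sum_congr rfl fun l _ => ?_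
        simp [ksg]
      rw [h3, neg_eq_zero] at h2
      exact h2
    · rw [injective_iff_map_eq_zero]
      rintro ⟨v, hv⟩ h0
      apply Subtype.ext
      funext J
      by_cases hJ : J.card = 1
      · obtain ⟨l, rfl⟩ := Finset.card_eq_one.1 hJ
        exact congrFun (congrArg Subtype.val h0) l
      · exact kgr_one_apply (R := R) hv.1 hJ
    · rintro ⟨w, hw⟩
      classical
      have hs : ∀ l : Fin n, (∑ m, (Pi.single {m} (w m) : Finset (Fin n) → V)) {l} = w l := by
        intro l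
        rw [Finset.sum_apply, Finset.sum_eq_single l]
        · simp
        · intro m _ hm
          rw [Pi.single_eq_of_ne]
          intro h
          exact hm (Finset.singleton_injective h).symm
        · intro h
          exact absurd (Finset.mem_univ l) h
      have hs' : ∀ J : Finset (Fin n), J.card ≠ 1 →
          (∑ m, (Pi.single {m} (w m) : Finset (Fin n) → V)) J = 0 := by
        intro J hJ
        rw [Finset.sum_apply]
        refine Finset.sum_eq_zero fun m _ => ?_
        rw [Pi.single_eq_of_ne]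
        rintro rfl
        exact hJ (Finset.card_singleton m)
      refine ⟨⟨∑ m, (Pi.single {m} (w m) : Finset (Fin n) → V), ?_, ?_⟩, ?_⟩
      · intro J hJ
        by_contra h
        exact hJ (hs' J fun h' => h (by exact_mod_cast h'))
      · change kz _ _ = 0
        funext J
        by_cases hJ : J = ∅
        · subst hJ
          change ∑ l ∈ (∅ : Finset (Fin n))ᶜ, _ = _
          have h2 : ∑ l, x l • w l = 0 := LinearMap.mem_ker.1 hw
          rw [Finset.compl_empty, Pi.zero_apply, ← neg_eq_zero.2 h2, ← Finset.sum_neg_distrib]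
          refine Finset.sum_congr rfl fun l _ => ?_
          have h4 : (insert l (∅ : Finset (Fin n))) = {l} := rfl
          rw [h4, hs l]
          simp [ksg]
        · refine Finset.sum_eq_zero fun l hl => ?_
          rw [hs', map_zero, smul_zero]
          rw [Finset.card_insert_of_notMem (Finset.mem_compl.1 hl)]
          have := Finset.card_pos.2 (Finset.nonempty_iff_ne_empty.2 hJ)
          omega
      · apply Subtype.ext
        funext l
        exact hs l
  have h2 := L.add (LinearMap.ker (kph (V := V) x)).subtype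
    (kph (V := V) x).rangeRestrict (Submodule.injective_subtype _)
    (LinearMap.surjective_rangeRestrict _)
    (fun v => by
      constructor
      · intro hv
        have : v ∈ LinearMap.ker (kph (V := V) x) := by
          rw [LinearMap.mem_ker]
          exact congrArg Subtype.val hv
        exact ⟨⟨v, this⟩, rfl⟩
      · rintro ⟨⟨w, hw⟩, rfl⟩
        apply Subtype.ext
        exact LinearMap.mem_ker.1 hw)
  have h3 := L.add (LinearMap.range (kph (V := V) x)).subtype
    (LinearMap.range (kph (V := V) x)).mkQ (Submodule.injective_subtype _)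
    (Submodule.mkQ_surjective _)
    (fun v => by
      constructor
      · intro hv
        exact ⟨⟨v, (Submodule.Quotient.mk_eq_zero _).1 hv⟩, rfl⟩
      · rintro ⟨⟨w, hw⟩, rfl⟩
        exact (Submodule.Quotient.mk_eq_zero _).2 hw)
  have h4 : L.len (V ⧸ (Ideal.span (Set.range x) • (⊤ : Submodule R V))) =
      L.len (V ⧸ LinearMap.range (kph (V := V) x)) :=
    kl_congr L (Submodule.quotEquivOfEq _ _ (range_kph x).symm)
  rw [h1, h4, ← kl_pi L n, h2]
  conv_lhs => rw [h3]
  rw [add_assoc]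

end KzLen

end Vale.Agent.P202.Mix
end

section

/-!
P202-CHARP: lengths after base change from the polynomial ring, transfer of the window conditions.
-/

namespace Vale.Agent.P202.CharP

open Submodule TensorProduct IsLocalRing

section F

variable {κ : Type*} [Field κ] {r : ℕ}

end F

section Gen

variable {B : Type*} [CommRing B] {A A' : Type*} [CommRing A] [CommRing A'] [Algebra B A']
  [Algebra A A']

end Gen

section Final

variable {κ : Type*} [Field κ] {r : ℕ} {A A' : Type*} [CommRing A] [CommRing A']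
  [Algebra (PP κ r) A'] [Algebra A A']

end Final

end Vale.Agent.P202.CharP
end

section

/-!
P202-G3, task G3-M6: bijectivity of the powers of `X_p` on the column `p`, level by level.
-/

namespace Vale.Agent.P202.CharP.Gen2

open Submodule TensorProduct

namespace BijPow

open BijX

variable {κ : Type*} [Field κ] {r : ℕ}

/-- the part of `f` in the `τ`-degrees `< t`. -/
noncomputable def trc (t : ℤ) (f : Lau κ r) : Lau κ r :=
  ∑ g ∈ (AddMonoidAlgebra.coeff f).support.filter (fun g => g.2 < t), mono g (cf f g)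

lemma cf_trc (t : ℤ) (f : Lau κ r) (g : Gx r) :
    cf (trc t f) g = if g.2 < t then cf f g else 0 := by
  classical
  rw [trc, cf_sum]
  simp only [cf_mono]
  rw [Finset.sum_ite_eq']
  by_cases h : g.2 < t
  · rw [if_pos h]
    by_cases h0 : cf f g = 0
    · rw [h0]
      split_ifs <;> rfl
    · rw [if_pos]
      rw [Finset.mem_filter, Finsupp.mem_support_iff]
      exact ⟨h0, h⟩
  · rw [if_neg h, if_neg]
    rw [Finset.mem_filter]
    exact fun h' => h h'.2

lemma lau_ext {f f' : Lau κ r} (h : ∀ g, cf f g = cf f' g) : f = f' := by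
  apply AddMonoidAlgebra.coeff_injective
  ext g
  exact h g

lemma xl_trc (l : Fin (r + 1)) (t : ℤ) (f : Lau κ r) :
    xl κ l * trc t f = trc (t + 1) (xl κ l * f) := by
  refine lau_ext fun g => ?_
  rw [cf_xl_mul, cf_trc, cf_xl_mul]
  have h1 : ∀ L : Finset (Fin r), (g - ex L).2 = g.2 - 1 := fun L => rfl
  simp only [cf_trc, h1]
  by_cases h : g.2 < t + 1
  · rw [if_pos h]
    refine Finset.sum_congr rfl fun L _ => if_pos (by omega)
  · rw [if_neg h]
    refine Finset.sum_eq_zero fun L _ => if_neg (by omega)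

/-- truncation on the ambient module. -/
noncomputable def tr (t : ℤ) (f : Lam κ r) : Lam κ r := fun I => trc t (f I)

lemma X_tr (l : Fin (r + 1)) (t : ℤ) (f : Lam κ r) :
    (MvPolynomial.X l : PP κ r) • tr t f = tr (t + 1) ((MvPolynomial.X l : PP κ r) • f) := by
  funext I
  rw [Pi.smul_apply, X_smul, tr, tr, xl_trc, Pi.smul_apply, X_smul]

lemma pow_tr (l : Fin (r + 1)) (t : ℤ) (f : Lam κ r) (M : ℕ) :
    (MvPolynomial.X l : PP κ r) ^ M • tr t f =
      tr (t + M) ((MvPolynomial.X l : PP κ r) ^ M • f) := by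
  induction M with
  | zero => simp
  | succ M ih =>
    rw [pow_succ', mul_smul, mul_smul, ih, X_tr]
    congr 1
    push_cast
    ring

lemma tr_mem {E : Set (Finset (Fin r) × Gx r)} (hE : Up E) {p : ℤ} {f : Lam κ r} (t : ℤ)
    (h : f ∈ MF κ E p) : tr t f ∈ MF κ E p := by
  rw [mem_MF hE] at h ⊢
  intro I g hg
  refine h I g ?_
  rw [tr, cf_trc] at hg
  split_ifs at hg
  · exact hg
  · exact absurd rfl hg

lemma pow_inj (a : Fin r → ℤ) (p : Fin (r + 1)) (M : ℕ) :
    ∀ v ∈ MF κ (SF r) (p : ℕ), (MvPolynomial.X p : PP κ r) ^ M • v ∈ MF κ (SG a) (p : ℕ) →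
      v ∈ MF κ (SG a) (p : ℕ) := by
  induction M with
  | zero =>
    intro v _ h
    simpa using h
  | succ M ih =>
    intro v hv h
    rw [pow_succ', mul_smul] at h
    exact ih v hv ((bij_X a p).1 _ (Submodule.smul_mem _ _ hv) h)

lemma pow_surj (a : Fin r → ℤ) (p : Fin (r + 1)) (M : ℕ) :
    ∀ v ∈ MF κ (SF r) (p : ℕ), ∃ v' ∈ MF κ (SF r) (p : ℕ),
      v - (MvPolynomial.X p : PP κ r) ^ M • v' ∈ MF κ (SG a) (p : ℕ) := by
  induction M with
  | zero =>
    intro v hv
    exact ⟨v, hv, by simp⟩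
  | succ M ih =>
    intro v hv
    obtain ⟨v₁, h1, h2⟩ := (bij_X a p).2 v hv
    obtain ⟨v₂, h3, h4⟩ := ih v₁ h1
    refine ⟨v₂, h3, ?_⟩
    have h5 := Submodule.add_mem _ h2 (Submodule.smul_mem _ (MvPolynomial.X p : PP κ r) h4)
    rw [smul_sub, ← mul_smul, ← pow_succ'] at h5
    convert h5 using 1
    abel

end BijPow

variable {κ : Type*} [Field κ] {r : ℕ}

open BijX BijPow in
/-- TASK G3-M6: bijectivity of the powers of `X_p` on the column `p`, level by level. -/
theorem bij_pow_X (a : Fin r → ℤ) (Q : ℕ) (M c : ℕ) (hM : M ≤ c * Q) (p : Fin (r + 1)) (k : ℕ) :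
    (∀ v ∈ MF κ (SF r) (p : ℕ), (MvPolynomial.X p : PP κ r) ^ M • v ∈ MF κ (SG a) (p : ℕ) →
      v ∈ MF κ (SG a) (p : ℕ)) ∧
    (∀ v ∈ MF κ (SW a Q k) (p : ℕ), ∃ v' ∈ MF κ (SW a Q (k + c)) (p : ℕ),
      v - (MvPolynomial.X p : PP κ r) ^ M • v' ∈ MF κ (SG a) (p : ℕ)) := by
  refine ⟨pow_inj a p M, fun v hv => ?_⟩
  have hvF : v ∈ MF κ (SF r) (p : ℕ) := by
    rw [mem_MF (up_SW' a Q k)] at hv
    rw [mem_MF up_SF']
    intro I g hg
    obtain ⟨h1, h2⟩ := hv I g hg
    refine ⟨?_, h2⟩
    rcases h1 with h1 | h1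
    · exact h1.1
    · exact h1.1
  obtain ⟨w, hw, hvw⟩ := pow_surj a p M v hvF
  set t : ℤ := (1 - (k : ℤ)) * Q - M with ht
  have hlow : tr t w ∈ MF κ (SG a) (p : ℕ) := by
    refine pow_inj a p M _ (tr_mem up_SF' t hw) ?_
    rw [pow_tr]
    have h1 := tr_mem (up_SG' a) (t + M) hvw
    rw [mem_MF (up_SG' a)] at h1 ⊢
    rw [mem_MF (up_SW' a Q k)] at hv
    intro I g hg
    rw [tr, cf_trc] at hg
    split_ifs at hg with h2
    · by_cases h3 : cf (v I) g = 0
      · refine h1 I g ?_
        rw [tr, cf_trc, if_pos h2, Pi.sub_apply, cf_sub, h3, zero_sub, neg_ne_zero]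
        exact hg
      · obtain ⟨h4, h5⟩ := hv I g h3
        refine ⟨?_, h5⟩
        rcases h4 with h4 | h4
        · exact h4
        · exfalso
          have := h4.2
          simp only at this
          omega
    · exact absurd rfl hg
  refine ⟨w - tr t w, ?_, ?_⟩
  · rw [mem_MF (up_SW' a Q (k + c))]
    intro I g hg
    rw [Pi.sub_apply, cf_sub, tr, cf_trc] at hg
    split_ifs at hg with h1
    · exact absurd (sub_self _) hg
    · rw [sub_zero] at hg
      rw [mem_MF up_SF'] at hw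
      obtain ⟨h2, h3⟩ := hw I g hg
      refine ⟨Or.inr ⟨h2, ?_⟩, h3⟩
      have h4 : (M : ℤ) ≤ c * Q := by exact_mod_cast hM
      push_cast
      show (1 - ((k : ℤ) + c)) * Q ≤ g.2
      nlinarith
  · have h6 := Submodule.add_mem _ hvw
      (Submodule.smul_mem _ ((MvPolynomial.X p : PP κ r) ^ M) hlow)
    convert h6 using 1
    rw [smul_sub]
    abel

end Vale.Agent.P202.CharP.Gen2
end
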