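import Vale.Agent.P202.MathlibUsed
import Vale.Agent.P202.Bdl.B2
attribute [-instance] DenselyNormedField.toNontriviallyNormedField DenselyNormedField.toNormedField NontriviallyNormedField.toNormedField RCLike.toDenselyNormedField NormedField.toField Field.toSemifield IdemCommSemiring.toCommSemiring Semifield.toCommSemiring NormedField.toNormedDivisionRing Field.toDivisionRing NormedDivisionRing.toDivisionRing IdemCommSemiring.toIdemSemiring KleeneAlgebra.toIdemSemiring DivisionRing.toDivisionSemiring Semifield.toDivisionSemiring DivisionSemiring.toSemiring IdemSemiring.toSemiring DivisionRing.toRing NormedField.toNormedCommRing NormedCommRing.toSeminormedCommRing Field.toEuclideanDomain EuclideanDomain.toCommRing Field.toCommRing NormedCommRing.toCommRing SeminormedCommRing.toCommRing NormedCommRing.toNormedRing NormedDivisionRing.toNormedRing NormedRing.toSeminormedRing SeminormedCommRing.toSeminormedRing NormedRing.toRing SeminormedRing.toRing SemiRingCat.instSemiringObjForgetRingHomCarrier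 Ring.toNonAssocRing CommRing.toAddCommGroupWithOne CommSemiring.toNonAssocCommSemiring NonAssocCommRing.toNonAssocCommSemiring NonAssocCommSemiring.toNonAssocSemiring NonAssocRing.toNonAssocSemiring LinearOrderedAddCommGroupWithTop.toAddCommMonoid LinearOrderedAddCommGroupWithTop.instLinearOrderedAddCommMonoidWithTop AddCommGroupWithOne.toAddCommMonoidWithOne NonUnitalNormedCommRing.toNonUnitalNormedRing NormedCommRing.toNonUnitalNormedCommRing NormedRing.toNonUnitalNormedRing NonAssocCommRing.toNonUnitalNonAssocCommRing NonAssocRing.toNonUnitalNonAssocRing NonUnitalCommRing.toNonUnitalRing NonUnitalNormedCommRing.toNonUnitalCommRing NonUnitalNormedCommRing.toNonUnitalSeminormedCommRing NonUnitalNormedRing.toNonUnitalRing NonUnitalNormedRing.toNonUnitalSeminormedRing NonUnitalRing.toNonUnitalNonAssocRing NonUnitalSeminormedCommRing.toNonUnitalCommRing NonUnitalSeminormedCommRing.toNonUnitalSeminormedRing NonUnitalSeminormedRing.toNonUnitalRing Ring.toNonUnitalRing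 SeminormedCommRing.toNonUnitalSeminormedCommRing SeminormedRing.toNonUnitalSeminormedRing CommSemiring.toNonUnitalCommSemiring NonAssocCommSemiring.toNonUnitalNonAssocCommSemiring NonUnitalCommSemiring.toNonUnitalNonAssocCommSemiring NonUnitalNonAssocCommRing.toNonUnitalNonAssocCommSemiring NonUnitalNonAssocCommSemiring.toNonUnitalNonAssocSemiring NonUnitalRing.toNonUnitalSemiring NonUnitalSemiring.toNonUnitalNonAssocSemiring Semiring.toNonUnitalSemiring AddCommMonoidWithOne.toAddCommMonoid NonUnitalNonAssocSemiring.toAddCommMonoid SemimoduleCat.isAddCommMonoid Pi.nonUnitalNonAssocSemiring AddCommGroupWithOne.toAddGroupWithOne LinearOrderedAddCommGroupWithTop.toSubNegMonoid LieRing.toAddCommGroup instCoeT instCoeTOfCoeDep TensorProduct.instModule CommSemiRingCat.instCommSemiringObjForgetRingHomCarrier Algebra.TensorProduct.instCommRing LieAlgebra.toModule NormedSpace.toModule Algebra.TensorProduct.instRing Filter.instMembership Pi.addMonoidWithOne Algebra.TensorProduct.instNonAssocRing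 CommGroupWithZero.toGroupWithZero DivisionSemiring.toGroupWithZero LinearOrderedCommGroupWithZero.toCommGroupWithZero Semifield.toCommGroupWithZero Pi.instTopForall Algebra.TensorProduct.instAddCommGroupWithOne LinearOrderedCommGroupWithZero.toLinearOrderedCommMonoidWithZero AbsoluteValue.funLike AddGrpCat.str GradedMonoid.GradeZero.smul CompleteLinearOrder.toConditionallyCompleteLinearOrderBot Pi.nonAssocSemiring ConditionallyCompleteLinearOrderBot.toConditionallyCompleteLinearOrder CommGroupWithZero.toCommMonoidWithZero CommMonoidWithZero.toMonoidWithZero CommSemiring.toCommMonoidWithZero GroupWithZero.toMonoidWithZero LinearOrderedCommMonoidWithZero.toCommMonoidWithZero MonoidWithZero.toMulZeroOneClass MonoidWithZero.toSemigroupWithZero MulZeroOneClass.toMulZeroClass NonAssocSemiring.toMulZeroOneClass NonUnitalNonAssocSemiring.toMulZeroClass NonUnitalSemiring.toSemigroupWithZero SemigroupWithZero.toMulZeroClass CompleteAtomicBooleanAlgebra.toCompleteBooleanAlgebra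 MulSemiringAction.toDistribMulAction CompleteAtomicBooleanAlgebra.toCompletelyDistribLattice CompleteBooleanAlgebra.toCompleteLattice IdemSemiring.toSemilatticeSup CompleteBooleanAlgebra.toCompleteDistribLattice CompletelyDistribLattice.toCompleteDistribLattice Submodule.idemSemiring CompleteDistribLattice.toCoframe CompleteDistribLattice.toFrame CompleteLinearOrder.toCompleteLattice Order.Coframe.toCompleteLattice Order.Frame.toCompleteLattice Submodule.instOrderBot instDistribSMul ChainCompletePartialOrder.instOfCompleteLattice ChainCompletePartialOrder.instOmegaCompletePartialOrder ChainCompletePartialOrder.toPartialOrder CompletePartialOrder.toOmegaCompletePartialOrder OmegaCompletePartialOrder.toPartialOrder Ideal.instIdemCommSemiring Submodule.instIdemCommSemiring ModuleCat.isModule TopologicalSpace.Compacts.instSetLike instRingHomSurjectiveForallEvalRingHom Pi.partialOrder Pi.commRing Pi.commSemiring Pi.instIdemCommSemiringForall Pi.normedCommutativeRing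 Pi.seminormedCommRing AddOpposite.instAddZero instCoeHTC instCoeHTCT instCoeTC Pi.instSemilatticeSup instCoeTCOfCoe ContinuousAddMonoidHom.instCoeOutOfAddMonoidHomClassOfContinuousMapClass ContinuousMonoidHom.instCoeOutOfMonoidHomClassOfContinuousMapClass HomeomorphClass.instCoeOutHomeomorph IsometryClass.instCoeOutIsometryEquiv OrderAddMonoidHom.instAddMonoidHomClass instCoeOutOfCoeFun Monoid.toMulAction Algebra.TensorProduct.instCommSemiring Pi.preorder instSMulZeroClass Pi.instIdemSemiring Pi.instKleeneAlgebraForall Pi.normedRing Pi.seminormedRing Pi.semiring instNonUnitalAlgHomClassOfNonUnitalAlgEquivClass AlgHom.instNonUnitalAlgHomClassOfAlgHomClass MulSemiringActionSemiHomClass.toDistribMulActionSemiHomClass NonUnitalAlgSemiHomClass.toDistribMulActionSemiHomClass NormedCommGroup.toNormedGroup NormedCommGroup.toCommGroup NormedCommGroup.toSeminormedCommGroup SeminormedCommGroup.toCommGroup Algebra.TensorProduct.instSemiring CommGroup.toGroup NormedGroup.toGroup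 NormedGroup.toSeminormedGroup SeminormedCommGroup.toSeminormedGroup SeminormedGroup.toGroup Pi.instMaxForall_mathlib RingCat.instRingObjForgetRingHomCarrier WithTop.linearOrderedAddCommMonoidWithTop Pi.smulZeroClass' Pi.instSemilatticeInf AbsoluteValue.zeroHomClass LinearOrderedCommMonoidWithZero.toIsBotZeroClass AddHom.addHomClass MonomialOrder.orderBot MonCat.monoidObj Invertible.toNeZero Nat.instNontrivial Nat.instOne NeZero.of_gt' Nat.AtLeastTwo.toNeZero Nat.Prime.one_lt' Torsor.toMulAction GradedMonoid.GradeZero.mulAction instSubsingleton AddSubmonoid.instAddSubmonoidClass CompleteBooleanAlgebra.toBooleanAlgebra CompleteLinearOrder.toLinearOrder ConditionallyCompleteLinearOrder.toLinearOrder LinearOrderedAddCommGroupWithTop.toLinearOrder LinearOrderedCommMonoidWithZero.toLinearOrder NonUnitalNormedRing.toNormedAddCommGroup MonoidWithZeroHomClass.toZeroHomClass MulEquivClass.toMonoidWithZeroHomClass MulRingSeminormClass.toMonoidWithZeroHomClass OpenNormalAddSubgroup.instAddSubgroupClass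 RingHomClass.toMonoidWithZeroHomClass ValuationClass.toMonoidWithZeroHomClass NormedAlgebra.id NormedAlgebra.toAlgebra instNonemptyOfMonad BooleanAlgebra.toBiheytingAlgebra CompleteDistribLattice.toBiheytingAlgebra CompleteLinearOrder.toBiheytingAlgebra CompletelyDistribLattice.toBiheytingAlgebra NormedAddCommGroup.toNormedAddGroup TensorProduct.instDistribMulAction Pi.instCanonicallyOrderedAddForall IsEmpty.instSubsingleton AddCommGroupWithOne.toAddCommGroup NonUnitalNonAssocRing.toAddCommGroup NonUnitalSeminormedRing.toSeminormedAddCommGroup NormedAddCommGroup.toAddCommGroup NormedAddCommGroup.toSeminormedAddCommGroup NormedAddGroup.toAddGroup NormedAddGroup.toSeminormedAddGroup SeminormedAddCommGroup.toAddCommGroup SeminormedAddCommGroup.toSeminormedAddGroup SeminormedAddGroup.toAddGroup Pi.instLocallyFiniteOrder Pi.addCommMagma BiheytingAlgebra.toCoheytingAlgebra BiheytingAlgebra.toHeytingAlgebra BooleanAlgebra.toGeneralizedBooleanAlgebra Order.Coframe.toCoheytingAlgebra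 Order.Frame.toHeytingAlgebra Pi.instOrderTop AddSubsemigroup.instAddMemClass MonoidWithZero.toMulActionWithZero MulZeroClass.toSMulWithZero Algebra.TensorProduct.instNonAssocSemiring Prod.instSubsingletonAddUnits CoheytingAlgebra.toGeneralizedCoheytingAlgebra GeneralizedBooleanAlgebra.toGeneralizedCoheytingAlgebra HeytingAlgebra.toGeneralizedHeytingAlgebra AddCancelCommMonoid.toAddCancelMonoid Pi.distribSMul' ValuationRing.instLinearOrderIdealOfDecidableLE LinOrd.str MonomialOrder.isOrderedAddMonoid_syn Pi.involutiveNeg bot_nonempty infSet_to_nonempty instInhabitedOfMonad instIsDedekindDomainOfIsDomainOfIsDedekindRing instIsDomain supSet_to_nonempty top_nonempty AddTorsor.nonempty ConnectedSpace.toNonempty DivisionRing.isDomain EuclideanDomain.instIsDomain Field.isDomain IrreducibleSpace.toNonempty IsDedekindDomain.toIsDomain IsDedekindDomainDvr.isDedekindDomain IsDomain.of_isSimpleRing IsPrincipalIdealRing.isDedekindDomain IsStrictOrderedRing.isDomain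 Nontrivial.to_nonempty One.instNonempty Torsor.nonempty Unique.instInhabited Zero.instNonempty CategoryTheory.IsConnected.is_nonempty RCLike.toDecidableEq instFiniteProp Pi.nonAssocRing Pi.addGroupWithOne TensorProduct.isScalarTower TensorProduct.isScalarTower_right Algebra.TensorProduct.right_isScalarTower Pi.instOne instIsSemisimpleModuleOfIsSimpleModule instIsSemisimpleRingOfSubsingleton IsSemisimpleRing.isSemisimpleModule -- iprune

set_option linter.all false

section

/-!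
P202-GEN, GEN-1: inequalities from the long exact sequence of a triple, additivity of the Euler
characteristic, second isomorphism theorem for relative homology.
-/

namespace Vale.Agent.P202.CharP.Gen

open Submodule TensorProduct IsLocalRing

section Hom

variable {S 𝕋 : Type*} [CommRing S] [AddCommGroup 𝕋] [Module S 𝕋]

theorem hh_le_add (D : 𝕋 →ₗ[S] 𝕋) (hD : ∀ x, D (D x) = 0) (X Y Z : ℤ → Submodule S 𝕋)
    (hX : Stab D X) (hY : Stab D Y) (hZ : Stab D Z) (hXY : ∀ δ, X δ ≤ Y δ)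
    (hYZ : ∀ δ, Y δ ≤ Z δ) (δ : ℤ) : hh D Z X δ ≤ hh D Z Y δ + hh D Y X δ := by
  obtain ⟨h1, h2, h3⟩ := hh_les D hD X Y Z hX hY hZ hXY hYZ δ
  rw [h1, add_comm]
  refine add_le_add ?_ ?_
  · rw [h2]; exact le_self_add
  · rw [h3]; exact le_add_self

theorem hh_quot_le (D : 𝕋 →ₗ[S] 𝕋) (hD : ∀ x, D (D x) = 0) (X Y Z : ℤ → Submodule S 𝕋)
    (hX : Stab D X) (hY : Stab D Y) (hZ : Stab D Z) (hXY : ∀ δ, X δ ≤ Y δ)
    (hYZ : ∀ δ, Y δ ≤ Z δ) (δ : ℤ) : hh D Z Y δ ≤ hh D Z X δ + hh D Y X (δ - 1) := by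
  obtain ⟨h1, h2, h3⟩ := hh_les D hD X Y Z hX hY hZ hXY hYZ δ
  obtain ⟨k1, k2, k3⟩ := hh_les D hD X Y Z hX hY hZ hXY hYZ (δ - 1)
  rw [h2]
  refine add_le_add ?_ ?_
  · rw [h1]; exact le_add_self
  · rw [k3, sub_add_cancel]; exact le_self_add

theorem hh_le_of_zz_le (D : 𝕋 →ₗ[S] 𝕋) (hD : ∀ x, D (D x) = 0) (X Y Z : ℤ → Submodule S 𝕋)
    (hX : Stab D X) (hY : Stab D Y) (hZ : Stab D Z) (hXY : ∀ δ, X δ ≤ Y δ)
    (hYZ : ∀ δ, Y δ ≤ Z δ) (δ : ℤ) (h : zz D Y X δ ≤ bb D Z X δ) :
    hh D Y X δ ≤ hh D Z Y (δ + 1) := by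
  obtain ⟨h1, h2, h3⟩ := hh_les D hD X Y Z hX hY hZ hXY hYZ δ
  obtain ⟨k1, k2, k3⟩ := hh_les D hD X Y Z hX hY hZ hXY hYZ (δ + 1)
  rw [h3, rl_eq_zero_iff.mpr (sup_le h le_rfl), add_zero, k2, add_sub_cancel_right]
  exact le_add_self

lemma sum_Ico_telescope (g : ℤ → ℤ) (a : ℤ) (m : ℕ) :
    ∑ δ ∈ Finset.Ico a (a + m), (g δ - g (δ + 1)) = g a - g (a + m) := by
  induction m with
  | zero => simp
  | succ m ih =>
    have h : Finset.Ico a (a + ((m + 1 : ℕ) : ℤ)) = insert (a + m) (Finset.Ico a (a + m)) := by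
      ext x; simp only [Finset.mem_Ico, Finset.mem_insert]; push_cast; omega
    rw [h, Finset.sum_insert (by simp), ih]
    push_cast
    rw [add_assoc]
    ring

lemma sum_Icc_telescope (g : ℤ → ℤ) (a b : ℤ) (hab : a ≤ b + 1) :
    ∑ δ ∈ Finset.Icc a b, (g δ - g (δ + 1)) = g a - g (b + 1) := by
  obtain ⟨m, hm⟩ := Int.eq_ofNat_of_zero_le (sub_nonneg.mpr hab)
  have hb : b + 1 = a + m := by rw [← hm]; ring
  have : Finset.Icc a b = Finset.Ico a (a + m) := by
    ext x; simp only [Finset.mem_Ico, Finset.mem_Icc]; omega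
  rw [this, sum_Ico_telescope, hb]

theorem xi_add (n : ℕ) (D : 𝕋 →ₗ[S] 𝕋) (hD : ∀ x, D (D x) = 0) (X Y Z : ℤ → Submodule S 𝕋)
    (hX : Stab D X) (hY : Stab D Y) (hZ : Stab D Z) (hXY : ∀ δ, X δ ≤ Y δ)
    (hYZ : ∀ δ, Y δ ≤ Z δ) (h1 : ∀ δ, hh D Z Y δ ≠ ⊤) (h2 : ∀ δ, hh D Y X δ ≠ ⊤)
    (h3 : ∀ δ, (δ < -(n : ℤ) ∨ (n : ℤ) < δ) → hh D Z Y δ = 0 ∧ hh D Y X δ = 0) :
    xi n (hh D Z X) = xi n (hh D Z Y) + xi n (hh D Y X) := by
  set a : ℤ → ℕ∞ := fun δ => rl (bb D Z X δ) (zz D Y X δ ⊔ bb D Z X δ) with ha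
  set b : ℤ → ℕ∞ := fun δ => rl (bb D Z Y δ) (zz D Z X δ ⊔ bb D Z Y δ) with hb
  set c : ℤ → ℕ∞ := fun δ =>
    rl (bb D Y X (δ - 1)) ((zz D Z Y δ).map D ⊔ bb D Y X (δ - 1)) with hc
  have e1 : ∀ δ, hh D Z X δ = a δ + b δ := fun δ =>
    (hh_les D hD X Y Z hX hY hZ hXY hYZ δ).1
  have e2 : ∀ δ, hh D Z Y δ = b δ + c δ := fun δ =>
    (hh_les D hD X Y Z hX hY hZ hXY hYZ δ).2.1
  have e3 : ∀ δ, hh D Y X δ = c (δ + 1) + a δ := fun δ => by
    rw [(hh_les D hD X Y Z hX hY hZ hXY hYZ δ).2.2, hc]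
    simp only [add_sub_cancel_right]
    rfl
  have fb : ∀ δ, b δ ≠ ⊤ := fun δ h => h1 δ (by rw [e2, h, top_add])
  have fc : ∀ δ, c δ ≠ ⊤ := fun δ h => h1 δ (by rw [e2, h, add_top])
  have fa : ∀ δ, a δ ≠ ⊤ := fun δ h => h2 δ (by rw [e3, h, add_top])
  have c0 : ∀ δ, (δ < -(n : ℤ) ∨ (n : ℤ) < δ) → c δ = 0 := fun δ h => by
    have := (h3 δ h).1
    rw [e2, add_eq_zero] at this
    exact this.2
  have c1 : c (-(n : ℤ)) = 0 := by
    have := (h3 (-(n : ℤ) - 1) (Or.inl (by omega))).2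
    rw [e3, add_eq_zero, sub_add_cancel] at this
    exact this.1
  have c2 : c ((n : ℤ) + 1) = 0 := c0 _ (Or.inr (by omega))
  have key : ∀ δ, (δ.negOnePow : ℤ) * ((hh D Z Y δ).toNat : ℤ) +
      (δ.negOnePow : ℤ) * ((hh D Y X δ).toNat : ℤ) =
      (δ.negOnePow : ℤ) * ((hh D Z X δ).toNat : ℤ) +
        ((δ.negOnePow : ℤ) * ((c δ).toNat : ℤ) -
          ((δ + 1).negOnePow : ℤ) * ((c (δ + 1)).toNat : ℤ)) := fun δ => by
    rw [e1, e2, e3, ENat.toNat_add (fb δ) (fc δ), ENat.toNat_add (fc (δ + 1)) (fa δ),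
      ENat.toNat_add (fa δ) (fb δ), Int.negOnePow_succ]
    push_cast
    ring
  have tel := sum_Icc_telescope (fun δ => (δ.negOnePow : ℤ) * ((c δ).toNat : ℤ)) (-(n : ℤ)) n
    (by omega)
  rw [c1, c2] at tel
  rw [xi, xi, xi, ← Finset.sum_add_distrib, Finset.sum_congr rfl fun δ _ => key δ,
    Finset.sum_add_distrib, tel]
  simp

theorem hh_iso (D : 𝕋 →ₗ[S] 𝕋) (X Y X' Y' : ℤ → Submodule S 𝕋)
    (hX : Stab D X) (hY : Stab D Y) (hX' : Stab D X')
    (h1 : ∀ δ, Y δ ⊓ X' δ = X δ) (h2 : ∀ δ, Y δ ⊔ X' δ = Y' δ) (δ : ℤ) :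
    hh D Y X δ = hh D Y' X' δ := by
  have _ := hX
  have lX : ∀ δ, X δ ≤ X' δ := fun δ => (h1 δ).ge.trans inf_le_right
  have lY : ∀ δ, Y δ ≤ Y' δ := fun δ => (h2 δ).le.trans' le_sup_left
  have z1 : zz D Y X δ ≤ zz D Y' X' δ := inf_le_inf (lY δ) (Submodule.comap_mono (lX _))
  have b1 : bb D Y X δ ≤ bb D Y' X' δ := sup_le_sup (Submodule.map_mono (lY _)) (lX δ)
  have s1 : bb D Y' X' δ ⊔ zz D Y' X' δ = bb D Y' X' δ ⊔ zz D Y X δ := by
    apply le_antisymm _ (sup_le_sup_left z1 _)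
    refine sup_le le_sup_left ?_
    rintro z ⟨hz1, hz2⟩
    have hz1' : z ∈ Y δ ⊔ X' δ := by rw [h2]; exact hz1
    obtain ⟨y, hy, x, hx, rfl⟩ := Submodule.mem_sup.mp hz1'
    have hDy : D y ∈ X (δ - 1) := by
      rw [← h1]
      refine ⟨hY δ y hy, ?_⟩
      have h4 : D (y + x) ∈ X' (δ - 1) := hz2
      have h5 : D y = D (y + x) - D x := by rw [map_add, add_sub_cancel_right]
      rw [h5]
      exact Submodule.sub_mem _ h4 (hX' δ x hx)
    rw [add_comm]
    exact Submodule.add_mem_sup (Submodule.mem_sup_right hx) ⟨hy, hDy⟩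
  have s2 : bb D Y' X' δ ⊓ zz D Y X δ = bb D Y X δ ⊓ zz D Y X δ := by
    apply le_antisymm _ (inf_le_inf_right _ b1)
    refine le_inf ?_ inf_le_right
    rintro y ⟨hy1, hy2⟩
    obtain ⟨_, ⟨y', hy', rfl⟩, x', hx', rfl⟩ := Submodule.mem_sup.mp hy1
    have hy'' : y' ∈ Y (δ + 1) ⊔ X' (δ + 1) := by rw [h2]; exact hy'
    obtain ⟨u, hu, v, hv, rfl⟩ := Submodule.mem_sup.mp hy''
    have hDv : D v ∈ X' δ := by
      have := hX' _ v hv
      rwa [add_sub_cancel_right] at this
    have hDu : D u ∈ Y δ := by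
      have := hY _ u hu
      rwa [add_sub_cancel_right] at this
    have hw : D v + x' ∈ X δ := by
      rw [← h1]
      refine ⟨?_, Submodule.add_mem _ hDv hx'⟩
      have : D v + x' = (D (u + v) + x') - D u := by rw [map_add]; abel
      rw [this]
      exact Submodule.sub_mem _ hy2.1 hDu
    have : D (u + v) + x' = D u + (D v + x') := by rw [map_add]; abel
    rw [this]
    exact Submodule.add_mem_sup ⟨u, hu, rfl⟩ hw
  rw [hh, hh, ← rl_sup_right (bb D Y' X' δ), s1, rl_sup_right, ← rl_inf_left (bb D Y' X' δ), s2,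
    rl_inf_left]

end Hom

end Vale.Agent.P202.CharP.Gen
end

section

/-!
P202-CHARP, T2 and T3: exact rows give an exact total complex; homology of the total complex when
the rows have cohomology in one degree only.
-/

namespace Vale.Agent.P202.CharP

open Submodule TensorProduct IsLocalRing

namespace TR

section

variable {S 𝕋 : Type*} [CommRing S] [AddCommGroup 𝕋] [Module S 𝕋]

lemma mem_zz {D : 𝕋 →ₗ[S] 𝕋} {Y X : ℤ → Submodule S 𝕋} {δ : ℤ} {z : 𝕋} :
    z ∈ zz D Y X δ ↔ z ∈ Y δ ∧ D z ∈ X (δ - 1) := Iff.rfl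

lemma mem_bb {D : 𝕋 →ₗ[S] 𝕋} {Y X : ℤ → Submodule S 𝕋} {δ : ℤ} {z : 𝕋} :
    z ∈ bb D Y X δ ↔ ∃ w ∈ Y (δ + 1), z - D w ∈ X δ := by
  constructor
  · intro h1
    obtain ⟨a, ⟨w, hw, rfl⟩, b, hb, hab⟩ := Submodule.mem_sup.1 h1
    refine ⟨w, hw, ?_⟩
    rw [← hab, add_sub_cancel_left]
    exact hb
  · rintro ⟨w, hw, hb⟩
    exact Submodule.mem_sup.2 ⟨D w, ⟨w, hw, rfl⟩, z - D w, hb, by abel⟩

/-- dropping an acyclic lower piece -/
lemma hh_lower {D : 𝕋 →ₗ[S] 𝕋} (hD : ∀ x, D (D x) = 0) {X Y Z : ℤ → Submodule S 𝕋}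
    (hX : Stab D X) (hXY : ∀ δ, X δ ≤ Y δ) (hYZ : ∀ δ, Y δ ≤ Z δ) {δ : ℤ}
    (h0 : hh D Y X δ = 0) (h1 : hh D Y X (δ - 1) = 0) : hh D Z X δ = hh D Z Y δ := by
  have e1 : bb D Z Y δ ⊔ zz D Z Y δ = bb D Z Y δ ⊔ zz D Z X δ := by
    refine le_antisymm (sup_le le_sup_left fun z hz => ?_) (sup_le le_sup_left fun z hz => ?_)
    · obtain ⟨hz1, hz2⟩ := mem_zz.1 hz
      obtain ⟨y, hy, hx⟩ := hh_eq_zero_iff.1 h1 (D z) hz2 (by rw [hD]; exact zero_mem _)
      rw [sub_add_cancel] at hy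
      refine Submodule.mem_sup.2 ⟨y, mem_bb.2 ⟨0, zero_mem _, by simpa using hy⟩, z - y, ?_,
        by abel⟩
      refine mem_zz.2 ⟨sub_mem hz1 (hYZ _ hy), ?_⟩
      rw [map_sub]
      exact hx
    · obtain ⟨hz1, hz2⟩ := mem_zz.1 hz
      exact le_sup_right (a := bb D Z Y δ) (mem_zz.2 ⟨hz1, hXY _ hz2⟩)
  have e2 : bb D Z Y δ ⊓ zz D Z X δ = bb D Z X δ ⊓ zz D Z X δ := by
    apply le_antisymm
    · intro z hz
      refine ⟨?_, hz.2⟩
      obtain ⟨w, hw, hy⟩ := mem_bb.1 hz.1
      obtain ⟨hz1, hz2⟩ := mem_zz.1 hz.2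
      have h3 : D (z - D w) ∈ X (δ - 1) := by
        rw [map_sub, hD, sub_zero]
        exact hz2
      obtain ⟨y, hy2, hx⟩ := hh_eq_zero_iff.1 h0 _ hy h3
      refine mem_bb.2 ⟨w + y, add_mem hw (hYZ _ hy2), ?_⟩
      rw [map_add, ← sub_sub]
      exact hx
    · intro z hz
      refine ⟨?_, hz.2⟩
      obtain ⟨w, hw, hy⟩ := mem_bb.1 hz.1
      exact mem_bb.2 ⟨w, hw, hXY _ hy⟩
  have := hX
  unfold hh
  rw [← rl_sup_right (bb D Z Y δ), e1, rl_sup_right, ← rl_inf_left (bb D Z Y δ), e2, rl_inf_left]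

/-- dropping an acyclic upper piece -/
lemma hh_upper {D : 𝕋 →ₗ[S] 𝕋} (hD : ∀ x, D (D x) = 0) {X Y Z : ℤ → Submodule S 𝕋}
    (hXY : ∀ δ, X δ ≤ Y δ) (hYZ : ∀ δ, Y δ ≤ Z δ) {δ : ℤ}
    (h0 : hh D Z Y δ = 0) (h1 : hh D Z Y (δ + 1) = 0) : hh D Z X δ = hh D Y X δ := by
  have e1 : bb D Z X δ ⊔ zz D Z X δ = bb D Z X δ ⊔ zz D Y X δ := by
    refine le_antisymm (sup_le le_sup_left fun z hz => ?_) (sup_le le_sup_left fun z hz => ?_)
    · obtain ⟨hz1, hz2⟩ := mem_zz.1 hz
      obtain ⟨w, hw, hy⟩ := hh_eq_zero_iff.1 h0 z hz1 (hXY _ hz2)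
      refine Submodule.mem_sup.2 ⟨D w, mem_bb.2 ⟨w, hw, by simp⟩, z - D w, ?_, by abel⟩
      refine mem_zz.2 ⟨hy, ?_⟩
      rw [map_sub, hD, sub_zero]
      exact hz2
    · obtain ⟨hz1, hz2⟩ := mem_zz.1 hz
      exact le_sup_right (a := bb D Z X δ) (mem_zz.2 ⟨hYZ _ hz1, hz2⟩)
  have e2 : bb D Z X δ ⊓ zz D Y X δ = bb D Y X δ ⊓ zz D Y X δ := by
    apply le_antisymm
    · intro z hz
      refine ⟨?_, hz.2⟩
      obtain ⟨w, hw, hy⟩ := mem_bb.1 hz.1
      obtain ⟨hz1, hz2⟩ := mem_zz.1 hz.2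
      have h3 : D w ∈ Y (δ + 1 - 1) := by
        rw [add_sub_cancel_right]
        have := sub_mem hz1 (hXY _ hy)
        rwa [sub_sub_cancel] at this
      obtain ⟨u, -, hv⟩ := hh_eq_zero_iff.1 h1 w hw h3
      refine mem_bb.2 ⟨w - D u, hv, ?_⟩
      rw [map_sub, hD, sub_zero]
      exact hy
    · intro z hz
      refine ⟨?_, hz.2⟩
      obtain ⟨w, hw, hy⟩ := mem_bb.1 hz.1
      exact mem_bb.2 ⟨w, hYZ _ hw, hy⟩
  unfold hh
  rw [← rl_sup_right (bb D Z X δ), e1, rl_sup_right, ← rl_inf_left (bb D Z X δ), e2, rl_inf_left]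

end

section

variable {S : Type*} [CommRing S] {ι : Type*} [Fintype ι] {M : Type*} [AddCommGroup M]
  [Module S M]

lemma tr_tot_apply (deg : ι → ℤ) (Q : Matrix ι ι S) (d : M →ₗ[S] M) (f : ι → M) (a : ι) :
    tot deg Q d f a = ∑ b, Q a b • f b + ((deg a).negOnePow : ℤ) • d (f a) := rfl

lemma tr_mem_lift {deg : ι → ℤ} {X : ℤ → Submodule S M} {δ : ℤ} {f : ι → M} :
    f ∈ lift deg X δ ↔ ∀ a, f a ∈ X (deg a - δ) := by
  unfold lift
  rw [Submodule.mem_pi]
  simp

lemma sgn_sgn (n : ℤ) (x : M) : ((n.negOnePow : ℤˣ) : ℤ) • ((n.negOnePow : ℤˣ) : ℤ) • x = x := by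
  rw [smul_smul, ← Units.val_mul, Int.units_mul_self, Units.val_one, one_smul]

lemma tot_tot' (deg : ι → ℤ) (Q : Matrix ι ι S) (hQ : IsCx deg Q) (d : M →ₗ[S] M)
    (hd : ∀ x, d (d x) = 0) (f : ι → M) : tot deg Q d (tot deg Q d f) = 0 := by
  ext a
  rw [tr_tot_apply]
  simp only [tr_tot_apply, smul_add, Finset.sum_add_distrib, Finset.smul_sum, map_add, map_sum,
    map_smul, Pi.zero_apply]
  have h1 : ∑ b, ∑ c, Q a b • Q b c • f c = 0 := by
    rw [Finset.sum_comm]
    refine Finset.sum_eq_zero fun c _ => ?_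
    simp only [smul_smul]
    rw [← Finset.sum_smul]
    have : ∑ b, Q a b * Q b c = (Q * Q) a c := rfl
    rw [this, hQ.sq, Matrix.zero_apply, zero_smul]
  have h2 : ∑ b, Q a b • ((deg b).negOnePow : ℤ) • d (f b) +
      ∑ b, ((deg a).negOnePow : ℤ) • Q a b • d (f b) = 0 := by
    rw [← Finset.sum_add_distrib]
    refine Finset.sum_eq_zero fun b _ => ?_
    by_cases hb : Q a b = 0
    · rw [hb, zero_smul, zero_smul, smul_zero, add_zero]
    · rw [hQ.deg_eq a b hb, Int.negOnePow_succ, Units.val_neg, neg_smul, smul_neg,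
        smul_comm (((deg a).negOnePow : ℤˣ) : ℤ)]
      abel
  have h3 : d (((deg a).negOnePow : ℤ) • d (f a)) = 0 := by
    rw [map_zsmul, hd, smul_zero]
  rw [h1, zero_add, h3, smul_zero, add_zero]
  exact h2

lemma lift_stab' (deg : ι → ℤ) (Q : Matrix ι ι S) (hQ : IsCx deg Q) (d : M →ₗ[S] M)
    (X : ℤ → Submodule S M) (hX : CStab d X) : Stab (tot deg Q d) (lift deg X) := by
  intro δ f hf
  rw [tr_mem_lift] at hf ⊢
  intro a
  rw [tr_tot_apply]
  refine add_mem (sum_mem fun b _ => ?_) ?_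
  · by_cases hb : Q a b = 0
    · rw [hb, zero_smul]
      exact zero_mem _
    · have h1 := hf b
      rw [hQ.deg_eq a b hb] at h1
      refine Submodule.smul_mem _ _ ?_
      rwa [show deg a - (δ - 1) = deg a + 1 - δ by ring]
  · refine zsmul_mem ?_ _
    have h1 := hX _ _ (hf a)
    rwa [show deg a - (δ - 1) = deg a - δ + 1 by ring]

end

end TR

open TR

section T

variable {S : Type*} [CommRing S] {ι : Type*} [Fintype ι] {M : Type*} [AddCommGroup M]
  [Module S M]

/-- TASK T2: exact rows give an exact total complex (only the degrees `p = deg a - δ` matter). -/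
theorem hh_lift_eq_zero (deg : ι → ℤ) (Q : Matrix ι ι S) (hQ : IsCx deg Q) (d : M →ₗ[S] M)
    (hd : ∀ x, d (d x) = 0) (X Y : ℤ → Submodule S M) (hX : CStab d X) (hY : CStab d Y)
    (hXY : ∀ p, X p ≤ Y p) (δ : ℤ) (h : ∀ a, Ex d Y X (deg a - δ)) :
    hh (tot deg Q d) (lift deg Y) (lift deg X) δ = 0 := by
  classical
  have := hX
  rw [hh_eq_zero_iff]
  obtain ⟨lo, hlo⟩ : ∃ lo : ℤ, ∀ a, lo ≤ deg a := by
    obtain ⟨lo, hlo⟩ := (Set.finite_range deg).bddBelow
    exact ⟨lo, fun a => hlo ⟨a, rfl⟩⟩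
  obtain ⟨hi, hhi⟩ : ∃ hi : ℤ, ∀ a, deg a ≤ hi := by
    obtain ⟨hi, hhi⟩ := (Set.finite_range deg).bddAbove
    exact ⟨hi, fun a => hhi ⟨a, rfl⟩⟩
  have key : ∀ k : ℕ, ∀ f ∈ lift deg Y δ, tot deg Q d f ∈ lift deg X (δ - 1) →
      (∀ a, lo + k ≤ deg a → f a ∈ X (deg a - δ)) →
      ∃ w ∈ lift deg Y (δ + 1), f - tot deg Q d w ∈ lift deg X δ := by
    intro k
    induction k with
    | zero =>
      intro f _ _ h3
      refine ⟨0, zero_mem _, ?_⟩
      rw [map_zero, sub_zero, tr_mem_lift]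
      intro a
      exact h3 a (by simpa using hlo a)
    | succ k ih =>
      intro f h1 h2 h3
      have hg : ∀ a, ∃ g : M, deg a = lo + k → (g ∈ Y (deg a - δ - 1) ∧
          f a - d g ∈ X (deg a - δ)) := by
        intro a
        by_cases ha : deg a = lo + k
        · have h4 : ((deg a).negOnePow : ℤ) • d (f a) ∈ X (deg a - δ + 1) := by
            have h5 := tr_mem_lift.1 h2 a
            rw [tr_tot_apply, show deg a - (δ - 1) = deg a - δ + 1 by ring] at h5
            have h6 : ∑ b, Q a b • f b ∈ X (deg a - δ + 1) := by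
              refine sum_mem fun b _ => ?_
              by_cases hb : Q a b = 0
              · rw [hb, zero_smul]
                exact zero_mem _
              · have h7 := hQ.deg_eq a b hb
                have h8 := h3 b (by push_cast; omega)
                rw [h7] at h8
                refine Submodule.smul_mem _ _ ?_
                rwa [show deg a - δ + 1 = deg a + 1 - δ by ring]
            have h7 := sub_mem h5 h6
            rwa [add_sub_cancel_left] at h7
          have h5 : d (f a) ∈ X (deg a - δ + 1) := by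
            have := zsmul_mem h4 ((deg a).negOnePow : ℤ)
            rwa [sgn_sgn] at this
          have h6 : f a ∈ cb d Y X (deg a - δ) := h a ⟨tr_mem_lift.1 h1 a, h5⟩
          obtain ⟨x, ⟨g, hg, rfl⟩, y, hy, hxy⟩ := Submodule.mem_sup.1 h6
          refine ⟨g, fun _ => ⟨hg, ?_⟩⟩
          rw [← hxy, add_sub_cancel_left]
          exact hy
        · exact ⟨0, fun h => absurd h ha⟩
      choose g hg using hg
      set G : ι → M := fun a => if deg a = lo + k then ((deg a).negOnePow : ℤ) • g a else 0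
        with hG
      have hGY : G ∈ lift deg Y (δ + 1) := by
        rw [tr_mem_lift]
        intro a
        rw [hG]
        simp only
        split_ifs with ha
        · refine zsmul_mem ?_ _
          have := (hg a ha).1
          rwa [show deg a - (δ + 1) = deg a - δ - 1 by ring]
        · exact zero_mem _
      have hDG : tot deg Q d G ∈ lift deg Y δ := by
        have := lift_stab' deg Q hQ d Y hY _ _ hGY
        rwa [add_sub_cancel_right] at this
      obtain ⟨w, hw, hw2⟩ := ih (f - tot deg Q d G) (sub_mem h1 hDG) (by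
        rw [map_sub, tot_tot' deg Q hQ d hd, sub_zero]
        exact h2) (by
        intro a ha
        have e1 : ∑ b, Q a b • G b = 0 := by
          refine Finset.sum_eq_zero fun b _ => ?_
          by_cases hb : Q a b = 0
          · rw [hb, zero_smul]
          · have h7 := hQ.deg_eq a b hb
            rw [hG]
            simp only
            rw [if_neg (by omega), smul_zero]
        rw [Pi.sub_apply, tr_tot_apply, e1, zero_add]
        by_cases ha2 : deg a = lo + k
        · have e2 : G a = ((deg a).negOnePow : ℤ) • g a := by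
            rw [hG]
            simp only
            rw [if_pos ha2]
          rw [e2, map_zsmul, sgn_sgn]
          exact (hg a ha2).2
        · have e2 : G a = 0 := by
            rw [hG]
            simp only
            rw [if_neg ha2]
          rw [e2, map_zero, smul_zero, sub_zero]
          exact h3 a (by push_cast; omega))
      refine ⟨G + w, add_mem hGY hw, ?_⟩
      rw [map_add, ← sub_sub]
      exact hw2
  intro z hz hDz
  refine key (hi - lo + 1).toNat z hz hDz fun a ha => ?_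
  exfalso
  have h1 := hhi a
  have h2 := hlo a
  omega

/-- the family equal to `Y` below `p₀`, to `Z` at `p₀` and to `X` above. -/
def TR.mix (Y X : ℤ → Submodule S M) (Z : Submodule S M) (p₀ p : ℤ) : Submodule S M :=
  if p < p₀ then Y p else if p = p₀ then Z else X p

lemma TR.mix_lt {Y X : ℤ → Submodule S M} {Z : Submodule S M} {p₀ p : ℤ} (h : p < p₀) :
    TR.mix Y X Z p₀ p = Y p := if_pos h

lemma TR.mix_eq {Y X : ℤ → Submodule S M} {Z : Submodule S M} {p₀ : ℤ} :
    TR.mix Y X Z p₀ p₀ = Z := by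
  unfold TR.mix
  rw [if_neg (lt_irrefl _), if_pos rfl]

lemma TR.mix_gt {Y X : ℤ → Submodule S M} {Z : Submodule S M} {p₀ p : ℤ} (h : p₀ < p) :
    TR.mix Y X Z p₀ p = X p := by
  unfold TR.mix
  rw [if_neg (by omega), if_neg (by omega)]

lemma TR.mix_cstab {d : M →ₗ[S] M} {Y X : ℤ → Submodule S M} {Z : Submodule S M} {p₀ : ℤ}
    (hX : CStab d X) (hY : CStab d Y) (h1 : ∀ x ∈ Y (p₀ - 1), d x ∈ Z)
    (h2 : ∀ x ∈ Z, d x ∈ X (p₀ + 1)) : CStab d (TR.mix Y X Z p₀) := by
  intro p x hx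
  rcases lt_trichotomy p p₀ with h | h | h
  · rw [TR.mix_lt h] at hx
    rcases lt_trichotomy (p + 1) p₀ with h' | h' | h'
    · rw [TR.mix_lt h']
      exact hY _ _ hx
    · rw [h', TR.mix_eq]
      refine h1 x ?_
      rwa [show p₀ - 1 = p by omega]
    · omega
  · subst h
    rw [TR.mix_eq] at hx
    rw [TR.mix_gt (by omega)]
    exact h2 x hx
  · rw [TR.mix_gt h] at hx
    rw [TR.mix_gt (by omega)]
    exact hX _ _ hx

lemma TR.cb_le_cz {d : M →ₗ[S] M} (hd : ∀ x, d (d x) = 0) {Y X : ℤ → Submodule S M}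
    (hX : CStab d X) (hY : CStab d Y) (hXY : ∀ p, X p ≤ Y p) (p : ℤ) :
    cb d Y X p ≤ cz d Y X p := by
  refine sup_le ?_ fun x hx => ⟨hXY _ hx, hX _ _ hx⟩
  rintro _ ⟨y, hy, rfl⟩
  refine ⟨?_, ?_⟩
  · have := hY _ _ hy
    rwa [sub_add_cancel] at this
  · change d (d y) ∈ X (p + 1)
    rw [hd]
    exact zero_mem _

lemma TR.mem_lift_conc {deg : ι → ℤ} {Z : Submodule S M} {i : ℤ} {f : ι → M} :
    f ∈ lift deg (conc Z) i ↔ ∀ a, (deg a = i → f a ∈ Z) ∧ (deg a ≠ i → f a = 0) := by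
  rw [tr_mem_lift]
  refine forall_congr' fun a => ?_
  unfold conc
  by_cases h : deg a = i
  · rw [if_pos (by omega)]
    simp [h]
  · rw [if_neg (by omega)]
    simp [h]

lemma TR.tot_zero_apply (deg : ι → ℤ) (Q : Matrix ι ι S) (f : ι → M) (a : ι) :
    tot deg Q (0 : M →ₗ[S] M) f a = ∑ b, Q a b • f b := by
  rw [tr_tot_apply]
  simp

/-- the concentrated piece -/
lemma TR.hh_mix (deg : ι → ℤ) (Q : Matrix ι ι S) (hQ : IsCx deg Q) (d : M →ₗ[S] M)
    (Y X : ℤ → Submodule S M) (C Z : Submodule S M) (p₀ : ℤ)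
    (hX : CStab d X) (hY : CStab d Y) (hCZ : C ≤ Z) (h1 : ∀ x ∈ Y (p₀ - 1), d x ∈ C)
    (h2 : ∀ x ∈ Z, d x ∈ X (p₀ + 1)) (δ : ℤ) :
    hh (tot deg Q d) (lift deg (TR.mix Y X Z p₀)) (lift deg (TR.mix Y X C p₀)) δ =
      khs deg Q Z C (δ + p₀) := by
  classical
  have hle : ∀ p, TR.mix Y X C p₀ p ≤ TR.mix Y X Z p₀ p := by
    intro p
    rcases lt_trichotomy p p₀ with h | h | h
    · rw [TR.mix_lt h, TR.mix_lt h]
    · subst h
      rw [TR.mix_eq, TR.mix_eq]
      exact hCZ
    · rw [TR.mix_gt h, TR.mix_gt h]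
  have hst := lift_stab' deg Q hQ d _
    (TR.mix_cstab hX hY h1 (fun x hx => h2 x (hCZ hx)))
  -- splitting off the concentrated part
  have hspl : ∀ (e : ℤ) (f : ι → M), f ∈ lift deg (TR.mix Y X Z p₀) e →
      ∃ g ∈ lift deg (conc Z) (e + p₀), (∀ a, deg a = e + p₀ → g a = f a) ∧
        f - g ∈ lift deg (TR.mix Y X C p₀) e := by
    intro e f hf
    rw [tr_mem_lift] at hf
    refine ⟨fun a => if deg a = e + p₀ then f a else 0, ?_, ?_, ?_⟩
    · rw [TR.mem_lift_conc]
      intro a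
      refine ⟨fun h => ?_, fun h => if_neg h⟩
      rw [if_pos h]
      have := hf a
      rwa [show deg a - e = p₀ by omega, TR.mix_eq] at this
    · exact fun a h => if_pos h
    · rw [tr_mem_lift]
      intro a
      rw [Pi.sub_apply]
      by_cases h : deg a = e + p₀
      · rw [if_pos h, sub_self]
        exact zero_mem _
      · rw [if_neg h, sub_zero]
        have := hf a
        rcases lt_trichotomy (deg a - e) p₀ with h' | h' | h'
        · rwa [TR.mix_lt h'] at this ⊢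
        · omega
        · rwa [TR.mix_gt h'] at this ⊢
  -- the differential of a concentrated element
  have hdiff : ∀ (e : ℤ) (g : ι → M), g ∈ lift deg (conc Z) (e + p₀) →
      tot deg Q d g - tot deg Q (0 : M →ₗ[S] M) g ∈ lift deg (TR.mix Y X C p₀) (e - 1) := by
    intro e g hg
    rw [TR.mem_lift_conc] at hg
    rw [tr_mem_lift]
    intro a
    rw [Pi.sub_apply, TR.tot_zero_apply, tr_tot_apply, add_sub_cancel_left]
    refine zsmul_mem ?_ _
    by_cases h : deg a = e + p₀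
    · have h3 := h2 _ ((hg a).1 h)
      rwa [show deg a - (e - 1) = p₀ + 1 by omega, TR.mix_gt (by omega)]
    · rw [(hg a).2 h, map_zero]
      exact zero_mem _
  have hconc : ∀ (e : ℤ) (g : ι → M), g ∈ lift deg (conc C) (e + p₀) →
      g ∈ lift deg (TR.mix Y X C p₀) e := by
    intro e g hg
    rw [TR.mem_lift_conc] at hg
    rw [tr_mem_lift]
    intro a
    by_cases h : deg a = e + p₀
    · rw [show deg a - e = p₀ by omega, TR.mix_eq]
      exact (hg a).1 h
    · rw [(hg a).2 h]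
      exact zero_mem _
  have hconcZ : ∀ (e : ℤ) (g : ι → M), g ∈ lift deg (conc Z) (e + p₀) →
      g ∈ lift deg (TR.mix Y X Z p₀) e := by
    intro e g hg
    rw [TR.mem_lift_conc] at hg
    rw [tr_mem_lift]
    intro a
    by_cases h : deg a = e + p₀
    · rw [show deg a - e = p₀ by omega, TR.mix_eq]
      exact (hg a).1 h
    · rw [(hg a).2 h]
      exact zero_mem _
  have hsupp : ∀ (e : ℤ) (g : ι → M), g ∈ lift deg (TR.mix Y X C p₀) e →
      (∀ a, deg a ≠ e + p₀ → g a = 0) → g ∈ lift deg (conc C) (e + p₀) := by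
    intro e g hg hs
    rw [tr_mem_lift] at hg
    rw [TR.mem_lift_conc]
    intro a
    refine ⟨fun h => ?_, hs a⟩
    have := hg a
    rwa [show deg a - e = p₀ by omega, TR.mix_eq] at this
  set L := lift deg (TR.mix Y X C p₀) δ with hL
  set zz0 := zz (tot deg Q (0 : M →ₗ[S] M)) (lift deg (conc Z)) (lift deg (conc C)) (δ + p₀)
    with hzz0
  set bb0 := bb (tot deg Q (0 : M →ₗ[S] M)) (lift deg (conc Z)) (lift deg (conc C)) (δ + p₀)
    with hbb0
  have hQsupp : ∀ (i : ℤ) (g : ι → M) (W : Submodule S M), g ∈ lift deg (conc W) i →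
      ∀ a, deg a ≠ i - 1 → tot deg Q (0 : M →ₗ[S] M) g a = 0 := by
    intro i g W hg a ha
    rw [TR.mem_lift_conc] at hg
    rw [TR.tot_zero_apply]
    refine Finset.sum_eq_zero fun b _ => ?_
    by_cases hb : Q a b = 0
    · rw [hb, zero_smul]
    · have := hQ.deg_eq a b hb
      rw [(hg b).2 (by omega), smul_zero]
  have ezz : zz (tot deg Q d) (lift deg (TR.mix Y X Z p₀)) (lift deg (TR.mix Y X C p₀)) δ =
      L ⊔ zz0 := by
    apply le_antisymm
    · intro f hf
      obtain ⟨hf1, hf2⟩ := mem_zz.1 hf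
      obtain ⟨g, hg1, hg2, hg3⟩ := hspl δ f hf1
      refine Submodule.mem_sup.2 ⟨f - g, hg3, g, ?_, by abel⟩
      refine mem_zz.2 ⟨hg1, ?_⟩
      have h3 : tot deg Q d (f - g) ∈ lift deg (TR.mix Y X C p₀) (δ - 1) := hst _ _ hg3
      have h4 : tot deg Q (0 : M →ₗ[S] M) g ∈ lift deg (TR.mix Y X C p₀) (δ - 1) := by
        have h5 := sub_mem (sub_mem hf2 h3) (hdiff δ g hg1)
        rw [map_sub] at h5
        have e5 : tot deg Q d f - (tot deg Q d f - tot deg Q d g) -
            (tot deg Q d g - tot deg Q (0 : M →ₗ[S] M) g) = tot deg Q (0 : M →ₗ[S] M) g := by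
          abel
        rwa [e5] at h5
      rw [show δ + p₀ - 1 = δ - 1 + p₀ by ring]
      refine hsupp _ _ h4 fun a ha => ?_
      exact hQsupp _ g Z hg1 a (by omega)
    · refine sup_le (fun f hf => ?_) fun g hg => ?_
      · refine mem_zz.2 ⟨?_, hst _ _ hf⟩
        rw [tr_mem_lift] at hf ⊢
        exact fun a => hle _ (hf a)
      · obtain ⟨hg1, hg2⟩ := mem_zz.1 hg
        refine mem_zz.2 ⟨hconcZ _ _ hg1, ?_⟩
        rw [show δ + p₀ - 1 = δ - 1 + p₀ by ring] at hg2
        have h3 := add_mem (hdiff δ g hg1) (hconc _ _ hg2)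
        rwa [sub_add_cancel] at h3
  have ebb : bb (tot deg Q d) (lift deg (TR.mix Y X Z p₀)) (lift deg (TR.mix Y X C p₀)) δ =
      L ⊔ bb0 := by
    apply le_antisymm
    · intro f hf
      obtain ⟨w, hw, hx⟩ := mem_bb.1 hf
      obtain ⟨g, hg1, hg2, hg3⟩ := hspl (δ + 1) w hw
      have h3 : tot deg Q d (w - g) ∈ L := by
        have := hst _ _ hg3
        rwa [add_sub_cancel_right] at this
      have h4 : tot deg Q d g - tot deg Q (0 : M →ₗ[S] M) g ∈ L := by
        have := hdiff _ g hg1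
        rwa [add_sub_cancel_right] at this
      refine Submodule.mem_sup.2 ⟨f - tot deg Q (0 : M →ₗ[S] M) g, ?_,
        tot deg Q (0 : M →ₗ[S] M) g, ?_, by abel⟩
      · have h5 := add_mem (add_mem hx h3) h4
        rw [map_sub] at h5
        have e5 : f - tot deg Q d w + (tot deg Q d w - tot deg Q d g) +
            (tot deg Q d g - tot deg Q (0 : M →ₗ[S] M) g) =
            f - tot deg Q (0 : M →ₗ[S] M) g := by abel
        rwa [e5] at h5
      · refine mem_bb.2 ⟨g, ?_, by simp⟩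
        rwa [show δ + p₀ + 1 = δ + 1 + p₀ by ring]
    · refine sup_le (fun f hf => ?_) fun f hf => ?_
      · exact mem_bb.2 ⟨0, zero_mem _, by simpa using hf⟩
      · obtain ⟨g, hg, hx⟩ := mem_bb.1 hf
        rw [show δ + p₀ + 1 = δ + 1 + p₀ by ring] at hg
        refine mem_bb.2 ⟨g, hconcZ _ _ hg, ?_⟩
        have h4 := hdiff _ g hg
        rw [add_sub_cancel_right] at h4
        have h5 := sub_mem (hconc _ _ hx) h4
        have e5 : f - tot deg Q (0 : M →ₗ[S] M) g -
          (tot deg Q d g - tot deg Q (0 : M →ₗ[S] M) g) = f - tot deg Q d g := by abel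
        rwa [e5] at h5
  have einf : (L ⊔ bb0) ⊓ zz0 = bb0 ⊓ zz0 := by
    apply le_antisymm
    · rintro x ⟨hx1, hx2⟩
      refine ⟨?_, hx2⟩
      obtain ⟨l, hl, b, hb, rfl⟩ := Submodule.mem_sup.1 hx1
      refine add_mem ?_ hb
      have h3 : l ∈ lift deg (conc C) (δ + p₀) := by
        refine hsupp _ _ hl fun a ha => ?_
        have h4 := (TR.mem_lift_conc.1 (mem_zz.1 hx2).1 a).2 ha
        obtain ⟨g, hg, hy⟩ := mem_bb.1 hb
        have h5 := (TR.mem_lift_conc.1 hy a).2 ha
        have h6 := hQsupp _ g Z hg a (by omega)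
        rw [Pi.sub_apply, h6, sub_zero] at h5
        rw [Pi.add_apply, h5, add_zero] at h4
        exact h4
      exact mem_bb.2 ⟨0, zero_mem _, by simpa using h3⟩
    · exact inf_le_inf_right _ le_sup_right
  unfold khs
  unfold hh
  rw [ezz, ebb]
  have e7 : L ⊔ bb0 ⊔ (L ⊔ zz0) = L ⊔ bb0 ⊔ zz0 := by
    rw [← sup_assoc, sup_eq_left.2 (le_sup_left : L ≤ L ⊔ bb0)]
  rw [← rl_sup_right (L ⊔ bb0), e7, rl_sup_right, ← rl_inf_left (L ⊔ bb0), einf, rl_inf_left]

/-- TASK T3: homology of the total complex when the rows have cohomology only in degree `p₀`. -/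
theorem hh_lift_of_ex (deg : ι → ℤ) (Q : Matrix ι ι S) (hQ : IsCx deg Q) (d : M →ₗ[S] M)
    (hd : ∀ x, d (d x) = 0) (X Y : ℤ → Submodule S M) (hX : CStab d X) (hY : CStab d Y)
    (hXY : ∀ p, X p ≤ Y p) (p₀ : ℤ) (h : ∀ p, p ≠ p₀ → Ex d Y X p) (δ : ℤ) :
    hh (tot deg Q d) (lift deg Y) (lift deg X) δ =
      khs deg Q (cz d Y X p₀) (cb d Y X p₀) (δ + p₀) := by
  have hcc := TR.cb_le_cz hd hX hY hXY p₀
  have hd1 : ∀ x ∈ Y (p₀ - 1), d x ∈ cb d Y X p₀ := fun x hx =>
    le_sup_left (b := X p₀) ⟨x, hx, rfl⟩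
  have hd2 : ∀ x ∈ cz d Y X p₀, d x ∈ X (p₀ + 1) := fun x hx => hx.2
  set T' := TR.mix Y X (cz d Y X p₀) p₀ with hT'
  set B' := TR.mix Y X (cb d Y X p₀) p₀ with hB'
  have sT : CStab d T' := TR.mix_cstab hX hY (fun x hx => hcc (hd1 x hx)) hd2
  have sB : CStab d B' := TR.mix_cstab hX hY hd1 (fun x hx => hd2 x (hcc hx))
  have hXB : ∀ p, X p ≤ B' p := by
    intro p
    rcases lt_trichotomy p p₀ with h' | h' | h'
    · rw [hB', TR.mix_lt h']
      exact hXY p
    · subst h'
      rw [hB', TR.mix_eq]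
      exact le_sup_right
    · rw [hB', TR.mix_gt h']
  have hBT : ∀ p, B' p ≤ T' p := by
    intro p
    rcases lt_trichotomy p p₀ with h' | h' | h'
    · rw [hB', hT', TR.mix_lt h', TR.mix_lt h']
    · subst h'
      rw [hB', hT', TR.mix_eq, TR.mix_eq]
      exact hcc
    · rw [hB', hT', TR.mix_gt h', TR.mix_gt h']
  have hTY : ∀ p, T' p ≤ Y p := by
    intro p
    rcases lt_trichotomy p p₀ with h' | h' | h'
    · rw [hT', TR.mix_lt h']
    · subst h'
      rw [hT', TR.mix_eq]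
      exact inf_le_left
    · rw [hT', TR.mix_gt h']
      exact hXY p
  have exYT : ∀ p, Ex d Y T' p := by
    rintro p x ⟨hx1, hx2⟩
    have hx2' : d x ∈ T' (p + 1) := hx2
    rcases lt_trichotomy p p₀ with h' | h' | h'
    · refine le_sup_right (a := (Y (p - 1)).map d) ?_
      rw [hT', TR.mix_lt h']
      exact hx1
    · subst h'
      refine le_sup_right (a := (Y (p - 1)).map d) ?_
      rw [hT', TR.mix_eq]
      rw [hT', TR.mix_gt (by omega)] at hx2'
      exact ⟨hx1, hx2'⟩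
    · rw [hT', TR.mix_gt (by omega)] at hx2'
      have h3 := h p (by omega) ⟨hx1, hx2'⟩
      have h4 : (Y (p - 1)).map d ⊔ X p ≤ (Y (p - 1)).map d ⊔ T' p := by
        rw [hT', TR.mix_gt h']
      exact h4 h3
  have exBX : ∀ p, Ex d B' X p := by
    rintro p x ⟨hx1, hx2⟩
    rcases lt_trichotomy p p₀ with h' | h' | h'
    · rw [hB', TR.mix_lt h'] at hx1
      have h3 := h p (by omega) ⟨hx1, hx2⟩
      have h4 : (Y (p - 1)).map d ⊔ X p ≤ (B' (p - 1)).map d ⊔ X p := by
        rw [hB', TR.mix_lt (by omega)]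
      exact h4 h3
    · subst h'
      rw [hB', TR.mix_eq] at hx1
      have h4 : (Y (p - 1)).map d ⊔ X p ≤ (B' (p - 1)).map d ⊔ X p := by
        rw [hB', TR.mix_lt (by omega)]
      exact h4 hx1
    · rw [hB', TR.mix_gt h'] at hx1
      exact le_sup_right (a := (B' (p - 1)).map d) hx1
  have lm : ∀ {P R : ℤ → Submodule S M}, (∀ p, P p ≤ R p) → ∀ δ, lift deg P δ ≤ lift deg R δ := by
    intro P R hPR δ f hf
    rw [tr_mem_lift] at hf ⊢
    exact fun a => hPR _ (hf a)
  have hD := tot_tot' deg Q hQ d hd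
  rw [hh_upper hD (lm (fun p => (hXB p).trans (hBT p))) (lm hTY)
      (hh_lift_eq_zero deg Q hQ d hd T' Y sT hY hTY δ fun a => exYT _)
      (hh_lift_eq_zero deg Q hQ d hd T' Y sT hY hTY (δ + 1) fun a => exYT _),
    hh_lower hD (lift_stab' deg Q hQ d X hX) (lm hXB) (lm hBT)
      (hh_lift_eq_zero deg Q hQ d hd X B' hX sB hXB δ fun a => exBX _)
      (hh_lift_eq_zero deg Q hQ d hd X B' hX sB hXB (δ - 1) fun a => exBX _)]
  exact TR.hh_mix deg Q hQ d Y X _ _ p₀ hX hY hcc hd1 hd2 δ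

end T

end Vale.Agent.P202.CharP
end

section

/-!
P202-G3, definitions for the estimate of Koszul homology: product Koszul matrix, the Koszul
complex over the small ring.
-/

namespace Vale.Agent.P202.CharP.Gen2

open Submodule TensorProduct IsLocalRing Gen

/-- degree on `KIdx n × KIdx n`. -/
def pdegP (n : ℕ) (x : KIdx n × KIdx n) : ℤ := kdeg n x.1 + kdeg n x.2

/-- the product of the Koszul matrices of `y` (outer) and `u` (inner). -/
def pm (n : ℕ) {S : Type*} [CommRing S] (y u : Fin n → S) :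
    Matrix (KIdx n × KIdx n) (KIdx n × KIdx n) S := fun x x' =>
  (if x.2 = x'.2 then kos n y x.1 x'.1 else 0) +
    (if x.1 = x'.1 then (((kdeg n x.1).negOnePow : ℤ) : S) * kos n u x.2 x'.2 else 0)

section

variable (A : Type*) {P Om : Type*} [CommRing A] [CommRing P] [CommRing Om] [Algebra A Om]
  [Algebra P Om] [SMulCommClass P A Om] {V : Type*} [AddCommGroup V] [Module P V]

/-- the Koszul differential of `u` on `Ω ⊗ V`, seen as an `A`-linear map. -/
noncomputable def DA (V : Type*) [AddCommGroup V] [Module P V] {n : ℕ} (u : Fin n → Om) :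
    (KIdx n → Om ⊗[P] V) →ₗ[A] (KIdx n → Om ⊗[P] V) :=
  (act (kos n u) (Om ⊗[P] V)).restrictScalars A

/-- the Koszul complex of `Ω ⊗ Y`, degree `p` is the Koszul degree `-p`. -/
noncomputable def KA (Om : Type*) [CommRing Om] [Algebra A Om] [Algebra P Om]
    [SMulCommClass P A Om] (n : ℕ) (Y : Submodule P V) (p : ℤ) :
    Submodule A (KIdx n → Om ⊗[P] V) :=
  (lift (kdeg n) (conc (Y.baseChange Om)) (-p)).restrictScalars A

/-- length over `A` of the Koszul homology of `Ω ⊗ (Y / X)` in degree `b`. -/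
noncomputable def hA {n : ℕ} (u : Fin n → Om) (Y X : Submodule P V) (b : ℤ) : ℕ∞ :=
  hc (DA A V u) (KA A Om n Y) (KA A Om n X) (-b)

end

/-- concatenation of two lists of elements, first `y`, then `u`. -/
def cat {S : Type*} {m : ℕ} (u : Fin m → S) : ∀ k : ℕ, (Fin k → S) → (Fin (m + k) → S)
  | 0, _ => u
  | k + 1, y => Fin.cons (y 0) (cat u k fun i => y i.succ)

/-- the Koszul complex of `Y`, degree `p` is the Koszul degree `-p`. -/
def KF {S : Type*} [CommRing S] {M : Type*} [AddCommGroup M] [Module S M] (n : ℕ)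
    (Y : Submodule S M) (p : ℤ) : Submodule S (KIdx n → M) := lift (kdeg n) (conc Y) (-p)

section

variable (r : ℕ) {A' : Type*} [CommRing A']

end

end Vale.Agent.P202.CharP.Gen2
end

section

/-!
P202-GEN, task GEN-2: inequalities from the long exact sequence for `hc`, additivity of the Euler
characteristic, transport of the cohomology of a pair along a linear map.
-/

namespace Vale.Agent.P202.CharP.Gen

open Submodule TensorProduct IsLocalRing

namespace LesC

section

variable {S 𝕋 : Type*} [CommRing S] [AddCommGroup 𝕋] [Module S 𝕋]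

/-- the reversed family. -/
def rev (X : ℤ → Submodule S 𝕋) (δ : ℤ) : Submodule S 𝕋 := X (-δ)

lemma cz_eq (d : 𝕋 →ₗ[S] 𝕋) (Y X : ℤ → Submodule S 𝕋) (p : ℤ) :
    cz d Y X p = zz d (rev Y) (rev X) (-p) := by
  have h1 : -(-p - 1) = p + 1 := by ring
  simp only [cz, zz, rev, neg_neg, h1]

lemma cb_eq (d : 𝕋 →ₗ[S] 𝕋) (Y X : ℤ → Submodule S 𝕋) (p : ℤ) :
    cb d Y X p = bb d (rev Y) (rev X) (-p) := by
  have h1 : -(-p + 1) = p - 1 := by ring
  simp only [cb, bb, rev, neg_neg, h1]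

lemma hc_eq (d : 𝕋 →ₗ[S] 𝕋) (Y X : ℤ → Submodule S 𝕋) (p : ℤ) :
    hc d Y X p = hh d (rev Y) (rev X) (-p) := by
  rw [hc, hh, cz_eq, cb_eq]

lemma rev_stab {d : 𝕋 →ₗ[S] 𝕋} {X : ℤ → Submodule S 𝕋} (hX : CStab d X) :
    Stab d (rev X) := by
  intro δ x hx
  have h := hX _ x hx
  have h1 : -(δ - 1) = -δ + 1 := by ring
  rw [rev, h1]
  exact h

/-- the three terms of the long exact sequence. -/
lemma les (d : 𝕋 →ₗ[S] 𝕋) (hd : ∀ x, d (d x) = 0) (X Y Z : ℤ → Submodule S 𝕋)
    (hX : CStab d X) (hY : CStab d Y) (hZ : CStab d Z) (hXY : ∀ p, X p ≤ Y p)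
    (hYZ : ∀ p, Y p ≤ Z p) : ∃ a b e : ℤ → ℕ∞, ∀ p,
      hc d Z X p = a p + b p ∧ hc d Z Y p = b p + e (p + 1) ∧ hc d Y X p = e p + a p := by
  refine ⟨fun p => rl (bb d (rev Z) (rev X) (-p))
      (zz d (rev Y) (rev X) (-p) ⊔ bb d (rev Z) (rev X) (-p)),
    fun p => rl (bb d (rev Z) (rev Y) (-p))
      (zz d (rev Z) (rev X) (-p) ⊔ bb d (rev Z) (rev Y) (-p)),
    fun p => rl (bb d (rev Y) (rev X) (-p))
      ((zz d (rev Z) (rev Y) (-p + 1)).map d ⊔ bb d (rev Y) (rev X) (-p)), fun p => ?_⟩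
  have h := hh_les d hd (rev X) (rev Y) (rev Z) (rev_stab hX) (rev_stab hY) (rev_stab hZ)
    (fun δ => hXY _) (fun δ => hYZ _) (-p)
  have e1 : -(p + 1) = -p - 1 := by ring
  have e2 : -p - 1 + 1 = -p := by ring
  simp only [hc_eq, e1, e2]
  exact h

end

end LesC

section Hom

variable {S 𝕋 : Type*} [CommRing S] [AddCommGroup 𝕋] [Module S 𝕋]

/-- TASK GEN-2: the window of lengths `h p`, cohomological version of the long exact sequence. -/
theorem hc_le_add (d : 𝕋 →ₗ[S] 𝕋) (hd : ∀ x, d (d x) = 0) (X Y Z : ℤ → Submodule S 𝕋)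
    (hX : CStab d X) (hY : CStab d Y) (hZ : CStab d Z) (hXY : ∀ p, X p ≤ Y p)
    (hYZ : ∀ p, Y p ≤ Z p) (p : ℤ) : hc d Z X p ≤ hc d Z Y p + hc d Y X p := by
  obtain ⟨a, b, e, h⟩ := LesC.les d hd X Y Z hX hY hZ hXY hYZ
  obtain ⟨h1, h2, h3⟩ := h p
  rw [h1, h2, h3, add_comm (a p)]
  exact add_le_add le_self_add le_add_self

/-- TASK GEN-2: additivity of the Euler characteristic. -/
theorem hc_xi_add (c n : ℕ) (d : 𝕋 →ₗ[S] 𝕋) (hd : ∀ x, d (d x) = 0) (X Y Z : ℤ → Submodule S 𝕋)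
    (hX : CStab d X) (hY : CStab d Y) (hZ : CStab d Z) (hXY : ∀ p, X p ≤ Y p)
    (hYZ : ∀ p, Y p ≤ Z p) (h1 : ∀ p, hc d Z Y p ≠ ⊤) (h2 : ∀ p, hc d Y X p ≠ ⊤)
    (h3 : ∀ p, (p < -(c : ℤ) ∨ (n : ℤ) ≤ p) → Z p ≤ X p) :
    xic c n (hc d Z X) = xic c n (hc d Z Y) + xic c n (hc d Y X) := by
  obtain ⟨a, b, e, h⟩ := LesC.les d hd X Y Z hX hY hZ hXY hYZ
  have hb : ∀ p, b p ≠ ⊤ := fun p hp => h1 p (by rw [(h p).2.1, hp, top_add])
  have ha : ∀ p, a p ≠ ⊤ := fun p hp => h2 p (by rw [(h p).2.2, hp, add_top])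
  have he : ∀ p, e p ≠ ⊤ := fun p hp => h2 p (by rw [(h p).2.2, hp, top_add])
  -- the boundary terms vanish
  have hz : ∀ p, (p < -(c : ℤ) ∨ (n : ℤ) ≤ p) → hc d Z Y p = 0 ∧ hc d Y X p = 0 := by
    intro p hp
    refine ⟨rl_eq_zero_iff.2 ?_, rl_eq_zero_iff.2 ?_⟩
    · exact inf_le_left.trans (((h3 p hp).trans (hXY p)).trans le_sup_right)
    · exact inf_le_left.trans (((hYZ p).trans (h3 p hp)).trans le_sup_right)
  have e1 : e (-(c : ℤ)) = 0 := by
    have h4 := (h (-(c : ℤ) - 1)).2.1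
    rw [(hz _ (Or.inl (by omega))).1, sub_add_cancel] at h4
    exact (add_eq_zero.1 h4.symm).2
  have key : ∀ m : ℕ, (m : ℤ) ≤ (n : ℤ) + c →
      ∑ p ∈ Finset.Ico (-(c : ℤ)) (-(c : ℤ) + m), (p.negOnePow : ℤ) * (((hc d Z Y p).toNat : ℤ) +
        ((hc d Y X p).toNat : ℤ) - ((hc d Z X p).toNat : ℤ)) =
      -((-(c : ℤ) + m).negOnePow : ℤ) * ((e (-(c : ℤ) + m)).toNat : ℤ) := by
    intro m
    induction m with
    | zero =>
      intro _
      simp [e1]
    | succ m ih =>
      intro hm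
      have ih' := ih (by push_cast at hm ⊢; linarith)
      have e2 : (-(c : ℤ) + ((m + 1 : ℕ) : ℤ)) = (-(c : ℤ) + m) + 1 := by push_cast; ring
      rw [e2, ← Finset.insert_Ico_right_eq_Ico_add_one (by omega : -(c : ℤ) ≤ -(c : ℤ) + m),
        Finset.sum_insert Finset.right_notMem_Ico, ih', (h _).1, (h _).2.1, (h _).2.2,
        ENat.toNat_add (hb _) (he _), ENat.toNat_add (he _) (ha _), ENat.toNat_add (ha _) (hb _),
        Int.negOnePow_succ]
      push_cast
      ring
  have hfin : xic c n (hc d Z Y) + xic c n (hc d Y X) - xic c n (hc d Z X) = 0 := by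
    have h5 := key (n + c) (by push_cast; linarith)
    have e3 : (-(c : ℤ) + ((n + c : ℕ) : ℤ)) = n := by push_cast; ring
    rw [e3] at h5
    have e4 : e (n : ℤ) = 0 := by
      have h4 := (h (n : ℤ)).2.2
      rw [(hz _ (Or.inr le_rfl)).2] at h4
      exact (add_eq_zero.1 h4.symm).1
    rw [e4] at h5
    simp only [xic]
    rw [← Finset.sum_add_distrib, ← Finset.sum_sub_distrib]
    rw [ENat.toNat_zero, Nat.cast_zero, mul_zero] at h5
    rw [← h5]
    refine Finset.sum_congr rfl fun p _ => ?_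
    ring
  linarith

/-- TASK GEN-2: transport of the cohomology of a pair along a linear map. -/
theorem hc_transport {𝕋' : Type*} [AddCommGroup 𝕋'] [Module S 𝕋'] (d : 𝕋 →ₗ[S] 𝕋)
    (d' : 𝕋' →ₗ[S] 𝕋') (φ : 𝕋 →ₗ[S] 𝕋') (hφ : ∀ x, φ (d x) = d' (φ x))
    (X Y : ℤ → Submodule S 𝕋) (X' Y' : ℤ → Submodule S 𝕋') (hX : CStab d X) (hY : CStab d Y)
    (hX' : CStab d' X') (h0 : ∀ p, X p ≤ Y p)
    (h1 : ∀ p, (Y p).map φ ⊔ X' p = Y' p) (h2 : ∀ p, Y p ⊓ (X' p).comap φ = X p) (p : ℤ) :
    hc d Y X p = hc d' Y' X' p := by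
  have _ := hX
  have _ := h0
  have hXφ : ∀ p x, x ∈ X p → φ x ∈ X' p := by
    intro p x hx
    rw [← h2 p] at hx
    exact hx.2
  have hYφ : ∀ p x, x ∈ Y p → φ x ∈ Y' p := by
    intro p x hx
    rw [← h1 p]
    exact mem_sup_left ⟨x, hx, rfl⟩
  have i1 : (cz d Y X p).map φ ≤ cz d' Y' X' p := by
    rintro _ ⟨y, ⟨hy1, hy2⟩, rfl⟩
    refine ⟨hYφ p y hy1, ?_⟩
    change d' (φ y) ∈ X' (p + 1)
    rw [← hφ]
    exact hXφ _ _ hy2
  have i2 : cz d' Y' X' p ≤ cb d' Y' X' p ⊔ (cz d Y X p).map φ := by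
    rintro z ⟨hz1, hz2⟩
    have hz3 : d' z ∈ X' (p + 1) := hz2
    have hz1' : z ∈ (Y p).map φ ⊔ X' p := by rw [h1]; exact hz1
    obtain ⟨_, ⟨y, hy, rfl⟩, x, hx, rfl⟩ := mem_sup.1 hz1'
    have h3 : φ (d y) ∈ X' (p + 1) := by
      rw [map_add, ← hφ] at hz3
      exact (Submodule.add_mem_iff_left _ (hX' p x hx)).1 hz3
    have h4 : d y ∈ X (p + 1) := by
      rw [← h2]
      exact ⟨hY p y hy, h3⟩
    rw [add_comm]
    exact add_mem_sup (mem_sup_right hx) ⟨y, ⟨hy, h4⟩, rfl⟩
  have i3 : (cb d' Y' X' p).comap φ ⊓ cz d Y X p = cb d Y X p ⊓ cz d Y X p := by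
    apply le_antisymm
    · rintro y ⟨hy1, hy2⟩
      refine ⟨?_, hy2⟩
      obtain ⟨_, ⟨z, hz, rfl⟩, x2, hx2, he⟩ := mem_sup.1 hy1
      have hz' : z ∈ (Y (p - 1)).map φ ⊔ X' (p - 1) := by rw [h1]; exact hz
      obtain ⟨_, ⟨y1, hy1', rfl⟩, x1, hx1, rfl⟩ := mem_sup.1 hz'
      have h5 : d y1 ∈ Y p := by
        have := hY _ _ hy1'
        rwa [sub_add_cancel] at this
      have h6 : d' x1 ∈ X' p := by
        have := hX' _ _ hx1
        rwa [sub_add_cancel] at this
      have h7 : y - d y1 ∈ X p := by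
        rw [← h2]
        refine ⟨Submodule.sub_mem _ hy2.1 h5, ?_⟩
        change φ (y - d y1) ∈ X' p
        have h8 : φ (y - d y1) = d' x1 + x2 := by
          rw [map_sub, hφ, ← he, map_add]
          abel
        rw [h8]
        exact Submodule.add_mem _ h6 hx2
      have h9 : y = d y1 + (y - d y1) := by abel
      rw [h9]
      exact add_mem_sup ⟨y1, hy1', rfl⟩ h7
    · refine inf_le_inf_right _ ?_
      refine sup_le ?_ ?_
      · rintro _ ⟨y, hy, rfl⟩
        refine mem_sup_left ⟨φ y, hYφ _ _ hy, (hφ y).symm⟩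
      · intro x hx
        exact mem_sup_right (hXφ _ _ hx)
  rw [hc, hc]
  have j1 : cb d' Y' X' p ⊔ cz d' Y' X' p = cb d' Y' X' p ⊔ (cz d Y X p).map φ :=
    le_antisymm (sup_le le_sup_left i2) (sup_le_sup_left i1 _)
  rw [← rl_sup_right (cb d' Y' X' p) (cz d' Y' X' p), j1, rl_sup_right, les_rl_map_right,
    ← rl_inf_left ((cb d' Y' X' p).comap φ), i3, rl_inf_left]

end Hom

end Vale.Agent.P202.CharP.Gen
end

section

/-!
P202-G3-H1: the Koszul complex of a concatenation is the product complex.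
-/

namespace Vale.Agent.P202.CharP.Gen2

open Submodule TensorProduct IsLocalRing Gen

section KCatEquiv

variable {S 𝕋 𝕋' : Type*} [CommRing S] [AddCommGroup 𝕋] [Module S 𝕋] [AddCommGroup 𝕋']
  [Module S 𝕋']

theorem kcat_hh_equiv (e : 𝕋 ≃ₗ[S] 𝕋') (D : 𝕋 →ₗ[S] 𝕋) (D' : 𝕋' →ₗ[S] 𝕋')
    (hD : ∀ x, D' (e x) = e (D x)) (Y X : ℤ → Submodule S 𝕋) (Y' X' : ℤ → Submodule S 𝕋')
    (hY : ∀ δ x, e x ∈ Y' δ ↔ x ∈ Y δ) (hX : ∀ δ x, e x ∈ X' δ ↔ x ∈ X δ) (δ : ℤ) :
    hh D Y X δ = hh D' Y' X' δ := by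
  have hmap : ∀ (Z : Submodule S 𝕋) (Z' : Submodule S 𝕋'), (∀ x, e x ∈ Z' ↔ x ∈ Z) →
      Z.map (e : 𝕋 →ₗ[S] 𝕋') = Z' := by
    intro Z Z' h
    ext x'
    obtain ⟨x, rfl⟩ := e.surjective x'
    rw [h]
    constructor
    · rintro ⟨y, hy, hyx⟩
      have : y = x := e.injective hyx
      exact this ▸ hy
    · exact fun hx => ⟨x, hx, rfl⟩
  have hb : (bb D Y X δ).map (e : 𝕋 →ₗ[S] 𝕋') = bb D' Y' X' δ := by
    unfold bb
    rw [Submodule.map_sup, hmap _ _ (hX δ), ← hmap _ _ (hY (δ + 1)), ← Submodule.map_comp,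
      ← Submodule.map_comp]
    congr 2
    ext1 x
    exact (hD x).symm
  have hz : (zz D Y X δ).map (e : 𝕋 →ₗ[S] 𝕋') = zz D' Y' X' δ := by
    refine hmap _ _ fun x => ?_
    unfold zz
    rw [Submodule.mem_inf, Submodule.mem_inf, Submodule.mem_comap, Submodule.mem_comap, hD, hY,
      hX]
  unfold hh
  rw [← hb, ← hz, rl_map_of_injective _ e.injective]

variable {ι ι' : Type*} [Fintype ι] [Fintype ι'] {M : Type*} [AddCommGroup M] [Module S M]

theorem kcat_khs (σ : ι' ≃ ι) (deg : ι → ℤ) (Q : Matrix ι ι S) (deg' : ι' → ℤ)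
    (Q' : Matrix ι' ι' S) (hdeg : ∀ a, deg (σ a) = deg' a)
    (hQ : ∀ a b, Q (σ a) (σ b) = Q' a b) (Y X : Submodule S M) (i : ℤ) :
    khs deg Q Y X i = khs deg' Q' Y X i := by
  have hl : ∀ (Z : Submodule S M) (δ : ℤ) (f : ι → M),
      LinearEquiv.funCongrLeft S M σ f ∈ lift deg' (conc Z) δ ↔ f ∈ lift deg (conc Z) δ := by
    intro Z δ f
    rw [khc_mem_lift, khc_mem_lift]
    constructor
    · intro h a
      have h1 := h (σ.symm a)
      rw [← hdeg] at h1
      change f (σ (σ.symm a)) ∈ _ at h1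
      rwa [σ.apply_symm_apply] at h1
    · intro h a
      rw [← hdeg]
      exact h (σ a)
  unfold khs
  refine kcat_hh_equiv (LinearEquiv.funCongrLeft S M σ) _ _ ?_ _ _ _ _ (hl Y) (hl X) i
  intro f
  ext a
  rw [tot_zero_apply]
  change ∑ b, Q' a b • f (σ b) = tot deg Q (0 : M →ₗ[S] M) f (σ a)
  rw [tot_zero_apply, ← σ.sum_comp]
  exact Finset.sum_congr rfl fun b _ => by rw [hQ]

end KCatEquiv

/-- the index set of the concatenation. -/
def kcatE (m : ℕ) : ∀ k, KIdx k × KIdx m ≃ KIdx (m + k)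
  | 0 => Equiv.punitProd (KIdx m)
  | k + 1 => (Equiv.sumProdDistrib (KIdx k) (KIdx k) (KIdx m)).trans
      (Equiv.sumCongr (kcatE m k) (kcatE m k))

theorem kcatE_deg (m : ℕ) : ∀ (k : ℕ) (x : KIdx k × KIdx m),
    kdeg (m + k) (kcatE m k x) = kdeg k x.1 + kdeg m x.2
  | 0, x => by
    have h1 : kdeg 0 x.1 = 0 := rfl
    rw [h1, zero_add]
    rfl
  | k + 1, (Sum.inl a, b) => kcatE_deg m k (a, b)
  | k + 1, (Sum.inr a, b) => by
    have h1 : kdeg (m + (k + 1)) (kcatE m (k + 1) (Sum.inr a, b)) =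
      kdeg (m + k) (kcatE m k (a, b)) + 1 := rfl
    have h2 : kdeg (k + 1) (Sum.inr a : KIdx k ⊕ KIdx k) = kdeg k a + 1 := rfl
    rw [h1, kcatE_deg m k (a, b)]
    show kdeg k a + kdeg m b + 1 = kdeg (k + 1) (Sum.inr a : KIdx k ⊕ KIdx k) + kdeg m b
    rw [h2]
    ring

section

variable {S : Type*} [CommRing S]

/-- the product matrix for lists of different lengths. -/
def kcatP (k m : ℕ) (y : Fin k → S) (u : Fin m → S) :
    Matrix (KIdx k × KIdx m) (KIdx k × KIdx m) S := fun x x' =>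
  (if x.2 = x'.2 then kos k y x.1 x'.1 else 0) +
    (if x.1 = x'.1 then (((kdeg k x.1).negOnePow : ℤ) : S) * kos m u x.2 x'.2 else 0)

theorem kcatE_kos (m : ℕ) (u : Fin m → S) : ∀ (k : ℕ) (y : Fin k → S) (x x' : KIdx k × KIdx m),
    kos (m + k) (cat u k y) (kcatE m k x) (kcatE m k x') = kcatP k m y u x x'
  | 0, y, x, x' => by
    have h1 : x.1 = x'.1 := by
      cases x with | mk a b => cases x' with | mk a' b' => exact Subsingleton.elim (α := PUnit) _ _
    have h2 : kdeg 0 x.1 = 0 := rfl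
    have h3 : kos 0 y x.1 x'.1 = 0 := rfl
    unfold kcatP
    rw [if_pos h1, h2, h3, ite_self, zero_add]
    simp only [Int.negOnePow_zero, Units.val_one, Int.cast_one, one_mul]
    rfl
  | k + 1, y, (Sum.inl a, b), (Sum.inl a', b') => by
    have ih : kos (m + k) (cat u k fun i => y i.succ) (kcatE m k (a, b)) (kcatE m k (a', b')) =
      (if b = b' then kos k (fun i => y i.succ) a a' else 0) +
      (if a = a' then (((kdeg k a).negOnePow : ℤ) : S) * kos m u b b' else 0) :=
      kcatE_kos m u k (fun i => y i.succ) (a, b) (a', b')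
    refine Eq.trans (show _ = kos (m + k) (cat u k fun i => y i.succ) (kcatE m k (a, b))
      (kcatE m k (a', b')) from rfl) (ih.trans ?_)
    show _ = (if b = b' then kos k (fun i => y i.succ) a a' else 0) +
      (if (Sum.inl a : KIdx k ⊕ KIdx k) = Sum.inl a' then
        (((kdeg k a).negOnePow : ℤ) : S) * kos m u b b' else 0)
    congr 1
    by_cases ha : a = a'
    · rw [if_pos ha, if_pos (congrArg Sum.inl ha)]
    · rw [if_neg ha, if_neg fun h => ha (Sum.inl.inj h)]
  | k + 1, y, (Sum.inl a, b), (Sum.inr a', b') => by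
    have h1 : (kcatE m k (a, b) = kcatE m k (a', b')) ↔ (a = a' ∧ b = b') :=
      (kcatE m k).injective.eq_iff.trans Prod.mk_inj
    have e1 : kos (m + (k + 1)) (cat u (k + 1) y) (kcatE m (k + 1) (Sum.inl a, b))
      (kcatE m (k + 1) (Sum.inr a', b')) = y 0 • (1 : Matrix (KIdx (m + k)) (KIdx (m + k)) S)
        (kcatE m k (a, b)) (kcatE m k (a', b')) := rfl
    have e2 : kcatP (k + 1) m y u (Sum.inl a, b) (Sum.inr a', b') =
      (if b = b' then y 0 • (1 : Matrix (KIdx k) (KIdx k) S) a a' else 0) +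
      (if (Sum.inl a : KIdx k ⊕ KIdx k) = Sum.inr a' then
        (((kdeg k a).negOnePow : ℤ) : S) * kos m u b b' else 0) := rfl
    have hne : ¬ ((Sum.inl a : KIdx k ⊕ KIdx k) = Sum.inr a') := Sum.inl_ne_inr
    rw [e1, e2, if_neg hne, add_zero, Matrix.one_apply, Matrix.one_apply]
    by_cases ha : a = a' <;> by_cases hb : b = b'
    · rw [if_pos (h1.2 ⟨ha, hb⟩), if_pos hb, if_pos ha]
    · rw [if_neg fun h => hb (h1.1 h).2, if_neg hb, smul_zero]
    · rw [if_neg fun h => ha (h1.1 h).1, if_pos hb, if_neg ha]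
    · rw [if_neg fun h => hb (h1.1 h).2, if_neg hb, smul_zero]
  | k + 1, y, (Sum.inr a, b), (Sum.inl a', b') => by
    have e1 : kos (m + (k + 1)) (cat u (k + 1) y) (kcatE m (k + 1) (Sum.inr a, b))
      (kcatE m (k + 1) (Sum.inl a', b')) = 0 := rfl
    have e2 : kcatP (k + 1) m y u (Sum.inr a, b) (Sum.inl a', b') =
      (if b = b' then 0 else 0) +
      (if (Sum.inr a : KIdx k ⊕ KIdx k) = Sum.inl a' then
        (((kdeg (k + 1) (Sum.inr a : KIdx k ⊕ KIdx k)).negOnePow : ℤ) : S) * kos m u b b'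
        else 0) := rfl
    have hne : ¬ ((Sum.inr a : KIdx k ⊕ KIdx k) = Sum.inl a') := Sum.inr_ne_inl
    rw [e1, e2, if_neg hne, add_zero, ite_self]
  | k + 1, y, (Sum.inr a, b), (Sum.inr a', b') => by
    have ih : kos (m + k) (cat u k fun i => y i.succ) (kcatE m k (a, b)) (kcatE m k (a', b')) =
      (if b = b' then kos k (fun i => y i.succ) a a' else 0) +
      (if a = a' then (((kdeg k a).negOnePow : ℤ) : S) * kos m u b b' else 0) :=
      kcatE_kos m u k (fun i => y i.succ) (a, b) (a', b')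
    have e1 : kos (m + (k + 1)) (cat u (k + 1) y) (kcatE m (k + 1) (Sum.inr a, b))
      (kcatE m (k + 1) (Sum.inr a', b')) = -kos (m + k) (cat u k fun i => y i.succ)
        (kcatE m k (a, b)) (kcatE m k (a', b')) := rfl
    have e2 : kcatP (k + 1) m y u (Sum.inr a, b) (Sum.inr a', b') =
      (if b = b' then -kos k (fun i => y i.succ) a a' else 0) +
      (if (Sum.inr a : KIdx k ⊕ KIdx k) = Sum.inr a' then
        (((kdeg k a + 1).negOnePow : ℤ) : S) * kos m u b b' else 0) := rfl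
    rw [e1, e2, ih, neg_add]
    congr 1
    · split_ifs <;> simp
    · by_cases ha : a = a'
      · rw [if_pos ha, if_pos (congrArg Sum.inr ha), Int.negOnePow_succ]
        push_cast
        ring
      · rw [if_neg ha, if_neg fun h => ha (Sum.inr.inj h), neg_zero]

end

section Pm

variable {S : Type*} [CommRing S] {M : Type*} [AddCommGroup M] [Module S M]

/-- TASK G3-H1: the Koszul complex of a concatenation is the product complex. -/
theorem khs_cat (n : ℕ) (y v : Fin n → S) (Y X : Submodule S M) (i : ℤ) :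
    khs (kdeg (n + n)) (kos (n + n) (cat v n y)) Y X i = khs (pdegP n) (pm n y v) Y X i :=
  kcat_khs (kcatE n n) _ _ _ _ (fun a => kcatE_deg n n a) (fun a b => kcatE_kos n v n y a b) Y X i

end Pm

end Vale.Agent.P202.CharP.Gen2
end

section

/-!
P202-G3-C2: the connecting maps of the windows are small.
-/

namespace Vale.Agent.P202.CharP.Gen2

open Submodule TensorProduct Gen TR

lemma conn_cstab {S : Type*} [CommRing S] {M : Type*} [AddCommGroup M] [Module S M]
    (Z : Submodule S M) : CStab (0 : M →ₗ[S] M) (conc Z) := by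
  intro p x _
  rw [LinearMap.zero_apply]
  exact zero_mem _

lemma conn_conc_mono {S : Type*} [CommRing S] {M : Type*} [AddCommGroup M] [Module S M]
    {Z Z' : Submodule S M} (h : Z ≤ Z') (p : ℤ) : conc Z p ≤ conc Z' p := by
  unfold conc
  split_ifs
  · exact h
  · exact le_rfl

lemma conn_lift_mono {S : Type*} [CommRing S] {ι : Type*} [Fintype ι] {M : Type*}
    [AddCommGroup M] [Module S M] (deg : ι → ℤ)
    {X Y : ℤ → Submodule S M} (h : ∀ p, X p ≤ Y p) (δ : ℤ) : lift deg X δ ≤ lift deg Y δ := by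
  unfold lift
  exact Submodule.pi_mono fun a _ => h _

variable {P : Type*} [CommRing P] {V : Type*} [AddCommGroup V] [Module P V]
  (S : Type*) [CommRing S] [Algebra P S] [Module.Flat P S] {ι : Type*} [Fintype ι]

end Vale.Agent.P202.CharP.Gen2
end

section

/-!
P202-G3-C3: below the diagonal the truncated window is small: it is bounded by a connecting map.
-/

namespace Vale.Agent.P202.CharP.Gen2

open Submodule TensorProduct Gen

section Aux

variable {S : Type*} [CommRing S] {ι : Type*} {M : Type*} [AddCommGroup M] [Module S M]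

/-- an endomorphism applied to all components, with the sign of the degree. -/
def low_sgd (deg : ι → ℤ) (d : M →ₗ[S] M) : (ι → M) →ₗ[S] (ι → M) where
  toFun := fun f a => ((deg a).negOnePow : ℤ) • d (f a)
  map_add' := fun f g => by ext a; simp
  map_smul' := fun c f => by
      ext a
      simp only [Pi.smul_apply, RingHom.id_apply, map_smul]
      exact smul_comm _ _ _

theorem low_sgd_apply (deg : ι → ℤ) (d : M →ₗ[S] M) (f : ι → M) (a : ι) :
    low_sgd deg d f a = ((deg a).negOnePow : ℤ) • d (f a) := rfl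

theorem low_cb_sign (d : M →ₗ[S] M) (Y X : Submodule S M) (x : M) (n : ℤ)
    (h : x ∈ Y.map d ⊔ X) : ∃ v ∈ Y, x - (n.negOnePow : ℤ) • d v ∈ X := by
  obtain ⟨_, ⟨v, hv, rfl⟩, x', hx', rfl⟩ := Submodule.mem_sup.1 h
  refine ⟨(n.negOnePow : ℤ) • v, zsmul_mem hv _, ?_⟩
  rw [map_zsmul, smul_smul, negOnePow_mul_self, one_smul, add_sub_cancel_left]
  exact hx'

theorem low_sign_mem (X : Submodule S M) (x : M) {n : ℤ} (h : (n.negOnePow : ℤ) • x ∈ X) :
    x ∈ X := by
  have := zsmul_mem h (n.negOnePow : ℤ)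
  rwa [smul_smul, negOnePow_mul_self, one_smul] at this

theorem low_tot_zero [Fintype ι] (deg : ι → ℤ) (Q : Matrix ι ι S) (f : ι → M) (a : ι) :
    tot deg Q (0 : M →ₗ[S] M) f a = act Q M f a := by
  rw [tot_eq, LinearMap.zero_apply, smul_zero, add_zero]

theorem low_mem_lift_conc (deg : ι → ℤ) (X : Submodule S M) (i : ℤ) (f : ι → M) :
    f ∈ lift deg (conc X) i ↔ (∀ a, deg a = i → f a ∈ X) ∧ ∀ a, deg a ≠ i → f a = 0 := by
  rw [mem_lift]
  constructor
  · intro h
    refine ⟨fun a ha => ?_, fun a ha => ?_⟩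
    · have := h a
      rwa [conc, if_pos (by omega)] at this
    · have := h a
      rw [conc, if_neg (by omega)] at this
      simpa using this
  · rintro ⟨h1, h2⟩ a
    by_cases ha : deg a = i
    · rw [conc, if_pos (by omega)]
      exact h1 a ha
    · rw [conc, if_neg (by omega), h2 a ha]
      exact Submodule.zero_mem _

end Aux

section Low

variable {P : Type*} [CommRing P] {V : Type*} [AddCommGroup V] [Module P V]
  (S : Type*) [CommRing S] [Algebra P S] {ι : Type*} [Fintype ι]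

omit [Fintype ι] in
theorem low_bc_sq (d : V →ₗ[P] V) (hd : ∀ x, d (d x) = 0) (x : S ⊗[P] V) :
    (d.baseChange S) ((d.baseChange S) x) = 0 := by
  have h : d ∘ₗ d = 0 := LinearMap.ext hd
  have h2 : (d ∘ₗ d).baseChange S x = 0 := by
    rw [h, LinearMap.baseChange_zero, LinearMap.zero_apply]
  rw [LinearMap.baseChange_comp] at h2
  exact h2

theorem low_tg_stab (deg : ι → ℤ) (Q : Matrix ι ι S)
    (hQ : IsCx deg Q) (j : ℤ) (d : V →ₗ[P] V)
    (Y X : ℤ → Submodule P V) (hX : CStab d X) (hY : CStab d Y) :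
    Stab (tot deg Q (d.baseChange S)) (TG S deg Q j Y X) := by
  intro δ f hf
  have hdY := bcf_cstab S d hY
  have hdX := bcf_cstab S d hX
  rw [mem_tg] at hf ⊢
  obtain ⟨h1, h2, h3⟩ := hf
  have e : tot deg Q (d.baseChange S) f = act Q (S ⊗[P] V) f +
      (fun b => ((deg b).negOnePow : ℤ) • (d.baseChange S) (f b)) := by
    ext a; rfl
  refine ⟨fun a => ?_, fun a ha => ?_, fun a ha => ?_⟩
  · rw [tot_eq]
    have e1 : deg a - (δ - 1) = deg a - δ + 1 := by ring
    rw [e1]
    refine Submodule.add_mem _ ?_ (zsmul_mem (hdY _ _ (h1 a)) _)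
    refine act_mem_of_deg S deg Q hQ f a _ fun b hb => ?_
    have := h1 b
    rw [hb] at this
    have e2 : deg a + 1 - δ = deg a - δ + 1 := by ring
    rwa [e2] at this
  · rw [tot_eq]
    have e1 : deg a - (δ - 1) = deg a - δ + 1 := by ring
    rw [e1]
    exact Submodule.add_mem _ (h3 a ha) (zsmul_mem (hdX _ _ (h2 a ha)) _)
  · rw [e, map_add, act_act S deg Q hQ, zero_add, act_sign S deg Q hQ]
    have e1 : deg a - (δ - 1) + 1 = deg a - δ + 1 + 1 := by ring
    rw [e1]
    exact Submodule.neg_mem _ (zsmul_mem (hdX _ _ (h3 a ha)) _)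

theorem low_lift_le_tg (deg : ι → ℤ) (Q : Matrix ι ι S)
    (hQ : IsCx deg Q) (j : ℤ)
    (Y X : ℤ → Submodule P V) (hXY : ∀ p, X p ≤ Y p) (δ : ℤ) :
    lift deg (bcf S X) δ ≤ TG S deg Q j Y X δ := by
  intro f hf
  rw [mem_lift] at hf
  rw [mem_tg]
  refine ⟨fun a => bcf_mono S hXY _ (hf a), fun a _ => hf a, fun a _ => ?_⟩
  refine act_mem_of_deg S deg Q hQ f a _ fun b hb => ?_
  have := hf b
  rw [hb] at this
  have e2 : deg a + 1 - δ = deg a - δ + 1 := by ring
  rwa [e2] at this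

/-- the part of the truncated family concentrated, modulo `X`, in degree `j + 1`. -/
def low_RG (deg : ι → ℤ) (Q : Matrix ι ι S) (j : ℤ) (Y X : ℤ → Submodule P V) (δ : ℤ) :
    Submodule S (ι → S ⊗[P] V) :=
  TG S deg Q j Y X δ ⊓
    Submodule.pi Set.univ (fun a => if j + 1 < deg a then bcf S X (deg a - δ) else ⊤)

theorem low_mem_rg (deg : ι → ℤ) (Q : Matrix ι ι S) (j : ℤ) (Y X : ℤ → Submodule P V) (δ : ℤ)
    (f : ι → S ⊗[P] V) : f ∈ low_RG S deg Q j Y X δ ↔ f ∈ TG S deg Q j Y X δ ∧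
      ∀ a, j + 1 < deg a → f a ∈ bcf S X (deg a - δ) := by
  rw [low_RG, Submodule.mem_inf, Submodule.mem_pi]
  refine and_congr Iff.rfl (forall_congr' fun a => ?_)
  by_cases h : j + 1 < deg a <;> simp [h]

theorem low_lift_le_rg (deg : ι → ℤ) (Q : Matrix ι ι S)
    (hQ : IsCx deg Q) (j : ℤ)
    (Y X : ℤ → Submodule P V) (hXY : ∀ p, X p ≤ Y p) (δ : ℤ) :
    lift deg (bcf S X) δ ≤ low_RG S deg Q j Y X δ := by
  intro f hf
  rw [low_mem_rg]
  refine ⟨low_lift_le_tg S deg Q hQ j Y X hXY δ hf, fun a _ => ?_⟩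
  rw [mem_lift] at hf
  exact hf a

theorem low_rg_stab (deg : ι → ℤ) (Q : Matrix ι ι S)
    (hQ : IsCx deg Q) (j : ℤ) (d : V →ₗ[P] V)
    (Y X : ℤ → Submodule P V) (hX : CStab d X) (hY : CStab d Y) :
    Stab (tot deg Q (d.baseChange S)) (low_RG S deg Q j Y X) := by
  intro δ f hf
  have hdX := bcf_cstab S d hX
  rw [low_mem_rg] at hf ⊢
  obtain ⟨h1, h2⟩ := hf
  refine ⟨low_tg_stab S deg Q hQ j d Y X hX hY δ f h1, fun a ha => ?_⟩
  rw [tot_eq]
  have e1 : deg a - (δ - 1) = deg a - δ + 1 := by ring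
  rw [e1]
  refine Submodule.add_mem _ ?_ (zsmul_mem (hdX _ _ (h2 a ha)) _)
  refine act_mem_of_deg S deg Q hQ f a _ fun b hb => ?_
  have := h2 b (by omega)
  rw [hb] at this
  have e2 : deg a + 1 - δ = deg a - δ + 1 := by ring
  rwa [e2] at this

theorem low_peel [Module.Flat P S] (deg : ι → ℤ) (Q : Matrix ι ι S) (hQ : IsCx deg Q)
    (d : V →ₗ[P] V) (hd : ∀ x, d (d x) = 0) (Y X : ℤ → Submodule P V) (hX : CStab d X)
    (hY : CStab d Y)
    (P₀ : ℤ) (ex : ∀ p, p ≠ P₀ → Ex d Y X p)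
    (j δ : ℤ) (hδ : δ + P₀ < j + 1) (f : ι → S ⊗[P] V) (hf : f ∈ TG S deg Q j Y X δ)
    (hDf : tot deg Q (d.baseChange S) f ∈ low_RG S deg Q j Y X (δ - 1)) :
    ∀ (m : ℕ) (i : ℤ), j + 2 ≤ i → (∀ a, deg a < i + m) →
      ∃ w ∈ TG S deg Q j Y X (δ + 1), ∀ a, i ≤ deg a →
        (f - tot deg Q (d.baseChange S) w) a ∈ bcf S X (deg a - δ) := by
  intro m
  induction m with
  | zero =>
    intro i _ hm
    refine ⟨0, Submodule.zero_mem _, fun a ha => ?_⟩
    have := hm a
    simp only [Nat.cast_zero, add_zero] at this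
    omega
  | succ m ih =>
    intro i hi hm
    obtain ⟨w1, hw1, h1⟩ := ih (i + 1) (by omega) (fun a => by
      have := hm a
      push_cast at this
      omega)
    have hw1' : f - tot deg Q (d.baseChange S) w1 ∈ TG S deg Q j Y X δ := by
      refine Submodule.sub_mem _ hf ?_
      have := low_tg_stab S deg Q hQ j d Y X hX hY (δ + 1) w1 hw1
      rwa [add_sub_cancel_right] at this
    have key : ∀ a, ∃ v : S ⊗[P] V, v ∈ bcf S Y (deg a - (δ + 1)) ∧ (deg a ≠ i → v = 0) ∧
        (deg a = i → (f - tot deg Q (d.baseChange S) w1) a -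
          ((deg a).negOnePow : ℤ) • (d.baseChange S) v ∈ bcf S X (deg a - δ)) := by
      intro a
      by_cases ha : deg a = i
      swap
      · exact ⟨0, Submodule.zero_mem _, fun _ => rfl, fun h => absurd h ha⟩
      have hcz : (f - tot deg Q (d.baseChange S) w1) a ∈
          cz (d.baseChange S) (bcf S Y) (bcf S X) (deg a - δ) := by
        refine ⟨((mem_tg S deg Q j Y X δ _).1 hw1').1 a, ?_⟩
        change (d.baseChange S) ((f - tot deg Q (d.baseChange S) w1) a) ∈
          bcf S X (deg a - δ + 1)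
        have e0 : tot deg Q (d.baseChange S) (f - tot deg Q (d.baseChange S) w1) =
            tot deg Q (d.baseChange S) f := by
          rw [map_sub, tot_tot deg Q hQ _ (low_bc_sq S d hd), sub_zero]
        have e1 := congrFun e0 a
        have h2 := ((low_mem_rg S deg Q j Y X (δ - 1) _).1 hDf).2 a (by omega)
        rw [← e1, tot_eq] at h2
        have e2 : deg a - (δ - 1) = deg a - δ + 1 := by ring
        rw [e2] at h2
        have h3 : act Q (S ⊗[P] V) (f - tot deg Q (d.baseChange S) w1) a ∈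
            bcf S X (deg a - δ + 1) := by
          refine act_mem_of_deg S deg Q hQ _ a _ fun b hb => ?_
          have := h1 b (by omega)
          rw [hb] at this
          have e3 : deg a + 1 - δ = deg a - δ + 1 := by ring
          rwa [e3] at this
        exact low_sign_mem _ _ ((Submodule.add_mem_iff_right _ h3).1 h2)
      rw [cz_bcf] at hcz
      have hcb := baseChange_mono S (ex (deg a - δ) (by omega)) hcz
      rw [← cb_bcf] at hcb
      obtain ⟨v, hv, hv'⟩ := low_cb_sign _ _ _ _ (deg a) hcb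
      refine ⟨v, ?_, fun h => absurd ha h, fun _ => hv'⟩
      have e : deg a - (δ + 1) = deg a - δ - 1 := by ring
      rw [e]
      exact hv
    choose v hv1 hv2 hv3 using key
    have hQv : ∀ a, deg a + 1 ≠ i → act Q (S ⊗[P] V) v a = 0 := by
      intro a ha
      have := act_mem_of_deg S deg Q hQ v a (⊥ : Submodule S (S ⊗[P] V)) (fun b hb => by
        rw [Submodule.mem_bot]
        exact hv2 b (by omega))
      simpa using this
    refine ⟨w1 + v, Submodule.add_mem _ hw1 ?_, fun a ha => ?_⟩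
    · rw [mem_tg]
      refine ⟨hv1, fun a ha => ?_, fun a ha => ?_⟩
      · rw [hv2 a (by omega)]
        exact Submodule.zero_mem _
      · rw [hQv a (by omega)]
        exact Submodule.zero_mem _
    · rw [map_add, ← sub_sub, Pi.sub_apply _ (tot deg Q (d.baseChange S) v) a,
        tot_eq deg Q _ v a, hQv a (by omega), zero_add]
      by_cases hai : deg a = i
      · exact hv3 a hai
      · rw [hv2 a hai, map_zero, smul_zero, sub_zero]
        exact h1 a (by omega)

/-- the truncated window is acyclic modulo its part in degree `j + 1`, below the diagonal. -/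
theorem low_top_zero [Module.Flat P S] (deg : ι → ℤ) (Q : Matrix ι ι S) (hQ : IsCx deg Q)
    (d : V →ₗ[P] V) (hd : ∀ x, d (d x) = 0) (Y X : ℤ → Submodule P V) (hX : CStab d X)
    (hY : CStab d Y)
    (P₀ : ℤ) (ex : ∀ p, p ≠ P₀ → Ex d Y X p) (j δ : ℤ) (hδ : δ + P₀ < j + 1) :
    hh (tot deg Q (d.baseChange S)) (TG S deg Q j Y X) (low_RG S deg Q j Y X) δ = 0 := by
  rw [hh, rl_eq_zero_iff]
  rintro f ⟨hf, hDf⟩
  have hbd : ∃ m : ℕ, ∀ a, deg a < j + 2 + m := by
    refine ⟨∑ a, (deg a - j).natAbs, fun a => ?_⟩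
    have h1 : (deg a - j).natAbs ≤ ∑ a, (deg a - j).natAbs :=
      Finset.single_le_sum (f := fun a => (deg a - j).natAbs) (fun _ _ => Nat.zero_le _)
        (Finset.mem_univ a)
    have h2 : (((deg a - j).natAbs : ℕ) : ℤ) ≤ ((∑ a, (deg a - j).natAbs : ℕ) : ℤ) := by
      exact_mod_cast h1
    omega
  obtain ⟨m, hm⟩ := hbd
  obtain ⟨w, hw, h1⟩ := low_peel S deg Q hQ d hd Y X hX hY P₀ ex j δ hδ f hf hDf m (j + 2) le_rfl hm
  have e : f = tot deg Q (d.baseChange S) w + (f - tot deg Q (d.baseChange S) w) := by abel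
  rw [e]
  refine Submodule.add_mem_sup ⟨w, hw, rfl⟩ ?_
  rw [low_mem_rg]
  refine ⟨Submodule.sub_mem _ hf ?_, fun a ha => h1 a (by omega)⟩
  have := low_tg_stab S deg Q hQ j d Y X hX hY (δ + 1) w hw
  rwa [add_sub_cancel_right] at this

/-- every relative cycle in degree `j + 1` is, modulo `X`, a differential of an element whose
matrix part is a relative cycle. -/
theorem low_zz_le [Module.Flat P S] (deg : ι → ℤ) (Q : Matrix ι ι S) (hQ : IsCx deg Q)
    (d : V →ₗ[P] V) (Y X : ℤ → Submodule P V)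
    (P₀ : ℤ) (ex : ∀ p, p ≠ P₀ → Ex d Y X p) (j δ : ℤ) (hδ : δ + P₀ < j + 1) :
    zz (tot deg Q (d.baseChange S)) (low_RG S deg Q j Y X) (lift deg (bcf S X)) δ ≤
      (zz (tot deg Q (0 : (S ⊗[P] V) →ₗ[S] (S ⊗[P] V)))
        (lift deg (conc ((Y (j - δ)).baseChange S)))
        (lift deg (conc ((cz d Y X (j - δ)).baseChange S))) (j + 1)).map
          (low_sgd deg (d.baseChange S)) ⊔ lift deg (bcf S X) δ := by
  rintro f ⟨hf, hDf⟩
  change tot deg Q (d.baseChange S) f ∈ lift deg (bcf S X) (δ - 1) at hDf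
  rw [mem_lift] at hDf
  rw [SetLike.mem_coe, low_mem_rg, mem_tg] at hf
  obtain ⟨⟨h1, h2, h3⟩, h4⟩ := hf
  have key : ∀ a, ∃ v : S ⊗[P] V, v ∈ (Y (j - δ)).baseChange S ∧ (deg a ≠ j + 1 → v = 0) ∧
      (deg a = j + 1 → f a - ((deg a).negOnePow : ℤ) • (d.baseChange S) v ∈
        bcf S X (deg a - δ)) := by
    intro a
    by_cases ha : deg a = j + 1
    swap
    · exact ⟨0, Submodule.zero_mem _, fun _ => rfl, fun h => absurd h ha⟩
    have hcz : f a ∈ cz (d.baseChange S) (bcf S Y) (bcf S X) (deg a - δ) := by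
      refine ⟨h1 a, ?_⟩
      change (d.baseChange S) (f a) ∈ bcf S X (deg a - δ + 1)
      have h5 := hDf a
      have e2 : deg a - (δ - 1) = deg a - δ + 1 := by ring
      rw [tot_eq, e2] at h5
      have h6 : act Q (S ⊗[P] V) f a ∈ bcf S X (deg a - δ + 1) := by
        refine act_mem_of_deg S deg Q hQ _ a _ fun b hb => ?_
        have := h4 b (by omega)
        rw [hb] at this
        have e3 : deg a + 1 - δ = deg a - δ + 1 := by ring
        rwa [e3] at this
      exact low_sign_mem _ _ ((Submodule.add_mem_iff_right _ h6).1 h5)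
    rw [cz_bcf] at hcz
    have hcb := baseChange_mono S (ex (deg a - δ) (by omega)) hcz
    rw [← cb_bcf] at hcb
    obtain ⟨v, hv, hv'⟩ := low_cb_sign _ _ _ _ (deg a) hcb
    refine ⟨v, ?_, fun h => absurd ha h, fun _ => hv'⟩
    have e : j - δ = deg a - δ - 1 := by omega
    rw [e]
    exact hv
  choose v hv1 hv2 hv3 using key
  have hx : f - low_sgd deg (d.baseChange S) v ∈ lift deg (bcf S X) δ := by
    rw [mem_lift]
    intro a
    by_cases ha : deg a = j + 1
    · exact hv3 a ha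
    · rw [Pi.sub_apply, low_sgd_apply, hv2 a ha, map_zero, smul_zero, sub_zero]
      rcases lt_or_gt_of_ne ha with h | h
      · exact h2 a (by omega)
      · exact h4 a h
  have e : f = low_sgd deg (d.baseChange S) v + (f - low_sgd deg (d.baseChange S) v) := by abel
  rw [e]
  refine Submodule.add_mem_sup ⟨v, ⟨?_, ?_⟩, rfl⟩ hx
  · rw [SetLike.mem_coe, low_mem_lift_conc]
    exact ⟨fun a _ => hv1 a, hv2⟩
  · rw [SetLike.mem_coe, Submodule.mem_comap, low_mem_lift_conc]
    refine ⟨fun a ha => ?_, fun a ha => ?_⟩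
    · have ha' : deg a = j := by omega
      rw [low_tot_zero, ← cz_bcf]
      refine ⟨act_mem Q hv1 a, ?_⟩
      change (d.baseChange S) (act Q (S ⊗[P] V) v a) ∈ bcf S X (j - δ + 1)
      have h5 := act_sign S deg Q hQ (d.baseChange S) v a
      have h6 : act Q (S ⊗[P] V) (low_sgd deg (d.baseChange S) v) a ∈ bcf S X (j - δ + 1) := by
        have e3 : act Q (S ⊗[P] V) (low_sgd deg (d.baseChange S) v) a =
            act Q (S ⊗[P] V) f a -
              act Q (S ⊗[P] V) (f - low_sgd deg (d.baseChange S) v) a := by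
          rw [map_sub, Pi.sub_apply, sub_sub_cancel]
        rw [e3]
        refine Submodule.sub_mem _ ?_ ?_
        · have := h3 a (by omega)
          rwa [ha'] at this
        · refine act_mem_of_deg S deg Q hQ _ a _ fun b hb => ?_
          have := (mem_lift deg _ _ _).1 hx b
          have e4 : deg b - δ = j - δ + 1 := by omega
          rwa [e4] at this
      have h7 : -(((deg a).negOnePow : ℤ) • (d.baseChange S) (act Q (S ⊗[P] V) v a)) ∈
          bcf S X (j - δ + 1) := by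
        rw [← h5]
        exact h6
      exact low_sign_mem _ _ ((Submodule.neg_mem_iff _).1 h7)
    · rw [low_tot_zero]
      have := act_mem_of_deg S deg Q hQ v a (⊥ : Submodule S (S ⊗[P] V)) (fun b hb => by
        rw [Submodule.mem_bot]
        exact hv2 b (by omega))
      simpa using this

/-- the connecting map controls the boundaries. -/
theorem low_comap_le [Module.Flat P S] (deg : ι → ℤ) (Q : Matrix ι ι S)
    (d : V →ₗ[P] V) (Y X : ℤ → Submodule P V) (j δ : ℤ) :
    (bb (tot deg Q (0 : (S ⊗[P] V) →ₗ[S] (S ⊗[P] V)))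
        (lift deg (conc ((cz d Y X (j - δ)).baseChange S)))
        (lift deg (conc ((X (j - δ)).baseChange S))) j).comap
          (tot deg Q (0 : (S ⊗[P] V) →ₗ[S] (S ⊗[P] V))) ⊓
      zz (tot deg Q (0 : (S ⊗[P] V) →ₗ[S] (S ⊗[P] V)))
        (lift deg (conc ((Y (j - δ)).baseChange S)))
        (lift deg (conc ((cz d Y X (j - δ)).baseChange S))) (j + 1) ≤
      (bb (tot deg Q (d.baseChange S)) (low_RG S deg Q j Y X) (lift deg (bcf S X)) δ).comap
        (low_sgd deg (d.baseChange S)) := by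
  rintro w ⟨hw1, hw2, -⟩
  obtain ⟨_, ⟨u, hu, rfl⟩, x', hx', he⟩ := Submodule.mem_sup.1 hw1
  rw [SetLike.mem_coe, low_mem_lift_conc] at hw2 hu
  rw [low_mem_lift_conc] at hx'
  have hz : act Q (S ⊗[P] V) (w - u) = x' := by
    ext a
    have := congrFun he a
    rw [Pi.add_apply, low_tot_zero, low_tot_zero] at this
    rw [map_sub, Pi.sub_apply, ← this, add_sub_cancel_left]
  have hR : w - u ∈ low_RG S deg Q j Y X (δ + 1) := by
    rw [low_mem_rg, mem_tg]
    refine ⟨⟨fun a => ?_, fun a ha => ?_, fun a ha => ?_⟩, fun a ha => ?_⟩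
    · by_cases h : deg a = j + 1
      · have e : deg a - (δ + 1) = j - δ := by omega
        rw [e, Pi.sub_apply]
        refine Submodule.sub_mem _ (hw2.1 a h) ?_
        exact baseChange_mono S inf_le_left (hu.1 a h)
      · rw [Pi.sub_apply, hw2.2 a h, hu.2 a h, sub_zero]
        exact Submodule.zero_mem _
    · have h : deg a ≠ j + 1 := by omega
      rw [Pi.sub_apply, hw2.2 a h, hu.2 a h, sub_zero]
      exact Submodule.zero_mem _
    · rw [hz]
      by_cases h : deg a = j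
      · have e : deg a - (δ + 1) + 1 = j - δ := by omega
        rw [e]
        exact hx'.1 a h
      · rw [hx'.2 a h]
        exact Submodule.zero_mem _
    · have h : deg a ≠ j + 1 := by omega
      rw [Pi.sub_apply, hw2.2 a h, hu.2 a h, sub_zero]
      exact Submodule.zero_mem _
  rw [Submodule.mem_comap]
  have e : low_sgd deg (d.baseChange S) w = tot deg Q (d.baseChange S) (w - u) +
      (low_sgd deg (d.baseChange S) u - x') := by
    have e1 : tot deg Q (d.baseChange S) (w - u) =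
        act Q (S ⊗[P] V) (w - u) + low_sgd deg (d.baseChange S) (w - u) := rfl
    rw [e1, hz, map_sub]
    abel
  rw [e]
  refine Submodule.add_mem_sup ⟨w - u, hR, rfl⟩ ?_
  rw [mem_lift]
  intro a
  rw [Pi.sub_apply, low_sgd_apply]
  by_cases h : deg a = j + 1
  · rw [hx'.2 a (by omega), sub_zero]
    refine zsmul_mem ?_ _
    have h1 := hu.1 a h
    rw [← cz_bcf] at h1
    have h2 : (d.baseChange S) (u a) ∈ bcf S X (j - δ + 1) := h1.2
    have e : deg a - δ = j - δ + 1 := by omega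
    rwa [e]
  · rw [hu.2 a h, map_zero, smul_zero, zero_sub]
    refine Submodule.neg_mem _ ?_
    by_cases h' : deg a = j
    · have h1 := hx'.1 a h'
      rw [h']
      exact h1
    · rw [hx'.2 a h']
      exact Submodule.zero_mem _

/-- the part in degree `j + 1` is bounded by a connecting map. -/
theorem low_bot_le [Module.Flat P S] (deg : ι → ℤ) (Q : Matrix ι ι S) (hQ : IsCx deg Q)
    (d : V →ₗ[P] V) (Y X : ℤ → Submodule P V)
    (P₀ : ℤ) (ex : ∀ p, p ≠ P₀ → Ex d Y X p) (j δ : ℤ) (hδ : δ + P₀ < j + 1) :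
    hh (tot deg Q (d.baseChange S)) (low_RG S deg Q j Y X) (lift deg (bcf S X)) δ ≤
      rl (bb (tot deg Q (0 : (S ⊗[P] V) →ₗ[S] (S ⊗[P] V)))
        (lift deg (conc ((cz d Y X (j - δ)).baseChange S)))
        (lift deg (conc ((X (j - δ)).baseChange S))) j)
      ((zz (tot deg Q (0 : (S ⊗[P] V) →ₗ[S] (S ⊗[P] V)))
        (lift deg (conc ((Y (j - δ)).baseChange S)))
        (lift deg (conc ((cz d Y X (j - δ)).baseChange S))) (j + 1)).map
          (tot deg Q (0 : (S ⊗[P] V) →ₗ[S] (S ⊗[P] V))) ⊔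
      bb (tot deg Q (0 : (S ⊗[P] V) →ₗ[S] (S ⊗[P] V)))
        (lift deg (conc ((cz d Y X (j - δ)).baseChange S)))
        (lift deg (conc ((X (j - δ)).baseChange S))) j) := by
  rw [les_rl_sup, rl_inf_left, les_rl_map_right, ← rl_inf_left]
  refine le_trans ?_ (rl_anti_left (low_comap_le S deg Q d Y X j δ))
  rw [← les_rl_map_right, ← rl_sup_right]
  refine rl_mono_right ?_
  refine (low_zz_le S deg Q hQ d Y X P₀ ex j δ hδ).trans ?_
  rw [sup_comm]
  exact sup_le_sup_right le_sup_right _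

/-- below the diagonal the truncated window is bounded by a connecting map. -/
theorem tg_low_conn [Module.Flat P S] (deg : ι → ℤ) (Q : Matrix ι ι S) (hQ : IsCx deg Q)
    (d : V →ₗ[P] V) (hd : ∀ x, d (d x) = 0) (Y X : ℤ → Submodule P V) (hX : CStab d X)
    (hY : CStab d Y) (hXY : ∀ p, X p ≤ Y p)
    (P₀ : ℤ) (ex : ∀ p, p ≠ P₀ → Ex d Y X p) (j δ : ℤ) (hδ : δ + P₀ < j + 1) :
    hh (tot deg Q (d.baseChange S)) (TG S deg Q j Y X) (lift deg (bcf S X)) δ ≤
      rl (bb (tot deg Q (0 : (S ⊗[P] V) →ₗ[S] (S ⊗[P] V)))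
        (lift deg (conc ((cz d Y X (j - δ)).baseChange S)))
        (lift deg (conc ((X (j - δ)).baseChange S))) j)
      ((zz (tot deg Q (0 : (S ⊗[P] V) →ₗ[S] (S ⊗[P] V)))
        (lift deg (conc ((Y (j - δ)).baseChange S)))
        (lift deg (conc ((cz d Y X (j - δ)).baseChange S))) (j + 1)).map
          (tot deg Q (0 : (S ⊗[P] V) →ₗ[S] (S ⊗[P] V))) ⊔
      bb (tot deg Q (0 : (S ⊗[P] V) →ₗ[S] (S ⊗[P] V)))
        (lift deg (conc ((cz d Y X (j - δ)).baseChange S)))
        (lift deg (conc ((X (j - δ)).baseChange S))) j) := by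
  refine (hh_le_add (tot deg Q (d.baseChange S)) (tot_tot deg Q hQ _ (low_bc_sq S d hd))
    (lift deg (bcf S X)) (low_RG S deg Q j Y X) (TG S deg Q j Y X)
    (lift_stab deg Q hQ _ _ (bcf_cstab S d hX)) (low_rg_stab S deg Q hQ j d Y X hX hY)
    (low_tg_stab S deg Q hQ j d Y X hX hY) (low_lift_le_rg S deg Q hQ j Y X hXY)
    (fun _ => inf_le_left) δ).trans ?_
  rw [low_top_zero S deg Q hQ d hd Y X hX hY P₀ ex j δ hδ, zero_add]
  exact low_bot_le S deg Q hQ d Y X P₀ ex j δ hδ

end Low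

end Vale.Agent.P202.CharP.Gen2
end

section

/-!
P202-G3-C2: the connecting maps of the windows are small, with the normalization factor c on the
left side.
-/

namespace Vale.Agent.P202.CharP.Gen2

open Submodule TensorProduct Gen TR

/-- arithmetic -/
lemma conn_arith_c {zx zy yx ci co a b : ℕ∞}
    (h1 : zx = a + b) (h2 : zy = b + co) (h3 : yx = ci + a) (f1 : zx ≠ ⊤) (f2 : zy ≠ ⊤)
    (f3 : yx ≠ ⊤) (c ε : ℕ)
    (h : (c : ℤ) * ((zy.toNat : ℤ) + (yx.toNat : ℤ) - (zx.toNat : ℤ)) ≤ ((3 * ε : ℕ) : ℤ)) :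
    (c : ℕ∞) * ci ≤ ((3 * ε : ℕ) : ℕ∞) := by
  have ha : a ≠ ⊤ := by
    rintro rfl
    rw [top_add] at h1
    exact f1 h1
  have hb : b ≠ ⊤ := by
    rintro rfl
    rw [add_top] at h1
    exact f1 h1
  have hci : ci ≠ ⊤ := by
    rintro rfl
    rw [top_add] at h3
    exact f3 h3
  have hco : co ≠ ⊤ := by
    rintro rfl
    rw [add_top] at h2
    exact f2 h2
  lift a to ℕ using ha
  lift b to ℕ using hb
  lift ci to ℕ using hci
  lift co to ℕ using hco
  subst h1 h2 h3
  rw [ENat.toNat_add (ENat.natCast_ne_top _) (ENat.natCast_ne_top _),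
    ENat.toNat_add (ENat.natCast_ne_top _) (ENat.natCast_ne_top _),
    ENat.toNat_add (ENat.natCast_ne_top _) (ENat.natCast_ne_top _)] at h
  simp only [ENat.toNat_natCast] at h
  push_cast at h
  have h5 : (c : ℤ) * ((ci : ℤ) + co) ≤ 3 * ε := by
    have : (b : ℤ) + co + (ci + a) - (a + b) = ci + co := by ring
    rw [this] at h
    exact h
  have h6 : (c : ℤ) * (ci : ℤ) ≤ 3 * ε := by
    have h7 : (0 : ℤ) ≤ (c : ℤ) * (co : ℤ) := by positivity
    nlinarith
  have h10 : c * ci ≤ 3 * ε := by exact_mod_cast h6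
  exact_mod_cast h10

variable {P : Type*} [CommRing P] {V : Type*} [AddCommGroup V] [Module P V]
  (S : Type*) [CommRing S] [Algebra P S] [Module.Flat P S] {ι : Type*} [Fintype ι]

omit [Module.Flat P S] in
/-- TASK G3-C2: the connecting maps are small, with the normalization factor. -/
theorem conn_le_c (deg : ι → ℤ) (Q : Matrix ι ι S) (hQ : IsCx deg Q) (c lam : ℕ) (_hc : 1 ≤ c)
    (t : ℤ → ℕ) (ε : ℕ) (X₀ Y₀ X Y Z : Submodule P V) (h1 : X₀ ≤ X) (h2 : X ≤ Y) (h3 : Y ≤ Z)
    (h4 : Z ≤ Y₀) (E : Est S deg Q c lam t ε X₀ Y₀) (i : ℤ) :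
    (c : ℕ∞) * rl (bb (tot deg Q (0 : (S ⊗[P] V) →ₗ[S] (S ⊗[P] V)))
        (lift deg (conc (Y.baseChange S))) (lift deg (conc (X.baseChange S))) (i - 1))
      ((zz (tot deg Q (0 : (S ⊗[P] V) →ₗ[S] (S ⊗[P] V))) (lift deg (conc (Z.baseChange S)))
        (lift deg (conc (Y.baseChange S))) i).map (tot deg Q (0 : (S ⊗[P] V) →ₗ[S] (S ⊗[P] V))) ⊔
      bb (tot deg Q (0 : (S ⊗[P] V) →ₗ[S] (S ⊗[P] V))) (lift deg (conc (Y.baseChange S)))
        (lift deg (conc (X.baseChange S))) (i - 1)) ≤ ((3 * ε : ℕ) : ℕ∞) := by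
  have m1 : X.baseChange S ≤ Y.baseChange S := Submodule.baseChange_mono S h2
  have m2 : Y.baseChange S ≤ Z.baseChange S := Submodule.baseChange_mono S h3
  obtain ⟨k1, k2, k3⟩ := hh_les (tot deg Q (0 : (S ⊗[P] V) →ₗ[S] (S ⊗[P] V)))
    (tot_tot' deg Q hQ 0 (fun x => by simp)) (lift deg (conc (X.baseChange S)))
    (lift deg (conc (Y.baseChange S))) (lift deg (conc (Z.baseChange S)))
    (lift_stab' deg Q hQ 0 _ (conn_cstab _)) (lift_stab' deg Q hQ 0 _ (conn_cstab _))
    (lift_stab' deg Q hQ 0 _ (conn_cstab _)) (conn_lift_mono deg (conn_conc_mono m1))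
    (conn_lift_mono deg (conn_conc_mono m2)) (i - 1)
  rw [sub_add_cancel] at k3
  obtain ⟨E0, E1⟩ := E
  obtain ⟨f1, g1⟩ := E1 X Z h1 (h2.trans h3) h4 (i - 1)
  obtain ⟨f2, g2⟩ := E1 Y Z (h1.trans h2) h3 h4 (i - 1)
  obtain ⟨f3, g3⟩ := E1 X Y h1 h2 (h3.trans h4) (i - 1)
  have r1 : rl X Z = rl X Y + rl Y Z := rl_add h2 h3
  have r2 : rl X Z ≠ ⊤ := by
    have a1 : rl X Z ≤ rl X₀ Y₀ := (rl_anti_left h1).trans (rl_mono_right h4)
    exact ne_top_of_le_ne_top E0 a1
  have r3 : rl X Y ≠ ⊤ := ne_top_of_le_ne_top r2 (by rw [r1]; exact le_self_add)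
  have r4 : rl Y Z ≠ ⊤ := ne_top_of_le_ne_top r2 (by rw [r1]; exact le_add_self)
  have r5 : ((rl X Z).toNat : ℤ) = (rl X Y).toNat + (rl Y Z).toNat := by
    rw [r1, ENat.toNat_add r3 r4]
    push_cast
    rfl
  refine conn_arith_c k1 k2 k3 f1 f2 f3 c ε ?_
  change (c : ℤ) * (((khs deg Q (Z.baseChange S) (Y.baseChange S) (i - 1)).toNat : ℤ) +
    ((khs deg Q (Y.baseChange S) (X.baseChange S) (i - 1)).toNat : ℤ) -
    ((khs deg Q (Z.baseChange S) (X.baseChange S) (i - 1)).toNat : ℤ)) ≤ ((3 * ε : ℕ) : ℤ)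
  rw [abs_le] at g1 g2 g3
  rw [r5] at g1
  push_cast
  nlinarith [g1.1, g2.2, g3.2]

end Vale.Agent.P202.CharP.Gen2
end

section

/-!
P202-G3-C4: above the diagonal the quotient by the truncated window is small.
-/

set_option linter.all false

namespace Vale.Agent.P202.CharP.Gen2

open Submodule TensorProduct Gen

/-- comparison of relative lengths along a linear map. -/
theorem tgup_rl_le {A M M' : Type*} [CommRing A] [AddCommGroup M] [Module A M]
    [AddCommGroup M'] [Module A M'] (f : M →ₗ[A] M') (B Z : Submodule A M)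
    (B' Z' : Submodule A M') (h1 : ∀ z ∈ Z, f z ∈ Z') (h2 : ∀ z ∈ Z, f z ∈ B' → z ∈ B) :
    rl B Z ≤ rl B' Z' := by
  calc rl B Z = rl (B ⊓ Z) Z := (rl_inf_left B Z).symm
    _ ≤ rl (B'.comap f ⊓ Z) Z := rl_anti_left (by
        rintro z ⟨hz1, hz2⟩
        exact ⟨h2 z hz2 hz1, hz2⟩)
    _ = rl (B'.comap f) Z := rl_inf_left _ _
    _ = rl B' (Z.map f) := (les_rl_map_right f B' Z).symm
    _ ≤ rl B' Z' := rl_mono_right (by
        rintro _ ⟨z, hz, rfl⟩
        exact h1 z hz)

section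

variable {P : Type*} [CommRing P] {V : Type*} [AddCommGroup V] [Module P V]
  (S : Type*) [CommRing S] [Algebra P S] [Module.Flat P S] {ι : Type*} [Fintype ι]

/-- the part of `f` in `L`-degree `i`. -/
noncomputable def tgupR {M : Type*} [AddCommGroup M] (deg : ι → ℤ) (i : ℤ) (f : ι → M) : ι → M :=
  fun a => if deg a = i then f a else 0

/-- the `d`-part in `L`-degree `j`. -/
noncomputable def tgupF {S : Type*} [CommRing S] {M : Type*} [AddCommGroup M] [Module S M]
    (deg : ι → ℤ) (j : ℤ) (d : M →ₗ[S] M) : (ι → M) →ₗ[S] (ι → M) where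
  toFun f a := if deg a = j then ((deg a).negOnePow : ℤ) • d (f a) else 0
  map_add' f g := by
    ext a
    by_cases h : deg a = j <;> simp [h]
  map_smul' c f := by
    ext a
    by_cases h : deg a = j
    · simp only [h, if_true, Pi.smul_apply, RingHom.id_apply, map_smul]
      exact smul_comm _ _ _
    · simp [h]

theorem tgupF_apply {S : Type*} [CommRing S] {M : Type*} [AddCommGroup M] [Module S M]
    (deg : ι → ℤ) (j : ℤ) (d : M →ₗ[S] M) (f : ι → M) (a : ι) :
    tgupF deg j d f a = if deg a = j then ((deg a).negOnePow : ℤ) • d (f a) else 0 := rfl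

/-- the differential of a family supported in degree `i`. -/
theorem tgup_act_eq_zero {S : Type*} [CommRing S] {M : Type*} [AddCommGroup M] [Module S M]
    (deg : ι → ℤ) (Q : Matrix ι ι S) (hQ : IsCx deg Q) (f : ι → M) (a : ι)
    (h : ∀ b, deg b = deg a + 1 → f b = 0) : act Q M f a = 0 := by
  have := act_mem_of_deg S deg Q hQ f a (⊥ : Submodule S M) (fun b hb => by
    rw [h b hb]; exact Submodule.zero_mem _)
  simpa using this

theorem tgup_act_congr {S : Type*} [CommRing S] {M : Type*} [AddCommGroup M] [Module S M]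
    (deg : ι → ℤ) (Q : Matrix ι ι S) (hQ : IsCx deg Q) (f g : ι → M) (a : ι)
    (h : ∀ b, deg b = deg a + 1 → f b = g b) : act Q M f a = act Q M g a := by
  have := tgup_act_eq_zero deg Q hQ (f - g) a (fun b hb => by simp [h b hb])
  rw [map_sub, Pi.sub_apply, sub_eq_zero] at this
  exact this

/-- exactness after base change, elementwise. -/
theorem tgup_exact (d : V →ₗ[P] V) (Y X : ℤ → Submodule P V) (p : ℤ) (ex : Ex d Y X p)
    (y : S ⊗[P] V) (hy : y ∈ bcf S Y p) (hdy : d.baseChange S y ∈ bcf S X (p + 1)) :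
    ∃ w ∈ bcf S Y (p - 1), y - d.baseChange S w ∈ bcf S X p := by
  have h1 : y ∈ cz (d.baseChange S) (bcf S Y) (bcf S X) p := ⟨hy, hdy⟩
  rw [cz_bcf] at h1
  have h2 : y ∈ cb (d.baseChange S) (bcf S Y) (bcf S X) p := by
    rw [cb_bcf]
    exact baseChange_mono S ex h1
  obtain ⟨_, ⟨w, hw, rfl⟩, x, hx, e⟩ := Submodule.mem_sup.1 h2
  refine ⟨w, hw, ?_⟩
  rw [← e, add_sub_cancel_left]
  exact hx

/-- one peeling step. -/
theorem tgup_peel (deg : ι → ℤ) (Q : Matrix ι ι S) (hQ : IsCx deg Q) (d : V →ₗ[P] V)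
    (Y X : ℤ → Submodule P V) (hX : CStab d X) (j δ : ℤ)
    (ex : ∀ i, i ≤ j → Ex d Y X (i - δ)) (k : ℕ) (z : ι → S ⊗[P] V)
    (hz : z ∈ lift deg (bcf S Y) δ)
    (hDz : ∀ a, deg a ≤ j → tot deg Q (d.baseChange S) z a ∈ bcf S X (deg a - δ + 1))
    (hd : ∀ x, d (d x) = 0)
    (hzX : ∀ a, j - k ≤ deg a → deg a ≤ j → z a ∈ bcf S X (deg a - δ)) :
    ∃ w ∈ lift deg (bcf S Y) (δ + 1), ∀ a, j - (k + 1 : ℕ) ≤ deg a → deg a ≤ j →
      (z - tot deg Q (d.baseChange S) w) a ∈ bcf S X (deg a - δ) := by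
  have key : ∀ a, deg a = j - (k + 1 : ℕ) → ∃ w ∈ bcf S Y (deg a - δ - 1),
      z a - d.baseChange S w ∈ bcf S X (deg a - δ) := by
    intro a ha
    have haj : deg a ≤ j := by rw [ha]; omega
    refine tgup_exact S d Y X _ (ex _ haj) (z a) ((mem_lift _ _ _ _).1 hz a) ?_
    have h1 := hDz a haj
    rw [tot_eq] at h1
    have h2 : act Q (S ⊗[P] V) z a ∈ bcf S X (deg a - δ + 1) := by
      refine act_mem_of_deg S deg Q hQ z a _ fun b hb => ?_
      have h3 := hzX b (by rw [hb, ha]; push_cast; omega) (by rw [hb, ha]; push_cast; omega)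
      rw [hb] at h3
      have e2 : deg a + 1 - δ = deg a - δ + 1 := by ring
      rwa [e2] at h3
    have h4 := (Submodule.add_mem_iff_right _ h2).1 h1
    have h5 := zsmul_mem h4 ((deg a).negOnePow : ℤ)
    rw [smul_smul, negOnePow_mul_self, one_smul] at h5
    exact h5
  choose! w hw1 hw2 using key
  let W : ι → S ⊗[P] V := fun a => if deg a = j - (k + 1 : ℕ) then
    ((deg a).negOnePow : ℤ) • w a else 0
  refine ⟨W, ?_, ?_⟩
  · rw [mem_lift]
    intro a
    by_cases ha : deg a = j - (k + 1 : ℕ)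
    · simp only [W, if_pos ha]
      have e : deg a - (δ + 1) = deg a - δ - 1 := by ring
      rw [e]
      exact zsmul_mem (hw1 a ha) _
    · simp only [W, if_neg ha]
      exact Submodule.zero_mem _
  · intro a ha1 ha2
    rw [Pi.sub_apply, tot_eq]
    have h0 : act Q (S ⊗[P] V) W a = 0 := by
      refine tgup_act_eq_zero deg Q hQ W a fun b hb => ?_
      have : ¬ deg b = j - (k + 1 : ℕ) := by rw [hb]; omega
      simp only [W, if_neg this]
    rw [h0, zero_add]
    by_cases ha : deg a = j - (k + 1 : ℕ)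
    · have h1 : W a = ((deg a).negOnePow : ℤ) • w a := by simp only [W, if_pos ha]
      rw [h1, map_zsmul, smul_smul, negOnePow_mul_self, one_smul]
      exact hw2 a ha
    · have h1 : W a = 0 := by simp only [W, if_neg ha]
      rw [h1, map_zero, smul_zero, sub_zero]
      refine hzX a ?_ ha2
      push_cast at ha1 ha
      omega

/-- all peeling steps. -/
theorem tgup_peel_all (deg : ι → ℤ) (Q : Matrix ι ι S) (hQ : IsCx deg Q) (d : V →ₗ[P] V)
    (hd : ∀ x, d (d x) = 0)
    (Y X : ℤ → Submodule P V) (hX : CStab d X) (hY : CStab d Y) (j δ : ℤ)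
    (ex : ∀ i, i ≤ j → Ex d Y X (i - δ)) (z : ι → S ⊗[P] V)
    (hz : z ∈ lift deg (bcf S Y) δ)
    (hDz : ∀ a, deg a ≤ j → tot deg Q (d.baseChange S) z a ∈ bcf S X (deg a - δ + 1))
    (hzX : ∀ a, deg a = j → z a ∈ bcf S X (deg a - δ)) (k : ℕ) :
    ∃ w ∈ lift deg (bcf S Y) (δ + 1), ∀ a, j - k ≤ deg a → deg a ≤ j →
      (z - tot deg Q (d.baseChange S) w) a ∈ bcf S X (deg a - δ) := by
  have hdd : ∀ x, (d.baseChange S) ((d.baseChange S) x) = 0 := by
    intro x
    have : (d.baseChange S) ∘ₗ (d.baseChange S) = 0 := by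
      rw [← LinearMap.baseChange_comp]
      have : d ∘ₗ d = 0 := by ext x; exact hd x
      rw [this, LinearMap.baseChange_zero]
    exact LinearMap.congr_fun this x
  induction k with
  | zero =>
    refine ⟨0, Submodule.zero_mem _, fun a h1 h2 => ?_⟩
    rw [map_zero, sub_zero]
    exact hzX a (by push_cast at h1; omega)
  | succ k ih =>
    obtain ⟨w, hw, h⟩ := ih
    have hDw : tot deg Q (d.baseChange S) w ∈ lift deg (bcf S Y) δ := by
      have := lift_stab deg Q hQ (d.baseChange S) (bcf S Y) (bcf_cstab S d hY) (δ + 1) w hw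
      rwa [add_sub_cancel_right] at this
    obtain ⟨w', hw', h'⟩ := tgup_peel S deg Q hQ d Y X hX j δ ex k
      (z - tot deg Q (d.baseChange S) w) (Submodule.sub_mem _ hz hDw) (by
        intro a ha
        rw [map_sub, tot_tot deg Q hQ _ hdd, sub_zero]
        exact hDz a ha) hd h
    refine ⟨w + w', Submodule.add_mem _ hw hw', ?_⟩
    intro a h1 h2
    rw [map_add, ← sub_sub]
    exact h' a h1 h2

/-- an element without components in `L`-degree `≤ j` modulo `X` is a relative boundary. -/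
theorem tgup_mem_bb (deg : ι → ℤ) (Q : Matrix ι ι S) (hQ : IsCx deg Q) (d : V →ₗ[P] V)
    (hd : ∀ x, d (d x) = 0)
    (Y X : ℤ → Submodule P V) (hX : CStab d X) (hY : CStab d Y) (j δ : ℤ)
    (ex : ∀ i, i ≤ j → Ex d Y X (i - δ)) (z : ι → S ⊗[P] V)
    (hz : z ∈ lift deg (bcf S Y) δ)
    (hDz : ∀ a, deg a ≤ j → tot deg Q (d.baseChange S) z a ∈ bcf S X (deg a - δ + 1))
    (hzX : ∀ a, deg a = j → z a ∈ bcf S X (deg a - δ)) :
    z ∈ bb (tot deg Q (d.baseChange S)) (lift deg (bcf S Y)) (TG S deg Q j Y X) δ := by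
  obtain ⟨k, hk⟩ : ∃ k : ℕ, ∀ a, j - k ≤ deg a := by
    refine ⟨∑ a, (j - deg a).toNat, fun a => ?_⟩
    have h1 : (j - deg a).toNat ≤ ∑ a, (j - deg a).toNat :=
      Finset.single_le_sum (f := fun a => (j - deg a).toNat) (fun _ _ => Nat.zero_le _)
        (Finset.mem_univ a)
    have h2 := Int.self_le_toNat (j - deg a)
    omega
  have hdd : ∀ x, (d.baseChange S) ((d.baseChange S) x) = 0 := by
    intro x
    have : (d.baseChange S) ∘ₗ (d.baseChange S) = 0 := by
      rw [← LinearMap.baseChange_comp]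
      have : d ∘ₗ d = 0 := by ext x; exact hd x
      rw [this, LinearMap.baseChange_zero]
    exact LinearMap.congr_fun this x
  obtain ⟨w, hw, h⟩ := tgup_peel_all S deg Q hQ d hd Y X hX hY j δ ex z hz hDz hzX k
  have hDw : tot deg Q (d.baseChange S) w ∈ lift deg (bcf S Y) δ := by
    have := lift_stab deg Q hQ (d.baseChange S) (bcf S Y) (bcf_cstab S d hY) (δ + 1) w hw
    rwa [add_sub_cancel_right] at this
  have e : z = tot deg Q (d.baseChange S) w + (z - tot deg Q (d.baseChange S) w) := by abel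
  rw [e]
  refine Submodule.add_mem_sup ⟨w, hw, rfl⟩ ?_
  set z' := z - tot deg Q (d.baseChange S) w with hz'
  rw [mem_tg]
  have hX' : ∀ a, deg a ≤ j → z' a ∈ bcf S X (deg a - δ) := fun a ha => h a (hk a) ha
  refine ⟨(mem_lift _ _ _ _).1 (Submodule.sub_mem _ hz hDw), hX', fun a ha => ?_⟩
  have h1 : tot deg Q (d.baseChange S) z' a ∈ bcf S X (deg a - δ + 1) := by
    rw [hz', map_sub, tot_tot deg Q hQ _ hdd, sub_zero]
    exact hDz a ha
  rw [tot_eq] at h1
  exact (Submodule.add_mem_iff_left _ (zsmul_mem (bcf_cstab S d hX _ _ (hX' a ha)) _)).1 h1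

/-- the quotient of the window by the truncated window is bounded by a connecting map. -/
theorem tgup_rl (deg : ι → ℤ) (Q : Matrix ι ι S) (hQ : IsCx deg Q) (d : V →ₗ[P] V)
    (hd : ∀ x, d (d x) = 0) (Y X : ℤ → Submodule P V) (hX : CStab d X) (hY : CStab d Y)
    (hXY : ∀ p, X p ≤ Y p) (j δ : ℤ) (ex : ∀ i, i ≤ j → Ex d Y X (i - δ)) :
    hh (tot deg Q (d.baseChange S)) (lift deg (bcf S Y)) (TG S deg Q j Y X) δ ≤
      rl (bb (tot deg Q (0 : (S ⊗[P] V) →ₗ[S] (S ⊗[P] V)))
          (lift deg (conc ((cb d Y X (j - δ + 1)).baseChange S)))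
          (lift deg (conc ((X (j - δ + 1)).baseChange S))) j)
        ((zz (tot deg Q (0 : (S ⊗[P] V) →ₗ[S] (S ⊗[P] V)))
          (lift deg (conc ((Y (j - δ + 1)).baseChange S)))
          (lift deg (conc ((cb d Y X (j - δ + 1)).baseChange S))) (j + 1)).map
          (tot deg Q (0 : (S ⊗[P] V) →ₗ[S] (S ⊗[P] V))) ⊔
        bb (tot deg Q (0 : (S ⊗[P] V) →ₗ[S] (S ⊗[P] V)))
          (lift deg (conc ((cb d Y X (j - δ + 1)).baseChange S)))
          (lift deg (conc ((X (j - δ + 1)).baseChange S))) j) := by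
  have hI : (cb d Y X (j - δ + 1)).baseChange S =
      (bcf S Y (j - δ)).map (d.baseChange S) ⊔ bcf S X (j - δ + 1) := by
    rw [← cb_bcf, cb, add_sub_cancel_right]
  have hdY := bcf_cstab S d hY
  have hdX := bcf_cstab S d hX
  have h00 : ∀ (g : ι → S ⊗[P] V) (a : ι),
      tot deg Q (0 : (S ⊗[P] V) →ₗ[S] (S ⊗[P] V)) g a = act Q (S ⊗[P] V) g a := by
    intro g a
    rw [tot_eq, LinearMap.zero_apply, smul_zero, add_zero]
  refine tgup_rl_le (tgupF deg j (d.baseChange S)) _ _ _ _ ?_ ?_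
  · rintro z ⟨hz1, hz2⟩
    rw [SetLike.mem_coe, mem_lift] at hz1
    have hz3 := ((mem_tg S deg Q j Y X (δ - 1) _).1 hz2).2.1
    have hg : tgupR deg (j + 1) z ∈ zz (tot deg Q (0 : (S ⊗[P] V) →ₗ[S] (S ⊗[P] V)))
          (lift deg (conc ((Y (j - δ + 1)).baseChange S)))
          (lift deg (conc ((cb d Y X (j - δ + 1)).baseChange S))) (j + 1) := by
      refine ⟨?_, ?_⟩
      · rw [SetLike.mem_coe, TR.mem_lift_conc]
        refine fun a => ⟨fun ha => ?_, fun ha => by simp only [tgupR, if_neg ha]⟩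
        have := hz1 a
        rw [ha] at this
        simp only [tgupR, if_pos ha]
        have e : j + 1 - δ = j - δ + 1 := by ring
        rw [e] at this
        exact this
      · rw [SetLike.mem_coe, Submodule.mem_comap, add_sub_cancel_right, TR.mem_lift_conc]
        refine fun a => ⟨fun ha => ?_, fun ha => ?_⟩
        · rw [h00]
          have e1 : act Q (S ⊗[P] V) (tgupR deg (j + 1) z) a = act Q (S ⊗[P] V) z a := by
            refine tgup_act_congr deg Q hQ _ _ a fun b hb => ?_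
            have : deg b = j + 1 := by rw [hb, ha]
            simp only [tgupR, if_pos this]
          rw [e1, hI]
          have h1 := hz3 a ha.le
          rw [tot_eq, ha] at h1
          have e2 : j - (δ - 1) = j - δ + 1 := by ring
          rw [e2] at h1
          have h2 : act Q (S ⊗[P] V) z a = (act Q (S ⊗[P] V) z a +
              (j.negOnePow : ℤ) • (d.baseChange S) (z a)) -
              (j.negOnePow : ℤ) • (d.baseChange S) (z a) := by abel
          rw [h2]
          refine Submodule.sub_mem _ (Submodule.mem_sup_right h1) (Submodule.mem_sup_left ?_)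
          refine zsmul_mem ?_ _
          have := hz1 a
          rw [ha] at this
          exact ⟨_, this, rfl⟩
        · rw [h00]
          refine tgup_act_eq_zero deg Q hQ _ a fun b hb => ?_
          have : ¬ deg b = j + 1 := by rw [hb]; omega
          simp only [tgupR, if_neg this]
    have e : tgupF deg j (d.baseChange S) z =
        -(tot deg Q (0 : (S ⊗[P] V) →ₗ[S] (S ⊗[P] V)) (tgupR deg (j + 1) z)) +
        (tgupF deg j (d.baseChange S) z +
          tot deg Q (0 : (S ⊗[P] V) →ₗ[S] (S ⊗[P] V)) (tgupR deg (j + 1) z)) := by abel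
    rw [e]
    refine Submodule.add_mem_sup (Submodule.neg_mem _ ⟨_, hg, rfl⟩)
      (Submodule.mem_sup_right ?_)
    rw [TR.mem_lift_conc]
    refine fun a => ⟨fun ha => ?_, fun ha => ?_⟩
    · rw [Pi.add_apply, h00, tgupF_apply, if_pos ha]
      have e1 : act Q (S ⊗[P] V) (tgupR deg (j + 1) z) a = act Q (S ⊗[P] V) z a := by
        refine tgup_act_congr deg Q hQ _ _ a fun b hb => ?_
        have : deg b = j + 1 := by rw [hb, ha]
        simp only [tgupR, if_pos this]
      rw [e1]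
      have h1 := hz3 a ha.le
      rw [tot_eq, add_comm] at h1
      have e2 : deg a - (δ - 1) = j - δ + 1 := by rw [ha]; ring
      rw [e2] at h1
      exact h1
    · rw [Pi.add_apply, h00, tgupF_apply, if_neg ha, zero_add]
      refine tgup_act_eq_zero deg Q hQ _ a fun b hb => ?_
      have : ¬ deg b = j + 1 := by rw [hb]; omega
      simp only [tgupR, if_neg this]
  · rintro z ⟨hz1, hz2⟩ hz
    rw [SetLike.mem_coe, mem_lift] at hz1
    have hz3 := ((mem_tg S deg Q j Y X (δ - 1) _).1 hz2).2.1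
    obtain ⟨_, ⟨g, hg, rfl⟩, x, hx, e⟩ := Submodule.mem_sup.1 hz
    rw [SetLike.mem_coe, TR.mem_lift_conc] at hg
    rw [TR.mem_lift_conc] at hx
    have key : ∀ a, deg a = j + 1 → ∃ y ∈ bcf S Y (j - δ),
        g a - d.baseChange S y ∈ bcf S X (j - δ + 1) := by
      intro a ha
      have h1 := (hg a).1 ha
      rw [hI] at h1
      obtain ⟨_, ⟨y, hy, rfl⟩, x', hx', e'⟩ := Submodule.mem_sup.1 h1
      refine ⟨y, hy, ?_⟩
      rw [← e', add_sub_cancel_left]
      exact hx'
    choose! g' hg1 hg2 using key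
    let G : ι → S ⊗[P] V := fun a => if deg a = j + 1 then g' a else 0
    have hGY : ∀ a, G a ∈ bcf S Y (j - δ) := by
      intro a
      by_cases ha : deg a = j + 1
      · simp only [G, if_pos ha]; exact hg1 a ha
      · simp only [G, if_neg ha]; exact Submodule.zero_mem _
    -- degree j
    have key2 : ∀ a, deg a = j → ∃ w ∈ bcf S Y (j - δ - 1),
        (((deg a).negOnePow : ℤ) • z a - act Q (S ⊗[P] V) G a) - d.baseChange S w ∈
          bcf S X (j - δ) := by
      intro a ha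
      refine tgup_exact S d Y X (j - δ) (ex j le_rfl) _ ?_ ?_
      · refine Submodule.sub_mem _ (zsmul_mem ?_ _) ?_
        · have := hz1 a
          rwa [ha] at this
        · exact act_mem Q hGY a
      · rw [map_sub, map_zsmul, ← act_comp Q (d.baseChange S) G a]
        have h1 := congrFun e a
        rw [Pi.add_apply, h00, tgupF_apply, if_pos ha] at h1
        rw [← h1]
        have h2 : act Q (S ⊗[P] V) g a + x a -
            act Q (S ⊗[P] V) (fun b => d.baseChange S (G b)) a =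
            act Q (S ⊗[P] V) (g - fun b => d.baseChange S (G b)) a + x a := by
          rw [map_sub, Pi.sub_apply]; abel
        rw [h2]
        refine Submodule.add_mem _ ?_ ((hx a).1 ha)
        refine act_mem_of_deg S deg Q hQ _ a _ fun b hb => ?_
        have hb' : deg b = j + 1 := by rw [hb, ha]
        rw [Pi.sub_apply]
        simp only [G, if_pos hb']
        exact hg2 b hb'
    choose! w hw1 hw2 using key2
    let W : ι → S ⊗[P] V := fun a => if deg a = j + 1 then (j.negOnePow : ℤ) • g' a else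
      if deg a = j then w a else 0
    have hW : W ∈ lift deg (bcf S Y) (δ + 1) := by
      rw [mem_lift]
      intro a
      by_cases ha : deg a = j + 1
      · simp only [W, if_pos ha]
        have e1 : deg a - (δ + 1) = j - δ := by rw [ha]; ring
        rw [e1]
        exact zsmul_mem (hg1 a ha) _
      · by_cases ha' : deg a = j
        · simp only [W, if_neg ha, if_pos ha']
          have e1 : deg a - (δ + 1) = j - δ - 1 := by rw [ha']; ring
          rw [e1]
          exact hw1 a ha'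
        · simp only [W, if_neg ha, if_neg ha']
          exact Submodule.zero_mem _
    have hdd : ∀ x, (d.baseChange S) ((d.baseChange S) x) = 0 := by
      intro x
      have : (d.baseChange S) ∘ₗ (d.baseChange S) = 0 := by
        rw [← LinearMap.baseChange_comp]
        have : d ∘ₗ d = 0 := by ext x; exact hd x
        rw [this, LinearMap.baseChange_zero]
      exact LinearMap.congr_fun this x
    have hDW : tot deg Q (d.baseChange S) W ∈ lift deg (bcf S Y) δ := by
      have := lift_stab deg Q hQ (d.baseChange S) (bcf S Y) hdY (δ + 1) W hW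
      rwa [add_sub_cancel_right] at this
    have hz' := tgup_mem_bb S deg Q hQ d hd Y X hX hY j δ ex
      (z - tot deg Q (d.baseChange S) W) (Submodule.sub_mem _ ((mem_lift _ _ _ _).2 hz1) hDW)
      (by
        intro a ha
        rw [map_sub, tot_tot deg Q hQ _ hdd, sub_zero]
        have h1 := hz3 a ha
        have e2 : deg a - (δ - 1) = deg a - δ + 1 := by ring
        rwa [e2] at h1)
      (by
        intro a ha
        rw [Pi.sub_apply, tot_eq]
        have hj1 : ¬ deg a = j + 1 := by rw [ha]; omega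
        have h1 : W a = w a := by simp only [W, if_neg hj1, if_pos ha]
        have h2 : act Q (S ⊗[P] V) W a = (j.negOnePow : ℤ) • act Q (S ⊗[P] V) G a := by
          have h3 : act Q (S ⊗[P] V) W a =
              act Q (S ⊗[P] V) (fun b => (j.negOnePow : ℤ) • G b) a := by
            refine tgup_act_congr deg Q hQ _ _ a fun b hb => ?_
            have hb' : deg b = j + 1 := by rw [hb, ha]
            simp only [W, G, if_pos hb']
          rw [h3]
          change act Q (S ⊗[P] V) ((j.negOnePow : ℤ) • G) a = _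
          rw [map_zsmul, Pi.smul_apply]
        rw [h1, h2, ha]
        have h4 := hw2 a ha
        rw [ha] at h4
        have h5 := zsmul_mem h4 (j.negOnePow : ℤ)
        rw [smul_sub, smul_sub, smul_smul, negOnePow_mul_self, one_smul] at h5
        rwa [sub_sub] at h5)
    have e3 : z = tot deg Q (d.baseChange S) W + (z - tot deg Q (d.baseChange S) W) := by abel
    rw [e3]
    exact Submodule.add_mem _ (Submodule.mem_sup_left ⟨W, hW, rfl⟩) hz'

end

end Vale.Agent.P202.CharP.Gen2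
end

section

/-!
P202-G3-C4: above the diagonal the quotient by the truncated window is small, with the
normalization factor.
-/

set_option linter.all false

namespace Vale.Agent.P202.CharP.Gen2

open Submodule TensorProduct Gen

variable {P : Type*} [CommRing P] {V : Type*} [AddCommGroup V] [Module P V]
  (S : Type*) [CommRing S] [Algebra P S] [Module.Flat P S] {ι : Type*} [Fintype ι]

/-- TASK G3-C4: above the diagonal the quotient by the truncated window is small. -/
theorem tg_up3_c (deg : ι → ℤ) (Q : Matrix ι ι S) (hQ : IsCx deg Q) (d : V →ₗ[P] V)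
    (hd : ∀ x, d (d x) = 0) (Y X : ℤ → Submodule P V) (hX : CStab d X) (hY : CStab d Y)
    (hXY : ∀ p, X p ≤ Y p) (c lam : ℕ) (hc : 1 ≤ c) (t : ℤ → ℕ) (ε : ℕ)
    (E : ∀ p, Est S deg Q c lam t ε (X p) (Y p)) (P₀ : ℤ) (ex : ∀ p, p ≠ P₀ → Ex d Y X p)
    (j δ : ℤ) (hδ : j < δ + P₀) :
    (c : ℕ∞) * hh (tot deg Q (d.baseChange S)) (lift deg (bcf S Y)) (TG S deg Q j Y X) δ ≤
      ((3 * ε : ℕ) : ℕ∞) := by
  refine (mul_le_mul_right (tgup_rl S deg Q hQ d hd Y X hX hY hXY j δ
    fun i hi => ex _ (by omega)) _).trans ?_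
  have h1 : cb d Y X (j - δ + 1) ≤ Y (j - δ + 1) := by
    refine sup_le ?_ (hXY _)
    rintro _ ⟨y, hy, rfl⟩
    have := hY _ y hy
    rwa [sub_add_cancel] at this
  have h := conn_le_c S deg Q hQ c lam hc t ε (X (j - δ + 1)) (Y (j - δ + 1)) (X (j - δ + 1))
    (cb d Y X (j - δ + 1)) (Y (j - δ + 1)) le_rfl le_sup_right h1 le_rfl (E _) (j + 1)
  rwa [add_sub_cancel_right] at h

end Vale.Agent.P202.CharP.Gen2
end

section

/-!
P202-G3, task G3-H3: devissage over the small ring: the Koszul homology over `A` of a nilpotent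
module of finite length.
-/

namespace Vale.Agent.P202.CharP.Gen2

open Submodule TensorProduct IsLocalRing Gen

namespace SmallDev

section Basic

variable {A P Om : Type*} [CommRing A] [CommRing P] [CommRing Om] [Algebra A Om]
  [Algebra P Om] [SMulCommClass P A Om] {V W : Type*} [AddCommGroup V]
  [Module P V] [AddCommGroup W] [Module P W] {n : ℕ} (v : Fin n → Om)

lemma mem_KA {Y : Submodule P V} {p : ℤ} {f : KIdx n → Om ⊗[P] V} :
    f ∈ KA A Om n Y p ↔ ∀ a, (kdeg n a + p = 0 → f a ∈ Y.baseChange Om) ∧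
      (kdeg n a + p ≠ 0 → f a = 0) := by
  rw [KA, Submodule.restrictScalars_mem, khc_mem_lift]
  refine forall_congr' fun a => ?_
  rw [mem_conc, sub_neg_eq_add]

lemma DA_apply (f : KIdx n → Om ⊗[P] V) (a : KIdx n) :
    DA A V v f a = ∑ b, kos n v a b • f b := rfl

lemma DA_sq (f : KIdx n → Om ⊗[P] V) : DA A V v (DA A V v f) = 0 := by
  change act (kos n v) _ (act (kos n v) _ f) = 0
  rw [← act_mul, (kos_isCx n v).sq, act_zero]

lemma KA_cstab (Y : Submodule P V) : CStab (DA A V v) (KA A Om n Y) := by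
  intro p f hf
  have h1 := lift_conc_stab (kdeg n) (kos n v) (kos_isCx n v) (Y.baseChange Om) (-p) f hf
  have h2 : tot (kdeg n) (kos n v) (0 : Om ⊗[P] V →ₗ[Om] Om ⊗[P] V) f = DA A V v f := by
    ext a
    rw [tot_zero_apply]
    rfl
  have h3 : -p - 1 = -(p + 1) := by ring
  rw [h2, h3] at h1
  exact h1

lemma KA_mono {X Y : Submodule P V} (h : X ≤ Y) (p : ℤ) : KA A Om n X p ≤ KA A Om n Y p := by
  intro f hf
  rw [mem_KA] at hf ⊢
  exact fun a => ⟨fun h1 => baseChange_mono Om h ((hf a).1 h1), (hf a).2⟩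

lemma KA_out (X Y : Submodule P V) (p : ℤ) (hp : p < -(n : ℤ) ∨ 1 ≤ p) :
    KA A Om n Y p ≤ KA A Om n X p := by
  intro f hf
  rw [mem_KA] at hf ⊢
  intro a
  obtain ⟨h1, h2⟩ := kdeg_range n a
  exact ⟨fun h => absurd h (by omega), (hf a).2⟩

lemma hA_self (X : Submodule P V) (b : ℤ) : hA A v X X b = 0 := by
  rw [hA, hc, rl_eq_zero_iff]
  exact inf_le_left.trans le_sup_right

lemma hA_add_le (X Y Z : Submodule P V) (hXY : X ≤ Y) (hYZ : Y ≤ Z) (b : ℤ) :
    hA A v Z X b ≤ hA A v Z Y b + hA A v Y X b :=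
  hc_le_add _ (DA_sq v) _ _ _ (KA_cstab v X) (KA_cstab v Y) (KA_cstab v Z) (KA_mono hXY)
    (KA_mono hYZ) _

lemma xic_hA (X Y : Submodule P V) :
    xic n 1 (fun p => hA A v Y X (-p)) = xic n 1 (hc (DA A V v) (KA A Om n Y) (KA A Om n X)) := by
  congr 1
  ext1 p
  rw [hA, neg_neg]

lemma hA_xi_add (X Y Z : Submodule P V) (hXY : X ≤ Y) (hYZ : Y ≤ Z)
    (h1 : ∀ b, hA A v Z Y b ≠ ⊤) (h2 : ∀ b, hA A v Y X b ≠ ⊤) :
    xic n 1 (fun p => hA A v Z X (-p)) =
      xic n 1 (fun p => hA A v Z Y (-p)) + xic n 1 (fun p => hA A v Y X (-p)) := by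
  rw [xic_hA, xic_hA, xic_hA]
  refine hc_xi_add n 1 _ (DA_sq v) _ _ _ (KA_cstab v X) (KA_cstab v Y) (KA_cstab v Z)
    (KA_mono hXY) (KA_mono hYZ) (fun p => ?_) (fun p => ?_) (fun p hp => ?_)
  · have := h1 (-p)
    rwa [hA, neg_neg] at this
  · have := h2 (-p)
    rwa [hA, neg_neg] at this
  · exact KA_out X Z p (by simpa using hp)

/-- the map induced on the Koszul complexes. -/
noncomputable def kmap (A : Type*) {P : Type*} (Om : Type*) [CommRing A] [CommRing P]
    [CommRing Om] [Algebra A Om] [Algebra P Om] [SMulCommClass P A Om] {V W : Type*}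
    [AddCommGroup V] [Module P V] [AddCommGroup W] [Module P W] (n : ℕ) (φ : W →ₗ[P] V) :
    (KIdx n → Om ⊗[P] W) →ₗ[A] (KIdx n → Om ⊗[P] V) :=
  ((φ.baseChange Om).compLeft (KIdx n)).restrictScalars A

lemma kmap_apply (φ : W →ₗ[P] V) (f : KIdx n → Om ⊗[P] W) (a : KIdx n) :
    kmap A Om n φ f a = φ.baseChange Om (f a) := rfl

lemma kmap_DA (φ : W →ₗ[P] V) (f : KIdx n → Om ⊗[P] W) :
    kmap A Om n φ (DA A W v f) = DA A V v (kmap A Om n φ f) := by
  ext a
  rw [kmap_apply, DA_apply, DA_apply, map_sum]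
  refine Finset.sum_congr rfl fun b _ => ?_
  rw [map_smul, kmap_apply]

lemma hA_transport [Module.Flat P Om] (φ : W →ₗ[P] V) (X Y : Submodule P W)
    (X' Y' : Submodule P V) (h1 : Y.map φ ⊔ X' = Y') (h2 : Y ⊓ X'.comap φ = X) (b : ℤ) :
    hA A v Y X b = hA A v Y' X' b := by
  have hXY : X ≤ Y := h2 ▸ inf_le_left
  refine hc_transport _ _ (kmap A Om n φ) (kmap_DA v φ) _ _ _ _ (KA_cstab v X) (KA_cstab v Y)
    (KA_cstab v X') (KA_mono hXY) (fun p => ?_) (fun p => ?_) _
  · refine le_antisymm (sup_le ?_ (KA_mono (h1 ▸ le_sup_right) p)) ?_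
    · rintro _ ⟨f, hf, rfl⟩
      rw [SetLike.mem_coe, mem_KA] at hf
      rw [mem_KA]
      intro a
      refine ⟨fun ha => ?_, fun ha => ?_⟩
      · rw [kmap_apply, ← h1, baseChange_sup', baseChange_map]
        exact mem_sup_left (Submodule.mem_map_of_mem ((hf a).1 ha))
      · rw [kmap_apply, (hf a).2 ha, map_zero]
    · intro g hg
      rw [mem_KA] at hg
      have key : ∀ a, ∃ s : Om ⊗[P] W, ∃ t : Om ⊗[P] V,
          (kdeg n a + p = 0 → s ∈ Y.baseChange Om) ∧ (kdeg n a + p ≠ 0 → s = 0) ∧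
          (kdeg n a + p = 0 → t ∈ X'.baseChange Om) ∧ (kdeg n a + p ≠ 0 → t = 0) ∧
          φ.baseChange Om s + t = g a := by
        intro a
        by_cases ha : kdeg n a + p = 0
        · have h3 := (hg a).1 ha
          rw [← h1, baseChange_sup', baseChange_map] at h3
          obtain ⟨_, ⟨s, hs, rfl⟩, t, ht, he⟩ := Submodule.mem_sup.1 h3
          exact ⟨s, t, fun _ => hs, fun h => absurd ha h, fun _ => ht, fun h => absurd ha h, he⟩
        · refine ⟨0, 0, fun h => absurd h ha, fun _ => rfl, fun h => absurd h ha, fun _ => rfl, ?_⟩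
          rw [(hg a).2 ha, map_zero, add_zero]
      choose s t hs1 hs2 ht1 ht2 he using key
      have he' : kmap A Om n φ s + t = g := by
        ext a
        exact he a
      rw [← he']
      refine Submodule.add_mem_sup (Submodule.mem_map_of_mem ?_) ?_
      · rw [mem_KA]
        exact fun a => ⟨hs1 a, hs2 a⟩
      · rw [mem_KA]
        exact fun a => ⟨ht1 a, ht2 a⟩
  · ext f
    rw [Submodule.mem_inf, Submodule.mem_comap, mem_KA, mem_KA, mem_KA, ← forall_and]
    refine forall_congr' fun a => ?_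
    rw [kmap_apply, ← h2, baseChange_inf, baseChange_comap, Submodule.mem_inf, Submodule.mem_comap]
    constructor
    · rintro ⟨⟨h3, h4⟩, h5, -⟩
      exact ⟨fun h => ⟨h3 h, h5 h⟩, h4⟩
    · rintro ⟨h3, h4⟩
      exact ⟨⟨fun h => (h3 h).1, h4⟩, fun h => (h3 h).2, fun h => by rw [h4 h, map_zero]⟩

end Basic

section Step

variable {P : Type*} [CommRing P] {V : Type*} [AddCommGroup V] [Module P V]

lemma exists_step (X Y : Submodule P V) (hXY : X ≤ Y) (hfin : rl X Y ≠ ⊤) (h0 : rl X Y ≠ 0) :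
    ∃ Z, X ≤ Z ∧ Z ≤ Y ∧ rl Z Y = 1 := by
  have hfl : IsFiniteLength P (↥Y ⧸ X.submoduleOf Y) := Module.length_ne_top_iff.1 hfin
  have hN : IsNoetherian P (↥Y ⧸ X.submoduleOf Y) :=
    (isFiniteLength_iff_isNoetherian_isArtinian.1 hfl).1
  have hnt : Nontrivial (↥Y ⧸ X.submoduleOf Y) := by
    rw [← not_subsingleton_iff_nontrivial]
    intro h
    exact h0 (Module.length_eq_zero_iff.2 h)
  obtain ⟨C, hC⟩ : ∃ C : Submodule P (↥Y ⧸ X.submoduleOf Y), IsCoatom C := by
    rcases eq_top_or_exists_le_coatom (⊥ : Submodule P (↥Y ⧸ X.submoduleOf Y)) with h | ⟨C, hC, -⟩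
    · exact absurd h bot_ne_top
    · exact ⟨C, hC⟩
  refine ⟨(C.comap (X.submoduleOf Y).mkQ).map Y.subtype, ?_, Submodule.map_subtype_le _ _, ?_⟩
  · intro x hx
    refine ⟨⟨x, hXY hx⟩, ?_, rfl⟩
    have h2 : (X.submoduleOf Y).mkQ ⟨x, hXY hx⟩ = 0 :=
      (Submodule.Quotient.mk_eq_zero _).2 hx
    change (X.submoduleOf Y).mkQ ⟨x, hXY hx⟩ ∈ C
    rw [h2]
    exact C.zero_mem
  · have h1 : Y = (⊤ : Submodule P Y).map Y.subtype := by
      rw [Submodule.map_top, Submodule.range_subtype]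
    have h3 : rl (C.comap (X.submoduleOf Y).mkQ) (⊤ : Submodule P Y) = 1 := by
      have h4 := rl_comap (X.submoduleOf Y).mkQ C ⊤
      rw [Submodule.comap_top, Submodule.range_mkQ, inf_top_eq] at h4
      rw [h4, rl_top, Module.length_eq_one_iff]
      exact isSimpleModule_iff_isCoatom.2 hC
    have h5 := rl_map_of_injective Y.subtype Y.injective_subtype
      (C.comap (X.submoduleOf Y).mkQ) ⊤
    rw [← h1, h3] at h5
    exact h5

lemma step_data (m : Ideal P) [m.IsMaximal] (K : ℕ) (X Y : Submodule P V) (hXY : X ≤ Y)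
    (hK : m ^ K • Y ≤ X) (h1 : rl X Y = 1) :
    ∃ φ : P →ₗ[P] V, (⊤ : Submodule P P).map φ ⊔ X = Y ∧ ⊤ ⊓ X.comap φ = m := by
  have h2 : ¬ Y ≤ X := fun h => by
    rw [rl_eq_zero_iff.2 h] at h1
    exact zero_ne_one h1
  obtain ⟨v0, hv0, hv1⟩ := SetLike.not_le_iff_exists.1 h2
  let φ : P →ₗ[P] V := LinearMap.toSpanSingleton P V v0
  have hφ : ∀ q, φ q = q • v0 := fun q => rfl
  have hle : (⊤ : Submodule P P).map φ ⊔ X ≤ Y := by
    refine sup_le ?_ hXY
    rintro _ ⟨q, -, rfl⟩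
    exact Y.smul_mem q hv0
  have hv2 : v0 ∈ (⊤ : Submodule P P).map φ := ⟨1, trivial, one_smul P v0⟩
  have h3 : rl X ((⊤ : Submodule P P).map φ ⊔ X) ≠ 0 := fun h =>
    hv1 (rl_eq_zero_iff.1 h (mem_sup_left hv2))
  have h4 : 1 ≤ rl X ((⊤ : Submodule P P).map φ ⊔ X) := Order.one_le_iff_ne_zero.2 h3
  have h5 := rl_add (le_sup_right : X ≤ (⊤ : Submodule P P).map φ ⊔ X) hle
  rw [h1] at h5
  have h6 : rl X ((⊤ : Submodule P P).map φ ⊔ X) = 1 :=
    le_antisymm (h5 ▸ le_self_add) h4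
  have h7 : rl ((⊤ : Submodule P P).map φ ⊔ X) Y = 0 := by
    rw [h6] at h5
    have h8 : (fun x : ℕ∞ => 1 + x) (rl ((⊤ : Submodule P P).map φ ⊔ X) Y) =
        (fun x : ℕ∞ => 1 + x) 0 := by
      simp only [add_zero]
      exact h5.symm
    exact ENat.add_right_injective_of_ne_top (by simp) h8
  refine ⟨φ, le_antisymm hle (rl_eq_zero_iff.1 h7), ?_⟩
  have h9 : rl (X.comap φ) ⊤ = 1 := by
    rw [← les_rl_map_right, ← rl_sup_right, sup_comm, h6]
  rw [rl_top, Module.length_eq_one_iff, isSimpleModule_iff_isCoatom] at h9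
  rw [top_inf_eq]
  have hI : Ideal.IsMaximal (X.comap φ) := ⟨h9⟩
  have h10 : m ^ K ≤ X.comap φ := by
    intro q hq
    exact hK (Submodule.smul_mem_smul hq hv0)
  have h11 : m ≤ X.comap φ := hI.isPrime.le_of_pow_le h10
  exact (Ideal.IsMaximal.eq_of_le inferInstance hI.ne_top h11).symm

end Step

section Main

variable {A P Om : Type*} [CommRing A] [CommRing P] [CommRing Om] [Algebra A Om]
  [Algebra P Om] [SMulCommClass P A Om] [Module.Flat P Om] {V : Type*} [AddCommGroup V]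
  [Module P V] {n : ℕ} (v : Fin n → Om)

lemma hA_step (m : Ideal P) [m.IsMaximal] (K : ℕ) (X Y : Submodule P V) (hXY : X ≤ Y)
    (hK : m ^ K • Y ≤ X) (h1 : rl X Y = 1) (b : ℤ) :
    hA A v Y X b = hA A v (⊤ : Submodule P P) m b := by
  obtain ⟨φ, h2, h3⟩ := step_data m K X Y hXY hK h1
  exact (hA_transport v φ m ⊤ X Y h2 h3 b).symm

lemma hA_le_nat (m : Ideal P) [m.IsMaximal] (K : ℕ) (w : ℕ) : ∀ (X Y : Submodule P V),
    X ≤ Y → m ^ K • Y ≤ X → rl X Y = w → ∀ b : ℤ,
    hA A v Y X b ≤ w * hA A v (⊤ : Submodule P P) m b := by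
  induction w with
  | zero =>
    intro X Y hXY _ h0 b
    have h1 : Y = X := le_antisymm (rl_eq_zero_iff.1 (by simpa using h0)) hXY
    rw [h1, hA_self]
    exact zero_le
  | succ w ih =>
    intro X Y hXY hK h0 b
    obtain ⟨Z, hXZ, hZY, hZ⟩ := exists_step X Y hXY (by rw [h0]; exact ENat.natCast_ne_top _)
      (by rw [h0]; simp)
    have h1 := rl_add hXZ hZY
    rw [h0, hZ] at h1
    have h2 : rl X Z = w := by
      have h3 : rl X Z ≠ ⊤ := fun h => by
        rw [h, top_add] at h1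
        exact ENat.natCast_ne_top _ h1
      obtain ⟨z, hz⟩ := ENat.ne_top_iff_exists.1 h3
      rw [← hz] at h1 ⊢
      have h4 : w + 1 = z + 1 := by exact_mod_cast h1
      rw [Nat.add_right_cancel h4]
    have h5 := ih X Z hXZ ((Submodule.smul_mono le_rfl hZY).trans hK) h2 b
    have h6 := hA_step (A := A) v m K Z Y hZY (hK.trans hXZ) hZ b
    calc hA A v Y X b ≤ hA A v Y Z b + hA A v Z X b := hA_add_le v X Z Y hXZ hZY b
      _ ≤ hA A v (⊤ : Submodule P P) m b + w * hA A v (⊤ : Submodule P P) m b := by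
        rw [h6]
        exact add_le_add_right h5 _
      _ = ((w + 1 : ℕ) : ℕ∞) * hA A v (⊤ : Submodule P P) m b := by
        push_cast
        ring

lemma hA_xi_nat (m : Ideal P) [m.IsMaximal] (K : ℕ)
    (hb : ∀ b, hA A v (⊤ : Submodule P P) m b ≠ ⊤) (w : ℕ) : ∀ (X Y : Submodule P V),
    X ≤ Y → m ^ K • Y ≤ X → rl X Y = w →
    xic n 1 (fun p => hA A v Y X (-p)) =
      (w : ℤ) * xic n 1 (fun p => hA A v (⊤ : Submodule P P) m (-p)) := by
  induction w with
  | zero =>
    intro X Y hXY _ h0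
    have h1 : Y = X := le_antisymm (rl_eq_zero_iff.1 (by simpa using h0)) hXY
    rw [h1]
    simp [hA_self, xic]
  | succ w ih =>
    intro X Y hXY hK h0
    obtain ⟨Z, hXZ, hZY, hZ⟩ := exists_step X Y hXY (by rw [h0]; exact ENat.natCast_ne_top _)
      (by rw [h0]; simp)
    have h1 := rl_add hXZ hZY
    rw [h0, hZ] at h1
    have h2 : rl X Z = w := by
      have h3 : rl X Z ≠ ⊤ := fun h => by
        rw [h, top_add] at h1
        exact ENat.natCast_ne_top _ h1
      obtain ⟨z, hz⟩ := ENat.ne_top_iff_exists.1 h3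
      rw [← hz] at h1 ⊢
      have h4 : w + 1 = z + 1 := by exact_mod_cast h1
      rw [Nat.add_right_cancel h4]
    have hKZ : m ^ K • Z ≤ X := (Submodule.smul_mono le_rfl hZY).trans hK
    have h5 := ih X Z hXZ hKZ h2
    have h6 : ∀ b, hA A v Y Z b = hA A v (⊤ : Submodule P P) m b := fun b =>
      hA_step v m K Z Y hZY (hK.trans hXZ) hZ b
    have h7 : ∀ b, hA A v Z X b ≠ ⊤ := fun b =>
      ne_top_of_le_ne_top (WithTop.mul_ne_top (ENat.natCast_ne_top w) (hb b))
        (hA_le_nat v m K w X Z hXZ hKZ h2 b)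
    rw [hA_xi_add v X Z Y hXZ hZY (fun b => by rw [h6]; exact hb b) h7, h5]
    simp only [h6]
    push_cast
    ring

end Main

end SmallDev

section Small

variable {A P Om : Type*} [CommRing A] [CommRing P] [CommRing Om] [Algebra A Om]
  [Algebra P Om] [SMulCommClass P A Om] [Module.Flat P Om] {V : Type*} [AddCommGroup V]
  [Module P V] {n : ℕ} (v : Fin n → Om)

/-- TASK G3-H3: the Koszul homology over `A` of a nilpotent module of finite length. -/
theorem hA_le (m : Ideal P) [m.IsMaximal] (K : ℕ) (X Y : Submodule P V) (hXY : X ≤ Y)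
    (hK : m ^ K • Y ≤ X) (hfin : rl X Y ≠ ⊤) (b : ℤ) :
    hA A v Y X b ≤ rl X Y * hA A v (⊤ : Submodule P P) m b := by
  obtain ⟨w, hw⟩ := ENat.ne_top_iff_exists.1 hfin
  rw [← hw]
  exact SmallDev.hA_le_nat v m K w X Y hXY hK hw.symm b

/-- TASK G3-H3: the Euler characteristic of the Koszul homology over `A`. -/
theorem hA_xi (m : Ideal P) [m.IsMaximal] (K : ℕ) (X Y : Submodule P V) (hXY : X ≤ Y)
    (hK : m ^ K • Y ≤ X) (hfin : rl X Y ≠ ⊤)
    (hb : ∀ b, hA A v (⊤ : Submodule P P) m b ≠ ⊤) :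
    xic n 1 (fun p => hA A v Y X (-p)) =
      ((rl X Y).toNat : ℤ) * xic n 1 (fun p => hA A v (⊤ : Submodule P P) m (-p)) := by
  obtain ⟨w, hw⟩ := ENat.ne_top_iff_exists.1 hfin
  rw [← hw, ENat.toNat_natCast]
  exact SmallDev.hA_xi_nat v m K hb w X Y hXY hK hw.symm

end Small

end Vale.Agent.P202.CharP.Gen2
end
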