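import Vale.Agent.P202.MathlibUsed
import Vale.Agent.P202.Bdl.B2
import Vale.Agent.P202.Bdl.B1
import Vale.Agent.P202.Bdl.B4
import Vale.Agent.P202.Bdl.B3

set_option linter.all false

section

/-!
Euler characteristics of one and two elements (definitions).
-/

namespace Vale.Agent.P202

/-- `χ(y; N)`, the length of `N / y N` minus the length of `0 :_N y`. -/
noncomputable def chi1 {S : Type*} [CommRing S] (y : S) (N : Type*) [AddCommGroup N]
    [Module S N] : ℤ :=
  ((Module.length S (N ⧸ LinearMap.range (LinearMap.lsmul S N y))).toNat : ℤ) -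
    ((Module.length S (LinearMap.ker (LinearMap.lsmul S N y))).toNat : ℤ)

/-- `χ(y1, y2; N)`. -/
noncomputable def chi2 {S : Type*} [CommRing S] (y1 y2 : S) (N : Type*) [AddCommGroup N]
    [Module S N] : ℤ :=
  chi1 y2 (N ⧸ LinearMap.range (LinearMap.lsmul S N y1)) -
    chi1 y2 (LinearMap.ker (LinearMap.lsmul S N y1))

end Vale.Agent.P202
end

section

/-!
Calculus of the Euler characteristics `chi1` and `chi2`.
-/

set_option linter.unusedSectionVars false
set_option linter.unusedVariables false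

namespace Vale.Agent.P202

open IsLocalRing LinearMap Function

universe u v

section additive

variable {S : Type u} [CommRing S]

/-- additivity of an integer valued function on the finite modules killed by `I`. -/
def AddOn (I : Ideal S) (φ : ∀ (M : Type v) [AddCommGroup M] [Module S M], ℤ) : Prop :=
  ∀ (M' M M'' : Type v) [AddCommGroup M'] [Module S M'] [AddCommGroup M] [Module S M]
    [AddCommGroup M''] [Module S M''] [Module.Finite S M] (f : M' →ₗ[S] M) (g : M →ₗ[S] M''),
    Injective f → Surjective g → Exact f g →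
    (∀ r ∈ I, ∀ m : M, r • m = 0) → φ M = φ M' + φ M''

/-- difference of the values at the cokernel and the kernel of multiplication by `y`. -/
def Del (y : S) (φ : ∀ (M : Type v) [AddCommGroup M] [Module S M], ℤ) :
    ∀ (M : Type v) [AddCommGroup M] [Module S M], ℤ := fun M _ _ =>
  φ (M ⧸ range (lsmul S M y)) - φ (ker (lsmul S M y))

variable {I : Ideal S} {φ : ∀ (M : Type v) [AddCommGroup M] [Module S M], ℤ}

lemma AddOn.zero (h : AddOn I φ) (M : Type v) [AddCommGroup M] [Module S M] [Subsingleton M] :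
    φ M = 0 := by
  have h1 := h M M M LinearMap.id LinearMap.id injective_id surjective_id
    (fun y => ⟨fun _ => ⟨0, Subsingleton.elim _ _⟩, fun _ => Subsingleton.elim _ _⟩)
    (fun r _ m => Subsingleton.elim _ _)
  omega

lemma AddOn.congr (h : AddOn I φ) {M M' : Type v} [AddCommGroup M] [Module S M]
    [AddCommGroup M'] [Module S M'] [Module.Finite S M] (hI : ∀ r ∈ I, ∀ m : M, r • m = 0)
    (e : M ≃ₗ[S] M') : φ M = φ M' := by
  have h1 := h PUnit.{v+1} M M' 0 e.toLinearMap
    (fun a b _ => Subsingleton.elim _ _) e.surjective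
    (fun y => ⟨fun hy => ⟨0, by
      have : e y = 0 := hy
      rw [LinearEquiv.map_eq_zero_iff] at this
      rw [this, map_zero]⟩, by rintro ⟨x, rfl⟩; simp⟩) hI
  rw [h.zero PUnit.{v+1}] at h1
  omega

lemma AddOn.rank [IsNoetherianRing S] (h : AddOn I φ) {M M' : Type v} [AddCommGroup M] [Module S M]
    [AddCommGroup M'] [Module S M'] [Module.Finite S M] (hI : ∀ r ∈ I, ∀ m : M, r • m = 0)
    (f : M →ₗ[S] M') : φ M = φ (ker f) + φ (range f) :=
  h (ker f) M (range f) (ker f).subtype f.rangeRestrict (Submodule.injective_subtype _)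
    f.surjective_rangeRestrict
    (fun y => ⟨fun hy => ⟨⟨y, by
      rw [LinearMap.mem_ker]
      exact congrArg Subtype.val hy⟩, rfl⟩, by
      rintro ⟨x, rfl⟩
      exact Subtype.ext (LinearMap.mem_ker.mp x.2)⟩) hI

lemma AddOn.six [IsNoetherianRing S] (h : AddOn I φ) {A1 A2 A3 A4 A5 A6 : Type v}
    [AddCommGroup A1] [Module S A1] [AddCommGroup A2] [Module S A2]
    [AddCommGroup A3] [Module S A3] [AddCommGroup A4] [Module S A4]
    [AddCommGroup A5] [Module S A5] [AddCommGroup A6] [Module S A6]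
    [Module.Finite S A1] [Module.Finite S A2] [Module.Finite S A3] [Module.Finite S A4]
    [Module.Finite S A5]
    (k1 : ∀ r ∈ I, ∀ m : A1, r • m = 0) (k2 : ∀ r ∈ I, ∀ m : A2, r • m = 0)
    (k3 : ∀ r ∈ I, ∀ m : A3, r • m = 0) (k4 : ∀ r ∈ I, ∀ m : A4, r • m = 0)
    (k5 : ∀ r ∈ I, ∀ m : A5, r • m = 0)
    (f1 : A1 →ₗ[S] A2) (f2 : A2 →ₗ[S] A3) (f3 : A3 →ₗ[S] A4) (f4 : A4 →ₗ[S] A5)
    (f5 : A5 →ₗ[S] A6) (i1 : Injective f1) (e2 : Exact f1 f2) (e3 : Exact f2 f3)
    (e4 : Exact f3 f4) (e5 : Exact f4 f5) (s5 : Surjective f5) :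
    φ A5 - φ A2 = (φ A4 - φ A1) + (φ A6 - φ A3) := by
  have E1 : φ A1 = φ (range f1) := h.congr k1 (LinearEquiv.ofInjective f1 i1)
  have E2 := h.rank k2 f2
  have E3 := h.rank k3 f3
  have E4 := h.rank k4 f4
  have E5 : φ A5 = φ (ker f5) + φ A6 := by
    refine h (ker f5) A5 A6 (ker f5).subtype f5 (Submodule.injective_subtype _) s5 ?_ k5
    intro y
    exact ⟨fun hy => ⟨⟨y, hy⟩, rfl⟩, by rintro ⟨x, rfl⟩; exact x.2⟩
  rw [(LinearMap.exact_iff.mp e2 : ker f2 = range f1)] at E2
  rw [(LinearMap.exact_iff.mp e3 : ker f3 = range f2)] at E3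
  rw [(LinearMap.exact_iff.mp e4 : ker f4 = range f3)] at E4
  rw [(LinearMap.exact_iff.mp e5 : ker f5 = range f4)] at E5
  omega

/-- the map induced on the kernels of multiplication by `y`. -/
def kerMap (y : S) {M N : Type*} [AddCommGroup M] [Module S M] [AddCommGroup N] [Module S N]
    (f : M →ₗ[S] N) : ker (lsmul S M y) →ₗ[S] ker (lsmul S N y) :=
  f.restrict (fun x hx => by
    rw [LinearMap.mem_ker, lsmul_apply] at hx ⊢
    rw [← map_smul, hx, map_zero])

/-- the map induced on the cokernels of multiplication by `y`. -/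
def cokMap (y : S) {M N : Type*} [AddCommGroup M] [Module S M] [AddCommGroup N] [Module S N]
    (f : M →ₗ[S] N) : (M ⧸ range (lsmul S M y)) →ₗ[S] (N ⧸ range (lsmul S N y)) :=
  Submodule.mapQ _ _ f (by
    rintro _ ⟨m, rfl⟩
    exact ⟨f m, by rw [lsmul_apply, lsmul_apply, map_smul]⟩)

lemma cok_killed (y : S) {M : Type*} [AddCommGroup M] [Module S M]
    (hI : ∀ r ∈ I, ∀ m : M, r • m = 0) :
    ∀ r ∈ I ⊔ Ideal.span {y}, ∀ m : M ⧸ range (lsmul S M y), r • m = 0 := by
  intro r hr m
  obtain ⟨m, rfl⟩ := Submodule.Quotient.mk_surjective _ m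
  obtain ⟨a, ha, b, hb, rfl⟩ := Submodule.mem_sup.mp hr
  obtain ⟨c, rfl⟩ := Ideal.mem_span_singleton'.mp hb
  rw [← Submodule.Quotient.mk_smul, Submodule.Quotient.mk_eq_zero, add_smul, hI a ha, zero_add]
  exact ⟨c • m, by rw [lsmul_apply, ← mul_smul, mul_comm]⟩

lemma ker_killed (y : S) {M : Type*} [AddCommGroup M] [Module S M]
    (hI : ∀ r ∈ I, ∀ m : M, r • m = 0) :
    ∀ r ∈ I ⊔ Ideal.span {y}, ∀ m : ker (lsmul S M y), r • m = 0 := by
  intro r hr m
  obtain ⟨a, ha, b, hb, rfl⟩ := Submodule.mem_sup.mp hr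
  obtain ⟨c, rfl⟩ := Ideal.mem_span_singleton'.mp hb
  apply Subtype.ext
  have h1 : y • (m : M) = 0 := m.2
  rw [Submodule.coe_smul, add_smul, hI a ha, zero_add, mul_smul, h1, smul_zero]
  rfl

/-- the snake lemma step. -/
lemma AddOn.del [IsNoetherianRing S] (y : S) (h : AddOn (I ⊔ Ideal.span {y}) φ) :
    AddOn I (Del y φ) := by
  intro M' M M'' _ _ _ _ _ _ _ f g hf hg hfg hI
  have hI' : ∀ r ∈ I, ∀ m : M', r • m = 0 := by
    intro r hr m
    apply hf
    rw [map_smul, hI r hr, map_zero]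
  have hI'' : ∀ r ∈ I, ∀ m : M'', r • m = 0 := by
    intro r hr m
    obtain ⟨m, rfl⟩ := hg m
    rw [← map_smul, hI r hr, map_zero]
  have hfin' : Module.Finite S M' := Module.Finite.of_injective f hf
  have hfin'' : Module.Finite S M'' := Module.Finite.of_surjective g hg
  have h₁ : f.comp (lsmul S M' y) = (lsmul S M y).comp f := by
    ext m; simp
  have h₂ : g.comp (lsmul S M y) = (lsmul S M'' y).comp g := by
    ext m; simp
  have hι₂ : Exact (ker (lsmul S M y)).subtype (lsmul S M y) := LinearMap.exact_subtype_ker_map _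
  have hι₃ : Exact (ker (lsmul S M'' y)).subtype (lsmul S M'' y) :=
    LinearMap.exact_subtype_ker_map _
  have hπ₁ : Exact (lsmul S M' y) (range (lsmul S M' y)).mkQ := LinearMap.exact_map_mkQ_range _
  have hπ₂ : Exact (lsmul S M y) (range (lsmul S M y)).mkQ := LinearMap.exact_map_mkQ_range _
  have ex3 := SnakeLemma.exact_δ'_right (lsmul S M' y) (lsmul S M y) (lsmul S M'' y) f g hfg
    f g hfg h₁ h₂ (ker (lsmul S M y)).subtype hι₂ (ker (lsmul S M'' y)).subtype hι₃
    (range (lsmul S M' y)).mkQ hπ₁ hg hf (kerMap y g) rfl (Submodule.injective_subtype _)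
  have ex4 := SnakeLemma.exact_δ'_left (lsmul S M' y) (lsmul S M y) (lsmul S M'' y) f g hfg
    f g hfg h₁ h₂ (ker (lsmul S M'' y)).subtype hι₃
    (range (lsmul S M' y)).mkQ hπ₁ (range (lsmul S M y)).mkQ hπ₂ hg hf (cokMap y f) rfl
    (Submodule.mkQ_surjective _)
  refine h.six (ker_killed y hI') (ker_killed y hI) (ker_killed y hI'') (cok_killed y hI')
    (cok_killed y hI) (kerMap y f) (kerMap y g) _ (cokMap y f) (cokMap y g) ?_ ?_ ex3 ex4 ?_ ?_
  · intro a b hab
    exact Subtype.ext (hf (congrArg Subtype.val hab))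
  · intro a
    constructor
    · intro ha
      have ha' : g a = 0 := congrArg Subtype.val ha
      obtain ⟨b, hb⟩ := (hfg a).mp ha'
      refine ⟨⟨b, ?_⟩, Subtype.ext hb⟩
      rw [LinearMap.mem_ker, lsmul_apply]
      apply hf
      rw [map_smul, hb, map_zero]
      exact a.2
    · rintro ⟨b, rfl⟩
      exact Subtype.ext ((hfg _).mpr ⟨b, rfl⟩)
  · intro a
    obtain ⟨a, rfl⟩ := Submodule.Quotient.mk_surjective _ a
    constructor
    · intro ha
      have ha' : (Submodule.Quotient.mk (g a) : M'' ⧸ range (lsmul S M'' y)) = 0 := ha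
      rw [Submodule.Quotient.mk_eq_zero] at ha'
      obtain ⟨c, hc⟩ := ha'
      obtain ⟨c, rfl⟩ := hg c
      rw [lsmul_apply, ← map_smul, eq_comm, ← sub_eq_zero, ← map_sub] at hc
      obtain ⟨b, hb⟩ := (hfg _).mp hc
      refine ⟨Submodule.Quotient.mk b, ?_⟩
      change Submodule.Quotient.mk (f b) = _
      rw [hb, Submodule.Quotient.eq]
      refine ⟨-c, ?_⟩
      rw [lsmul_apply, smul_neg]
      abel
    · rintro ⟨b, hb⟩
      obtain ⟨b, rfl⟩ := Submodule.Quotient.mk_surjective _ b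
      rw [← hb]
      change (Submodule.Quotient.mk (g (f b)) : M'' ⧸ range (lsmul S M'' y)) = 0
      rw [(hfg _).mpr ⟨b, rfl⟩]
      rfl
  · intro a
    obtain ⟨a, rfl⟩ := Submodule.Quotient.mk_surjective _ a
    obtain ⟨a, rfl⟩ := hg a
    exact ⟨Submodule.Quotient.mk a, rfl⟩

end additive

section finiteness

variable {S : Type*} [CommRing S]

/-- a finite module killed by an ideal of finite colength has finite length. -/
lemma length_ne_top_of_killed {I : Ideal S} (hfin : Module.length S (S ⧸ I) ≠ ⊤)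
    (M : Type*) [AddCommGroup M] [Module S M] [Module.Finite S M]
    (hI : ∀ r ∈ I, ∀ m : M, r • m = 0) : Module.length S M ≠ ⊤ := by
  obtain ⟨n, π, hπ⟩ := Module.Finite.exists_fin' S M
  let g : Fin n → ((S ⧸ I) →ₗ[S] M) := fun i =>
    Submodule.liftQ I (LinearMap.toSpanSingleton S M (π (Pi.single i 1))) (by
      intro r hr
      rw [LinearMap.mem_ker, LinearMap.toSpanSingleton_apply]
      exact hI r hr _)
  let G : (Fin n → (S ⧸ I)) →ₗ[S] M := LinearMap.lsum S (fun _ => S ⧸ I) S g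
  have hG : Surjective G := by
    intro m
    obtain ⟨v, rfl⟩ := hπ m
    refine ⟨fun i => Submodule.Quotient.mk (v i), ?_⟩
    have h0 : G (fun i => Submodule.Quotient.mk (v i)) =
        ∑ i, g i (Submodule.Quotient.mk (v i)) := by
      simp [G, LinearMap.lsum_apply]
    have h1 : ∀ i, g i (Submodule.Quotient.mk (v i)) = v i • π (Pi.single i 1) := fun i => rfl
    rw [h0]
    simp only [h1, ← map_smul, ← map_sum]
    congr 1
    ext j
    simp [Finset.sum_apply, Pi.single_apply]
  have h2 : Module.length S (Fin n → (S ⧸ I)) ≠ ⊤ := by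
    rw [Module.length_pi]
    refine WithTop.mul_ne_top ?_ hfin
    rw [ENat.card_eq_coe_fintype_card]
    exact ENat.natCast_ne_top _
  exact ne_top_of_le_ne_top h2 (Module.length_le_of_surjective G hG)

lemma addOn_length [IsNoetherianRing S] {I : Ideal S}
    (hfin : Module.length S (S ⧸ I) ≠ ⊤) :
    AddOn.{_, v} I (fun M _ _ => ((Module.length S M).toNat : ℤ)) := by
  intro M' M M'' _ _ _ _ _ _ _ f g hf hg hfg hI
  have h1 := Module.length_eq_add_of_exact f g hf hg hfg
  have h2 := length_ne_top_of_killed hfin M hI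
  have h3 : Module.length S M' ≠ ⊤ := ne_top_of_le_ne_top h2 (Module.length_le_of_injective f hf)
  have h4 : Module.length S M'' ≠ ⊤ := ne_top_of_le_ne_top h2 (Module.length_le_of_surjective g hg)
  simp only [h1, ENat.toNat_add h3 h4]
  push_cast
  ring

lemma addOn_chi1 [IsNoetherianRing S] {I : Ideal S} (y : S)
    (hfin : Module.length S (S ⧸ (I ⊔ Ideal.span {y})) ≠ ⊤) :
    AddOn.{_, v} I (fun M _ _ => chi1 y M) :=
  AddOn.del y (addOn_length hfin)

lemma addOn_chi2 [IsNoetherianRing S] (y1 y2 : S)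
    (hfin : Module.length S (S ⧸ Ideal.span {y1, y2}) ≠ ⊤) :
    AddOn.{_, v} (⊥ : Ideal S) (fun M _ _ => chi2 y1 y2 M) := by
  refine AddOn.del y1 (addOn_chi1 y2 ?_)
  rw [bot_sup_eq, ← Ideal.span_insert]
  exact hfin

end finiteness

section congr

variable {S : Type*} [CommRing S] {M M' : Type*} [AddCommGroup M] [Module S M]
  [AddCommGroup M'] [Module S M']

/-- equivalence of cokernels. -/
def cokEquiv (y : S) (e : M ≃ₗ[S] M') :
    (M ⧸ range (lsmul S M y)) ≃ₗ[S] (M' ⧸ range (lsmul S M' y)) :=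
  Submodule.Quotient.equiv _ _ e (by
    ext x
    constructor
    · rintro ⟨_, ⟨z, rfl⟩, rfl⟩
      exact ⟨e z, by simp⟩
    · rintro ⟨z, rfl⟩
      exact ⟨y • e.symm z, ⟨e.symm z, rfl⟩, by simp⟩)

/-- equivalence of kernels. -/
def kerEquiv (y : S) (e : M ≃ₗ[S] M') :
    ker (lsmul S M y) ≃ₗ[S] ker (lsmul S M' y) :=
  LinearEquiv.ofSubmodules e _ _ (by
    ext x
    constructor
    · rintro ⟨z, hz, rfl⟩
      have hz' : y • z = 0 := hz
      change y • e z = 0
      rw [← map_smul, hz', map_zero]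
    · intro hx
      have hx' : y • x = 0 := hx
      refine ⟨e.symm x, ?_, by simp⟩
      change y • e.symm x = 0
      rw [← map_smul, hx', map_zero])

lemma chi1_congr (y : S) (e : M ≃ₗ[S] M') : chi1 y M = chi1 y M' := by
  unfold chi1
  rw [(cokEquiv y e).length_eq, (kerEquiv y e).length_eq]

lemma chi2_congr (y1 y2 : S) (e : M ≃ₗ[S] M') : chi2 y1 y2 M = chi2 y1 y2 M' := by
  unfold chi2
  rw [chi1_congr y2 (cokEquiv y1 e), chi1_congr y2 (kerEquiv y1 e)]

end congr

section killed

variable {S : Type*} [CommRing S] {M : Type*} [AddCommGroup M] [Module S M]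

lemma chi1_of_subsingleton [Subsingleton M] (y : S) : chi1 y M = 0 := by
  unfold chi1
  have : Subsingleton (M ⧸ range (lsmul S M y)) := by
    rw [Submodule.Quotient.subsingleton_iff]
    exact Subsingleton.elim _ _
  rw [Module.length_eq_zero, Module.length_eq_zero]
  simp

lemma chi2_of_subsingleton [Subsingleton M] (y1 y2 : S) : chi2 y1 y2 M = 0 := by
  unfold chi2
  have : Subsingleton (M ⧸ range (lsmul S M y1)) := by
    rw [Submodule.Quotient.subsingleton_iff]
    exact Subsingleton.elim _ _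
  rw [chi1_of_subsingleton, chi1_of_subsingleton, sub_self]

/-- `chi1` vanishes on modules of finite length. -/
lemma chi1_of_finite_length (y : S) (h : Module.length S M ≠ ⊤) : chi1 y M = 0 := by
  have h1 := Module.length_eq_add_of_exact (ker (lsmul S M y)).subtype (lsmul S M y).rangeRestrict
    (Submodule.injective_subtype _) (lsmul S M y).surjective_rangeRestrict
    (fun z => ⟨fun hz => ⟨⟨z, by
      rw [LinearMap.mem_ker]
      exact congrArg Subtype.val hz⟩, rfl⟩, by
      rintro ⟨x, rfl⟩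
      exact Subtype.ext (LinearMap.mem_ker.mp x.2)⟩)
  have h2 := Module.length_eq_add_of_exact (range (lsmul S M y)).subtype
    (range (lsmul S M y)).mkQ (Submodule.injective_subtype _) (Submodule.mkQ_surjective _)
    (LinearMap.exact_subtype_mkQ _)
  unfold chi1
  have h3 : Module.length S (ker (lsmul S M y)) ≠ ⊤ :=
    ne_top_of_le_ne_top h (Module.length_le_of_injective _ (Submodule.injective_subtype _))
  have h4 : Module.length S (range (lsmul S M y)) ≠ ⊤ :=
    ne_top_of_le_ne_top h (Module.length_le_of_injective _ (Submodule.injective_subtype _))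
  have h5 : Module.length S (M ⧸ range (lsmul S M y)) ≠ ⊤ :=
    ne_top_of_le_ne_top h (Module.length_le_of_surjective _ (Submodule.mkQ_surjective _))
  rw [h1] at h2
  have h6 := congrArg ENat.toNat h2
  rw [ENat.toNat_add h3 h4, ENat.toNat_add h4 h5] at h6
  omega

lemma ker_eq_bot_of_injective (y : S) (r : ∀ v : M, y • v = 0 → v = 0) :
    ker (lsmul S M y) = ⊥ := by
  rw [eq_bot_iff]
  intro v hv
  exact (Submodule.mem_bot S).mpr (r v hv)

/-- `chi2` of a regular pair. -/
theorem chi2_of_regular' (y1 y2 : S) (r1 : ∀ v : M, y1 • v = 0 → v = 0)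
    (r2 : ∀ v w : M, y2 • v = y1 • w → ∃ u : M, v = y1 • u) :
    chi2 y1 y2 M =
      ((Module.length S (M ⧸ (Ideal.span {y1, y2} • (⊤ : Submodule S M)))).toNat : ℤ) := by
  unfold chi2
  have hs : Subsingleton (ker (lsmul S M y1)) := by
    rw [ker_eq_bot_of_injective y1 r1]
    infer_instance
  rw [chi1_of_subsingleton (M := ker (lsmul S M y1)), sub_zero]
  unfold chi1
  have hk : ker (lsmul S (M ⧸ range (lsmul S M y1)) y2) = ⊥ := by
    apply ker_eq_bot_of_injective
    intro v hv
    obtain ⟨v, rfl⟩ := Submodule.Quotient.mk_surjective _ v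
    rw [← Submodule.Quotient.mk_smul, Submodule.Quotient.mk_eq_zero] at hv
    rw [Submodule.Quotient.mk_eq_zero]
    obtain ⟨w, hw⟩ := hv
    obtain ⟨u, hu⟩ := r2 v w hw.symm
    exact ⟨u, hu.symm⟩
  rw [hk, Module.length_bot]
  let G : M →ₗ[S] ((M ⧸ range (lsmul S M y1)) ⧸ range (lsmul S (M ⧸ range (lsmul S M y1)) y2)) :=
    (Submodule.mkQ _).comp (Submodule.mkQ _)
  have hG : Surjective G := (Submodule.mkQ_surjective _).comp (Submodule.mkQ_surjective _)
  have hker : ker G = Ideal.span {y1, y2} • (⊤ : Submodule S M) := by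
    ext v
    have h1 : v ∈ ker G ↔ (Submodule.Quotient.mk v : M ⧸ range (lsmul S M y1)) ∈
        range (lsmul S (M ⧸ range (lsmul S M y1)) y2) := by
      rw [LinearMap.mem_ker]
      exact Submodule.Quotient.mk_eq_zero _
    rw [h1, Ideal.span_insert, Submodule.sup_smul, Submodule.ideal_span_singleton_smul,
      Submodule.ideal_span_singleton_smul, Submodule.mem_sup]
    constructor
    · rintro ⟨w, hw⟩
      obtain ⟨w, rfl⟩ := Submodule.Quotient.mk_surjective _ w
      rw [lsmul_apply, ← Submodule.Quotient.mk_smul, Submodule.Quotient.eq] at hw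
      obtain ⟨u, hu⟩ := hw
      rw [lsmul_apply] at hu
      refine ⟨y1 • (-u), Submodule.smul_mem_pointwise_smul _ _ _ trivial, y2 • w,
        Submodule.smul_mem_pointwise_smul _ _ _ trivial, ?_⟩
      rw [smul_neg, hu]
      abel
    · rintro ⟨a, ha, b, hb, rfl⟩
      rw [Submodule.mem_smul_pointwise_iff_exists] at ha hb
      obtain ⟨a, -, rfl⟩ := ha
      obtain ⟨b, -, rfl⟩ := hb
      refine ⟨Submodule.Quotient.mk b, ?_⟩
      rw [lsmul_apply, ← Submodule.Quotient.mk_smul, Submodule.Quotient.eq]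
      refine ⟨-a, ?_⟩
      rw [lsmul_apply, smul_neg]
      abel
  have e := (Submodule.quotEquivOfEq _ _ hker.symm).trans (G.quotKerEquivOfSurjective hG)
  rw [e.length_eq]
  simp

end killed

section nonneg

variable {S : Type*} [CommRing S] [IsNoetherianRing S]

/-- additivity of `chi2`. -/
theorem chi2_add' (y1 y2 : S)
    (hfin : Module.length S (S ⧸ Ideal.span {y1, y2}) ≠ ⊤)
    {N' N N'' : Type*} [AddCommGroup N'] [Module S N'] [AddCommGroup N] [Module S N]
    [AddCommGroup N''] [Module S N''] [Module.Finite S N] (f : N' →ₗ[S] N) (g : N →ₗ[S] N'')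
    (hf : Function.Injective f) (hg : Function.Surjective g) (hfg : Function.Exact f g) :
    chi2 y1 y2 N = chi2 y1 y2 N' + chi2 y1 y2 N'' := by
  have h1 : chi2 y1 y2 N' = chi2 y1 y2 (range f) := chi2_congr y1 y2 (LinearEquiv.ofInjective f hf)
  have hk : ker g = range f := LinearMap.exact_iff.mp hfg
  have h2 : chi2 y1 y2 (N ⧸ range f) = chi2 y1 y2 N'' :=
    chi2_congr y1 y2 ((Submodule.quotEquivOfEq _ _ hk.symm).trans (g.quotKerEquivOfSurjective hg))
  rw [h1, ← h2]
  exact addOn_chi2 y1 y2 hfin (range f) N (N ⧸ range f) (range f).subtype (range f).mkQ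
    (Submodule.injective_subtype _) (Submodule.mkQ_surjective _) (LinearMap.exact_subtype_mkQ _)
    (by intro r hr m; rw [(Submodule.mem_bot S).mp hr, zero_smul])

lemma exists_torsion (y : S) (M : Type*) [AddCommGroup M] [Module S M] [Module.Finite S M] :
    ∃ (k : ℕ) (K : Submodule S M), (∀ v ∈ K, y ^ k • v = 0) ∧ (∀ v, y • v ∈ K → v ∈ K) := by
  let f : ℕ →o Submodule S M :=
    ⟨fun k => ker (lsmul S M (y ^ k)), fun a b hab => by
      intro v hv
      have hv' : y ^ a • v = 0 := hv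
      change y ^ b • v = 0
      obtain ⟨c, rfl⟩ := Nat.exists_eq_add_of_le hab
      rw [add_comm, pow_add, mul_smul, hv', smul_zero]⟩
  obtain ⟨n, hn⟩ := monotone_stabilizes_iff_noetherian.mpr inferInstance f
  refine ⟨n, f n, fun v hv => hv, fun v hv => ?_⟩
  rw [hn (n + 1) (Nat.le_succ n)]
  change y ^ (n + 1) • v = 0
  rw [pow_succ, mul_smul]
  exact hv

omit [IsNoetherianRing S] in
lemma length_eq_add_quot (M : Type*) [AddCommGroup M] [Module S M] (K : Submodule S M) :
    Module.length S M = Module.length S K + Module.length S (M ⧸ K) :=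
  Module.length_eq_add_of_exact K.subtype K.mkQ (Submodule.injective_subtype _)
    (Submodule.mkQ_surjective _) (LinearMap.exact_subtype_mkQ _)

lemma length_ne_top_of_killed_pow {I : Ideal S} (y : S)
    (hfin : Module.length S (S ⧸ (I ⊔ Ideal.span {y})) ≠ ⊤) (k : ℕ) :
    ∀ (M : Type v) [AddCommGroup M] [Module S M] [Module.Finite S M]
    (_ : ∀ r ∈ I, ∀ m : M, r • m = 0) (_ : ∀ m : M, y ^ k • m = 0), Module.length S M ≠ ⊤ := by
  induction k with
  | zero =>
    intro M _ _ _ _ hy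
    have : Subsingleton M := ⟨fun a b => by
      rw [← one_smul S a, ← one_smul S b, ← pow_zero y, hy, hy]⟩
    rw [Module.length_eq_zero]
    exact ENat.zero_ne_top
  | succ k ih =>
    intro M _ _ _ hI hy
    rw [length_eq_add_quot M (range (lsmul S M y))]
    refine WithTop.add_ne_top.mpr ⟨ih _ ?_ ?_, length_ne_top_of_killed hfin _ (cok_killed y hI)⟩
    · intro r hr m
      exact Subtype.ext (hI r hr m)
    · rintro ⟨_, m, rfl⟩
      apply Subtype.ext
      change y ^ k • y • m = 0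
      rw [← mul_smul, ← pow_succ]
      exact hy m

lemma chi1_nonneg {I : Ideal S} (y : S)
    (hfin : Module.length S (S ⧸ (I ⊔ Ideal.span {y})) ≠ ⊤)
    (M : Type*) [AddCommGroup M] [Module S M] [Module.Finite S M]
    (hI : ∀ r ∈ I, ∀ m : M, r • m = 0) : 0 ≤ chi1 y M := by
  obtain ⟨k, K, hK1, hK2⟩ := exists_torsion y M
  have h1 : chi1 y M = chi1 y K + chi1 y (M ⧸ K) :=
    addOn_chi1 y hfin K M (M ⧸ K) K.subtype K.mkQ (Submodule.injective_subtype _)
      (Submodule.mkQ_surjective _) (LinearMap.exact_subtype_mkQ _) hI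
  have h2 : chi1 y K = 0 := chi1_of_finite_length y
    (length_ne_top_of_killed_pow y hfin k K (fun r hr m => Subtype.ext (hI r hr m))
      (fun m => Subtype.ext (hK1 m m.2)))
  have h3 : ker (lsmul S (M ⧸ K) y) = ⊥ := by
    apply ker_eq_bot_of_injective
    intro v hv
    obtain ⟨v, rfl⟩ := Submodule.Quotient.mk_surjective _ v
    rw [← Submodule.Quotient.mk_smul, Submodule.Quotient.mk_eq_zero] at hv
    rw [Submodule.Quotient.mk_eq_zero]
    exact hK2 v hv
  rw [h1, h2, zero_add]
  unfold chi1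
  rw [h3, Module.length_bot]
  simp

omit [IsNoetherianRing S] in
lemma chi2_of_killed (y1 y2 : S) (M : Type*) [AddCommGroup M] [Module S M]
    (hy : ∀ m : M, y1 • m = 0) : chi2 y1 y2 M = 0 := by
  have h1 : range (lsmul S M y1) = ⊥ := by
    rw [eq_bot_iff]
    rintro _ ⟨m, rfl⟩
    exact (Submodule.mem_bot S).mpr (hy m)
  have h2 : ker (lsmul S M y1) = ⊤ := by
    rw [eq_top_iff]
    intro m _
    exact hy m
  unfold chi2
  rw [chi1_congr y2 (Submodule.quotEquivOfEqBot _ h1), chi1_congr y2 (LinearEquiv.ofTop _ h2),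
    sub_self]

lemma chi2_of_killed_pow (y1 y2 : S)
    (hfin : Module.length S (S ⧸ Ideal.span {y1, y2}) ≠ ⊤) (k : ℕ) :
    ∀ (M : Type v) [AddCommGroup M] [Module S M] [Module.Finite S M]
    (_ : ∀ m : M, y1 ^ k • m = 0), chi2 y1 y2 M = 0 := by
  induction k with
  | zero =>
    intro M _ _ _ hy
    have : Subsingleton M := ⟨fun a b => by
      rw [← one_smul S a, ← one_smul S b, ← pow_zero y1, hy, hy]⟩
    exact chi2_of_subsingleton y1 y2
  | succ k ih =>
    intro M _ _ _ hy
    rw [chi2_add' y1 y2 hfin (range (lsmul S M y1)).subtype (range (lsmul S M y1)).mkQ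
      (Submodule.injective_subtype _) (Submodule.mkQ_surjective _)
      (LinearMap.exact_subtype_mkQ _), ih, chi2_of_killed, add_zero]
    · intro m
      obtain ⟨m, rfl⟩ := Submodule.Quotient.mk_surjective _ m
      rw [← Submodule.Quotient.mk_smul, Submodule.Quotient.mk_eq_zero]
      exact ⟨m, rfl⟩
    · rintro ⟨_, m, rfl⟩
      apply Subtype.ext
      change y1 ^ k • y1 • m = 0
      rw [← mul_smul, ← pow_succ]
      exact hy m

/-- nonnegativity of `chi2`. -/
theorem chi2_nonneg' (y1 y2 : S)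
    (hfin : Module.length S (S ⧸ Ideal.span {y1, y2}) ≠ ⊤)
    (M : Type*) [AddCommGroup M] [Module S M] [Module.Finite S M] : 0 ≤ chi2 y1 y2 M := by
  obtain ⟨k, K, hK1, hK2⟩ := exists_torsion y1 M
  rw [chi2_add' y1 y2 hfin K.subtype K.mkQ (Submodule.injective_subtype _)
    (Submodule.mkQ_surjective _) (LinearMap.exact_subtype_mkQ _),
    chi2_of_killed_pow y1 y2 hfin k K (fun m => Subtype.ext (hK1 m m.2)), zero_add]
  have h3 : ker (lsmul S (M ⧸ K) y1) = ⊥ := by
    apply ker_eq_bot_of_injective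
    intro v hv
    obtain ⟨v, rfl⟩ := Submodule.Quotient.mk_surjective _ v
    rw [← Submodule.Quotient.mk_smul, Submodule.Quotient.mk_eq_zero] at hv
    rw [Submodule.Quotient.mk_eq_zero]
    exact hK2 v hv
  have hs : Subsingleton (ker (lsmul S (M ⧸ K) y1)) := by
    rw [h3]
    infer_instance
  unfold chi2
  rw [chi1_of_subsingleton (M := ker (lsmul S (M ⧸ K) y1)), sub_zero]
  refine chi1_nonneg (I := ⊥ ⊔ Ideal.span {y1}) y2 ?_ _ (cok_killed y1 ?_)
  · rw [bot_sup_eq, ← Ideal.span_insert]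
    exact hfin
  · intro r hr m
    rw [(Submodule.mem_bot S).mp hr, zero_smul]

end nonneg

section swap

variable {S : Type u} [CommRing S]

end swap

section compare

variable {S : Type u} [CommRing S]

/-- length of `E / x^i E` for `x` injective on `E`. -/
lemma length_quot_pow {E : Type v} [AddCommGroup E] [Module S E] (x : S)
    (hx : ∀ v : E, x • v = 0 → v = 0) (i : ℕ) :
    Module.length S (E ⧸ range (lsmul S E (x ^ i))) =
      i * Module.length S (E ⧸ range (lsmul S E x)) := by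
  induction i with
  | zero =>
    have : Subsingleton (E ⧸ range (lsmul S E (x ^ 0))) := by
      rw [Submodule.Quotient.subsingleton_iff, eq_top_iff]
      intro v _
      exact ⟨v, by simp⟩
    rw [Module.length_eq_zero]
    simp
  | succ i ih =>
    have hinj : Injective (lsmul S E (x ^ i)) := by
      rw [injective_iff_map_eq_zero]
      have key : ∀ (k : ℕ) (v : E), x ^ k • v = 0 → v = 0 := by
        intro k
        induction k with
        | zero => intro v h; simpa using h
        | succ k ihk =>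
          intro v h
          rw [pow_succ, mul_smul] at h
          exact hx v (ihk _ h)
      exact key i
    have h1 : range (lsmul S E (x ^ (i + 1))) = (range (lsmul S E x)).map (lsmul S E (x ^ i)) := by
      ext v
      constructor
      · rintro ⟨w, rfl⟩
        refine ⟨x • w, ⟨w, rfl⟩, ?_⟩
        rw [lsmul_apply, lsmul_apply, ← mul_smul, ← pow_succ]
      · rintro ⟨_, ⟨w, rfl⟩, rfl⟩
        refine ⟨w, ?_⟩
        rw [lsmul_apply, lsmul_apply, lsmul_apply, ← mul_smul, ← pow_succ]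
    have h2 : range (lsmul S E (x ^ i)) = (⊤ : Submodule S E).map (lsmul S E (x ^ i)) :=
      LinearMap.range_eq_map _
    rw [← rl_top, ← rl_top] at ih
    rw [← rl_top, ← rl_top, rl_add (L := range (lsmul S E (x ^ i))) ?_ le_top, ih]
    · have h3 : rl (range (lsmul S E (x ^ (i + 1)))) (range (lsmul S E (x ^ i))) =
          rl (range (lsmul S E x)) ⊤ := by
        rw [h1]
        nth_rewrite 1 [h2]
        exact rl_map_of_injective _ hinj _ _
      rw [h3]
      push_cast
      ring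
    · rintro _ ⟨w, rfl⟩
      exact ⟨x • w, by rw [lsmul_apply, lsmul_apply, ← mul_smul, ← pow_succ]⟩

lemma mul_chi1_le [IsNoetherianRing S] {I : Ideal S} (x : S)
    (hfin : Module.length S (S ⧸ (I ⊔ Ideal.span {x})) ≠ ⊤)
    (D : Type v) [AddCommGroup D] [Module S D] [Module.Finite S D]
    (hI : ∀ r ∈ I, ∀ m : D, r • m = 0) (i : ℕ) :
    (i : ℤ) * chi1 x D ≤
      ((Module.length S (D ⧸ range (lsmul S D (x ^ i)))).toNat : ℤ) := by
  obtain ⟨k, K, hK1, hK2⟩ := exists_torsion x D
  have h1 : chi1 x D = chi1 x K + chi1 x (D ⧸ K) :=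
    addOn_chi1 x hfin K D (D ⧸ K) K.subtype K.mkQ (Submodule.injective_subtype _)
      (Submodule.mkQ_surjective _) (LinearMap.exact_subtype_mkQ _) hI
  have h2 : chi1 x K = 0 := chi1_of_finite_length x
    (length_ne_top_of_killed_pow x hfin k K (fun r hr m => Subtype.ext (hI r hr m))
      (fun m => Subtype.ext (hK1 m m.2)))
  have hinj : ∀ v : D ⧸ K, x • v = 0 → v = 0 := by
    intro v hv
    obtain ⟨v, rfl⟩ := Submodule.Quotient.mk_surjective _ v
    rw [← Submodule.Quotient.mk_smul, Submodule.Quotient.mk_eq_zero] at hv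
    rw [Submodule.Quotient.mk_eq_zero]
    exact hK2 v hv
  have h3 : ker (lsmul S (D ⧸ K) x) = ⊥ := ker_eq_bot_of_injective x hinj
  have h4 : chi1 x (D ⧸ K) =
      ((Module.length S ((D ⧸ K) ⧸ range (lsmul S (D ⧸ K) x))).toNat : ℤ) := by
    unfold chi1
    rw [h3, Module.length_bot]
    simp
  have h5 := length_quot_pow (E := D ⧸ K) x hinj i
  have h6 : Module.length S ((D ⧸ K) ⧸ range (lsmul S (D ⧸ K) (x ^ i))) ≤
      Module.length S (D ⧸ range (lsmul S D (x ^ i))) := by
    refine Module.length_le_of_surjective (Submodule.mapQ _ _ K.mkQ ?_) ?_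
    · rintro _ ⟨w, rfl⟩
      exact ⟨K.mkQ w, by rw [lsmul_apply, lsmul_apply, map_smul]⟩
    · intro z
      obtain ⟨z, rfl⟩ := Submodule.Quotient.mk_surjective _ z
      obtain ⟨z, rfl⟩ := Submodule.Quotient.mk_surjective _ z
      exact ⟨Submodule.Quotient.mk z, rfl⟩
  have h7 : Module.length S (D ⧸ range (lsmul S D (x ^ i))) ≠ ⊤ := by
    refine length_ne_top_of_killed_pow x hfin i _ ?_ ?_
    · intro r hr m
      obtain ⟨m, rfl⟩ := Submodule.Quotient.mk_surjective _ m
      rw [← Submodule.Quotient.mk_smul, hI r hr m]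
      rfl
    · intro m
      obtain ⟨m, rfl⟩ := Submodule.Quotient.mk_surjective _ m
      rw [← Submodule.Quotient.mk_smul, Submodule.Quotient.mk_eq_zero]
      exact ⟨m, rfl⟩
  rw [h1, h2, zero_add, h4]
  rw [h5] at h6
  have h8 := ENat.toNat_le_toNat h6 h7
  rw [ENat.toNat_mul, ENat.toNat_natCast] at h8
  exact_mod_cast h8

end compare

section final

/-- TASK X1: additivity of `chi2`. -/
theorem chi2_add {B : Type*} [CommRing B] [IsLocalRing B] [IsNoetherianRing B] (y1 y2 : B)
    (hy1 : y1 ∈ maximalIdeal B) (hy2 : y2 ∈ maximalIdeal B)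
    (hfin : Module.length B (B ⧸ Ideal.span {y1, y2}) ≠ ⊤)
    {N' N N'' : Type*} [AddCommGroup N'] [Module B N'] [AddCommGroup N] [Module B N]
    [AddCommGroup N''] [Module B N''] [Module.Finite B N] (f : N' →ₗ[B] N) (g : N →ₗ[B] N'')
    (hf : Function.Injective f) (hg : Function.Surjective g) (hfg : Function.Exact f g) :
    chi2 y1 y2 N = chi2 y1 y2 N' + chi2 y1 y2 N'' :=
  chi2_add' y1 y2 hfin f g hf hg hfg

/-- TASK X2. -/
theorem chi2_nonneg {B : Type*} [CommRing B] [IsLocalRing B] [IsNoetherianRing B] (y1 y2 : B)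
    (hy1 : y1 ∈ maximalIdeal B) (hy2 : y2 ∈ maximalIdeal B)
    (hfin : Module.length B (B ⧸ Ideal.span {y1, y2}) ≠ ⊤)
    (N : Type*) [AddCommGroup N] [Module B N] [Module.Finite B N] : 0 ≤ chi2 y1 y2 N :=
  chi2_nonneg' y1 y2 hfin N

/-- TASK X3. -/
theorem chi2_of_regular {B : Type*} [CommRing B] (y1 y2 : B)
    (N : Type*) [AddCommGroup N] [Module B N]
    (r1 : ∀ v : N, y1 • v = 0 → v = 0)
    (r2 : ∀ v w : N, y2 • v = y1 • w → ∃ u : N, v = y1 • u) :
    chi2 y1 y2 N =
      ((Module.length B (N ⧸ (Ideal.span {y1, y2} • (⊤ : Submodule B N)))).toNat : ℤ) :=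
  chi2_of_regular' y1 y2 r1 r2

end final

end Vale.Agent.P202
end

section

/-!
Comparison of the Euler characteristic `chi2` with the invariant `emin`.
-/

set_option linter.unusedSectionVars false

namespace Vale.Agent.P202

open IsLocalRing LinearMap Function Finset

universe u v

section

variable {S : Type u} [CommRing S]

lemma pow_smul_inj {E : Type v} [AddCommGroup E] [Module S E] {x : S}
    (hx : ∀ v : E, x • v = 0 → v = 0) (k : ℕ) : ∀ v : E, x ^ k • v = 0 → v = 0 := by
  induction k with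
  | zero => intro v h; simpa using h
  | succ k ihk =>
    intro v h
    rw [pow_succ, mul_smul] at h
    exact hx v (ihk _ h)

/-- additive functions on the quotients `E / x^i E`. -/
lemma addOn_quot_pow {φ : ∀ (M : Type v) [AddCommGroup M] [Module S M], ℤ} (x : S) (N : ℕ)
    (h : AddOn (Ideal.span {x ^ N}) φ) (E : Type v) [AddCommGroup E] [Module S E]
    [Module.Finite S E] (hx : ∀ v : E, x • v = 0 → v = 0) (i : ℕ) (hi : i ≤ N) :
    φ (E ⧸ range (lsmul S E (x ^ i))) = i * φ (E ⧸ range (lsmul S E x)) := by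
  induction i with
  | zero =>
    have : Subsingleton (E ⧸ range (lsmul S E (x ^ 0))) := by
      rw [Submodule.Quotient.subsingleton_iff, eq_top_iff]
      intro v _
      exact ⟨v, by simp⟩
    rw [h.zero]
    simp
  | succ i ih =>
    have hf0 : range (lsmul S E x) ≤
        (range (lsmul S E (x ^ (i + 1)))).comap (lsmul S E (x ^ i)) := by
      rintro _ ⟨w, rfl⟩
      exact ⟨w, by rw [lsmul_apply, lsmul_apply, lsmul_apply, ← mul_smul, ← pow_succ]⟩
    have hg0 : range (lsmul S E (x ^ (i + 1))) ≤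
        (range (lsmul S E (x ^ i))).comap LinearMap.id := by
      rintro _ ⟨w, rfl⟩
      exact ⟨x • w, by rw [lsmul_apply, id_apply, lsmul_apply, ← mul_smul, ← pow_succ]⟩
    let f : (E ⧸ range (lsmul S E x)) →ₗ[S] (E ⧸ range (lsmul S E (x ^ (i + 1)))) :=
      Submodule.mapQ _ _ (lsmul S E (x ^ i)) hf0
    let g : (E ⧸ range (lsmul S E (x ^ (i + 1)))) →ₗ[S] (E ⧸ range (lsmul S E (x ^ i))) :=
      Submodule.mapQ _ _ LinearMap.id hg0
    have hf : Injective f := by
      rw [injective_iff_map_eq_zero]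
      intro v hv
      obtain ⟨v, rfl⟩ := Submodule.Quotient.mk_surjective _ v
      have hv' : x ^ i • v ∈ range (lsmul S E (x ^ (i + 1))) :=
        (Submodule.Quotient.mk_eq_zero _).mp hv
      obtain ⟨w, hw⟩ := hv'
      rw [lsmul_apply, pow_succ, mul_smul] at hw
      have h1 : x ^ i • (v - x • w) = 0 := by rw [smul_sub, hw, sub_self]
      have h2 := pow_smul_inj hx i _ h1
      rw [Submodule.Quotient.mk_eq_zero]
      exact ⟨w, by rw [lsmul_apply]; exact (sub_eq_zero.mp h2).symm⟩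
    have hg : Surjective g := by
      intro z
      obtain ⟨z, rfl⟩ := Submodule.Quotient.mk_surjective _ z
      exact ⟨Submodule.Quotient.mk z, rfl⟩
    have hfg : Exact f g := by
      intro z
      obtain ⟨z, rfl⟩ := Submodule.Quotient.mk_surjective _ z
      constructor
      · intro hz
        have hz' : z ∈ range (lsmul S E (x ^ i)) := (Submodule.Quotient.mk_eq_zero _).mp hz
        obtain ⟨w, rfl⟩ := hz'
        exact ⟨Submodule.Quotient.mk w, rfl⟩
      · rintro ⟨w, hw⟩
        obtain ⟨w, rfl⟩ := Submodule.Quotient.mk_surjective _ w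
        rw [← hw]
        exact (Submodule.Quotient.mk_eq_zero _).mpr ⟨w, rfl⟩
    have key := h _ _ _ f g hf hg hfg (by
      intro r hr m
      obtain ⟨m, rfl⟩ := Submodule.Quotient.mk_surjective _ m
      obtain ⟨c, rfl⟩ := Ideal.mem_span_singleton'.mp hr
      rw [← Submodule.Quotient.mk_smul, Submodule.Quotient.mk_eq_zero]
      obtain ⟨n, rfl⟩ := Nat.exists_eq_add_of_le hi
      refine ⟨(c * x ^ n) • m, ?_⟩
      rw [lsmul_apply, ← mul_smul, pow_add]
      congr 1
      ring)
    rw [key, ih (by omega)]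
    push_cast
    ring

lemma length_quot_ne_top_of_pow [IsNoetherianRing S] {a b : S}
    (h : Module.length S (S ⧸ Ideal.span {a, b}) ≠ ⊤) (n m : ℕ) :
    Module.length S (S ⧸ Ideal.span {a ^ n, b ^ m}) ≠ ⊤ := by
  have h0 : Module.length S (S ⧸ ((⊥ : Ideal S) ⊔ Ideal.span {a} ⊔ Ideal.span {b})) ≠ ⊤ := by
    rw [bot_sup_eq, ← Ideal.span_insert]; exact h
  -- `S / (a, b ^ m)`
  have h1 : Module.length S (S ⧸ (Ideal.span {b ^ m} ⊔ Ideal.span {a})) ≠ ⊤ := by
    refine length_ne_top_of_killed_pow (I := ⊥ ⊔ Ideal.span {a}) b h0 m _ ?_ ?_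
    · intro r hr v
      obtain ⟨v, rfl⟩ := Submodule.Quotient.mk_surjective _ v
      rw [← Submodule.Quotient.mk_smul, Submodule.Quotient.mk_eq_zero]
      rw [bot_sup_eq] at hr
      exact Ideal.mul_mem_right _ _ (Ideal.mem_sup_right hr)
    · intro v
      obtain ⟨v, rfl⟩ := Submodule.Quotient.mk_surjective _ v
      rw [← Submodule.Quotient.mk_smul, Submodule.Quotient.mk_eq_zero]
      exact Ideal.mul_mem_right _ _ (Ideal.mem_sup_left (Ideal.mem_span_singleton_self _))
  refine length_ne_top_of_killed_pow (I := Ideal.span {b ^ m}) a h1 n _ ?_ ?_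
  · intro r hr v
    obtain ⟨v, rfl⟩ := Submodule.Quotient.mk_surjective _ v
    rw [← Submodule.Quotient.mk_smul, Submodule.Quotient.mk_eq_zero, Ideal.span_insert]
    exact Ideal.mul_mem_right _ _ (Ideal.mem_sup_right hr)
  · intro v
    obtain ⟨v, rfl⟩ := Submodule.Quotient.mk_surjective _ v
    rw [← Submodule.Quotient.mk_smul, Submodule.Quotient.mk_eq_zero, Ideal.span_insert]
    exact Ideal.mul_mem_right _ _ (Ideal.mem_sup_left (Ideal.mem_span_singleton_self _))

/-- `n m χ(y1, y2; S)` is at most the length of `S / (y1^n, y2^m)`. -/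
theorem mul_mul_chi2_le [IsNoetherianRing S] (y1 y2 : S)
    (hfin : Module.length S (S ⧸ Ideal.span {y1, y2}) ≠ ⊤) (n m : ℕ) :
    (n * m : ℤ) * chi2 y1 y2 S ≤
      ((Module.length S (S ⧸ Ideal.span {y1 ^ n, y2 ^ m})).toNat : ℤ) := by
  obtain ⟨k, K, hK1, hK2⟩ := exists_torsion y1 S
  have e1 : chi2 y1 y2 S = chi2 y1 y2 K + chi2 y1 y2 (S ⧸ K) :=
    chi2_add' y1 y2 hfin K.subtype K.mkQ (Submodule.injective_subtype _)
      (Submodule.mkQ_surjective _) (LinearMap.exact_subtype_mkQ _)
  have e2 : chi2 y1 y2 K = 0 :=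
    chi2_of_killed_pow y1 y2 hfin k K (fun m => Subtype.ext (hK1 m m.2))
  have hinj : ∀ v : S ⧸ K, y1 • v = 0 → v = 0 := by
    intro v hv
    obtain ⟨v, rfl⟩ := Submodule.Quotient.mk_surjective _ v
    rw [← Submodule.Quotient.mk_smul, Submodule.Quotient.mk_eq_zero] at hv
    rw [Submodule.Quotient.mk_eq_zero]
    exact hK2 v hv
  have h3 : ker (lsmul S (S ⧸ K) y1) = ⊥ := ker_eq_bot_of_injective y1 hinj
  have hs : Subsingleton (ker (lsmul S (S ⧸ K) y1)) := by
    rw [h3]
    infer_instance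
  have e3 : chi2 y1 y2 (S ⧸ K) = chi1 y2 ((S ⧸ K) ⧸ range (lsmul S (S ⧸ K) y1)) := by
    unfold chi2
    rw [chi1_of_subsingleton (M := ker (lsmul S (S ⧸ K) y1)), sub_zero]
  have hfin1 : Module.length S (S ⧸ (Ideal.span {y1 ^ n} ⊔ Ideal.span {y2})) ≠ ⊤ := by
    have := length_quot_ne_top_of_pow hfin n 1
    rw [pow_one, Ideal.span_insert] at this
    exact this
  have e4 : chi1 y2 ((S ⧸ K) ⧸ range (lsmul S (S ⧸ K) (y1 ^ n))) =
      n * chi1 y2 ((S ⧸ K) ⧸ range (lsmul S (S ⧸ K) y1)) :=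
    addOn_quot_pow (φ := fun M _ _ => chi1 y2 M) y1 n (addOn_chi1 y2 hfin1) (S ⧸ K) hinj n le_rfl
  set D := (S ⧸ K) ⧸ range (lsmul S (S ⧸ K) (y1 ^ n)) with hD
  have hkD : ∀ r ∈ Ideal.span {y1 ^ n}, ∀ v : D, r • v = 0 := by
    intro r hr v
    obtain ⟨v, rfl⟩ := Submodule.Quotient.mk_surjective _ v
    obtain ⟨c, rfl⟩ := Ideal.mem_span_singleton'.mp hr
    rw [← Submodule.Quotient.mk_smul, Submodule.Quotient.mk_eq_zero]
    exact ⟨c • v, by rw [lsmul_apply, ← mul_smul, mul_comm]⟩
  have h5 := mul_chi1_le y2 hfin1 D hkD m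
  have h7 := length_quot_ne_top_of_pow hfin n m
  have h8 : Module.length S (D ⧸ range (lsmul S D (y2 ^ m))) ≤
      Module.length S (S ⧸ Ideal.span {y1 ^ n, y2 ^ m}) := by
    let G : S →ₗ[S] (D ⧸ range (lsmul S D (y2 ^ m))) :=
      (Submodule.mkQ _).comp ((Submodule.mkQ _).comp (Submodule.mkQ K))
    have hG : Surjective G := (Submodule.mkQ_surjective _).comp
      ((Submodule.mkQ_surjective _).comp (Submodule.mkQ_surjective _))
    have hker : Ideal.span {y1 ^ n, y2 ^ m} ≤ ker G := by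
      have hD2 := cok_killed (y2 ^ m) hkD
      have hone : ∀ r : S, G r = r • G 1 := by
        intro r
        rw [← map_smul, smul_eq_mul, mul_one]
      rw [Ideal.span_le]
      rintro r (rfl | hr)
      · change G _ = 0
        rw [hone]
        exact hD2 _ (Ideal.mem_sup_left (Ideal.mem_span_singleton_self _)) _
      · have hr' : r = y2 ^ m := hr
        subst hr'
        change G (y2 ^ m) = 0
        rw [hone]
        exact hD2 _ (Ideal.mem_sup_right (Ideal.mem_span_singleton_self _)) _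
    refine Module.length_le_of_surjective (Submodule.liftQ _ G hker) ?_
    intro z
    obtain ⟨r, rfl⟩ := hG z
    exact ⟨Submodule.Quotient.mk r, rfl⟩
  have h9 : ((Module.length S (D ⧸ range (lsmul S D (y2 ^ m)))).toNat : ℤ) ≤
      ((Module.length S (S ⧸ Ideal.span {y1 ^ n, y2 ^ m})).toNat : ℤ) := by
    exact_mod_cast ENat.toNat_le_toNat h8 h7
  refine le_trans (le_of_eq ?_) (h5.trans h9)
  rw [e1, e2, e3, zero_add, e4]
  ring

end

section

variable {A : Type*} [CommRing A] {σ : Type*} [Fintype σ] [LinearOrder σ]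

/-- colength of the ideal generated by the `n`-th powers. -/
theorem ell_span_pow_le (y : σ → A) (n : ℕ) :
    ell (Ideal.span (Set.range fun i => y i ^ n)) ≤
      (n ^ Fintype.card σ : ℕ) * emin y + errB y * (n ^ (Fintype.card σ - 1) : ℕ) := by
  classical
  set I := Ideal.span (Set.range fun i => y i ^ n) with hI
  have hmem : ∀ u : σ →₀ ℕ, u ∉ box σ n → mon y u ∈ I := by
    intro u hu
    rw [mem_box] at hu
    push Not at hu
    obtain ⟨i, hi⟩ := hu
    rw [mon, ← Finset.mul_prod_erase _ _ (Finset.mem_univ i)]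
    refine Ideal.mul_mem_right _ _ ?_
    obtain ⟨c, hc⟩ := Nat.exists_eq_add_of_le hi
    rw [hc, pow_add]
    exact Ideal.mul_mem_right _ _ (Ideal.subset_span ⟨i, rfl⟩)
  set M := Fintype.card σ * n + 1 with hM
  have hbox : ∀ u : σ →₀ ℕ, u ∉ tri σ M → u ∉ box σ n := by
    intro u hu hu'
    rw [mem_tri] at hu
    rw [mem_box] at hu'
    apply hu
    rw [Finsupp.degree_eq_sum]
    have : ∑ i, u i ≤ ∑ _i : σ, n := Finset.sum_le_sum fun i _ => (hu' i).le
    rw [Finset.sum_const, Finset.card_univ, smul_eq_mul] at this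
    omega
  have h0 : FS y {w | w ∉ tri σ M} ⊔ I = I := by
    rw [sup_eq_right, FS, Ideal.span_le]
    rintro _ ⟨u, hu, rfl⟩
    exact hmem u (hbox u hu)
  have h1 : ell I = ∑ u ∈ tri σ M, piece y I u := by
    rw [← ell_eq_sum y I _ (tri_initial _), h0]
  have h2 : ∑ u ∈ tri σ M, piece y I u ≤ ∑ u ∈ (tri σ M).filter (fun u => u ∈ box σ n), gp y u := by
    rw [Finset.sum_filter]
    refine Finset.sum_le_sum fun u _ => ?_
    split_ifs with h
    · exact piece_le_gp y I u
    · rw [nonpos_iff_eq_zero, piece_eq_zero_iff]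
      exact Ideal.mem_sup_right (hmem u h)
  rw [h1]
  refine h2.trans ((sum_gp_le y n _ ?_).trans ?_)
  · intro u hu
    exact (Finset.mem_filter.mp hu).2
  · refine add_le_add ?_ le_rfl
    have h3 : ((tri σ M).filter (fun u => u ∈ box σ n)).card ≤ n ^ Fintype.card σ := by
      rw [← card_box]
      refine Finset.card_le_card fun u hu => (Finset.mem_filter.mp hu).2
    gcongr

/-- The Euler characteristic is bounded by `emin`. -/
theorem chi2_le_emin [IsNoetherianRing A] (y1 y2 : A)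
    (hfin : Module.length A (A ⧸ Ideal.span {y1, y2}) ≠ ⊤) :
    ((chi2 y1 y2 A).toNat : ℕ∞) ≤ emin (![y1, y2] : Fin 2 → A) := by
  have hr : ∀ n : ℕ, Set.range (fun i => (![y1, y2] : Fin 2 → A) i ^ n) = {y1 ^ n, y2 ^ n} := by
    intro n
    ext a
    simp only [Set.mem_range, Fin.exists_fin_two, Matrix.cons_val_zero, Matrix.cons_val_one,
      Set.mem_insert_iff, Set.mem_singleton_iff]
    constructor
    · rintro (h | h)
      · exact Or.inl h.symm
      · exact Or.inr h.symm
    · rintro (h | h)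
      · exact Or.inl h.symm
      · exact Or.inr h.symm
  have hr1 : Set.range (![y1, y2] : Fin 2 → A) = {y1, y2} := by
    have := hr 1
    simpa only [pow_one] using this
  have hfin' : ell (Ideal.span (Set.range (![y1, y2] : Fin 2 → A))) ≠ ⊤ := by
    rw [hr1]; exact hfin
  obtain ⟨E, hE⟩ := ENat.ne_top_iff_exists.mp (emin_ne_top hfin')
  obtain ⟨B, hB⟩ := ENat.ne_top_iff_exists.mp (errB_ne_top hfin')
  have key := le_of_forall_pow_le (d := 2) (by omega) (chi2 y1 y2 A).toNat E B 0 fun n hn => by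
    rcases le_or_gt (chi2 y1 y2 A) 0 with hneg | hpos
    · rw [Int.toNat_of_nonpos hneg, zero_mul]
      exact Nat.zero_le _
    have h1 := mul_mul_chi2_le y1 y2 hfin n n
    have h2 := ell_span_pow_le (![y1, y2] : Fin 2 → A) n
    rw [hr, ← hE, ← hB, Fintype.card_fin] at h2
    have h3 := length_quot_ne_top_of_pow hfin n n
    obtain ⟨L, hL⟩ := ENat.ne_top_iff_exists.mp h3
    have h4 : ell (Ideal.span {y1 ^ n, y2 ^ n}) = (L : ℕ∞) := hL.symm
    rw [h4] at h2
    rw [← hL, ENat.toNat_natCast] at h1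
    have h5 : L ≤ n ^ 2 * E + B * n ^ (2 - 1) := by exact_mod_cast h2
    have h6 : (chi2 y1 y2 A).toNat * n ^ 2 ≤ L := by
      have h7 : ((chi2 y1 y2 A).toNat : ℤ) = chi2 y1 y2 A := Int.toNat_of_nonneg hpos.le
      have h8 : (((chi2 y1 y2 A).toNat * n ^ 2 : ℕ) : ℤ) ≤ (L : ℤ) := by
        push_cast
        rw [h7]
        calc chi2 y1 y2 A * (n : ℤ) ^ 2 = (n * n : ℤ) * chi2 y1 y2 A := by ring
          _ ≤ _ := h1
      exact_mod_cast h8
    calc (chi2 y1 y2 A).toNat * n ^ 2 ≤ L := h6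
      _ ≤ n ^ 2 * E + B * n ^ (2 - 1) := h5
      _ = E * (n + 0) ^ 2 + B * (n + 0) ^ (2 - 1) := by rw [add_zero]; ring
  rw [← hE]
  exact_mod_cast key

end

end Vale.Agent.P202
end

section

/-!
Weierstrass preparation and division in the form used by the approximation theorem.
-/

namespace Vale.Agent.P202.CZ

open MvPowerSeries

variable {K : Type*} [Field K] {n : ℕ}

lemma toPS_apply (p : Polynomial (MvPowerSeries (Fin n) K)) :
    MvPowerSeries.finSuccEquiv K n (toPS K n p) = (p : PowerSeries (MvPowerSeries (Fin n) K)) := by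
  simp [toPS, Polynomial.coeToPowerSeries.ringHom]

lemma residue_ne_zero_iff (u : MvPowerSeries (Fin n) K) :
    IsLocalRing.residue (MvPowerSeries (Fin n) K) u = 0 ↔ constantCoeff u = 0 := by
  rw [IsLocalRing.residue_eq_zero_iff, maximalIdeal_eq, mem_mm_iff]

lemma map_residue_ne_zero_iff (g : PowerSeries (MvPowerSeries (Fin n) K)) :
    PowerSeries.map (IsLocalRing.residue (MvPowerSeries (Fin n) K)) g ≠ 0 ↔
      PowerSeries.map (MvPowerSeries.constantCoeff (σ := Fin n) (R := K)) g ≠ 0 := by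
  rw [not_iff_not]
  constructor
  · intro h
    ext k
    have := congrArg (PowerSeries.coeff k) h
    rw [PowerSeries.coeff_map, map_zero] at this ⊢
    exact (residue_ne_zero_iff _).mp this
  · intro h
    ext k
    have := congrArg (PowerSeries.coeff k) h
    rw [PowerSeries.coeff_map, map_zero] at this ⊢
    exact (residue_ne_zero_iff _).mpr this

/-- `toPS` is injective. -/
lemma toPS_injective : Function.Injective (toPS K n) := by
  intro p q h
  have := congrArg (MvPowerSeries.finSuccEquiv K n) h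
  rw [toPS_apply, toPS_apply] at this
  exact_mod_cast this

lemma distinguished_map {a : Polynomial (MvPowerSeries (Fin n) K)}
    (ha : a.IsDistinguishedAt (IsLocalRing.maximalIdeal (MvPowerSeries (Fin n) K))) :
    a.map (MvPowerSeries.constantCoeff (σ := Fin n) (R := K)) = Polynomial.X ^ a.natDegree := by
  ext k
  rw [Polynomial.coeff_map, Polynomial.coeff_X_pow]
  split_ifs with h
  · subst h
    rw [show a.coeff a.natDegree = 1 from ha.monic]
    simp
  · rcases lt_or_gt_of_ne h with h' | h'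
    · have := ha.mem h'
      rwa [maximalIdeal_eq, mem_mm_iff] at this
    · rw [Polynomial.coeff_eq_zero_of_natDegree_lt h']
      simp

lemma distinguished_of_map {a : Polynomial (MvPowerSeries (Fin n) K)}
    (ha : a.map (MvPowerSeries.constantCoeff (σ := Fin n) (R := K)) =
      Polynomial.X ^ a.natDegree) :
    PowerSeries.map (MvPowerSeries.constantCoeff (σ := Fin n) (R := K))
      (a : PowerSeries (MvPowerSeries (Fin n) K)) = PowerSeries.X ^ a.natDegree := by
  have h1 : PowerSeries.map (MvPowerSeries.constantCoeff (σ := Fin n) (R := K))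
      (a : PowerSeries (MvPowerSeries (Fin n) K)) =
      ((a.map (MvPowerSeries.constantCoeff (σ := Fin n) (R := K)) : Polynomial K) :
        PowerSeries K) := by
    ext k
    simp
  rw [h1, ha]
  simp

lemma residue_map_ne_zero {a : Polynomial (MvPowerSeries (Fin n) K)}
    (ha : a.map (MvPowerSeries.constantCoeff (σ := Fin n) (R := K)) =
      Polynomial.X ^ a.natDegree) :
    PowerSeries.map (IsLocalRing.residue (MvPowerSeries (Fin n) K))
      (a : PowerSeries (MvPowerSeries (Fin n) K)) ≠ 0 := by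
  rw [map_residue_ne_zero_iff, distinguished_of_map ha]
  exact pow_ne_zero _ PowerSeries.X_ne_zero

lemma residue_map_order {a : Polynomial (MvPowerSeries (Fin n) K)} (hm : a.Monic)
    (ha : a.map (MvPowerSeries.constantCoeff (σ := Fin n) (R := K)) =
      Polynomial.X ^ a.natDegree) :
    ((a : PowerSeries (MvPowerSeries (Fin n) K)).map
      (IsLocalRing.residue (MvPowerSeries (Fin n) K))).order.toNat = a.natDegree := by
  have h1 : PowerSeries.map (IsLocalRing.residue (MvPowerSeries (Fin n) K))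
    (a : PowerSeries (MvPowerSeries (Fin n) K)) = PowerSeries.X ^ a.natDegree := by
    ext k
    have := congrArg (PowerSeries.coeff k) (distinguished_of_map ha)
    rw [PowerSeries.coeff_map, PowerSeries.coeff_X_pow] at this ⊢
    split_ifs at this ⊢ with hk
    · subst hk
      rw [Polynomial.coeff_coe, show a.coeff a.natDegree = 1 from hm, map_one]
    · exact (residue_ne_zero_iff _).mpr this
  rw [h1, PowerSeries.order_X_pow]
  simp

/-- Weierstrass preparation and division. -/
theorem exists_weierstrass {I : Type*} (g : MvPowerSeries (Fin (n + 1)) K) (hg : RegX g)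
    (z : I → MvPowerSeries (Fin (n + 1)) K) :
    ∃ (a : Polynomial (MvPowerSeries (Fin n) K)) (ε : MvPowerSeries (Fin (n + 1)) K)
      (w : I → Polynomial (MvPowerSeries (Fin n) K)) (v : I → MvPowerSeries (Fin (n + 1)) K),
      a.Monic ∧
      a.map (MvPowerSeries.constantCoeff (σ := Fin n) (R := K)) = Polynomial.X ^ a.natDegree ∧
      IsUnit ε ∧ g = toPS K n a * ε ∧ (∀ i, (w i).degree < a.natDegree) ∧
      ∀ i, z i = toPS K n (w i) + toPS K n a * v i := by
  have hg' := (map_residue_ne_zero_iff _).mpr hg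
  obtain ⟨a, h, H⟩ := PowerSeries.exists_isWeierstrassFactorization hg'
  have hmap := distinguished_map H.isDistinguishedAt
  have ha1 : PowerSeries.map (MvPowerSeries.constantCoeff (σ := Fin n) (R := K))
      (a : PowerSeries (MvPowerSeries (Fin n) K)) = PowerSeries.X ^ a.natDegree :=
    distinguished_of_map hmap
  have ha2 := residue_map_ne_zero hmap
  have hord := residue_map_order H.isDistinguishedAt.monic hmap
  have hdiv := fun i => PowerSeries.exists_isWeierstrassDivision
    (MvPowerSeries.finSuccEquiv K n (z i)) ha2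
  choose q r hqr using hdiv
  refine ⟨a, (MvPowerSeries.finSuccEquiv K n).symm h, r,
    fun i => (MvPowerSeries.finSuccEquiv K n).symm (q i), H.isDistinguishedAt.monic, hmap,
    H.isUnit.map _, ?_, ?_, ?_⟩
  · apply (MvPowerSeries.finSuccEquiv K n).injective
    rw [map_mul, toPS_apply, AlgEquiv.apply_symm_apply]
    exact H.eq_mul
  · intro i
    have := (hqr i).degree_lt
    rw [← hord]
    exact this
  · intro i
    apply (MvPowerSeries.finSuccEquiv K n).injective
    rw [map_add, map_mul, toPS_apply, toPS_apply, AlgEquiv.apply_symm_apply]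
    have := (hqr i).eq_mul_add
    rw [this, add_comm]

/-- divisibility by a distinguished polynomial. -/
theorem dvd_of_toPS_dvd {a F : Polynomial (MvPowerSeries (Fin n) K)} (hm : a.Monic)
    (ha : a.map (MvPowerSeries.constantCoeff (σ := Fin n) (R := K)) =
      Polynomial.X ^ a.natDegree) (h : toPS K n a ∣ toPS K n F) : a ∣ F := by
  obtain ⟨q, hq⟩ := h
  have h1 : (F : PowerSeries (MvPowerSeries (Fin n) K)) =
      (a : PowerSeries (MvPowerSeries (Fin n) K)) * MvPowerSeries.finSuccEquiv K n q := by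
    rw [← toPS_apply, ← toPS_apply, hq, map_mul]
  have h2 : F = F %ₘ a + a * (F /ₘ a) := (Polynomial.modByMonic_add_div F a).symm
  have h3 : (0 : PowerSeries (MvPowerSeries (Fin n) K)).IsWeierstrassDivision a
      (((F /ₘ a : Polynomial _) : PowerSeries (MvPowerSeries (Fin n) K)) -
        MvPowerSeries.finSuccEquiv K n q) (F %ₘ a) := by
    refine ⟨?_, ?_⟩
    · have h4 := residue_map_order hm ha
      have h5 := Polynomial.degree_modByMonic_lt F hm
      rw [Polynomial.degree_eq_natDegree hm.ne_zero] at h5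
      change _ < ((((a : PowerSeries (MvPowerSeries (Fin n) K)).map
        (IsLocalRing.residue (MvPowerSeries (Fin n) K))).order.toNat : ℕ) : WithBot ℕ)
      rwa [h4]
    · have h6 := congrArg (fun p : Polynomial (MvPowerSeries (Fin n) K) =>
        (p : PowerSeries (MvPowerSeries (Fin n) K))) h2
      simp only [Polynomial.coe_add, Polynomial.coe_mul] at h6
      rw [mul_sub, ← h1]
      conv_lhs => rw [← sub_self (F : PowerSeries (MvPowerSeries (Fin n) K))]
      nth_rewrite 1 [h6]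
      ring
  have h7 := (h3.eq_zero (residue_map_ne_zero ha)).2
  rw [h7, zero_add] at h2
  exact ⟨_, h2⟩

/-- the quotient has coefficients in `fgc`. -/
theorem exists_quotient_fgc {a F : Polynomial (MvPowerSeries (Fin n) K)} (hm : a.Monic)
    (ha : ∀ l, a.coeff l ∈ fgc (Fin n) K) (hF : ∀ l, F.coeff l ∈ fgc (Fin n) K) (h : a ∣ F) :
    ∃ w : Polynomial (MvPowerSeries (Fin n) K), F = a * w ∧
      ∀ l, w.coeff l ∈ fgc (Fin n) K := by
  have hlift : ∀ p : Polynomial (MvPowerSeries (Fin n) K), (∀ l, p.coeff l ∈ fgc (Fin n) K) →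
      ∃ p₀ : Polynomial (fgc (Fin n) K), p₀.map (fgc (Fin n) K).subtype = p := by
    intro p hp
    have : p ∈ Polynomial.lifts (fgc (Fin n) K).subtype := by
      rw [Polynomial.lifts_iff_coeff_lifts]
      intro l
      exact ⟨⟨_, hp l⟩, rfl⟩
    exact (Polynomial.mem_lifts p).mp this
  obtain ⟨F₀, hF₀⟩ := hlift F hF
  obtain ⟨a₀, ha₀⟩ := hlift a ha
  have hinj : Function.Injective (fgc (Fin n) K).subtype := Subtype.coe_injective
  have hm₀ : a₀.Monic := by
    refine Polynomial.monic_of_injective hinj ?_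
    rw [ha₀]
    exact hm
  have h1 : (F₀ %ₘ a₀).map (fgc (Fin n) K).subtype = 0 := by
    rw [Polynomial.map_modByMonic _ hm₀, hF₀, ha₀]
    exact (Polynomial.modByMonic_eq_zero_iff_dvd hm).mpr h
  have h2 : F₀ %ₘ a₀ = 0 := (Polynomial.map_eq_zero_iff hinj).mp h1
  refine ⟨(F₀ /ₘ a₀).map (fgc (Fin n) K).subtype, ?_, ?_⟩
  · have h3 := Polynomial.modByMonic_add_div F₀ a₀
    rw [h2, zero_add] at h3
    rw [← ha₀, ← Polynomial.map_mul, h3, hF₀]
  · intro l
    rw [Polynomial.coeff_map]
    exact ((F₀ /ₘ a₀).coeff l).2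

end Vale.Agent.P202.CZ
end

section

/-!
The Weierstrass step of the approximation theorem: polynomial division with universal
coefficients.
-/

namespace Vale.Agent.P202.CZ

variable {K : Type*} [Field K]

section generic

open Polynomial

variable {R S : Type*} [CommRing R] [CommRing S] {r : ℕ}

/-- The polynomial of degree `< r` with the given coefficients. -/
noncomputable def wsZ (y : Fin r → R) : R[X] := ∑ l : Fin r, C (y l) * X ^ (l : ℕ)

/-- The monic polynomial of degree `r` with the given lower coefficients. -/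
noncomputable def wsA (y : Fin r → R) : R[X] := X ^ r + wsZ y

theorem wsZ_map (f : R →+* S) (y : Fin r → R) : (wsZ y).map f = wsZ (fun l => f (y l)) := by
  simp [wsZ, Polynomial.map_sum]

theorem wsA_map (f : R →+* S) (y : Fin r → R) : (wsA y).map f = wsA (fun l => f (y l)) := by
  simp [wsA, wsZ_map]

theorem wsZ_degree (y : Fin r → R) : (wsZ y).degree < r := degree_sum_fin_lt y

theorem wsA_monic (y : Fin r → R) : (wsA y).Monic := monic_X_pow_add (wsZ_degree y)

theorem wsA_natDegree [Nontrivial R] (y : Fin r → R) : (wsA y).natDegree = r :=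
  natDegree_eq_of_degree_eq_some (by
    unfold wsA
    rw [degree_add_eq_left_of_degree_lt (by rw [degree_X_pow]; exact wsZ_degree y),
      degree_X_pow])

theorem wsZ_coeff (y : Fin r → R) (l : ℕ) :
    (wsZ y).coeff l = if h : l < r then y ⟨l, h⟩ else 0 := by
  classical
  unfold wsZ
  rw [finsetSum_coeff]
  simp only [coeff_C_mul_X_pow]
  split_ifs with h
  · rw [Finset.sum_eq_single (⟨l, h⟩ : Fin r)]
    · simp
    · intro b _ hb
      rw [if_neg]
      intro h'
      exact hb (Fin.ext h'.symm)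
    · intro h'
      exact absurd (Finset.mem_univ _) h'
  · refine Finset.sum_eq_zero fun b _ => ?_
    rw [if_neg]
    intro h'
    exact h (by rw [h']; exact b.2)

theorem wsZ_of_degree {p : R[X]} (h : p.degree < r) : wsZ (fun l : Fin r => p.coeff l) = p := by
  ext l
  rw [wsZ_coeff]
  split_ifs with hl
  · rfl
  · exact (coeff_eq_zero_of_degree_lt (h.trans_le (by exact_mod_cast not_lt.1 hl))).symm

theorem wsA_of_monic {p : R[X]} (hp : p.Monic) (h : p.natDegree = r) :
    wsA (fun l : Fin r => p.coeff l) = p := by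
  unfold wsA
  conv_rhs => rw [hp.as_sum, h]
  congr 1
  unfold wsZ
  exact Fin.sum_univ_eq_sum_range (fun l => C (p.coeff l) * X ^ l) r

end generic

section step

variable {n : ℕ} {ι : Type}

/-- polynomials in `n + 1` variables as polynomials over the universal ring. -/
noncomputable def wsU (K : Type*) [Field K] (n : ℕ) (ι : Type) :
    MvPolynomial (Fin (n + 1)) K →+* Polynomial (MvPolynomial ι (MvPolynomial (Fin n) K)) :=
  (Polynomial.mapRingHom (MvPolynomial.C (σ := ι) (R := MvPolynomial (Fin n) K))).comp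
    (MvPolynomial.finSuccEquiv K n).toRingHom

theorem wsU_map (y : ι → MvPowerSeries (Fin n) K) :
    (Polynomial.mapRingHom (MvPolynomial.aeval (R := MvPolynomial (Fin n) K) y).toRingHom).comp
      (wsU K n ι) = polyEval K n := by
  unfold wsU polyEval
  rw [← RingHom.comp_assoc, Polynomial.mapRingHom_comp]
  congr 2
  refine RingHom.ext fun p => ?_
  change MvPolynomial.aeval (R := MvPolynomial (Fin n) K) y (MvPolynomial.C p) = _
  rw [MvPolynomial.aeval_C]

/-- evaluation of the universal polynomial at a point -/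
theorem wsU_eval {I : Type} (y : ι → MvPowerSeries (Fin n) K)
    (ZZ : I → Polynomial (MvPolynomial ι (MvPolynomial (Fin n) K)))
    (φ : MvPolynomial I (MvPolynomial (Fin (n + 1)) K)) :
    (MvPolynomial.eval₂ (wsU K n ι) ZZ φ).map
        (MvPolynomial.aeval (R := MvPolynomial (Fin n) K) y).toRingHom =
      MvPolynomial.eval₂ (polyEval K n)
        (fun i => (ZZ i).map (MvPolynomial.aeval (R := MvPolynomial (Fin n) K) y).toRingHom) φ := by
  have h := MvPolynomial.eval₂_comp_left (Polynomial.mapRingHom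
    (MvPolynomial.aeval (R := MvPolynomial (Fin n) K) y).toRingHom) (wsU K n ι) ZZ φ
  rw [wsU_map] at h
  exact h

/-- The universal monic polynomial. -/
noncomputable def wsAA (K : Type*) [Field K] (n r : ℕ) (I : Type) :
    Polynomial (MvPolynomial (Fin r ⊕ I × Fin r) (MvPolynomial (Fin n) K)) :=
  wsA fun l => MvPolynomial.X (Sum.inl l)

/-- The universal polynomials of small degree. -/
noncomputable def wsZZ (K : Type*) [Field K] (n r : ℕ) {I : Type} (i : I) :
    Polynomial (MvPolynomial (Fin r ⊕ I × Fin r) (MvPolynomial (Fin n) K)) :=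
  wsZ fun l => MvPolynomial.X (Sum.inr (i, l))

theorem wsAA_map {r : ℕ} {I : Type} (y : Fin r ⊕ I × Fin r → MvPowerSeries (Fin n) K) :
    (wsAA K n r I).map (MvPolynomial.aeval (R := MvPolynomial (Fin n) K) y).toRingHom =
      wsA fun l => y (Sum.inl l) := by
  unfold wsAA
  rw [wsA_map]
  congr 1
  funext l
  exact MvPolynomial.aeval_X y (Sum.inl l)

theorem wsZZ_map {r : ℕ} {I : Type} (y : Fin r ⊕ I × Fin r → MvPowerSeries (Fin n) K) (i : I) :
    (wsZZ K n r i).map (MvPolynomial.aeval (R := MvPolynomial (Fin n) K) y).toRingHom =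
      wsZ fun l => y (Sum.inr (i, l)) := by
  unfold wsZZ
  rw [wsZ_map]
  congr 1
  funext l
  exact MvPolynomial.aeval_X y (Sum.inr (i, l))

theorem wsAA_monic (n r : ℕ) (I : Type) : (wsAA K n r I).Monic := wsA_monic _

theorem ws_key {r : ℕ} {I : Type} (y : Fin r ⊕ I × Fin r → MvPowerSeries (Fin n) K)
    (φ : MvPolynomial I (MvPolynomial (Fin (n + 1)) K)) :
    (wsA fun l => y (Sum.inl l)) ∣
        MvPolynomial.eval₂ (polyEval K n) (fun i => wsZ fun l => y (Sum.inr (i, l))) φ ↔
      ∀ k, MvPolynomial.aeval y ((MvPolynomial.eval₂ (wsU K n _) (wsZZ K n r) φ %ₘ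
        wsAA K n r I).coeff k) = 0 := by
  rw [← Polynomial.modByMonic_eq_zero_iff_dvd (wsA_monic _), ← wsAA_map y]
  have h1 : (fun i => wsZ fun l => y (Sum.inr (i, l))) =
      fun i => (wsZZ K n r i).map
        (MvPolynomial.aeval (R := MvPolynomial (Fin n) K) y).toRingHom :=
    funext fun i => (wsZZ_map y i).symm
  rw [h1, ← wsU_eval, ← Polynomial.map_modByMonic _ (wsAA_monic n r I),
    Polynomial.ext_iff]
  simp only [Polynomial.coeff_map, Polynomial.coeff_zero]
  rfl

end step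

/-- L3: the Weierstrass step. -/
theorem weierstrass_step {n : ℕ} (h : Approx K n) {I : Type} [Finite I] (r : ℕ)
    (abar : Polynomial (MvPowerSeries (Fin n) K)) (ha : abar.Monic) (har : abar.natDegree = r)
    (zbar : I → Polynomial (MvPowerSeries (Fin n) K)) (hz : ∀ i, (zbar i).degree < r)
    (Φ : Set (MvPolynomial I (MvPolynomial (Fin (n + 1)) K)))
    (hΦ : ∀ φ ∈ Φ, abar ∣ MvPolynomial.eval₂ (polyEval K n) zbar φ) (c : ℕ) :
    ∃ (a : Polynomial (MvPowerSeries (Fin n) K)) (z : I → Polynomial (MvPowerSeries (Fin n) K)),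
      a.Monic ∧ a.natDegree = r ∧ (∀ l, a.coeff l ∈ fgc (Fin n) K) ∧
      (∀ l, a.coeff l - abar.coeff l ∈ mm (Fin n) K ^ c) ∧
      (∀ i, (z i).degree < r) ∧ (∀ i l, (z i).coeff l ∈ fgc (Fin n) K) ∧
      (∀ i l, (z i).coeff l - (zbar i).coeff l ∈ mm (Fin n) K ^ c) ∧
      ∀ φ ∈ Φ, a ∣ MvPolynomial.eval₂ (polyEval K n) z φ := by
  obtain ⟨ybar, hl, hr⟩ : ∃ ybar : Fin r ⊕ I × Fin r → MvPowerSeries (Fin n) K,
      (∀ l : Fin r, ybar (Sum.inl l) = abar.coeff (l : ℕ)) ∧
      ∀ (i : I) (l : Fin r), ybar (Sum.inr (i, l)) = (zbar i).coeff (l : ℕ) :=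
    ⟨Sum.elim (fun l => abar.coeff (l : ℕ)) (fun p => (zbar p.1).coeff (p.2 : ℕ)),
      fun _ => rfl, fun _ _ => rfl⟩
  have e1 : (wsA fun l : Fin r => ybar (Sum.inl l)) = abar := by
    simp only [hl]
    exact wsA_of_monic ha har
  have e2 : ∀ i, (wsZ fun l : Fin r => ybar (Sum.inr (i, l))) = zbar i := by
    intro i
    simp only [hr]
    exact wsZ_of_degree (hz i)
  obtain ⟨y, hy1, hy2, hy3⟩ := h (Fin r ⊕ I × Fin r) ybar c
  refine ⟨wsA fun l => y (Sum.inl l), fun i => wsZ fun l => y (Sum.inr (i, l)), wsA_monic _,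
    wsA_natDegree _, ?_, ?_, fun i => wsZ_degree _, ?_, ?_, ?_⟩
  · intro l
    unfold wsA
    rw [Polynomial.coeff_add, Polynomial.coeff_X_pow, wsZ_coeff]
    refine Subring.add_mem _ ?_ ?_
    · split_ifs
      · exact Subring.one_mem _
      · exact Subring.zero_mem _
    · split_ifs
      · exact hy1 _
      · exact Subring.zero_mem _
  · intro l
    rw [← e1]
    unfold wsA
    rw [Polynomial.coeff_add, Polynomial.coeff_add, add_sub_add_left_eq_sub, wsZ_coeff, wsZ_coeff]
    split_ifs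
    · exact hy2 _
    · rw [sub_zero]
      exact Ideal.zero_mem _
  · intro i l
    rw [wsZ_coeff]
    split_ifs
    · exact hy1 _
    · exact Subring.zero_mem _
  · intro i l
    rw [← e2 i, wsZ_coeff, wsZ_coeff]
    split_ifs
    · exact hy2 _
    · rw [sub_zero]
      exact Ideal.zero_mem _
  · intro φ hφ
    refine (ws_key y φ).2 fun k => hy3 _ ?_
    refine (ws_key ybar φ).1 ?_ k
    rw [e1, funext e2]
    exact hΦ φ hφ

end Vale.Agent.P202.CZ
end

section

/-!
The induction step of the approximation theorem in the regular case.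
-/

namespace Vale.Agent.P202.CZ

open MvPowerSeries

variable {K : Type*} [Field K] {n : ℕ}

lemma constantCoeff_toPS (p : Polynomial (MvPowerSeries (Fin n) K)) :
    constantCoeff (toPS K n p) = constantCoeff (p.coeff 0) := by
  have h := MvPowerSeries.coeff_coeff_finSuccEquiv (R := K) (n := n) (toPS K n p) (k := 0) (x := 0)
  rw [toPS_apply, Polynomial.coeff_coe] at h
  rw [← coeff_zero_eq_constantCoeff_apply, ← coeff_zero_eq_constantCoeff_apply, h]
  congr 2
  ext i
  refine Fin.cases ?_ (fun j => ?_) i <;> simp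

lemma aeval_mem_fgc {I τ : Type*} (t : I → MvPowerSeries τ K)
    (ht : ∀ i, t i ∈ fgc τ K) (q : MvPolynomial I (MvPolynomial τ K)) :
    MvPolynomial.aeval t q ∈ fgc τ K := by
  rw [MvPolynomial.aeval_def]
  refine MvPolynomial.eval₂_mem (fun i _ => ?_) ht
  exact coe_mem_fgc _

lemma toPS_eval₂ {I : Type*} (w : I → Polynomial (MvPowerSeries (Fin n) K))
    (φ : MvPolynomial I (MvPolynomial (Fin (n + 1)) K)) :
    toPS K n (MvPolynomial.eval₂ (polyEval K n) w φ) =
      MvPolynomial.aeval (fun i => toPS K n (w i)) φ := by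
  rw [MvPolynomial.hom_eval₂, MvPolynomial.aeval_def]
  congr 1
  exact RingHom.ext fun a => toPS_polyEval a

lemma coeff_polyEval_mem (p : MvPolynomial (Fin (n + 1)) K) (k : ℕ) :
    (polyEval K n p).coeff k ∈ fgc (Fin n) K := by
  have : (polyEval K n p).coeff k =
      (((MvPolynomial.finSuccEquiv K n p).coeff k : MvPolynomial (Fin n) K) :
        MvPowerSeries (Fin n) K) := by
    simp [polyEval]
    rfl
  rw [this]
  exact coe_mem_fgc _

lemma coeff_eval₂_mem {I : Type*} (w : I → Polynomial (MvPowerSeries (Fin n) K))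
    (hw : ∀ i l, (w i).coeff l ∈ fgc (Fin n) K)
    (φ : MvPolynomial I (MvPolynomial (Fin (n + 1)) K)) (l : ℕ) :
    (MvPolynomial.eval₂ (polyEval K n) w φ).coeff l ∈ fgc (Fin n) K := by
  have h1 : MvPolynomial.eval₂ (polyEval K n) w φ ∈
      Polynomial.lifts (fgc (Fin n) K).subtype := by
    refine MvPolynomial.eval₂_mem (fun i _ => ?_) (fun i => ?_)
    · rw [Polynomial.lifts_iff_coeff_lifts]
      intro k
      exact ⟨⟨_, coeff_polyEval_mem _ k⟩, rfl⟩
    · rw [Polynomial.lifts_iff_coeff_lifts]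
      intro k
      exact ⟨⟨_, hw i k⟩, rfl⟩
  rw [Polynomial.lifts_iff_coeff_lifts] at h1
  obtain ⟨⟨x, hx⟩, hx'⟩ := h1 l
  rw [← hx']
  exact hx

lemma aeval_sub_dvd {A B : Type*} [CommRing A] [CommRing B] [Algebra A B] {I : Type*}
    (z z' : I → B) (a : B) (h : ∀ i, a ∣ z i - z' i) (φ : MvPolynomial I A) :
    a ∣ MvPolynomial.aeval z φ - MvPolynomial.aeval z' φ := by
  rw [← Ideal.mem_span_singleton, ← Ideal.Quotient.eq]
  have h1 : ∀ i, Ideal.Quotient.mk (Ideal.span {a}) (z i) =
      Ideal.Quotient.mk (Ideal.span {a}) (z' i) := by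
    intro i
    rw [Ideal.Quotient.eq, Ideal.mem_span_singleton]
    exact h i
  rw [MvPolynomial.aeval_def, MvPolynomial.aeval_def, MvPolynomial.hom_eval₂,
    MvPolynomial.hom_eval₂]
  congr 1
  funext i
  exact h1 i

/-- the polynomial in `t`, `θ` as a polynomial in all the unknowns. -/
noncomputable def Th {A : Type*} [CommRing A] (m : ℕ) (ι : Type*) :
    Polynomial (MvPolynomial (Fin m) A) →+* MvPolynomial (Fin m ⊕ Option ι) A :=
  Polynomial.eval₂RingHom (MvPolynomial.rename Sum.inl).toRingHom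
    (MvPolynomial.X (Sum.inr none))

lemma aeval_Th {A B : Type*} [CommRing A] [CommRing B] [Algebra A B] {m : ℕ} {ι : Type*}
    (z : Fin m ⊕ Option ι → B) (F : Polynomial (MvPolynomial (Fin m) A)) :
    MvPolynomial.aeval z (Th m ι F) = ev (z ∘ Sum.inl) (z (Sum.inr none)) F := by
  rw [ev_apply, Th, Polynomial.coe_eval₂RingHom]
  have := Polynomial.hom_eval₂ F (MvPolynomial.rename (R := A) (Sum.inl : Fin m → Fin m ⊕ Option ι)).toRingHom
    (MvPolynomial.aeval (R := A) z).toRingHom (MvPolynomial.X (Sum.inr none))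
  simp only [AlgHom.toRingHom_eq_coe, RingHom.coe_coe, MvPolynomial.aeval_X] at this ⊢
  rw [this]
  congr 1
  ext a
  · simp
  · simp

lemma mod_vars_eq {I : Type*} (w w' : I → Polynomial (MvPowerSeries (Fin n) K))
    (h : ∀ i, (w i).map (MvPowerSeries.constantCoeff (σ := Fin n) (R := K)) =
      (w' i).map (MvPowerSeries.constantCoeff (σ := Fin n) (R := K)))
    (φ : MvPolynomial I (MvPolynomial (Fin (n + 1)) K)) :
    (MvPolynomial.eval₂ (polyEval K n) w φ).map
      (MvPowerSeries.constantCoeff (σ := Fin n) (R := K)) =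
    (MvPolynomial.eval₂ (polyEval K n) w' φ).map
      (MvPowerSeries.constantCoeff (σ := Fin n) (R := K)) := by
  rw [← Polynomial.coe_mapRingHom, MvPolynomial.hom_eval₂, MvPolynomial.hom_eval₂]
  congr 1
  funext i
  exact h i

/-- constant coefficients of the two units agree. -/
lemma unit_compare {a a' q q' F F' : Polynomial (MvPowerSeries (Fin n) K)}
    (ha : a.map (MvPowerSeries.constantCoeff (σ := Fin n) (R := K)) =
      Polynomial.X ^ a.natDegree)
    (ha' : a'.map (MvPowerSeries.constantCoeff (σ := Fin n) (R := K)) =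
      Polynomial.X ^ a.natDegree)
    (hF : F = a * q) (hF' : F' = a' * q')
    (h : F.map (MvPowerSeries.constantCoeff (σ := Fin n) (R := K)) =
      F'.map (MvPowerSeries.constantCoeff (σ := Fin n) (R := K))) :
    constantCoeff (toPS K n q) = constantCoeff (toPS K n q') := by
  rw [hF, hF', Polynomial.map_mul, Polynomial.map_mul, ha, ha'] at h
  have h1 := mul_left_cancel₀ (pow_ne_zero _ Polynomial.X_ne_zero) h
  have h2 := congrArg (fun p => Polynomial.coeff p 0) h1
  simp only [Polynomial.coeff_map] at h2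
  rw [constantCoeff_toPS, constantCoeff_toPS]
  exact h2

theorem approx_reg (h : Approx K n) {m : ℕ} {ι : Type} [Finite ι]
    (f : Polynomial (MvPolynomial (Fin m) (MvPolynomial (Fin (n + 1)) K)))
    (Q : MvPolynomial (Fin m) (MvPolynomial (Fin (n + 1)) K))
    (P : ι → Polynomial (MvPolynomial (Fin m) (MvPolynomial (Fin (n + 1)) K)))
    (t : Fin m → MvPowerSeries (Fin (n + 1)) K) (θ : MvPowerSeries (Fin (n + 1)) K)
    (y : ι → MvPowerSeries (Fin (n + 1)) K)
    (hf : ev t θ f = 0) (hy : ∀ i, MvPolynomial.aeval t Q * y i = ev t θ (P i))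
    (hreg : RegX ((ev t θ (Polynomial.derivative f)) ^ 2 * MvPolynomial.aeval t Q)) (c : ℕ) :
    ∃ (t' : Fin m → MvPowerSeries (Fin (n + 1)) K) (θ' : MvPowerSeries (Fin (n + 1)) K)
      (y' : ι → MvPowerSeries (Fin (n + 1)) K),
      (∀ j, t' j ∈ fgc (Fin (n + 1)) K) ∧ θ' ∈ fgc (Fin (n + 1)) K ∧
      (∀ i, y' i ∈ fgc (Fin (n + 1)) K) ∧
      (∀ j, t' j - t j ∈ mm (Fin (n + 1)) K ^ c) ∧ θ' - θ ∈ mm (Fin (n + 1)) K ^ c ∧
      (∀ i, y' i - y i ∈ mm (Fin (n + 1)) K ^ c) ∧
      ev t' θ' f = 0 ∧ ∀ i, MvPolynomial.aeval t' Q * y' i = ev t' θ' (P i) := by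
  classical
  set X0 : MvPowerSeries (Fin (n + 1)) K := X 0 with hX0
  have hX0mm : X0 ^ (c + 1) ∈ mm (Fin (n + 1)) K ^ (c + 1) :=
    Ideal.pow_mem_pow (Ideal.subset_span (Set.mem_range_self 0)) _
  set δ := ev t θ (Polynomial.derivative f) with hδ
  set Qb := MvPolynomial.aeval t Q with hQb
  set g := δ ^ 2 * Qb * X0 ^ (c + 1) with hgdef
  have hgreg : RegX g := by
    rw [RegX, hgdef, map_mul, map_mul, map_pow, map_pow, hX0, finSuccEquiv_X_zero,
      PowerSeries.map_X]
    exact mul_ne_zero hreg (pow_ne_zero _ PowerSeries.X_ne_zero)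
  let z : Fin m ⊕ Option ι → MvPowerSeries (Fin (n + 1)) K :=
    Sum.elim t (fun o => o.elim θ y)
  obtain ⟨a, ε, w, v, ham, hamap, hε, hg, hw, hz⟩ := exists_weierstrass g hgreg z
  -- the polynomials
  let φf := Th (A := MvPolynomial (Fin (n + 1)) K) m ι f
  let G1 := Th (A := MvPolynomial (Fin (n + 1)) K) m ι (Polynomial.derivative f) ^ 2 *
    Th m ι (Polynomial.C Q)
  let φG := G1 * MvPolynomial.C (MvPolynomial.X 0 ^ (c + 1))
  let φP : ι → MvPolynomial (Fin m ⊕ Option ι) (MvPolynomial (Fin (n + 1)) K) := fun i =>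
    Th m ι (P i) - Th m ι (Polynomial.C Q) * MvPolynomial.X (Sum.inr (some i))
  have hφf : ∀ z' : Fin m ⊕ Option ι → MvPowerSeries (Fin (n + 1)) K,
      MvPolynomial.aeval z' φf = ev (z' ∘ Sum.inl) (z' (Sum.inr none)) f :=
    fun z' => aeval_Th z' f
  have hG1 : ∀ z' : Fin m ⊕ Option ι → MvPowerSeries (Fin (n + 1)) K,
      MvPolynomial.aeval z' G1 =
        (ev (z' ∘ Sum.inl) (z' (Sum.inr none)) (Polynomial.derivative f)) ^ 2 *
          MvPolynomial.aeval (z' ∘ Sum.inl) Q := by
    intro z'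
    simp only [G1, map_mul, map_pow, aeval_Th, ev_C]
  have hφG : ∀ z' : Fin m ⊕ Option ι → MvPowerSeries (Fin (n + 1)) K,
      MvPolynomial.aeval z' φG = MvPolynomial.aeval z' G1 * X0 ^ (c + 1) := by
    intro z'
    simp only [φG, map_mul]
    congr 1
    rw [MvPolynomial.aeval_C]
    change ((MvPolynomial.X 0 ^ (c + 1) : MvPolynomial (Fin (n + 1)) K) :
      MvPowerSeries (Fin (n + 1)) K) = _
    rw [MvPolynomial.coe_pow, MvPolynomial.coe_X]
  have hφP : ∀ (z' : Fin m ⊕ Option ι → MvPowerSeries (Fin (n + 1)) K) (i : ι),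
      MvPolynomial.aeval z' (φP i) = ev (z' ∘ Sum.inl) (z' (Sum.inr none)) (P i) -
        MvPolynomial.aeval (z' ∘ Sum.inl) Q * z' (Sum.inr (some i)) := by
    intro z' i
    simp only [φP, map_sub, map_mul, aeval_Th, ev_C, MvPolynomial.aeval_X]
  have hzt : z ∘ Sum.inl = t := rfl
  have hzθ : z (Sum.inr none) = θ := rfl
  let Φ : Set (MvPolynomial (Fin m ⊕ Option ι) (MvPolynomial (Fin (n + 1)) K)) :=
    {φf, φG} ∪ Set.range φP
  have hzw : ∀ i, toPS K n a ∣ z i - toPS K n (w i) := by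
    intro i
    rw [hz i, add_sub_cancel_left]
    exact Dvd.intro _ rfl
  have hzΦ : ∀ φ ∈ Φ, toPS K n a ∣ MvPolynomial.aeval z φ := by
    rintro φ ((rfl | rfl) | ⟨i, rfl⟩)
    · rw [hφf, hzt, hzθ, hf]
      exact dvd_zero _
    · rw [hφG, hG1, hzt, hzθ, ← hδ, ← hQb, ← hgdef, hg]
      exact Dvd.intro _ rfl
    · rw [hφP, hzt, hzθ, ← hy i]
      have : z (Sum.inr (some i)) = y i := rfl
      rw [this, sub_self]
      exact dvd_zero _
  have hΦ : ∀ φ ∈ Φ, a ∣ MvPolynomial.eval₂ (polyEval K n) w φ := by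
    intro φ hφ
    refine dvd_of_toPS_dvd ham hamap ?_
    rw [toPS_eval₂]
    have h1 := aeval_sub_dvd z (fun i => toPS K n (w i)) (toPS K n a) hzw φ
    exact (dvd_sub_right (hzΦ φ hφ)).mp h1
  obtain ⟨a', w', ham', hadeg', hacoef', haclose, hwdeg', hwcoef', hwclose, hdvd'⟩ :=
    weierstrass_step h a.natDegree a ham rfl w hw Φ hΦ (c + 1)
  -- the approximate point
  set z' : Fin m ⊕ Option ι → MvPowerSeries (Fin (n + 1)) K := fun i => toPS K n (w' i) with hz'
  have hz'mem : ∀ i, z' i ∈ fgc (Fin (n + 1)) K := fun i => toPS_mem_fgc _ (hwcoef' i)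
  have hquot : ∀ φ ∈ Φ, ∃ q : Polynomial (MvPowerSeries (Fin n) K),
      MvPolynomial.eval₂ (polyEval K n) w' φ = a' * q ∧ toPS K n q ∈ fgc (Fin (n + 1)) K := by
    intro φ hφ
    obtain ⟨q, hq, hq'⟩ := exists_quotient_fgc ham' hacoef'
      (coeff_eval₂_mem w' hwcoef' φ) (hdvd' φ hφ)
    exact ⟨q, hq, toPS_mem_fgc q hq'⟩
  have hquot' : ∀ φ ∈ Φ, ∃ q ∈ fgc (Fin (n + 1)) K,
      MvPolynomial.aeval z' φ = toPS K n a' * q := by
    intro φ hφ
    obtain ⟨q, hq, hq'⟩ := hquot φ hφ
    refine ⟨_, hq', ?_⟩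
    rw [hz', ← toPS_eval₂, hq, map_mul]
  have hle : mm (Fin n) K ^ (c + 1) ≤ mm (Fin n) K := Ideal.pow_le_self (by omega)
  have hwmap : ∀ i, (w i).map (MvPowerSeries.constantCoeff (σ := Fin n) (R := K)) =
      (w' i).map (MvPowerSeries.constantCoeff (σ := Fin n) (R := K)) := by
    intro i
    ext l
    rw [Polynomial.coeff_map, Polynomial.coeff_map]
    have := mem_mm_iff.mp (hle (hwclose i l))
    rw [map_sub, sub_eq_zero] at this
    exact this.symm
  have hamap' : a'.map (MvPowerSeries.constantCoeff (σ := Fin n) (R := K)) =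
      Polynomial.X ^ a.natDegree := by
    rw [← hamap]
    ext l
    rw [Polynomial.coeff_map, Polynomial.coeff_map]
    have := mem_mm_iff.mp (hle (haclose l))
    rwa [map_sub, sub_eq_zero] at this
  have hφGmem : φG ∈ Φ := Or.inl (Or.inr rfl)
  have hφfmem : φf ∈ Φ := Or.inl (Or.inl rfl)
  have ha0 : toPS K n a ≠ 0 := by
    intro h0
    exact ham.ne_zero (toPS_injective (by rw [h0, map_zero]))
  -- the unit
  obtain ⟨q0, hq0, hu⟩ := hquot φG hφGmem
  obtain ⟨qb, hqb⟩ := hΦ φG hφGmem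
  have hconst : constantCoeff (toPS K n q0) ≠ 0 := by
    rw [← unit_compare hamap hamap' hqb hq0 (mod_vars_eq w w' hwmap φG)]
    obtain ⟨κ, hκ⟩ := aeval_sub_dvd z (fun i => toPS K n (w i)) (toPS K n a) hzw G1
    have h1 : toPS K n a * toPS K n qb = toPS K n a * (ε - κ * X0 ^ (c + 1)) := by
      rw [← map_mul, ← hqb, toPS_eval₂, hφG]
      have h2 : MvPolynomial.aeval (fun i => toPS K n (w i)) G1 =
          δ ^ 2 * Qb - toPS K n a * κ := by
        rw [← hκ, hG1 z, hzt, hzθ]
        ring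
      rw [h2, sub_mul, ← hgdef, hg]
      ring
    rw [mul_left_cancel₀ ha0 h1, map_sub, map_mul, map_pow, hX0, constantCoeff_X, zero_pow
      (by omega), mul_zero, sub_zero]
    exact (isUnit_iff_constantCoeff.mp hε).ne_zero
  obtain ⟨u', hu', huu'⟩ := fgc_inv hu hconst
  set t' : Fin m → MvPowerSeries (Fin (n + 1)) K := z' ∘ Sum.inl with ht'
  set θ0 := z' (Sum.inr none) with hθ0
  set δ' := ev t' θ0 (Polynomial.derivative f) with hδ'
  set Q' := MvPolynomial.aeval t' Q with hQ'
  have ha' : toPS K n a' = δ' ^ 2 * Q' * X0 ^ (c + 1) * u' := by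
    have h1 : MvPolynomial.aeval z' φG = toPS K n a' * toPS K n q0 := by
      rw [hz', ← toPS_eval₂, hq0, map_mul]
    rw [hφG, hG1] at h1
    calc toPS K n a' = toPS K n a' * toPS K n q0 * u' := by rw [mul_assoc, huu', mul_one]
      _ = _ := by rw [← h1]
  obtain ⟨qf, hqfm, hqf⟩ := hquot' φf hφfmem
  choose qP hqPm hqP using fun i => hquot' (φP i) (Or.inr ⟨i, rfl⟩)
  have ht'mem : ∀ j, t' j ∈ fgc (Fin (n + 1)) K := fun j => hz'mem _
  have hθ0mem : θ0 ∈ fgc (Fin (n + 1)) K := hz'mem _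
  have hQ'mem : Q' ∈ fgc (Fin (n + 1)) K := aeval_mem_fgc _ ht'mem _
  have hcoefmem : ∀ (F : Polynomial (MvPolynomial (Fin m) (MvPolynomial (Fin (n + 1)) K)))
      (l : ℕ), (F.map (MvPolynomial.aeval (R := MvPolynomial (Fin (n + 1)) K) t').toRingHom).coeff l
        ∈ fgc (Fin (n + 1)) K := by
    intro F l
    rw [Polynomial.coeff_map]
    exact aeval_mem_fgc _ ht'mem _
  have hevmap : ∀ (F : Polynomial (MvPolynomial (Fin m) (MvPolynomial (Fin (n + 1)) K)))
      (x : MvPowerSeries (Fin (n + 1)) K), ev t' x F =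
      (F.map (MvPolynomial.aeval (R := MvPolynomial (Fin (n + 1)) K) t').toRingHom).eval x := by
    intro F x
    rw [ev_apply, Polynomial.eval_map]
  have hδ'mem : δ' ∈ fgc (Fin (n + 1)) K := by
    rw [hδ', hevmap]
    exact eval_mem_subring _ _ (hcoefmem _) hθ0mem
  have hX0mem : X0 ∈ fgc (Fin (n + 1)) K := by
    have := coe_mem_fgc (K := K) (MvPolynomial.X (0 : Fin (n + 1)))
    rwa [MvPolynomial.coe_X] at this
  set β := Q' * X0 ^ (c + 1) * (u' * qf) with hβ
  have hβmem : β ∈ fgc (Fin (n + 1)) K :=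
    Subring.mul_mem _ (Subring.mul_mem _ hQ'mem (Subring.pow_mem _ hX0mem _))
      (Subring.mul_mem _ hu' hqfm)
  have hβ0 : constantCoeff β = 0 := by
    rw [hβ, map_mul, map_mul, map_pow, hX0, constantCoeff_X, zero_pow (by omega), mul_zero,
      zero_mul]
  set p := f.map (MvPolynomial.aeval (R := MvPolynomial (Fin (n + 1)) K) t').toRingHom with hp
  obtain ⟨u1, hu1, hroot⟩ := fgc_hensel (p.natDegree + 1) β hβmem hβ0
    (fun k => (Polynomial.taylor θ0 p).coeff (k + 2) * δ' ^ k)
    (fun k => Subring.mul_mem _ (taylor_coeff_mem _ _ (hcoefmem f) hθ0mem _)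
      (Subring.pow_mem _ hδ'mem _))
  set η := δ' * (β * u1) with hη
  have hηmem : η ∈ fgc (Fin (n + 1)) K :=
    Subring.mul_mem _ hδ'mem (Subring.mul_mem _ hβmem hu1)
  have hf0 : ev t' θ0 f = δ' ^ 2 * β := by
    have h1 := hφf z'
    rw [hqf, ha'] at h1
    rw [← h1, hβ]
    ring
  have hfroot : ev t' (θ0 + η) f = 0 := by
    rw [hevmap, ← hp, eval_add_expand]
    have e1 : p.eval θ0 = δ' ^ 2 * β := by rw [← hf0, hevmap]
    have e2 : p.derivative.eval θ0 = δ' := by
      rw [hδ', hevmap, hp, Polynomial.derivative_map]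
    have e3 : ∑ k ∈ Finset.range (p.natDegree + 1),
        (Polynomial.taylor θ0 p).coeff (k + 2) * η ^ k =
        ∑ k ∈ Finset.range (p.natDegree + 1),
        (Polynomial.taylor θ0 p).coeff (k + 2) * δ' ^ k * (β * u1) ^ k := by
      refine Finset.sum_congr rfl fun k _ => ?_
      rw [hη, mul_pow]
      ring
    rw [e1, e2, e3, hη]
    calc _ = δ' ^ 2 * (β + β * u1 + (β * u1) ^ 2 * ∑ k ∈ Finset.range (p.natDegree + 1),
        (Polynomial.taylor θ0 p).coeff (k + 2) * δ' ^ k * (β * u1) ^ k) := by ring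
      _ = 0 := by rw [hroot, mul_zero]
  have hdiff : ∀ i, ∃ κ ∈ fgc (Fin (n + 1)) K, ev t' (θ0 + η) (P i) = ev t' θ0 (P i) + η * κ := by
    intro i
    obtain ⟨κ, hκ, hκ'⟩ := eval_add_diff _ _ (hcoefmem (P i)) hθ0mem hηmem
    exact ⟨κ, hκ, by rw [hevmap, hevmap, hκ']⟩
  choose κ hκmem hκ using hdiff
  have hmmle : mm (Fin (n + 1)) K ^ (c + 1) ≤ mm (Fin (n + 1)) K ^ c :=
    Ideal.pow_le_pow_right (by omega)
  have hamm : toPS K n a ∈ mm (Fin (n + 1)) K ^ (c + 1) := by
    obtain ⟨ε', hε'⟩ := hε.exists_right_inv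
    have : toPS K n a = g * ε' := by rw [hg, mul_assoc, hε', mul_one]
    rw [this, hgdef]
    exact Ideal.mul_mem_right _ _ (Ideal.mul_mem_left _ _ hX0mm)
  have hclose : ∀ i, z' i - z i ∈ mm (Fin (n + 1)) K ^ (c + 1) := by
    intro i
    rw [hz i, hz']
    have : toPS K n (w' i) - (toPS K n (w i) + toPS K n a * v i) =
        toPS K n (w' i - w i) - toPS K n a * v i := by
      rw [map_sub]
      ring
    simp only [this]
    refine Ideal.sub_mem _ (toPS_mem_mm_pow _ _ fun l => ?_) (Ideal.mul_mem_right _ _ hamm)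
    rw [Polynomial.coeff_sub]
    exact hwclose i l
  have hηmm : η ∈ mm (Fin (n + 1)) K ^ (c + 1) := by
    rw [hη, hβ]
    have : δ' * (Q' * X0 ^ (c + 1) * (u' * qf) * u1) =
        δ' * Q' * (u' * qf) * u1 * X0 ^ (c + 1) := by ring
    rw [this]
    exact Ideal.mul_mem_left _ _ hX0mm
  refine ⟨t', θ0 + η, fun i => z' (Sum.inr (some i)) + X0 ^ (c + 1) *
    (δ' ^ 2 * u' * qP i + δ' * u' * qf * u1 * κ i), ht'mem, Subring.add_mem _ hθ0mem hηmem,
    fun i => ?_, fun j => ?_, ?_, fun i => ?_, hfroot, fun i => ?_⟩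
  · refine Subring.add_mem _ (hz'mem _) (Subring.mul_mem _ (Subring.pow_mem _ hX0mem _)
      (Subring.add_mem _ ?_ ?_))
    · exact Subring.mul_mem _ (Subring.mul_mem _ (Subring.pow_mem _ hδ'mem _) hu') (hqPm i)
    · exact Subring.mul_mem _ (Subring.mul_mem _ (Subring.mul_mem _ (Subring.mul_mem _ hδ'mem hu')
        hqfm) hu1) (hκmem i)
  · exact hmmle (hclose (Sum.inl j))
  · have := Ideal.add_mem _ (hclose (Sum.inr none)) hηmm
    rw [hzθ, ← hθ0] at this
    have e : θ0 + η - θ = θ0 - θ + η := by ring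
    rw [e]
    exact hmmle this
  · have h1 := hclose (Sum.inr (some i))
    have h2 : z (Sum.inr (some i)) = y i := rfl
    rw [h2] at h1
    have h3 := Ideal.add_mem _ h1 (Ideal.mul_mem_right
      (δ' ^ 2 * u' * qP i + δ' * u' * qf * u1 * κ i) _ hX0mm)
    have e : z' (Sum.inr (some i)) + X0 ^ (c + 1) *
        (δ' ^ 2 * u' * qP i + δ' * u' * qf * u1 * κ i) - y i =
        z' (Sum.inr (some i)) - y i + X0 ^ (c + 1) *
        (δ' ^ 2 * u' * qP i + δ' * u' * qf * u1 * κ i) := by ring
    rw [e]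
    exact hmmle h3
  · have h1 := hφP z' i
    rw [hqP, ha'] at h1
    have h2 : ev t' θ0 (P i) = Q' * z' (Sum.inr (some i)) +
        δ' ^ 2 * Q' * X0 ^ (c + 1) * u' * qP i := by
      rw [h1]
      ring
    rw [hκ i, h2, hη, hβ]
    ring

end Vale.Agent.P202.CZ
end

section

/-!
The approximation theorem.
-/

namespace Vale.Agent.P202.CZ

open MvPowerSeries

variable {K : Type*} [Field K]

lemma exists_notMem_pow {σ : Type*} [Finite σ] {f : MvPowerSeries σ K} (hf : f ≠ 0) :
    ∃ c, f ∉ mm σ K ^ c := by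
  by_contra h
  push Not at h
  apply hf
  ext d
  exact (mem_mm_pow_iff.mp (h (d.degree + 1))) d (by omega)

instance psIsDomain {σ : Type*} : IsDomain (MvPowerSeries σ K) :=
  NoZeroDivisors.to_isDomain _

theorem approx_succ [CharZero K] {n : ℕ} (h : Approx K n) : Approx K (n + 1) := by
  intro ι _ y c0
  have : CharZero (MvPowerSeries (Fin (n + 1)) K) := by
    exact algebraRat.charZero _
  have hinj : Function.Injective (algebraMap (MvPolynomial (Fin (n + 1)) K)
      (MvPowerSeries (Fin (n + 1)) K)) := MvPolynomial.coe_injective _ _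
  obtain ⟨m, t, θ, f, Q, P, hfm, hker, hδ, hQ, hy⟩ := exists_primitive_data hinj y
  obtain ⟨c1, hc1⟩ := exists_notMem_pow hQ
  set c := max c0 c1 with hc
  have hg : (ev t θ (Polynomial.derivative f)) ^ 2 * MvPolynomial.aeval t Q ≠ 0 :=
    mul_ne_zero (pow_ne_zero _ hδ) hQ
  obtain ⟨σ, σ₀, hσ, hσf, hσf', hσm, hσm', hreg⟩ := exists_coord_change _ hg
  set σr : MvPowerSeries (Fin (n + 1)) K →+* MvPowerSeries (Fin (n + 1)) K :=
    σ.toRingEquiv.toRingHom with hσr
  set σ₀r : MvPolynomial (Fin (n + 1)) K →+* MvPolynomial (Fin (n + 1)) K :=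
    σ₀.toRingEquiv.toRingHom with hσ₀r
  have hcomp : ∀ a, σr
      (algebraMap (MvPolynomial (Fin (n + 1)) K) (MvPowerSeries (Fin (n + 1)) K) a) =
      algebraMap (MvPolynomial (Fin (n + 1)) K) (MvPowerSeries (Fin (n + 1)) K)
        (σ₀r a) := fun a => hσ a
  have hev := ev_map (m := m) σr σ₀r hcomp
  have hae := aeval_map' (ι := Fin m) σr σ₀r hcomp
  have hf0 : ev t θ f = 0 := (hker f).mpr dvd_rfl
  obtain ⟨t', θ', y', ht'm, hθ'm, hy'm, ht'c, hθ'c, hy'c, hf', hy'⟩ :=
    approx_reg h (f.map (MvPolynomial.map σ₀r)) (MvPolynomial.map σ₀r Q)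
      (fun i => (P i).map (MvPolynomial.map σ₀r)) (σr ∘ t) (σr θ) (fun i => σr (y i))
      (by rw [hev, hf0, map_zero])
      (by
        intro i
        rw [hae, hev, ← map_mul, hy i]
        rfl)
      (by
        rw [Polynomial.derivative_map, hev, hae, ← map_pow, ← map_mul]
        exact hreg) c
  have hsymm : ∀ x, σr (σ.symm x) = x := fun x => σ.apply_symm_apply x
  have hinjσ : Function.Injective σr := σ.injective
  set t'' : Fin m → MvPowerSeries (Fin (n + 1)) K := fun j => σ.symm (t' j) with ht''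
  have hcompt : σr ∘ t'' = t' := by
    funext j
    exact hsymm _
  have hmem : ∀ {k : ℕ} {a b : MvPowerSeries (Fin (n + 1)) K},
      a - σr b ∈ mm (Fin (n + 1)) K ^ k → σ.symm a - b ∈ mm (Fin (n + 1)) K ^ k := by
    intro k a b hab
    have h1 := hσm' k _ hab
    rw [map_sub] at h1
    have h2 : σ.symm (σr b) = b := σ.symm_apply_apply b
    rwa [h2] at h1
  have hcc0 : mm (Fin (n + 1)) K ^ c ≤ mm (Fin (n + 1)) K ^ c0 :=
    Ideal.pow_le_pow_right (le_max_left _ _)
  have hcc1 : mm (Fin (n + 1)) K ^ c ≤ mm (Fin (n + 1)) K ^ c1 :=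
    Ideal.pow_le_pow_right (le_max_right _ _)
  refine ⟨fun i => σ.symm (y' i), fun i => hσf' _ (hy'm i), fun i => hcc0 (hmem (hy'c i)), ?_⟩
  intro F hF
  have hev'' : ∀ G, ev t'' (σ.symm θ') G = 0 ↔ ev t' θ' (G.map (MvPolynomial.map σ₀r)) = 0 := by
    intro G
    have h1 := hev t'' (σ.symm θ') G
    rw [hcompt, hsymm] at h1
    rw [h1]
    exact (map_eq_zero_iff σr hinjσ).symm
  refine relations_transfer t θ f Q P y (fun G hG => (hker G).mp hG) hy t'' (σ.symm θ')
    (fun i => σ.symm (y' i)) ((hev'' f).mpr hf') ?_ ?_ F hF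
  · intro h0
    apply hc1
    have hclose : MvPolynomial.aeval t'' Q - MvPolynomial.aeval t Q ∈
        mm (Fin (n + 1)) K ^ c := by
      rw [← Ideal.Quotient.eq, MvPolynomial.aeval_def, MvPolynomial.aeval_def,
        MvPolynomial.hom_eval₂, MvPolynomial.hom_eval₂]
      congr 1
      funext j
      exact Ideal.Quotient.eq.mpr (hmem (ht'c j))
    rw [h0, zero_sub] at hclose
    exact hcc1 ((Ideal.neg_mem_iff _).mp hclose)
  · intro i
    apply hinjσ
    rw [map_mul, hsymm, ← hae, ← hev, hcompt, hsymm]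
    exact hy' i

theorem approx [CharZero K] (n : ℕ) : Approx K n := by
  induction n with
  | zero => exact approx_zero
  | succ n ih => exact approx_succ ih

end Vale.Agent.P202.CZ
end

section

/-!
The approximation theorem for finitely generated rings of power series.
-/

namespace Vale.Agent.P202.CZ

open MvPowerSeries

universe u

/-- power series with coefficients in a subring as a range. -/
theorem coeffsIn_iff_mem_range {σ : Type*} {K : Type*} [Field K] {D : Subring K}
    {f : MvPowerSeries σ K} :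
    CoeffsIn D f ↔ f ∈ (MvPowerSeries.map (σ := σ) D.subtype).range := by
  constructor
  · intro h
    have hg : ∃ g : MvPowerSeries σ D, ∀ a, coeff a g = ⟨coeff a f, h a⟩ :=
      ⟨fun a => ⟨coeff a f, h a⟩, fun _ => rfl⟩
    obtain ⟨g, hg⟩ := hg
    refine ⟨g, ?_⟩
    ext a
    rw [coeff_map, hg]
    rfl
  · rintro ⟨g, rfl⟩ a
    rw [coeff_map]
    exact (coeff a g).2

theorem map_subtype_injective {σ : Type*} {K : Type*} [Field K] (D : Subring K) :
    Function.Injective (MvPowerSeries.map (σ := σ) D.subtype) := by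
  intro f g h
  ext a
  have := congrArg (coeff a) h
  rw [coeff_map, coeff_map] at this
  exact this

/-- factorization of one homomorphism through the range of another one. -/
theorem exists_lift_range {P A C : Type*} [CommRing P] [CommRing A] [CommRing C] (φ : P →+* A)
    (φz : P →+* C) (hker : ∀ p, φ p = 0 → φz p = 0) (S : Subring A) (hS : S ≤ φ.range) :
    ∃ Ψ : S →+* C, ∀ (b : S) (p : P), φ p = b → Ψ b = φz p := by
  have hker' : ∀ p ∈ RingHom.ker φ, φz p = 0 := fun p hp => hker p hp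
  refine ⟨((Ideal.Quotient.lift (RingHom.ker φ) φz hker').comp
      (φ.quotientKerEquivRange.symm : φ.range →+* _)).comp (Subring.inclusion hS), ?_⟩
  intro b p hp
  have h1 : φ.quotientKerEquivRange.symm (Subring.inclusion hS b) =
      Ideal.Quotient.mk (RingHom.ker φ) p := by
    rw [RingEquiv.symm_apply_eq]
    exact Subtype.ext hp.symm
  change Ideal.Quotient.lift (RingHom.ker φ) φz hker'
    (φ.quotientKerEquivRange.symm (Subring.inclusion hS b)) = _
  rw [h1, Ideal.Quotient.lift_mk]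

theorem values_mem {K : Type*} [Field K] {σ : Type*} {D : Subring K} {J : Ideal (MvPowerSeries σ K)}
    (T : Set (MvPowerSeries σ K)) (Ψ : Subring.closure T →+* MvPowerSeries σ K)
    (h : ∀ t (ht : t ∈ T), Ψ ⟨t, Subring.subset_closure ht⟩ ∈
        (MvPowerSeries.map (σ := σ) D.subtype).range ∧
      Ψ ⟨t, Subring.subset_closure ht⟩ - t ∈ J) (b : MvPowerSeries σ K)
    (hb : b ∈ Subring.closure T) :
    Ψ ⟨b, hb⟩ ∈ (MvPowerSeries.map (σ := σ) D.subtype).range ∧ Ψ ⟨b, hb⟩ - b ∈ J := by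
  induction hb using Subring.closure_induction with
  | mem t ht => exact h t ht
  | zero =>
    have h1 : Ψ ⟨0, Subring.zero_mem _⟩ = 0 := map_zero Ψ
    rw [h1, sub_self]
    exact ⟨Subring.zero_mem _, Ideal.zero_mem _⟩
  | one =>
    have h1 : Ψ ⟨1, Subring.one_mem _⟩ = 1 := map_one Ψ
    rw [h1, sub_self]
    exact ⟨Subring.one_mem _, Ideal.zero_mem _⟩
  | add b b' hb hb' ih ih' =>
    have h1 : Ψ ⟨b + b', Subring.add_mem _ hb hb'⟩ = Ψ ⟨b, hb⟩ + Ψ ⟨b', hb'⟩ :=
      map_add Ψ ⟨b, hb⟩ ⟨b', hb'⟩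
    rw [h1]
    refine ⟨Subring.add_mem _ ih.1 ih'.1, ?_⟩
    have h2 : Ψ ⟨b, hb⟩ + Ψ ⟨b', hb'⟩ - (b + b') = (Ψ ⟨b, hb⟩ - b) + (Ψ ⟨b', hb'⟩ - b') := by
      ring
    rw [h2]
    exact Ideal.add_mem _ ih.2 ih'.2
  | neg b hb ih =>
    have h1 : Ψ ⟨-b, Subring.neg_mem _ hb⟩ = - Ψ ⟨b, hb⟩ := map_neg Ψ ⟨b, hb⟩
    rw [h1]
    refine ⟨Subring.neg_mem _ ih.1, ?_⟩
    have h2 : - Ψ ⟨b, hb⟩ - -b = -(Ψ ⟨b, hb⟩ - b) := by ring
    rw [h2]
    exact neg_mem ih.2
  | mul b b' hb hb' ih ih' =>
    have h1 : Ψ ⟨b * b', Subring.mul_mem _ hb hb'⟩ = Ψ ⟨b, hb⟩ * Ψ ⟨b', hb'⟩ :=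
      map_mul Ψ ⟨b, hb⟩ ⟨b', hb'⟩
    rw [h1]
    refine ⟨Subring.mul_mem _ ih.1 ih'.1, ?_⟩
    have h2 : Ψ ⟨b, hb⟩ * Ψ ⟨b', hb'⟩ - b * b' =
        Ψ ⟨b, hb⟩ * (Ψ ⟨b', hb'⟩ - b') + b' * (Ψ ⟨b, hb⟩ - b) := by ring
    rw [h2]
    exact Ideal.add_mem _ (Ideal.mul_mem_left _ _ ih'.2) (Ideal.mul_mem_left _ _ ih.2)

/-- lifting to power series over the subring. -/
theorem exists_descend {K : Type*} [Field K] {σ : Type*} {D : Subring K} {S : Type*} [CommRing S]
    (Ψ : S →+* MvPowerSeries σ K)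
    (h : ∀ b, Ψ b ∈ (MvPowerSeries.map (σ := σ) D.subtype).range) :
    ∃ ψ : S →+* MvPowerSeries σ D, ∀ b, MvPowerSeries.map (σ := σ) D.subtype (ψ b) = Ψ b := by
  obtain ⟨ψ, hψ⟩ := exists_lift_range (MvPowerSeries.map (σ := σ) D.subtype)
    (RingHom.id (MvPowerSeries σ D)) (fun p hp => map_subtype_injective D (by
      rw [RingHom.id_apply, hp, map_zero]))
    (MvPowerSeries.map (σ := σ) D.subtype).range le_rfl
  refine ⟨ψ.comp (Ψ.codRestrict _ h), fun b => ?_⟩
  obtain ⟨p, hp⟩ := h b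
  rw [RingHom.comp_apply, hψ _ p hp]
  exact hp

theorem approx_ringHom_of {K : Type u} [Field K] {d : ℕ} (happ : Approx K d)
    (T : Finset (MvPowerSeries (Fin d) K)) (c : ℕ) :
    ∃ (s : Finset K) (ψ : Subring.closure (T : Set (MvPowerSeries (Fin d) K)) →+*
        MvPowerSeries (Fin d) (Subring.closure (s : Set K))),
      (∀ b, MvPowerSeries.map (Subring.closure (s : Set K)).subtype (ψ b) -
        (b : MvPowerSeries (Fin d) K) ∈ mm (Fin d) K ^ c) ∧
      ∀ (i : Fin d) (h : X i ∈ Subring.closure (T : Set (MvPowerSeries (Fin d) K))),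
        ψ ⟨X i, h⟩ = X i := by
  classical
  have hy : ∃ y : Fin T.card → MvPowerSeries (Fin d) K, (∀ i, y i ∈ T) ∧
      ∀ t (ht : t ∈ T), y (T.equivFin ⟨t, ht⟩) = t :=
    ⟨fun i => (T.equivFin.symm i : _), fun i => (T.equivFin.symm i).2, fun t ht => by simp⟩
  obtain ⟨y, -, hy2⟩ := hy
  obtain ⟨z, hz1, hz2, hz3⟩ := happ (Fin T.card) y c
  choose sz hsz using hz1
  have hzD : ∃ s : Finset K, ∀ i, CoeffsIn (Subring.closure (s : Set K)) (z i) := by
    refine ⟨Finset.univ.biUnion sz, ?_⟩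
    intro i a
    refine Subring.closure_mono ?_ (hsz i a)
    intro x hx
    rw [Finset.coe_biUnion]
    exact Set.mem_biUnion (Finset.mem_coe.2 (Finset.mem_univ i)) hx
  obtain ⟨s, hzD⟩ := hzD
  obtain ⟨Ψ, hΨ⟩ := exists_lift_range
    (MvPolynomial.aeval (R := MvPolynomial (Fin d) K) y).toRingHom
    (MvPolynomial.aeval (R := MvPolynomial (Fin d) K) z).toRingHom (fun p hp => hz3 p hp)
    (Subring.closure (T : Set (MvPowerSeries (Fin d) K))) (by
      rw [Subring.closure_le]
      intro t ht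
      refine ⟨MvPolynomial.X (T.equivFin ⟨t, ht⟩), ?_⟩
      change MvPolynomial.aeval y (MvPolynomial.X (T.equivFin ⟨t, ht⟩)) = t
      rw [MvPolynomial.aeval_X, hy2])
  have hgen : ∀ t (ht : t ∈ (T : Set (MvPowerSeries (Fin d) K))),
      Ψ ⟨t, Subring.subset_closure ht⟩ = z (T.equivFin ⟨t, ht⟩) := by
    intro t ht
    rw [hΨ _ (MvPolynomial.X (T.equivFin ⟨t, ht⟩)) ?_]
    · change MvPolynomial.aeval z (MvPolynomial.X (T.equivFin ⟨t, ht⟩)) = _
      rw [MvPolynomial.aeval_X]
    · change MvPolynomial.aeval y (MvPolynomial.X (T.equivFin ⟨t, ht⟩)) = t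
      rw [MvPolynomial.aeval_X, hy2]
  have hmem := values_mem (D := Subring.closure (s : Set K)) (J := mm (Fin d) K ^ c) _ Ψ (by
    intro t ht
    rw [hgen t ht]
    refine ⟨coeffsIn_iff_mem_range.1 (hzD _), ?_⟩
    have h2 := hz2 (T.equivFin ⟨t, ht⟩)
    rwa [hy2 t ht] at h2)
  obtain ⟨ψ, hψ⟩ := exists_descend Ψ (fun b => (hmem b.1 b.2).1)
  refine ⟨s, ψ, ?_, ?_⟩
  · intro b
    rw [hψ]
    exact (hmem b.1 b.2).2
  · intro i h
    apply map_subtype_injective
    rw [hψ, map_X, hΨ _ (MvPolynomial.C (MvPolynomial.X i)) ?_]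
    · change MvPolynomial.aeval z (MvPolynomial.C (MvPolynomial.X i)) = _
      rw [MvPolynomial.aeval_C]
      exact MvPolynomial.coe_X i
    · change MvPolynomial.aeval y (MvPolynomial.C (MvPolynomial.X i)) = _
      rw [MvPolynomial.aeval_C]
      exact MvPolynomial.coe_X i

/-- D7: the approximation theorem for finitely generated rings of power series. -/
theorem approx_ringHom {K : Type u} [Field K] [CharZero K] {d : ℕ}
    (T : Finset (MvPowerSeries (Fin d) K)) (c : ℕ) :
    ∃ (s : Finset K) (ψ : Subring.closure (T : Set (MvPowerSeries (Fin d) K)) →+*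
        MvPowerSeries (Fin d) (Subring.closure (s : Set K))),
      (∀ b, MvPowerSeries.map (Subring.closure (s : Set K)).subtype (ψ b) -
        (b : MvPowerSeries (Fin d) K) ∈ mm (Fin d) K ^ c) ∧
      ∀ (i : Fin d) (h : X i ∈ Subring.closure (T : Set (MvPowerSeries (Fin d) K))),
        ψ ⟨X i, h⟩ = X i :=
  approx_ringHom_of (approx d) T c

end Vale.Agent.P202.CZ
end

section

/-!
Comparison of the invariant `emin` of a system of elements with that of its image modulo the
first element (the general direction), and iterated summation.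
-/

set_option linter.unusedSectionVars false

namespace Vale.Agent.P202

open Ideal IsLocalRing Finset

lemma tri_zero_card (σ : Type*) [Fintype σ] [LinearOrder σ] : (tri σ 0).card = 0 := by
  rw [Finset.card_eq_zero]
  ext u
  simp [mem_tri]

lemma sum_tri (δ N : ℕ) :
    ∑ i ∈ Finset.range N, (tri (Fin δ) (i + 1)).card = (tri (Fin (δ + 1)) N).card := by
  induction N with
  | zero => rw [Finset.sum_range_zero, tri_zero_card]
  | succ N ih =>
    rw [Finset.sum_range_succ, ih, card_tri_succ, card_tri_succ, Fintype.card_fin,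
      Fintype.card_fin]
    rcases N with _ | N
    · rw [tri_zero_card, Nat.multichoose_zero_right, Nat.multichoose_zero_right]
    · rw [card_tri_succ, Fintype.card_fin, Nat.multichoose_succ_succ (δ + 1) N, add_comm]

lemma sum_pow_le (δ N : ℕ) (hδ : 0 < δ) :
    ∑ i ∈ Finset.range N, (i + 1) ^ (δ - 1) ≤ N ^ δ := by
  have h1 : ∀ i ∈ Finset.range N, (i + 1) ^ (δ - 1) ≤ N ^ (δ - 1) := by
    intro i hi
    rw [Finset.mem_range] at hi
    exact Nat.pow_le_pow_left hi _
  refine (Finset.sum_le_card_nsmul _ _ _ h1).trans (le_of_eq ?_)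
  rw [Finset.card_range, smul_eq_mul, ← pow_succ']
  congr 1
  omega

/-- the length of the quotient by a power of `J`, where `z ∈ J`. -/
lemma ell_pow_le_sum {A : Type*} [CommRing A] (J : Ideal A) {z : A} (hz : z ∈ J) (N : ℕ) :
    ell (J ^ N) ≤ ∑ i ∈ Finset.range N,
      ell ((J.map (Ideal.Quotient.mk (Ideal.span {z}))) ^ (i + 1)) := by
  induction N with
  | zero =>
    rw [pow_zero, Finset.sum_range_zero, nonpos_iff_eq_zero, ell_eq_zero_iff, Ideal.one_eq_top]
  | succ N ih =>
    rw [Finset.sum_range_succ, ell_eq_add (J ^ (N + 1)) z, ← ell_map_mk, Ideal.map_pow]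
    refine add_le_add ((ell_mono ?_).trans ih) le_rfl
    intro a ha
    rw [mem_col, pow_succ]
    exact Ideal.mul_mem_mul ha hz

theorem emin_le_quot {A : Type*} [CommRing A] {δ : ℕ} (hδ : 0 < δ) (z : A) (y : Fin δ → A)
    (hfin : ell (Ideal.span (Set.range (Fin.cons z y : Fin (δ + 1) → A))) ≠ ⊤) :
    emin (Fin.cons z y : Fin (δ + 1) → A) ≤
      emin (fun i => Ideal.Quotient.mk (Ideal.span {z}) (y i)) := by
  set Y : Fin (δ + 1) → A := Fin.cons z y with hY
  set π := Ideal.Quotient.mk (Ideal.span {z}) with hπ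
  set J := Ideal.span (Set.range Y) with hJ
  have hzJ : z ∈ J := Ideal.subset_span ⟨0, by simp [hY]⟩
  have hmap : J.map π = Ideal.span (Set.range fun i => π (y i)) := by
    rw [hJ, hY, Fin.range_cons, Ideal.map_span, Set.image_insert_eq, Ideal.span_insert,
      Ideal.Quotient.eq_zero_iff_mem.mpr (Ideal.mem_span_singleton_self z)]
    simp only [Ideal.span_singleton_zero, bot_sup_eq]
    congr 1
    ext w
    simp
  have hfin' : ell (Ideal.span (Set.range fun i => π (y i))) ≠ ⊤ := by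
    rw [← hmap, ell_map_mk]
    exact ne_top_of_le_ne_top hfin (ell_mono le_sup_left)
  obtain ⟨E, hE⟩ := ENat.ne_top_iff_exists.mp (emin_ne_top hfin)
  obtain ⟨e, he⟩ := ENat.ne_top_iff_exists.mp (emin_ne_top hfin')
  obtain ⟨B, hB⟩ := ENat.ne_top_iff_exists.mp (errB_ne_top hfin')
  have key := le_of_forall_tri_le (σ := Fin (δ + 1)) (by simp) E e B 0 fun N _ => by
    have h1 := (emin_mul_card_le Y N).trans (ell_pow_le_sum J hzJ N)
    rw [hmap, ← hE] at h1
    have h2 : ∑ i ∈ Finset.range N, ell (Ideal.span (Set.range fun i => π (y i)) ^ (i + 1)) ≤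
        ∑ i ∈ Finset.range N, ((((tri (Fin δ) (i + 1)).card * e +
          B * (i + 1) ^ (δ - 1) : ℕ)) : ℕ∞) := by
      refine Finset.sum_le_sum fun i _ => ?_
      have h3 := ell_pow_le (fun i => π (y i)) (i + 1)
      rw [← he, ← hB, Fintype.card_fin] at h3
      push_cast at h3 ⊢
      exact h3
    have h4 := h1.trans h2
    rw [← Nat.cast_sum, ← Nat.cast_mul, Nat.cast_le, Finset.sum_add_distrib,
      ← Finset.sum_mul, ← Finset.mul_sum, sum_tri] at h4
    rw [add_zero, Fintype.card_fin, Nat.add_sub_cancel]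
    calc E * (tri (Fin (δ + 1)) N).card ≤ _ := h4
      _ ≤ e * (tri (Fin (δ + 1)) N).card + B * N ^ δ := by
          rw [mul_comm e]
          gcongr
          exact sum_pow_le δ N hδ
  rw [← hE, ← he]
  exact_mod_cast key

end Vale.Agent.P202
end

section

/-!
Induction on the dimension: from the two-dimensional inequality to all dimensions.
-/

set_option linter.unusedSectionVars false

namespace Vale.Agent.P202

open Ideal IsLocalRing Finset

universe u

/-- The two-dimensional inequality, as a hypothesis (with a condition on the residue field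
extension when `b` holds). -/
def TwoDimBound (b : Prop) : Prop :=
  ∀ (A S : Type u) [CommRing A] [IsLocalRing A] [IsNoetherianRing A]
    [IsAdicComplete (maximalIdeal A) A]
    [CommRing S] [IsLocalRing S] [IsNoetherianRing S] [Algebra A S]
    [IsLocalHom (algebraMap A S)] [Module.Flat A S],
    (b → Module.length (ResidueField A) (ResidueField S) ≠ ⊤) →
    Module.length S (S ⧸ (maximalIdeal A).map (algebraMap A S)) ≠ ⊤ →
    ∀ x1 x2 : A, x1 ∈ maximalIdeal A → x2 ∈ maximalIdeal A →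
    ∀ r : ℕ, maximalIdeal A ^ (r + 1) ≤ Ideal.span {x1, x2} * maximalIdeal A ^ r →
    ∀ y1 y2 : S, y1 ∈ maximalIdeal S → y2 ∈ maximalIdeal S →
    Module.length S (S ⧸ Ideal.span {y1, y2}) ≠ ⊤ → ∀ c : ℕ,
    Module.length S (S ⧸ ((maximalIdeal A).map (algebraMap A S) ⊔ Ideal.span {y1, y2}))
      = (c : ℕ∞) →
    ∃ K : ℕ, ∀ j : ℕ, (c : ℕ∞) * (2 * ell (maximalIdeal A ^ j)) ≤
      ((chi2 y1 y2 S).toNat : ℕ∞) * (j : ℕ∞) ^ 2 + (K : ℕ∞) * ((j : ℕ∞) + 1)

section quotient

variable {R : Type*} [CommRing R] (I : Ideal R)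

lemma cd_isPrecomplete_of_surjective {M N : Type*} [AddCommGroup M] [Module R M]
    [AddCommGroup N] [Module R N] [IsPrecomplete I M] (f : M →ₗ[R] N)
    (hf : Function.Surjective f) : IsPrecomplete I N := by
  rw [← AdicCompletion.of_surjective_iff]
  intro y
  obtain ⟨x, rfl⟩ := AdicCompletion.map_surjective I hf y
  obtain ⟨z, rfl⟩ := AdicCompletion.of_surjective I M x
  exact ⟨f z, (AdicCompletion.map_of ..).symm⟩

lemma cd_isPrecomplete_quotient [IsPrecomplete I R] (P : Ideal R) :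
    IsPrecomplete (I.map (Ideal.Quotient.mk P)) (R ⧸ P) := by
  have h1 : IsPrecomplete I (R ⧸ P) :=
    cd_isPrecomplete_of_surjective I P.mkQ P.mkQ_surjective
  exact IsPrecomplete.map_algebraMap_iff.mpr h1

end quotient

lemma map_max_quot {S : Type*} [CommRing S] [IsLocalRing S] {Q : Ideal S}
    (hQ : Q ≤ maximalIdeal S) [IsLocalRing (S ⧸ Q)] :
    (maximalIdeal S).map (Ideal.Quotient.mk Q) = maximalIdeal (S ⧸ Q) := by
  apply eq_maximalIdeal
  refine Ideal.IsMaximal.map_of_surjective_of_ker_le Ideal.Quotient.mk_surjective ?_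
  rw [Ideal.mk_ker]
  exact hQ

/-- A nonzero quotient of a complete local ring is complete. -/
lemma cd_isAdicComplete_quotient {S : Type*} [CommRing S] [IsLocalRing S] [IsNoetherianRing S]
    [IsAdicComplete (maximalIdeal S) S] {Q : Ideal S} (hQ : Q ≤ maximalIdeal S)
    [IsLocalRing (S ⧸ Q)] :
    IsAdicComplete (maximalIdeal (S ⧸ Q)) (S ⧸ Q) := by
  have h1 : IsPrecomplete (maximalIdeal (S ⧸ Q)) (S ⧸ Q) := by
    have h1 := cd_isPrecomplete_quotient (maximalIdeal S) Q
    rwa [map_max_quot hQ] at h1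
  have h3 : IsHausdorff (maximalIdeal (S ⧸ Q)) (S ⧸ Q) :=
    IsHausdorff.of_le_jacobson _ _ (by rw [IsLocalRing.jacobson_eq_maximalIdeal ⊥ bot_ne_top])
  exact { h1, h3 with }

lemma isLocalRing_quot {S : Type*} [CommRing S] [IsLocalRing S] {Q : Ideal S}
    (hQ : Q ≤ maximalIdeal S) : IsLocalRing (S ⧸ Q) := by
  have hQ' : Q ≠ ⊤ := fun h => (IsLocalRing.maximalIdeal.isMaximal S).ne_top (top_le_iff.mp (h ▸ hQ))
  have : Nontrivial (S ⧸ Q) := Ideal.Quotient.nontrivial_iff.mpr hQ'
  exact IsLocalRing.of_surjective' (Ideal.Quotient.mk Q) Ideal.Quotient.mk_surjective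

section

variable {R S : Type*} [CommRing R] [IsLocalRing R] [CommRing S] [IsLocalRing S] [Algebra R S]
  [IsLocalHom (algebraMap R S)]

lemma map_max_le : (maximalIdeal R).map (algebraMap R S) ≤ maximalIdeal S := by
  rw [Ideal.map_le_iff_le_comap]
  intro a ha
  exact (IsLocalRing.mem_maximalIdeal _).mpr fun h =>
    (IsLocalRing.mem_maximalIdeal _).mp ha (isUnit_of_map_unit (algebraMap R S) a h)

lemma isLocalHom_quot {I : Ideal R} (hI : I ≤ maximalIdeal R) [IsLocalRing (R ⧸ I)]
    [IsLocalRing (S ⧸ I.map (algebraMap R S))] :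
    IsLocalHom (algebraMap (R ⧸ I) (S ⧸ I.map (algebraMap R S))) := by
  have hIS : I.map (algebraMap R S) ≤ maximalIdeal S := (Ideal.map_mono hI).trans map_max_le
  refine ⟨fun a ha => ?_⟩
  obtain ⟨a, rfl⟩ := Ideal.Quotient.mk_surjective a
  by_contra hna
  have h1 : a ∈ maximalIdeal R := by
    by_contra h2
    have h3 : IsUnit a := by
      by_contra h4
      exact h2 h4
    exact hna (h3.map _)
  have h2 : algebraMap R S a ∈ maximalIdeal S := map_max_le (Ideal.mem_map_of_mem _ h1)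
  have h3 : algebraMap (R ⧸ I) (S ⧸ I.map (algebraMap R S)) (Ideal.Quotient.mk I a) =
      Ideal.Quotient.mk _ (algebraMap R S a) := rfl
  rw [h3] at ha
  have h4 : Ideal.Quotient.mk (I.map (algebraMap R S)) (algebraMap R S a) ∈
      maximalIdeal (S ⧸ I.map (algebraMap R S)) := by
    rw [← map_max_quot hIS]
    exact Ideal.mem_map_of_mem _ h2
  exact (IsLocalRing.mem_maximalIdeal _).mp h4 ha

lemma residue_map_bijective {A : Type*} [CommRing A] [IsLocalRing A] {J : Ideal A}
    [IsLocalRing (A ⧸ J)] [IsLocalHom (algebraMap A (A ⧸ J))] :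
    Function.Bijective (ResidueField.map (algebraMap A (A ⧸ J))) := by
  refine ⟨RingHom.injective _, fun z => ?_⟩
  obtain ⟨z, rfl⟩ := residue_surjective z
  obtain ⟨z, rfl⟩ := Ideal.Quotient.mk_surjective z
  exact ⟨residue A z, rfl⟩

lemma residue_length_quot {I : Ideal R} [IsLocalRing (R ⧸ I)]
    [IsLocalRing (S ⧸ I.map (algebraMap R S))]
    [IsLocalHom (algebraMap (R ⧸ I) (S ⧸ I.map (algebraMap R S)))] :
    Module.length (ResidueField (R ⧸ I)) (ResidueField (S ⧸ I.map (algebraMap R S))) =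
      Module.length (ResidueField R) (ResidueField S) := by
  have h1 : IsLocalHom (algebraMap R (R ⧸ I)) :=
    IsLocalHom.of_surjective _ Ideal.Quotient.mk_surjective
  have h2 : IsLocalHom (algebraMap S (S ⧸ I.map (algebraMap R S))) :=
    IsLocalHom.of_surjective _ Ideal.Quotient.mk_surjective
  exact length_residue_of_bij (R := R) (S := S) (R' := R ⧸ I)
    (S' := S ⧸ I.map (algebraMap R S)) residue_map_bijective.2 residue_map_bijective

/-- colength of an extended ideal. -/
lemma ell_map_eq [Module.Flat R S] (I : Ideal R) :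
    ell (I.map (algebraMap R S)) = ell I * ell ((maximalIdeal R).map (algebraMap R S)) := by
  have h := IsLocalRing.length_baseChange R S (R ⧸ I)
  rw [ell, ell, ell, ← h]
  exact (Algebra.TensorProduct.quotIdealMapEquivTensorQuot S I).toLinearEquiv.length_eq

end

lemma pow_add_one_sub (d N : ℕ) : (N + 1) ^ (d + 1) ≤ N ^ (d + 1) + (d + 1) * (N + 1) ^ d := by
  induction d with
  | zero => simp
  | succ d ih =>
    calc (N + 1) ^ (d + 1 + 1) = (N + 1) ^ (d + 1) * N + (N + 1) ^ (d + 1) := by ring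
      _ ≤ (N ^ (d + 1) + (d + 1) * (N + 1) ^ d) * N + (N + 1) ^ (d + 1) := by gcongr
      _ = N ^ (d + 1 + 1) + (d + 1) * ((N + 1) ^ d * N) + (N + 1) ^ (d + 1) := by ring
      _ ≤ N ^ (d + 1 + 1) + (d + 1) * ((N + 1) ^ d * (N + 1)) + (N + 1) ^ (d + 1) := by
          gcongr
          omega
      _ = _ := by ring

lemma sum_step (δ e K : ℕ) (hδ : 0 < δ) (N : ℕ) :
    (δ + 1) * ∑ i ∈ Finset.range N, (e * (i + 1) ^ δ + K * (i + 1 + 1) ^ (δ - 1)) ≤
      e * N ^ (δ + 1) + (e * (δ + 1) + (δ + 1) * K) * (N + 1) ^ δ := by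
  have h1 : (δ + 1) * ∑ i ∈ Finset.range N, (i + 1) ^ δ ≤ (N + 1) ^ (δ + 1) := by
    induction N with
    | zero => simp
    | succ N ih =>
      rw [Finset.sum_range_succ, mul_add]
      have := pow_succ_add_le δ (N + 1)
      omega
  have h2 : ∑ i ∈ Finset.range N, (i + 1 + 1) ^ (δ - 1) ≤ (N + 1) ^ δ := by
    have h3 : ∀ i ∈ Finset.range N, (i + 1 + 1) ^ (δ - 1) ≤ (N + 1) ^ (δ - 1) := by
      intro i hi
      rw [Finset.mem_range] at hi
      exact Nat.pow_le_pow_left (by omega) _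
    refine (Finset.sum_le_card_nsmul _ _ _ h3).trans ?_
    rw [Finset.card_range, smul_eq_mul]
    obtain ⟨ε, rfl⟩ : ∃ ε, δ = ε + 1 := ⟨δ - 1, by omega⟩
    rw [Nat.add_sub_cancel, pow_succ, mul_comm]
    exact Nat.mul_le_mul_left _ (Nat.le_succ N)
  rw [Finset.sum_add_distrib, ← Finset.mul_sum, ← Finset.mul_sum]
  have h4 := pow_add_one_sub δ N
  calc (δ + 1) * (e * ∑ i ∈ Finset.range N, (i + 1) ^ δ +
        K * ∑ i ∈ Finset.range N, (i + 1 + 1) ^ (δ - 1))
      = e * ((δ + 1) * ∑ i ∈ Finset.range N, (i + 1) ^ δ) +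
        (δ + 1) * K * ∑ i ∈ Finset.range N, (i + 1 + 1) ^ (δ - 1) := by ring
    _ ≤ e * (N ^ (δ + 1) + (δ + 1) * (N + 1) ^ δ) + (δ + 1) * K * (N + 1) ^ δ := by
        gcongr
        exact h1.trans h4
    _ = _ := by ring

/-- A base case: dimension two. -/
theorem two_dim_base {b : Prop} (H : TwoDimBound.{u} b) {R S : Type u} [CommRing R] [IsLocalRing R]
    [IsNoetherianRing R] [IsAdicComplete (maximalIdeal R) R] [Infinite (ResidueField R)]
    [CommRing S] [IsLocalRing S] [IsNoetherianRing S] [Algebra R S]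
    [IsLocalHom (algebraMap R S)] [Module.Flat R S]
    (hres : b → Module.length (ResidueField R) (ResidueField S) ≠ ⊤)
    (hfib : ell ((maximalIdeal R).map (algebraMap R S)) ≠ ⊤)
    (l1 l2 : S) (hl1 : l1 ∈ maximalIdeal S) (hl2 : l2 ∈ maximalIdeal S)
    (hl : ell (Ideal.span {l1, l2}) ≠ ⊤) (ρ : ℕ)
    (hρ : ell ((maximalIdeal R).map (algebraMap R S) ⊔ Ideal.span {l1, l2}) = ρ)
    (y : Fin 2 → S) (hy : Ideal.span (Set.range y) = Ideal.span {l1, l2}) (e : ℕ)
    (he : emin y = e) :
    ∃ K : ℕ, ∀ N : ℕ, ρ * (2 * (ell (maximalIdeal R ^ N)).toNat) ≤ e * N ^ 2 + K * (N + 1) := by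
  classical
  -- growth
  have hr1 : Set.range (![l1, l2] : Fin 2 → S) = {l1, l2} := by
    ext a
    simp only [Set.mem_range, Fin.exists_fin_two, Matrix.cons_val_zero, Matrix.cons_val_one,
      Set.mem_insert_iff, Set.mem_singleton_iff]
    constructor
    · rintro (h | h)
      · exact Or.inl h.symm
      · exact Or.inr h.symm
    · rintro (h | h)
      · exact Or.inl h.symm
      · exact Or.inr h.symm
  have hle : Ideal.span {l1, l2} ≤ maximalIdeal S := by
    rw [Ideal.span_le]
    rintro a (rfl | ha)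
    · exact hl1
    · rw [Set.mem_singleton_iff] at ha
      rw [ha]; exact hl2
  obtain ⟨D, hD⟩ := exists_pow_le_of_ell_ne_top hfib
  obtain ⟨B, hB⟩ := exists_growth (![l1, l2] : Fin 2 → S)
    (by rw [hr1]; exact exists_pow_le_of_ell_ne_top hl)
    ((maximalIdeal R).map (algebraMap R S)) D
    (by rw [hr1]; exact (Ideal.pow_right_mono hle D).trans hD) hfib
  have hfib0 : ell ((maximalIdeal R).map (algebraMap R S)) ≠ 0 := by
    rw [Ne, ell_eq_zero_iff]
    intro h
    have := map_max_le (R := R) (S := S)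
    rw [h, top_le_iff] at this
    exact (IsLocalRing.maximalIdeal.isMaximal S).ne_top this
  have hgrowth : ∀ n, 0 < n → ell (maximalIdeal R ^ n) ≤ (B * n ^ 2 : ℕ) := by
    intro n hn
    refine le_trans ?_ (hB n hn)
    rw [← Ideal.map_pow, ell_map_eq]
    conv_lhs => rw [← mul_one (ell (maximalIdeal R ^ n))]
    gcongr
    exact Order.one_le_iff_ne_zero.mpr hfib0
  -- a two-generated reduction of `m`
  obtain ⟨s, hs⟩ := (IsNoetherian.noetherian (maximalIdeal R) : (maximalIdeal R).FG)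
  have hrange : Set.range (fun i : Fin s.card => ((s.equivFin.symm i : s) : R)) = (s : Set R) := by
    ext x
    constructor
    · rintro ⟨i, rfl⟩; exact (s.equivFin.symm i).2
    · intro hx; exact ⟨s.equivFin ⟨x, hx⟩, by simp⟩
  have hspan : Ideal.span (Set.range (fun i : Fin s.card => ((s.equivFin.symm i : s) : R))) =
      maximalIdeal R := by rw [hrange]; exact hs
  have hmem : ∀ i : Fin s.card, ((s.equivFin.symm i : s) : R) ∈ maximalIdeal R := by
    intro i
    rw [← hspan]
    exact Ideal.subset_span ⟨i, rfl⟩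
  obtain ⟨x, hx, hxle, r, hr⟩ := exists_reduction (R := R)
    (fun i : Fin s.card => ((s.equivFin.symm i : s) : R)) hmem 2 B
    (fun n hn => by rw [hspan]; exact hgrowth n hn)
  rw [hspan] at hxle hr
  have hrx : Set.range x = {x 0, x 1} := by
    ext a
    simp only [Set.mem_range, Fin.exists_fin_two, Set.mem_insert_iff, Set.mem_singleton_iff]
    constructor
    · rintro (h | h)
      · exact Or.inl h.symm
      · exact Or.inr h.symm
    · rintro (h | h)
      · exact Or.inl h.symm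
      · exact Or.inr h.symm
  rw [hrx] at hr
  obtain ⟨K, hK⟩ := H R S hres hfib (x 0) (x 1) (hxle (Ideal.subset_span ⟨0, rfl⟩))
    (hxle (Ideal.subset_span ⟨1, rfl⟩)) r hr l1 l2 hl1 hl2 hl ρ hρ
  refine ⟨K, fun N => ?_⟩
  have h1 := hK N
  have h2 : ((chi2 l1 l2 S).toNat : ℕ∞) ≤ e := by
    rw [← he]
    refine (chi2_le_emin l1 l2 hl).trans ?_
    refine emin_le_of_span_eq (by simp) _ _ ?_ ?_
    · rw [hr1, hy]
    · rw [hr1]; exact hl
  have h3 : (chi2 l1 l2 S).toNat ≤ e := by exact_mod_cast h2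
  obtain ⟨a, ha⟩ := ENat.ne_top_iff_exists.mp
    (ell_ne_top_of_pow_le (I := maximalIdeal R ^ N) le_rfl)
  rw [← ha] at h1 ⊢
  rw [ENat.toNat_natCast]
  have h4 : ρ * (2 * a) ≤ (chi2 l1 l2 S).toNat * N ^ 2 + K * (N + 1) := by exact_mod_cast h1
  refine h4.trans ?_
  gcongr

lemma emin_quot_le_of_eq {A : Type*} [CommRing A] [IsNoetherianRing A] {δ : ℕ} (hδ : 0 < δ)
    {J : Ideal A} {z : A} (hJ : J = Ideal.span {z}) (y : Fin δ → A)
    (hfin : ell (Ideal.span (Set.range (Fin.cons z y : Fin (δ + 1) → A))) ≠ ⊤)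
    (hfr : ∀ i, Module.length A (col (⊥ : Ideal A) (z ^ i)) ≠ ⊤) :
    emin (fun i => Ideal.Quotient.mk J (y i)) ≤ emin (Fin.cons z y : Fin (δ + 1) → A) := by
  subst hJ
  exact emin_quot_le hδ z y hfin hfr

lemma range_two {A : Type*} (a b : A) : Set.range (![a, b] : Fin 2 → A) = {a, b} := by
  ext c
  simp only [Set.mem_range, Fin.exists_fin_two, Matrix.cons_val_zero, Matrix.cons_val_one,
    Set.mem_insert_iff, Set.mem_singleton_iff]
  constructor
  · rintro (h | h)
    · exact Or.inl h.symm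
    · exact Or.inr h.symm
  · rintro (h | h)
    · exact Or.inl h.symm
    · exact Or.inr h.symm

lemma range_append' {A : Type*} {δ : ℕ} (f : Fin δ → A) (a b : A) :
    Set.range (Fin.append f ![a, b] : Fin (δ + 2) → A) = Set.range f ∪ {a, b} := by
  rw [← range_two a b]
  ext c
  constructor
  · rintro ⟨i, rfl⟩
    refine Fin.addCases (fun i => ?_) (fun i => ?_) i
    · exact Or.inl ⟨i, by rw [Fin.append_left]⟩
    · exact Or.inr ⟨i, by rw [Fin.append_right]⟩
  · rintro (⟨i, rfl⟩ | ⟨i, rfl⟩)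
    · exact ⟨Fin.castAdd 2 i, by rw [Fin.append_left]⟩
    · exact ⟨Fin.natAdd δ i, by rw [Fin.append_right]⟩

/-- The induction. -/
theorem chainD {b : Prop} (H : TwoDimBound.{u} b) (δ : ℕ) : ∀ (R S : Type u) [CommRing R] [IsLocalRing R]
    [IsNoetherianRing R] [IsAdicComplete (maximalIdeal R) R] [Infinite (ResidueField R)]
    [CommRing S] [IsLocalRing S] [IsNoetherianRing S] [Algebra R S]
    [IsLocalHom (algebraMap R S)] [Module.Flat R S]
    (_ : b → Module.length (ResidueField R) (ResidueField S) ≠ ⊤)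
    (_ : ell ((maximalIdeal R).map (algebraMap R S)) ≠ ⊤)
    (l1 l2 : S) (_ : l1 ∈ maximalIdeal S) (_ : l2 ∈ maximalIdeal S) (ρ : ℕ)
    (_ : ell ((maximalIdeal R).map (algebraMap R S) ⊔ Ideal.span {l1, l2}) = ρ)
    (x : Fin δ → R) (_ : ∀ i, x i ∈ maximalIdeal R)
    (_ : ∀ x' : Fin δ → R, (∀ i, x' i - x i ∈ maximalIdeal R ^ 2) →
      ell (Ideal.span {l1, l2} ⊔ (Ideal.span (Set.range x')).map (algebraMap R S)) ≠ ⊤),
    ∃ x' : Fin δ → R, (∀ i, x' i - x i ∈ maximalIdeal R ^ 2) ∧
      ∀ y : Fin (δ + 2) → S, Ideal.span (Set.range y) =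
        Ideal.span {l1, l2} ⊔ (Ideal.span (Set.range x')).map (algebraMap R S) →
      ∀ e : ℕ, emin y = e → ∃ K : ℕ, ∀ N : ℕ,
        ρ * ((δ + 2).factorial * (ell (maximalIdeal R ^ N)).toNat) ≤
          e * N ^ (δ + 2) + K * (N + 1) ^ (δ + 1) := by
  induction δ with
  | zero =>
    intro R S _ _ _ _ _ _ _ _ _ _ _ hres hfib l1 l2 hl1 hl2 ρ hρ x hx hfin
    refine ⟨x, fun i => i.elim0, fun y hy e he => ?_⟩
    have h0 : Ideal.span {l1, l2} ⊔ (Ideal.span (Set.range x)).map (algebraMap R S) =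
        Ideal.span {l1, l2} := by
      have : Set.range x = ∅ := Set.range_eq_empty x
      rw [this, Ideal.span_empty, Ideal.map_bot, sup_bot_eq]
    rw [h0] at hy
    have hl := hfin x (fun i => i.elim0)
    rw [h0] at hl
    obtain ⟨K, hK⟩ := two_dim_base H hres hfib l1 l2 hl1 hl2 hl ρ hρ y hy e he
    exact ⟨K, fun N => by simpa using hK N⟩
  | succ δ ih =>
    intro R S _ _ _ _ _ _ _ _ _ _ _ hres hfib l1 l2 hl1 hl2 ρ hρ x hx hfin
    obtain ⟨w, hw, hfr⟩ := exists_perturb (x 0)
    set z := x 0 + w with hz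
    have hzm : z ∈ maximalIdeal R :=
      Ideal.add_mem _ (hx 0) (Ideal.pow_le_self two_ne_zero hw)
    have hI : Ideal.span {z} ≤ maximalIdeal R := (Ideal.span_singleton_le_iff_mem _).mpr hzm
    have hIS : (Ideal.span {z}).map (algebraMap R S) ≤ maximalIdeal S :=
      (Ideal.map_mono hI).trans map_max_le
    have i1 : IsLocalRing (R ⧸ Ideal.span {z}) := isLocalRing_quot hI
    have i2 : IsLocalRing (S ⧸ (Ideal.span {z}).map (algebraMap R S)) := isLocalRing_quot hIS
    have i3 : IsAdicComplete (maximalIdeal (R ⧸ Ideal.span {z})) (R ⧸ Ideal.span {z}) :=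
      cd_isAdicComplete_quotient hI
    have i4 : IsLocalHom (algebraMap (R ⧸ Ideal.span {z})
        (S ⧸ (Ideal.span {z}).map (algebraMap R S))) := isLocalHom_quot hI
    have i5 : Module.Flat (R ⧸ Ideal.span {z}) (S ⧸ (Ideal.span {z}).map (algebraMap R S)) :=
      flat_quot _
    have i6 : IsLocalHom (Ideal.Quotient.mk (Ideal.span {z})) :=
      IsLocalHom.of_surjective _ Ideal.Quotient.mk_surjective
    have i7 : Infinite (ResidueField (R ⧸ Ideal.span {z})) :=
      Infinite.of_injective (ResidueField.map (Ideal.Quotient.mk (Ideal.span {z})))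
        (RingHom.injective _)
    set πR := Ideal.Quotient.mk (Ideal.span {z}) with hπR
    set πS := Ideal.Quotient.mk ((Ideal.span {z}).map (algebraMap R S)) with hπS
    have hmR : (maximalIdeal R).map πR = maximalIdeal (R ⧸ Ideal.span {z}) := map_max_quot hI
    have hcomp : (algebraMap (R ⧸ Ideal.span {z})
        (S ⧸ (Ideal.span {z}).map (algebraMap R S))).comp πR = πS.comp (algebraMap R S) := rfl
    have hmm : ∀ J : Ideal R, (J.map πR).map (algebraMap (R ⧸ Ideal.span {z})
        (S ⧸ (Ideal.span {z}).map (algebraMap R S))) = (J.map (algebraMap R S)).map πS := by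
      intro J
      rw [Ideal.map_map, hcomp, Ideal.map_map]
    have hpair : Ideal.span {πS l1, πS l2} = (Ideal.span {l1, l2}).map πS := by
      rw [Ideal.map_span πS, Set.image_pair]
    have hzS : (Ideal.span {z}).map (algebraMap R S) ≤
        (maximalIdeal R).map (algebraMap R S) := Ideal.map_mono hI
    have hfib1 : ell ((maximalIdeal (R ⧸ Ideal.span {z})).map (algebraMap (R ⧸ Ideal.span {z})
        (S ⧸ (Ideal.span {z}).map (algebraMap R S)))) ≠ ⊤ := by
      rw [← hmR, hmm, hπS, ell_map_mk, sup_eq_left.mpr hzS]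
      exact hfib
    have hρ1 : ell ((maximalIdeal (R ⧸ Ideal.span {z})).map (algebraMap (R ⧸ Ideal.span {z})
        (S ⧸ (Ideal.span {z}).map (algebraMap R S))) ⊔ Ideal.span {πS l1, πS l2}) = ρ := by
      rw [← hmR, hmm, hpair, ← Ideal.map_sup, hπS, ell_map_mk,
        sup_eq_left.mpr (hzS.trans le_sup_left)]
      exact hρ
    -- lifting perturbations
    have hlift : ∀ v : Fin δ → R ⧸ Ideal.span {z},
        (∀ i, v i - πR (x i.succ) ∈ maximalIdeal (R ⧸ Ideal.span {z}) ^ 2) →
        ∃ v' : Fin δ → R, (∀ i, v' i - x i.succ ∈ maximalIdeal R ^ 2) ∧ ∀ i, πR (v' i) = v i := by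
      intro v hv
      have h1 : ∀ i, ∃ a ∈ maximalIdeal R ^ 2, πR a = v i - πR (x i.succ) := by
        intro i
        have h2 := hv i
        rw [← hmR, ← Ideal.map_pow] at h2
        exact (Ideal.mem_map_iff_of_surjective πR Ideal.Quotient.mk_surjective).mp h2
      choose a ha1 ha2 using h1
      refine ⟨fun i => x i.succ + a i, fun i => ?_, fun i => ?_⟩
      · rw [add_sub_cancel_left]; exact ha1 i
      · rw [map_add, ha2]; ring
    have hcons : ∀ v' : Fin δ → R, (∀ i, v' i - x i.succ ∈ maximalIdeal R ^ 2) →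
        ∀ i, (Fin.cons z v' : Fin (δ + 1) → R) i - x i ∈ maximalIdeal R ^ 2 := by
      intro v' hv' i
      refine Fin.cases ?_ (fun i => ?_) i
      · rw [Fin.cons_zero, hz, add_sub_cancel_left]; exact hw
      · rw [Fin.cons_succ]; exact hv' i
    have hspanc : ∀ v' : Fin δ → R, Ideal.span (Set.range (Fin.cons z v' : Fin (δ + 1) → R)) =
        Ideal.span (Set.range v') ⊔ Ideal.span {z} := by
      intro v'
      rw [Fin.range_cons, Ideal.span_insert, sup_comm]
    have hrangeπ : ∀ v' : Fin δ → R, (Ideal.span (Set.range v')).map πR =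
        Ideal.span (Set.range fun i => πR (v' i)) := by
      intro v'
      rw [Ideal.map_span]
      congr 1
      ext a
      simp
    obtain ⟨v, hv, hv2⟩ := ih (R ⧸ Ideal.span {z}) (S ⧸ (Ideal.span {z}).map (algebraMap R S))
      (fun hb => by rw [residue_length_quot]; exact hres hb) hfib1 (πS l1) (πS l2) (by rw [← map_max_quot hIS]; exact Ideal.mem_map_of_mem _ hl1)
      (by rw [← map_max_quot hIS]; exact Ideal.mem_map_of_mem _ hl2) ρ hρ1
      (fun i => πR (x i.succ)) (fun i => by rw [← hmR]; exact Ideal.mem_map_of_mem _ (hx _))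
      (by
        intro v hv
        obtain ⟨v', hv', hvv⟩ := hlift v hv
        have h1 := hfin (Fin.cons z v') (hcons v' hv')
        have h2 : (fun i => πR (v' i)) = v := funext hvv
        rw [← h2, ← hrangeπ, hmm, hpair, ← Ideal.map_sup, hπS, ell_map_mk]
        rw [hspanc, Ideal.map_sup, ← sup_assoc] at h1
        exact h1)
    obtain ⟨v', hv', hvv⟩ := hlift v hv
    refine ⟨Fin.cons z v', hcons v' hv', fun y hy e he => ?_⟩
    have hvv' : (fun i => πR (v' i)) = v := funext hvv
    have hYfin := hfin (Fin.cons z v') (hcons v' hv')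
    let y2 : Fin (δ + 2) → S := Fin.append (fun i => algebraMap R S (v' i)) ![l1, l2]
    have hy2 : Ideal.span (Set.range y2) =
        Ideal.span {l1, l2} ⊔ (Ideal.span (Set.range v')).map (algebraMap R S) := by
      rw [range_append', Ideal.span_union, sup_comm, Ideal.map_span]
      congr 2
      ext a
      simp
    let Y : Fin (δ + 2 + 1) → S := Fin.cons (algebraMap R S z) y2
    have hY : Ideal.span (Set.range Y) = Ideal.span {l1, l2} ⊔
        (Ideal.span (Set.range (Fin.cons z v' : Fin (δ + 1) → R))).map (algebraMap R S) := by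
      rw [Fin.range_cons, Ideal.span_insert, hy2, hspanc, Ideal.map_sup, sup_comm, sup_assoc]
      congr 2
      rw [Ideal.map_span, Set.image_singleton]
    have hle1 : emin (fun i => πS (y2 i)) ≤ emin Y := by
      refine emin_quot_le_of_eq (by omega) ?_ y2 ?_ (filter_regular_map hfib z hfr)
      · rw [Ideal.map_span, Set.image_singleton]
      · rw [hY]; exact hYfin
    have hle2 : emin Y ≤ emin y := by
      refine emin_le_of_span_eq (by simp) Y y ?_ ?_
      · rw [hY, hy]
      · rw [hY]; exact hYfin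
    have hle3 := hle1.trans hle2
    rw [he] at hle3
    obtain ⟨e1, he1⟩ := ENat.ne_top_iff_exists.mp
      (ne_top_of_le_ne_top (ENat.natCast_ne_top e) hle3)
    have he1e : e1 ≤ e := by
      rw [← he1] at hle3
      exact_mod_cast hle3
    obtain ⟨K, hK⟩ := hv2 (fun i => πS (y2 i)) (by
      rw [← hvv', ← hrangeπ, hmm, hpair, ← Ideal.map_sup, ← hy2, Ideal.map_span πS]
      congr 1
      ext a
      simp) e1 he1.symm
    refine ⟨e1 * (δ + 2 + 1) + (δ + 2 + 1) * K, fun N => ?_⟩
    have hRt : ∀ s, ell (maximalIdeal R ^ s) ≠ ⊤ := fun s => ell_ne_top_of_pow_le le_rfl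
    have hR1t : ∀ s, ell (maximalIdeal (R ⧸ Ideal.span {z}) ^ s) ≠ ⊤ :=
      fun s => ell_ne_top_of_pow_le le_rfl
    have hsum : (ell (maximalIdeal R ^ N)).toNat ≤
        ∑ i ∈ Finset.range N, (ell (maximalIdeal (R ⧸ Ideal.span {z}) ^ (i + 1))).toNat := by
      have h1 := ell_pow_le_sum (maximalIdeal R) hzm N
      rw [hmR] at h1
      have h2 : ∀ i ∈ Finset.range N, ell (maximalIdeal (R ⧸ Ideal.span {z}) ^ (i + 1)) =
          (((ell (maximalIdeal (R ⧸ Ideal.span {z}) ^ (i + 1))).toNat : ℕ) : ℕ∞) :=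
        fun i _ => (ENat.natCast_toNat (hR1t _)).symm
      rw [Finset.sum_congr rfl h2, ← Nat.cast_sum, ← ENat.natCast_toNat (hRt N)] at h1
      exact_mod_cast h1
    have hstep := sum_step (δ + 2) e1 K (by omega) N
    calc ρ * ((δ + 1 + 2).factorial * (ell (maximalIdeal R ^ N)).toNat)
        ≤ ρ * ((δ + 1 + 2).factorial * ∑ i ∈ Finset.range N,
            (ell (maximalIdeal (R ⧸ Ideal.span {z}) ^ (i + 1))).toNat) := by gcongr
      _ = (δ + 2 + 1) * ∑ i ∈ Finset.range N, (ρ * ((δ + 2).factorial *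
            (ell (maximalIdeal (R ⧸ Ideal.span {z}) ^ (i + 1))).toNat)) := by
          rw [show δ + 1 + 2 = (δ + 2) + 1 by ring, Nat.factorial_succ, ← Finset.mul_sum,
            ← Finset.mul_sum]
          ring
      _ ≤ (δ + 2 + 1) * ∑ i ∈ Finset.range N,
            (e1 * (i + 1) ^ (δ + 2) + K * (i + 1 + 1) ^ (δ + 2 - 1)) := by
          refine Nat.mul_le_mul_left _ (Finset.sum_le_sum fun i _ => ?_)
          exact hK (i + 1)
      _ ≤ e1 * N ^ (δ + 2 + 1) + (e1 * (δ + 2 + 1) + (δ + 2 + 1) * K) * (N + 1) ^ (δ + 2) := hstep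
      _ ≤ e * N ^ (δ + 1 + 2) + (e1 * (δ + 2 + 1) + (δ + 2 + 1) * K) * (N + 1) ^ (δ + 1 + 1) := by
          rw [show δ + 1 + 2 = δ + 2 + 1 by ring, show δ + 1 + 1 = δ + 2 by ring]
          gcongr

end Vale.Agent.P202
end

section

/-!
Assembly: special cases.
-/

set_option linter.unusedSectionVars false

namespace Vale.Agent.P202

open Ideal IsLocalRing Finset Filter Topology

universe u

end Vale.Agent.P202
end

section

/-!
The complete case in all dimensions: `e(R) ≤ (d - 2)! e(S)`.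
-/

set_option linter.unusedSectionVars false

namespace Vale.Agent.P202

open Ideal IsLocalRing Finset

universe u

/-- a reduction stays a reduction after perturbation by the square of the ideal. -/
lemma isRed_perturb {A : Type*} [CommRing A] [IsLocalRing A] [IsNoetherianRing A] {δ : ℕ}
    {I : Ideal A} (hI : I ≤ maximalIdeal A) (x x' : Fin δ → A)
    (h : IsRed (Ideal.span (Set.range x)) I) (hx : ∀ i, x' i - x i ∈ I ^ 2) :
    IsRed (Ideal.span (Set.range x')) I := by
  obtain ⟨hle, c, hc⟩ := h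
  have hx' : Ideal.span (Set.range x') ≤ I := by
    rw [Ideal.span_le]
    rintro _ ⟨i, rfl⟩
    have h1 := Ideal.add_mem _ (Ideal.pow_le_self two_ne_zero (hx i))
      (hle (Ideal.subset_span ⟨i, rfl⟩ : x i ∈ Ideal.span (Set.range x)))
    simpa using h1
  refine ⟨hx', c, ?_⟩
  have hJ : Ideal.span (Set.range x) ≤ Ideal.span (Set.range x') ⊔ I ^ 2 := by
    rw [Ideal.span_le]
    rintro _ ⟨i, rfl⟩
    have h1 := Submodule.sub_mem _ (Ideal.mem_sup_left (Ideal.subset_span ⟨i, rfl⟩) :
      x' i ∈ Ideal.span (Set.range x') ⊔ I ^ 2) (Ideal.mem_sup_right (hx i))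
    simpa using h1
  refine Submodule.le_of_le_smul_of_le_jacobson_bot (I := I) (IsNoetherian.noetherian _) ?_ ?_
  · rw [IsLocalRing.jacobson_eq_maximalIdeal _ bot_ne_top]
    exact hI
  · refine (hc.trans (Ideal.mul_mono_left hJ)).trans ?_
    rw [Ideal.sup_mul, smul_eq_mul]
    refine sup_le_sup_left (le_of_eq ?_) _
    ring

/-- The statement for complete rings of the same dimension, with a condition on the residue field
extension when `b` holds. -/
def CompleteCaseB (b : Prop) (d κ : ℕ) : Prop :=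
  ∀ (R S : Type u) [CommRing R] [IsLocalRing R] [IsNoetherianRing R]
    [IsAdicComplete (maximalIdeal R) R] [Infinite (ResidueField R)]
    [CommRing S] [IsLocalRing S] [IsNoetherianRing S] [Algebra R S]
    [IsLocalHom (algebraMap R S)] [Module.Flat R S],
    (b → Module.length (ResidueField R) (ResidueField S) ≠ ⊤) →
    ringKrullDim R = d → ringKrullDim S = d →
    ∃ c K : ℕ, ∀ N : ℕ, (d.factorial : ℕ∞) * ell (maximalIdeal R ^ N) ≤
      (κ : ℕ∞) * ((d.factorial : ℕ∞) * ell (maximalIdeal S ^ (N + c))) +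
        (K : ℕ∞) * ((N : ℕ∞) + 1) ^ (d - 1)

theorem completeCaseB_of_twoDim {b : Prop} (H : TwoDimBound.{u} b) {δ : ℕ} (hδ : 0 < δ) :
    CompleteCaseB.{u} b (δ + 2) δ.factorial := by
  classical
  intro R S _ _ _ _ _ _ _ _ _ _ _ hres hR hS
  have : Infinite (ResidueField S) :=
    Infinite.of_injective (algebraMap (ResidueField R) (ResidueField S)) (RingHom.injective _)
  have hfib := ell_fibre_ne_top (R := R) (S := S) (by rw [hR, hS])
  obtain ⟨y0, c0, hy0, hy0fin, hlow⟩ := exists_max_reduction (S := S) (d := δ + 2) hS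
  obtain ⟨E, hE⟩ := ENat.ne_top_iff_exists.mp (emin_ne_top hy0fin)
  obtain ⟨l, B, hl, hB⟩ := exists_cut 2 S δ hδ y0 hy0 hy0fin
  have hlr : Set.range l = {l 0, l 1} := by
    rw [← range_two (l 0) (l 1)]
    congr 1
    funext i
    fin_cases i <;> rfl
  rw [hlr] at hB
  obtain ⟨D, hD⟩ := exists_pow_le_of_ell_ne_top hfib
  have hy0m : Ideal.span (Set.range y0) ≤ maximalIdeal S := by
    rw [Ideal.span_le]
    rintro _ ⟨i, rfl⟩
    exact hy0 i
  set I := (maximalIdeal R).map (algebraMap R S) with hI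
  have hIm : I ≤ maximalIdeal S := map_max_le
  have hmain := hB I D ((Ideal.pow_right_mono hy0m D).trans hD)
  rw [← hE] at hmain
  have hL : Ideal.span {l 0, l 1} ≤ maximalIdeal S := by
    rw [← hlr, Ideal.span_le]
    rintro _ ⟨i, rfl⟩
    exact hl i
  have hρt : ell (Ideal.span {l 0, l 1} ⊔ I) ≠ ⊤ := ne_top_of_le_ne_top hfib (ell_mono le_sup_right)
  have hρ0 : ell (Ideal.span {l 0, l 1} ⊔ I) ≠ 0 := by
    rw [Ne, ell_eq_zero_iff]
    intro h
    have h1 : Ideal.span {l 0, l 1} ⊔ I ≤ maximalIdeal S := sup_le hL hIm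
    rw [h, top_le_iff] at h1
    exact (IsLocalRing.maximalIdeal.isMaximal S).ne_top h1
  obtain ⟨ρ, hρ⟩ := ENat.ne_top_iff_exists.mp hρt
  rw [← hρ] at hρ0 hmain
  have hρpos : 0 < ρ := by
    rcases Nat.eq_zero_or_pos ρ with h | h
    · rw [h] at hρ0
      exact absurd rfl hρ0
    · exact h
  -- the ring `S / (l)`
  have iD : IsLocalRing (S ⧸ Ideal.span {l 0, l 1}) := isLocalRing_quot hL
  set π := Ideal.Quotient.mk (Ideal.span {l 0, l 1}) with hπ
  have hmS : (maximalIdeal S).map π = maximalIdeal (S ⧸ Ideal.span {l 0, l 1}) := map_max_quot hL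
  have hal : ∀ a : R, algebraMap R (S ⧸ Ideal.span {l 0, l 1}) a = π (algebraMap R S a) :=
    fun a => rfl
  have iL : IsLocalHom (algebraMap R (S ⧸ Ideal.span {l 0, l 1})) := by
    refine ⟨fun a ha => ?_⟩
    by_contra hna
    have h1 : a ∈ maximalIdeal R := (IsLocalRing.mem_maximalIdeal _).mpr hna
    have h2 : π (algebraMap R S a) ∈ maximalIdeal (S ⧸ Ideal.span {l 0, l 1}) := by
      rw [← hmS]
      exact Ideal.mem_map_of_mem _ (hIm (Ideal.mem_map_of_mem _ h1))
    rw [hal] at ha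
    exact (IsLocalRing.mem_maximalIdeal _).mp h2 ha
  have hellπ : ∀ J : Ideal S, ell (J.map π) = ell (Ideal.span {l 0, l 1} ⊔ J) := by
    intro J
    rw [hπ, ell_map_mk, sup_comm]
  obtain ⟨s, hs⟩ := (IsNoetherian.noetherian (maximalIdeal R) : (maximalIdeal R).FG)
  have hrange : Set.range (fun i : Fin s.card => ((s.equivFin.symm i : s) : R)) = (s : Set R) := by
    ext x
    constructor
    · rintro ⟨i, rfl⟩; exact (s.equivFin.symm i).2
    · intro hx; exact ⟨s.equivFin ⟨x, hx⟩, by simp⟩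
  have hspan : Ideal.span (Set.range (fun i : Fin s.card => ((s.equivFin.symm i : s) : R))) =
      maximalIdeal R := by rw [hrange]; exact hs
  have hmem : ∀ i : Fin s.card, ((s.equivFin.symm i : s) : R) ∈ maximalIdeal R := by
    intro i
    rw [← hspan]
    exact Ideal.subset_span ⟨i, rfl⟩
  let x0 : Fin s.card → S ⧸ Ideal.span {l 0, l 1} := fun i =>
    algebraMap R (S ⧸ Ideal.span {l 0, l 1}) ((s.equivFin.symm i : s) : R)
  have hmapR : ∀ J : Ideal R, J.map (algebraMap R (S ⧸ Ideal.span {l 0, l 1})) =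
      (J.map (algebraMap R S)).map π := by
    intro J
    rw [Ideal.map_map]
    rfl
  have hx0span : Ideal.span (Set.range x0) = I.map π := by
    rw [hI, ← hmapR, ← hspan, Ideal.map_span]
    congr 1
    ext a
    simp [x0]
  have hx0mem : ∀ i, x0 i ∈ maximalIdeal (S ⧸ Ideal.span {l 0, l 1}) := by
    intro i
    rw [← hmS]
    exact Ideal.mem_map_of_mem π (hIm (Ideal.mem_map_of_mem _ (hmem i)))
  have hI1 : I.map π ≤ maximalIdeal (S ⧸ Ideal.span {l 0, l 1}) := by
    rw [← hmS]; exact Ideal.map_mono hIm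
  obtain ⟨x, hx, hred⟩ := exists_reduction (R := R) x0 hx0mem δ (ρ * (E + B)) (fun n hn => by
    rw [hx0span, ← Ideal.map_pow, hellπ]
    refine (hmain n hn).trans ?_
    have h1 : n ^ (δ - 1) ≤ n ^ δ := Nat.pow_le_pow_right hn (Nat.sub_le _ _)
    have h2 : ρ * (n ^ δ * E + B * n ^ (δ - 1)) ≤ ρ * (E + B) * n ^ δ := by
      calc ρ * (n ^ δ * E + B * n ^ (δ - 1)) ≤ ρ * (n ^ δ * E + B * n ^ δ) := by gcongr
        _ = _ := by ring
    exact_mod_cast h2)
  rw [hx0span] at hred
  -- lift to `R`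
  have hxlift : ∀ i, ∃ a ∈ maximalIdeal R, algebraMap R (S ⧸ Ideal.span {l 0, l 1}) a = x i := by
    intro i
    have h1 : Submodule.span R (Set.range x0) ≤
        Submodule.map (Algebra.linearMap R (S ⧸ Ideal.span {l 0, l 1})) (maximalIdeal R) := by
      rw [Submodule.span_le]
      rintro _ ⟨j, rfl⟩
      exact ⟨_, hmem j, rfl⟩
    obtain ⟨a, ha, hax⟩ := h1 (hx i)
    exact ⟨a, ha, hax⟩
  choose xt hxt hxtx using hxlift
  have hpert : ∀ x' : Fin δ → R, (∀ i, x' i - xt i ∈ maximalIdeal R ^ 2) →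
      IsRed (((Ideal.span (Set.range x')).map (algebraMap R S)).map π) (I.map π) := by
    intro x' hx'
    have h1 : ((Ideal.span (Set.range x')).map (algebraMap R S)).map π =
        Ideal.span (Set.range fun i => algebraMap R (S ⧸ Ideal.span {l 0, l 1}) (x' i)) := by
      rw [← hmapR, Ideal.map_span]
      congr 1
      ext a
      simp
    rw [h1]
    refine isRed_perturb hI1 x _ hred fun i => ?_
    rw [← hxtx, ← map_sub, hI, ← hmapR, ← Ideal.map_pow]
    exact Ideal.mem_map_of_mem _ (hx' i)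
  have hfin : ∀ x' : Fin δ → R, (∀ i, x' i - xt i ∈ maximalIdeal R ^ 2) →
      ell (Ideal.span {l 0, l 1} ⊔ (Ideal.span (Set.range x')).map (algebraMap R S)) ≠ ⊤ := by
    intro x' hx'
    obtain ⟨c, hc⟩ := (hpert x' hx').exists_pow_le
    have h1 := hc 1
    rw [pow_one, ← Ideal.map_pow] at h1
    have h2 := ell_mono h1
    rw [hellπ, hellπ] at h2
    refine ne_top_of_le_ne_top ?_ h2
    refine ne_top_of_le_ne_top ?_ (ell_mono (le_sup_right : I ^ (1 + c) ≤ _))
    refine ell_ne_top_of_pow_le (s := D * (1 + c)) ?_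
    rw [pow_mul]
    exact Ideal.pow_right_mono hD _
  obtain ⟨x', hx', hchain⟩ := chainD H δ R S hres hfib (l 0) (l 1) (hl 0) (hl 1) ρ
    (by rw [sup_comm]; exact hρ.symm) xt hxt hfin
  let xx : Fin δ → S := fun i => algebraMap R S (x' i)
  have hxx : Ideal.span (Set.range xx) = (Ideal.span (Set.range x')).map (algebraMap R S) := by
    rw [Ideal.map_span]
    congr 1
    ext a
    simp [xx]
  let y : Fin (δ + 2) → S := Fin.cons (l 0) (Fin.cons (l 1) xx : Fin (δ + 1) → S)
  have hyspan : Ideal.span (Set.range y) = Ideal.span {l 0, l 1} ⊔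
      (Ideal.span (Set.range x')).map (algebraMap R S) := by
    rw [← hxx]
    simp only [y]
    rw [Fin.range_cons, Fin.range_cons, Ideal.span_insert, Ideal.span_insert,
      Ideal.span_insert, sup_assoc]
  have hyfin : ell (Ideal.span (Set.range y)) ≠ ⊤ := by
    rw [hyspan]; exact hfin x' hx'
  obtain ⟨e, he⟩ := ENat.ne_top_iff_exists.mp (emin_ne_top hyfin)
  obtain ⟨K, hK⟩ := hchain y hyspan e he.symm
  -- bound for `e`
  have hebound : e ≤ δ.factorial * ρ * E := by
    obtain ⟨c, hc⟩ := (hpert x' hx').exists_pow_le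
    refine le_of_forall_pow_le hδ e (δ.factorial * ρ * E) (δ.factorial * ρ * B) c fun n hn => ?_
    have h1 : emin y ≤ emin (fun i => Ideal.Quotient.mk (Ideal.span {l 0})
        ((Fin.cons (l 1) xx : Fin (δ + 1) → S) i)) :=
      emin_le_quot (by omega) (l 0) _ hyfin
    have h2 : (fun i => Ideal.Quotient.mk (Ideal.span {l 0})
        ((Fin.cons (l 1) xx : Fin (δ + 1) → S) i)) =
        (Fin.cons (Ideal.Quotient.mk (Ideal.span {l 0}) (l 1))
          (fun i => Ideal.Quotient.mk (Ideal.span {l 0}) (xx i)) :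
          Fin (δ + 1) → S ⧸ Ideal.span {l 0}) := by
      funext i
      refine Fin.cases ?_ (fun i => ?_) i
      · simp
      · simp
    have hXmap : ∀ K : Ideal (S ⧸ Ideal.span {l 0}), ∀ J : Ideal S,
        ell (((J.map (Ideal.Quotient.mk (Ideal.span {l 0}))).map
          (Ideal.Quotient.mk (Ideal.span {Ideal.Quotient.mk (Ideal.span {l 0}) (l 1)})))) =
        ell (Ideal.span {l 0, l 1} ⊔ J) := by
      intro _ J
      rw [ell_map_mk]
      have h3 : J.map (Ideal.Quotient.mk (Ideal.span {l 0})) ⊔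
          Ideal.span {Ideal.Quotient.mk (Ideal.span {l 0}) (l 1)} =
          (J ⊔ Ideal.span {l 1}).map (Ideal.Quotient.mk (Ideal.span {l 0})) := by
        rw [Ideal.map_sup, Ideal.map_span _ {l 1}, Set.image_singleton]
      rw [h3, ell_map_mk]
      congr 1
      rw [Ideal.span_insert, sup_assoc, sup_comm, sup_comm (Ideal.span {l 1})]
    have h3 : ell (Ideal.span (Set.range (Fin.cons (Ideal.Quotient.mk (Ideal.span {l 0}) (l 1))
          (fun i => Ideal.Quotient.mk (Ideal.span {l 0}) (xx i)) :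
          Fin (δ + 1) → S ⧸ Ideal.span {l 0}))) ≠ ⊤ := by
      rw [← h2]
      have h4 : Ideal.span (Set.range fun i => Ideal.Quotient.mk (Ideal.span {l 0})
          ((Fin.cons (l 1) xx : Fin (δ + 1) → S) i)) =
          (Ideal.span (Set.range (Fin.cons (l 1) xx : Fin (δ + 1) → S))).map
            (Ideal.Quotient.mk (Ideal.span {l 0})) := by
        rw [Ideal.map_span]
        congr 1
        ext a
        constructor
        · rintro ⟨i, rfl⟩; exact ⟨_, ⟨i, rfl⟩, rfl⟩
        · rintro ⟨_, ⟨i, rfl⟩, rfl⟩; exact ⟨i, rfl⟩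
      rw [h4, ell_map_mk, Fin.range_cons, Ideal.span_insert]
      have h5 : Ideal.span {l 1} ⊔ Ideal.span (Set.range xx) ⊔ Ideal.span {l 0} =
          Ideal.span (Set.range y) := by
        rw [hyspan, ← hxx, Ideal.span_insert, sup_comm, ← sup_assoc]
      rw [h5]
      exact hyfin
    have h6 := emin_le_quot hδ (Ideal.Quotient.mk (Ideal.span {l 0}) (l 1))
      (fun i => Ideal.Quotient.mk (Ideal.span {l 0}) (xx i)) h3
    rw [← h2] at h6
    have h7 := h1.trans h6
    rw [← he] at h7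
    have h8 := emin_mul_card_le (fun i => Ideal.Quotient.mk
      (Ideal.span {Ideal.Quotient.mk (Ideal.span {l 0}) (l 1)})
      (Ideal.Quotient.mk (Ideal.span {l 0}) (xx i))) n
    have h9 : Ideal.span (Set.range fun i => Ideal.Quotient.mk
      (Ideal.span {Ideal.Quotient.mk (Ideal.span {l 0}) (l 1)})
      (Ideal.Quotient.mk (Ideal.span {l 0}) (xx i))) =
        ((Ideal.span (Set.range xx)).map (Ideal.Quotient.mk (Ideal.span {l 0}))).map
          (Ideal.Quotient.mk (Ideal.span {Ideal.Quotient.mk (Ideal.span {l 0}) (l 1)})) := by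
      rw [Ideal.map_map, Ideal.map_span]
      congr 1
      ext a
      simp
    rw [h9, ← Ideal.map_pow, ← Ideal.map_pow, hXmap ⊥, hxx] at h8
    have h10 : ell (Ideal.span {l 0, l 1} ⊔
        ((Ideal.span (Set.range x')).map (algebraMap R S)) ^ n) ≤
        ell (Ideal.span {l 0, l 1} ⊔ I ^ (n + c)) := by
      rw [← hellπ, ← hellπ, Ideal.map_pow, Ideal.map_pow]
      exact ell_mono (hc n)
    have h11 : (e : ℕ∞) * (tri (Fin δ) n).card ≤
        ρ * ((n + c) ^ δ * E + B * (n + c) ^ (δ - 1)) := by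
      refine le_trans ?_ (h8.trans (h10.trans (le_of_le_of_eq (hmain (n + c) (by omega)) ?_)))
      · gcongr
      · push_cast; rfl
    have h12 : e * (tri (Fin δ) n).card ≤ ρ * ((n + c) ^ δ * E + B * (n + c) ^ (δ - 1)) := by
      exact_mod_cast h11
    have h13 := pow_le_factorial_mul_card_tri (σ := Fin δ) n hn
    rw [Fintype.card_fin] at h13
    calc e * n ^ δ ≤ e * (δ.factorial * (tri (Fin δ) n).card) := Nat.mul_le_mul_left _ h13
      _ = δ.factorial * (e * (tri (Fin δ) n).card) := by ring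
      _ ≤ δ.factorial * (ρ * ((n + c) ^ δ * E + B * (n + c) ^ (δ - 1))) :=
          Nat.mul_le_mul_left _ h12
      _ = _ := by ring
  -- conclusion
  refine ⟨c0, K, fun N => ?_⟩
  have hSt : ∀ s, ell (maximalIdeal S ^ s) ≠ ⊤ := fun s => ell_ne_top_of_pow_le le_rfl
  have hRt : ∀ s, ell (maximalIdeal R ^ s) ≠ ⊤ := fun s => ell_ne_top_of_pow_le le_rfl
  obtain ⟨a, ha⟩ := ENat.ne_top_iff_exists.mp (hRt N)
  obtain ⟨b, hb⟩ := ENat.ne_top_iff_exists.mp (hSt (N + c0))
  have h1 := hK N
  rw [← ha, ENat.toNat_natCast] at h1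
  have h2 := hlow N
  rw [← hE, ← hb] at h2
  have h2' : E * (tri (Fin (δ + 2)) N).card ≤ b := by exact_mod_cast h2
  have h3 : E * N ^ (δ + 2) ≤ (δ + 2).factorial * b := by
    rcases Nat.eq_zero_or_pos N with rfl | hN
    · simp
    · have h4 := pow_le_factorial_mul_card_tri (σ := Fin (δ + 2)) N hN
      rw [Fintype.card_fin] at h4
      calc E * N ^ (δ + 2) ≤ E * ((δ + 2).factorial * (tri (Fin (δ + 2)) N).card) :=
            Nat.mul_le_mul_left _ h4
        _ = (δ + 2).factorial * (E * (tri (Fin (δ + 2)) N).card) := by ring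
        _ ≤ _ := Nat.mul_le_mul_left _ h2'
  have h5 : ρ * ((δ + 2).factorial * a) ≤
      ρ * (δ.factorial * ((δ + 2).factorial * b) + K * (N + 1) ^ (δ + 1)) := by
    calc ρ * ((δ + 2).factorial * a) ≤ e * N ^ (δ + 2) + K * (N + 1) ^ (δ + 1) := h1
      _ ≤ δ.factorial * ρ * E * N ^ (δ + 2) + ρ * (K * (N + 1) ^ (δ + 1)) :=
          add_le_add (Nat.mul_le_mul_right _ hebound) (Nat.le_mul_of_pos_left _ hρpos)
      _ = ρ * (δ.factorial * (E * N ^ (δ + 2)) + K * (N + 1) ^ (δ + 1)) := by ring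
      _ ≤ _ := by gcongr
  have h6 := Nat.le_of_mul_le_mul_left h5 hρpos
  rw [← ha, ← hb]
  have h7 : δ + 2 - 1 = δ + 1 := by omega
  rw [h7]
  exact_mod_cast h6

theorem completeCase_of_twoDim (H : TwoDimBound.{u} False) {δ : ℕ} (hδ : 0 < δ) :
    CompleteCase.{u} (δ + 2) δ.factorial := by
  intro R S _ _ _ _ _ _ _ _ _ _ _ hR hS
  exact completeCaseB_of_twoDim H hδ R S (fun h => h.elim) hR hS

end Vale.Agent.P202
end
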