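import Vale.Agent.P202.MathlibUsed
import Vale.Agent.P202.Bdl.B1
import Vale.Agent.P202.Bdl.B2
import Vale.Agent.P202.Bdl.B4
import Vale.Agent.P202.Bdl.B3
attribute [-instance] DenselyNormedField.toNontriviallyNormedField DenselyNormedField.toNormedField NontriviallyNormedField.toNormedField RCLike.toDenselyNormedField KleeneAlgebra.toIdemSemiring SemiRingCat.instSemiringObjForgetRingHomCarrier CommSemiRingCat.instCommSemiringObjForgetRingHomCarrier SemimoduleCat.isAddCommMonoid AddMonCat.addMonoidObj Pi.preorder instCoeT NormedCommRing.toNormedRing AbsoluteValue.funLike LinearOrderedAddCommGroupWithTop.instLinearOrderedAddCommMonoidWithTop LinearOrderedAddCommGroupWithTop.toAddCommMonoid EuclideanDomain.toCommRing NormedCommRing.toCommRing SeminormedCommRing.toCommRing Pi.nonUnitalNonAssocSemiring NormedRing.toRing SeminormedRing.toRing TopologicalSpace.Compacts.instSetLike instCoeTOfCoeDep NormedCommRing.toNonUnitalNormedCommRing NonUnitalNormedCommRing.toNonUnitalNormedRing NormedRing.toNonUnitalNormedRing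 LieRing.toAddCommGroup CommRing.toAddCommGroupWithOne NonAssocRing.toAddCommGroupWithOne MonCat.monoidObj ModuleCat.isModule Pi.nonAssocSemiring NonUnitalNormedCommRing.toNonUnitalSeminormedCommRing NonUnitalNormedRing.toNonUnitalSeminormedRing SeminormedRing.toNonUnitalSeminormedRing NonAssocCommRing.toNonAssocCommSemiring CommSemiring.toNonAssocCommSemiring NonAssocCommSemiring.toNonAssocSemiring NonAssocRing.toNonAssocSemiring NonUnitalNormedCommRing.toNonUnitalCommRing NonUnitalSeminormedCommRing.toNonUnitalCommRing NonUnitalCommRing.toNonUnitalRing NonUnitalNormedRing.toNonUnitalRing NonUnitalSeminormedRing.toNonUnitalRing Ring.toNonUnitalRing NonAssocCommRing.toNonUnitalNonAssocCommRing NonUnitalRing.toNonUnitalNonAssocRing instCoeTC AddCommGroupWithOne.toAddCommMonoidWithOne instCoeTCOfCoe NonUnitalRing.toNonUnitalSemiring Semiring.toNonUnitalSemiring NonAssocCommSemiring.toNonUnitalNonAssocCommSemiring NonUnitalCommSemiring.toNonUnitalNonAssocCommSemiring NonUnitalNonAssocCommSemiring.toNonUnitalNonAssocSemiring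 LieAlgebra.toModule NonUnitalNormedRing.toNormedAddCommGroup instCoeHTC instCoeHTCT Pi.partialOrder Filter.instMembership AddCommGroupWithOne.toAddGroupWithOne LinearOrderedAddCommGroupWithTop.toSubNegMonoid NormedCommGroup.toNormedGroup MulSemiringAction.toDistribMulAction NormedCommGroup.toSeminormedCommGroup NormedAddCommGroup.toSeminormedAddCommGroup NormedAddCommGroup.toNormedAddGroup NormedGroup.toSeminormedGroup SeminormedCommGroup.toSeminormedGroup Pi.instSemilatticeSup Pi.instTopForall RingCat.instRingObjForgetRingHomCarrier Pi.instZero NormedAddGroup.toSeminormedAddGroup SeminormedAddCommGroup.toSeminormedAddGroup Valued.toUniformSpace AddCommGroupWithOne.toAddCommGroup LinearOrderedCommGroupWithZero.toLinearOrderedCommMonoidWithZero Std.DTreeMap.Raw.instSingletonSigma OrderRingHom.instRingHomClass Pi.seminormedAddCommGroup CompleteLinearOrder.toConditionallyCompleteLinearOrderBot NormedAddGroup.toAddGroup SeminormedAddGroup.toAddGroup NormedCommGroup.toCommGroup SeminormedCommGroup.toCommGroup ConditionallyCompleteLinearOrderBot.toConditionallyCompleteLinearOrder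 ModuleCat.instAddCommGroupCarrierMkOfSMul' CommGroup.toGroup NormedGroup.toGroup SeminormedGroup.toGroup instNonUnitalAlgHomClassOfNonUnitalAlgEquivClass Ideal.Quotient.instIsPrimeQuotientMapRingHomAlgebraMapMkOfLiesOver Pi.addZeroClass Pi.addMonoidWithOne AddOpposite.instAddZero CompleteAtomicBooleanAlgebra.toCompletelyDistribLattice EMetricSpace.toPseudoEMetricSpace MetricSpace.toPseudoMetricSpace NonUnitalNormedRing.toMetricSpace NonUnitalSeminormedRing.toPseudoMetricSpace NormedAddCommGroup.toMetricSpace NormedAddGroup.toMetricSpace NormedCommGroup.toMetricSpace NormedDivisionRing.toMetricSpace NormedField.toMetricSpace NormedGroup.toMetricSpace NormedRing.toMetricSpace PseudoEMetricSpace.toUniformSpace PseudoMetricSpace.toPseudoEMetricSpace SeminormedAddCommGroup.toPseudoMetricSpace SeminormedAddGroup.toPseudoMetricSpace SeminormedCommGroup.toPseudoMetricSpace SeminormedGroup.toPseudoMetricSpace WithIdeal.instTopologicalSpace WithIdeal.instUniformSpace instCoeLieSubalgebraSubmodule LieSubalgebra.lieRing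 ConditionallyCompleteLinearOrder.toConditionallyCompleteLattice AddCancelCommMonoid.toAddCancelMonoid NormedAlgebra.toAlgebra NumberField.to_charZero Pi.topologicalSpace CompleteLinearOrder.toLinearOrder ConditionallyCompleteLinearOrder.toLinearOrder LinearOrderedAddCommGroupWithTop.toLinearOrder LinearOrderedAddCommMonoidWithTop.toLinearOrder LinearOrderedCommMonoidWithZero.toLinearOrder Pi.instMaxForall_mathlib LinearOrderedAddCommGroupWithTop.toSubtractionMonoid SubNegZeroMonoid.toSubNegMonoid AddCancelCommMonoid.toAddCommMonoid ESeminormedAddCommMonoid.toAddCommMonoid AddCancelMonoid.toAddLeftCancelMonoid ContinuousAddMonoidHom.instCoeOutOfAddMonoidHomClassOfContinuousMapClass ContinuousMonoidHom.instCoeOutOfMonoidHomClassOfContinuousMapClass HomeomorphClass.instCoeOutHomeomorph IsometryClass.instCoeOutIsometryEquiv AddGrpCat.str Field.toGrindField AbsoluteValue.zeroHomClass boolToProp CompleteBooleanAlgebra.toBooleanAlgebra CompleteBooleanAlgebra.toCompleteDistribLattice CompletelyDistribLattice.toCompleteDistribLattice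 ENormedAddCommMonoid.toESeminormedAddCommMonoid NormedAddCommGroup.toENormedAddCommMonoid BooleanAlgebra.toBiheytingAlgebra CompleteDistribLattice.toBiheytingAlgebra CompleteDistribLattice.toCoframe CompleteDistribLattice.toFrame CompleteLinearOrder.toBiheytingAlgebra CompletelyDistribLattice.toBiheytingAlgebra AddLeftCancelMonoid.toAddMonoid AddRightCancelMonoid.toAddMonoid ENormedAddCommMonoid.toENormedAddMonoid ENormedAddMonoid.toESeminormedAddMonoid ESeminormedAddCommMonoid.toESeminormedAddMonoid ESeminormedAddMonoid.toAddMonoid NormedAddGroup.toENormedAddMonoid SubfieldClass.toSubringClass PerfectClosure.instField Pi.mulOneClass BiheytingAlgebra.toCoheytingAlgebra BiheytingAlgebra.toHeytingAlgebra BooleanAlgebra.toGeneralizedBooleanAlgebra CompleteLinearOrder.toCompleteLattice Order.Coframe.toCoheytingAlgebra Order.Coframe.toCompleteLattice Order.Frame.toCompleteLattice Order.Frame.toHeytingAlgebra ValuationClass.toMonoidWithZeroHomClass Pi.mulZeroOneClass CoheytingAlgebra.toGeneralizedCoheytingAlgebra GeneralizedBooleanAlgebra.toGeneralizedCoheytingAlgebra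 HeytingAlgebra.toGeneralizedHeytingAlgebra Torsor.toMulAction GradedMonoid.GradeZero.mulAction instConditionallyCompletePartialOrderSup CompleteLattice.toCompleteSemilatticeInf CompleteLattice.toCompleteSemilatticeSup ConditionallyCompleteLattice.toConditionallyCompletePartialOrder ConditionallyCompletePartialOrder.toConditionallyCompletePartialOrderInf ConditionallyCompletePartialOrder.toConditionallyCompletePartialOrderSup AlgEquivClass.toAlgHomClass LinearOrderedCommGroupWithZero.toCommGroupWithZero Nat.instAtLeastTwoHAddOfNat Pi.instBotForall BooleanAlgebra.toDistribLattice ChainCompletePartialOrder.instOfCompleteLattice ChainCompletePartialOrder.instOmegaCompletePartialOrder ChainCompletePartialOrder.toPartialOrder CompleteLattice.toLattice CompleteLattice.toPartialOrder' CompletePartialOrder.toOmegaCompletePartialOrder CompleteSemilatticeInf.toPartialOrder CompleteSemilatticeSup.toPartialOrder ConditionallyCompletePartialOrderInf.toPartialOrder ConditionallyCompletePartialOrderSup.toPartialOrder GeneralizedBooleanAlgebra.toDistribLattice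 GeneralizedCoheytingAlgebra.toDistribLattice GeneralizedCoheytingAlgebra.toLattice GeneralizedHeytingAlgebra.toDistribLattice GeneralizedHeytingAlgebra.toLattice OmegaCompletePartialOrder.toPartialOrder Order.Coframe.toDistribLattice Order.Frame.toDistribLattice IsRegularLocalRing.instOfIsLocalRingOfIsDomainOfIsPrincipalIdealRing IsRegularLocalRing.toIsLocalRing instSubsingleton instDistribSMul NonUnitalNonAssocSemiring.toDistribSMul IsEmpty.instSubsingleton AbsoluteValue.mulHomClass OrderAddMonoidHom.instAddMonoidHomClass instSMulZeroClass NormedAlgebra.id coePNatNat Nat.Primes.coeNat Nat.Primes.coePNat Std.Time.WallTime.instHAddOffset_1 PerfectClosure.instDivisionRing CommGroupWithZero.toCommMonoidWithZero LinearOrderedCommMonoidWithZero.toCommMonoidWithZero MulSemiringActionSemiHomClass.toDistribMulActionSemiHomClass Pi.nonUnitalSemiring Module.toMulActionWithZero MonoidWithZero.toMulActionWithZero CommMonoidWithZero.toMonoidWithZero Invertible.toNeZero NeZero.of_gt' Nat.AtLeastTwo.toNeZero LinOrd.str Ring.toGrindRing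 IsStrictOrderedRing.toCharZero RCLike.charZero_rclike SubringClass.toSubsemiringClass instFiniteProp TwoSidedIdeal.instIsTwoSidedCoeOrderHomIdealAsIdeal Pi.subtractionMonoid Pi.distribMulAction' AddHom.addHomClass AddCommGroup.toGrindIntModule instIsDedekindDomainOfIsDomainOfIsDedekindRing IsDedekindDomainDvr.isDedekindDomain OrderDual.instDivisionRing MonoidWithZero.toSemigroupWithZero Nat.Prime.one_lt' instNontrivialCarrierObjModuleCatOfFullOfFaithful AddCancelMonoid.toIsCancelAdd IsAffineAddMonoid.toIsCancelAdd IsOrderedCancelAddMonoid.toIsCancelAdd SemigroupWithZero.toMulZeroClass Pi.addGroupWithOne Pi.addCommMagma AlgHomClass.linearMapClass ContinuousSemilinearEquivClass.continuousSemilinearMapClass ContinuousSemilinearMapClass.toSemilinearMapClass NonUnitalAlgHomClass.instLinearMapClass NonUnitalAlgHomClass.instSemilinearMapClassOfNonUnitalAlgSemiHomClassToMonoidHomRingHom RingHomClass.toLinearMapClassNNRat RingHomClass.toLinearMapClassRat SemilinearEquivClass.instSemilinearMapClass SemilinearIsometryClass.toContinuousSemilinearMapClass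 SemilinearIsometryClass.toSemilinearMapClass Semiring.toGrindSemiring Algebra.Extension.commRing MulSemiringAction.toMulDistribMulAction MonomialOrder.orderBot OrderDual.instPow_1 SubfieldClass.toField SubfieldClass.toNormedField SubringClass.toCommRing SubringClass.toNormedCommRing SubringClass.toSeminormedCommRing SubsemiringClass.toCommSemiring SetLike.GradeZero.instCommRing SetLike.GradeZero.instCommSemiring Monoid.End.instMonoidHomClass NonUnitalAlgHomClass.toNonUnitalRingHomClass LocalizedModule.instIsScalarTower Pi.nonAssocRing OrderDual.instDivisionSemiring MulActionWithZero.toMulAction MulActionWithZero.toSMulWithZero MulDistribMulAction.toMulAction MulZeroClass.toSMulWithZero SMulWithZero.toSMulZeroClass ENormedCommMonoid.toESeminormedCommMonoid NormedCommGroup.toENormedCommMonoid MulEquivClass.toMonoidWithZeroHomClass MulRingSeminormClass.toMonoidWithZeroHomClass instIsDomain DivisionRing.isDomain EuclideanDomain.instIsDomain Field.isDomain IsDedekindDomain.toIsDomain IsStrictOrderedRing.isDomain Field.instIsLocalRing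 ValuationRing.isLocalRing CancelCommMonoid.toCancelMonoid CancelCommMonoid.toCommMonoid CancelCommMonoid.toLeftCancelMonoid CancelMonoid.toLeftCancelMonoid CancelMonoid.toRightCancelMonoid CommGroup.toCancelCommMonoid CommGroup.toCommMonoid CommGroup.toDivisionCommMonoid CommMonoidWithZero.toCommMonoid DivisionCommMonoid.toCommMonoid ENormedCommMonoid.toENormedMonoid ENormedMonoid.toESeminormedMonoid ESeminormedCommMonoid.toCommMonoid ESeminormedCommMonoid.toESeminormedMonoid ESeminormedMonoid.toMonoid Group.toCancelMonoid Group.toDivInvMonoid Group.toDivisionMonoid GroupWithZero.toDivisionMonoid LeftCancelMonoid.toMonoid NormedGroup.toENormedMonoid RightCancelMonoid.toMonoid GradedMonoid.GradeZero.commMonoid GradedMonoid.GradeZero.monoid SubalgebraClass.normedRing SubalgebraClass.seminormedRing SubfieldClass.toDivisionRing SubringClass.toNormedRing SubringClass.toRing SubringClass.toSeminormedRing SubsemiringClass.toSemiring SetLike.GradeZero.instRing SetLike.GradeZero.instSemiring Pi.subNegMonoid IsOrderedRing.toIsStrictOrderedRing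 Part.ofOptionDecidable TensorProduct.CompatibleSMul.int Algebra.TensorProduct.instNonAssocRing IdemSemiring.toCanonicallyOrderedAdd IsAffineAddMonoid.mk LieAlgebra.ofAssociativeAlgebra MulCharClass.toMonoidHomClass MulDistribMulActionSemiHomClass.toMonoidHomClass Pi.instOrderTop IsOrderedAddMonoid.toIsOrderedCancelAddMonoid IsStrictOrderedRing.toIsOrderedCancelAddMonoid AddGroup.addLeftReflectLE_of_addLeftMono Pi.semigroup Submodule.Quotient.distribMulAction Submodule.Quotient.distribMulAction' Submodule.instIdemCommSemiring Fin.completeLinearOrder CategoryTheory.instFinCategoryOfFintypeOfIsThin SetLike.instFintype Unique.fintype CategoryTheory.FinCategory.fintypeObj instRingHomSurjectiveForallEvalRingHom NumberField.instFiniteDimensional Std.LinearOrderPackage.toLinearPreorderPackage Std.LinearPreorderPackage.toPreorderPackage NormMulClass.toNoZeroDivisors MulZeroClass.negZeroClass instOfNatAtLeastTwo SubringClass.toNegMemClass IsDedekindDomain.isDedekindDomainDvr IsDedekindDomain.toIsDedekindRing Set.instAddLeftMono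 Pi.instCanonicallyOrderedAddForall Pi.instSemilatticeInf AddSubsemigroup.instAddMemClass IsCancelAdd.toIsLeftCancelAdd of_isDiscreteValuationRing ValuationRing.instOfIsLocalRingOfIsBezout ValuationRing.of_field ValuationRing.toPreValuationRing instIsRightCancelAddOfAddRightReflectLE Pi.divInvMonoid AddCommSemigroup.toAddSemigroup AddLeftCancelSemigroup.toAddSemigroup AddRightCancelSemigroup.toAddSemigroup Ring.toIntAlgebra Semiring.toNatAlgebra MulSemiringActionSemiHomClass.toRingHomClass instAlgEquivClassOfNonUnitalAlgEquivClass ContinuousAlgEquivClass.toAlgEquivClass OrderDual.noTopOrder WithTop.instIsBotZeroClass AddMonoid.FG.to_moduleFinite_nat instNontrivialOfCharZero DivisionRing.toNontrivial IsSimpleOrder.toNontrivial LinearOrderedAddCommGroupWithTop.toNontrivial Module.IsTorsionBySet.isScalarTower SMulMemClass.toModule Submodule.module' SubmoduleClass.module' TensorProduct.isScalarTower TensorProduct.isScalarTower_right Algebra.TensorProduct.right_isScalarTower Fin.instBiheytingAlgebra -- iprune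

set_option linter.all false

section

/-!
Iterated summation of `ℕ∞`-valued sequences.
-/

namespace Vale.Agent.P202

/-- iterated summation. -/
def sumf (L : ℕ → ℕ∞) : ℕ → ℕ∞ := fun j => ∑ i ∈ Finset.range j, L (i + 1)

lemma sumf_mono {L L' : ℕ → ℕ∞} (h : ∀ j, L j ≤ L' j) (j : ℕ) : sumf L j ≤ sumf L' j :=
  Finset.sum_le_sum fun i _ => h (i + 1)

lemma sumf_iterate_mono {L L' : ℕ → ℕ∞} (h : ∀ j, L j ≤ L' j) (p j : ℕ) :
    sumf^[p] L j ≤ sumf^[p] L' j := by
  induction p generalizing j with
  | zero => exact h j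
  | succ p ih =>
    rw [Function.iterate_succ_apply', Function.iterate_succ_apply']
    exact sumf_mono ih j

end Vale.Agent.P202
end

section

/-!
Asymptotics of iterated sums.
-/

namespace Vale.Agent.P202

open Filter Topology Asymptotics

lemma sum_div_tendsto {a b : ℕ → ℝ} {e : ℝ} (hb : ∀ i, 0 < b i)
    (hsum : Tendsto (fun n => ∑ i ∈ Finset.range n, b i) atTop atTop)
    (h : Tendsto (fun i => a i / b i) atTop (𝓝 e)) :
    Tendsto (fun n => (∑ i ∈ Finset.range n, a i) / ∑ i ∈ Finset.range n, b i) atTop (𝓝 e) := by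
  have h1 : (fun i => a i - e * b i) =o[atTop] b := by
    rw [isLittleO_iff_tendsto' (Eventually.of_forall fun i hi => absurd hi (hb i).ne')]
    have h2 : Tendsto (fun i => a i / b i - e) atTop (𝓝 (e - e)) := h.sub tendsto_const_nhds
    rw [sub_self] at h2
    refine h2.congr fun i => ?_
    have := (hb i).ne'
    field_simp
  have h3 := (IsLittleO.sum_range h1 (fun i => (hb i).le) hsum).tendsto_div_nhds_zero
  have h4 : Tendsto (fun n => (∑ i ∈ Finset.range n, (a i - e * b i)) /
      (∑ i ∈ Finset.range n, b i) + e) atTop (𝓝 (0 + e)) := h3.add tendsto_const_nhds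
  rw [zero_add] at h4
  refine h4.congr' ?_
  filter_upwards [hsum.eventually_gt_atTop 0] with n hn
  rw [Finset.sum_sub_distrib, ← Finset.mul_sum]
  have := hn.ne'
  field_simp
  ring

lemma tendsto_add_div (c s : ℕ) :
    Tendsto (fun n : ℕ => (((n + c : ℕ) : ℝ) ^ s) / (n : ℝ) ^ s) atTop (𝓝 1) := by
  have h1 : Tendsto (fun n : ℕ => 1 + (c : ℝ) / n) atTop (𝓝 (1 + 0)) :=
    tendsto_const_nhds.add (tendsto_const_div_atTop_nhds_zero_nat (c : ℝ))
  rw [add_zero] at h1
  have h2 := h1.pow s
  rw [one_pow] at h2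
  refine h2.congr' ?_
  filter_upwards [eventually_gt_atTop 0] with n hn
  have : (n : ℝ) ≠ 0 := by positivity
  rw [← div_pow, Nat.cast_add]
  congr 1
  field_simp

lemma tendsto_choose_div (c s : ℕ) :
    Tendsto (fun n : ℕ => (s.factorial : ℝ) * (((n + c).choose s : ℕ) : ℝ) / (n : ℝ) ^ s) atTop
      (𝓝 1) := by
  have h0 := isEquivalent_choose s
  have hz : ∀ᶠ x : ℕ in atTop, ((x : ℝ) ^ s / (s.factorial : ℝ)) ≠ 0 := by
    filter_upwards [eventually_gt_atTop 0] with n hn
    positivity
  rw [isEquivalent_iff_tendsto_one hz] at h0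
  have h1 := h0.comp (tendsto_add_atTop_nat c)
  have h2 := h1.mul (tendsto_add_div c s)
  rw [one_mul] at h2
  refine h2.congr' ?_
  filter_upwards [eventually_gt_atTop 0] with n hn
  have h3 : (n : ℝ) ≠ 0 := by positivity
  have h4 : (s.factorial : ℝ) ≠ 0 := by positivity
  have h5 : ((n + c : ℕ) : ℝ) ≠ 0 := by positivity
  simp only [Function.comp_apply, Pi.div_apply]
  field_simp

lemma sum_choose_range (s j : ℕ) :
    ∑ i ∈ Finset.range j, (i + s).choose s = (j + s).choose (s + 1) := by
  rcases j with _ | j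
  · simp
  · rw [Nat.sum_range_add_choose]
    congr 1
    ring

lemma tendsto_sum_step {s : ℕ} {L : ℕ → ℝ} {e : ℝ}
    (h : Tendsto (fun N : ℕ => (s.factorial : ℝ) * L N / (N : ℝ) ^ s) atTop (𝓝 e)) :
    Tendsto (fun N : ℕ => ((s + 1).factorial : ℝ) * (∑ i ∈ Finset.range N, L (i + 1)) /
      (N : ℝ) ^ (s + 1)) atTop (𝓝 e) := by
  have h1 : Tendsto (fun i : ℕ => L (i + 1) / (((i + s).choose s : ℕ) : ℝ)) atTop (𝓝 e) := by
    have h2 := h.comp (tendsto_add_atTop_nat 1)
    have h3 := (tendsto_choose_div s s)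
    have h4 := (h2.mul (tendsto_add_div 1 s)).div h3 one_ne_zero
    rw [mul_one, div_one] at h4
    refine h4.congr' ?_
    filter_upwards [eventually_gt_atTop 0] with n hn
    have h5 : (n : ℝ) ≠ 0 := by positivity
    have h6 : (s.factorial : ℝ) ≠ 0 := by positivity
    have h7 : ((n + 1 : ℕ) : ℝ) ≠ 0 := by positivity
    have h8 : (((n + s).choose s : ℕ) : ℝ) ≠ 0 := by
      have : 0 < (n + s).choose s := Nat.choose_pos (by omega)
      positivity
    simp only [Function.comp_apply, Pi.div_apply]
    field_simp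
  have hsum : Tendsto (fun n : ℕ => ∑ i ∈ Finset.range n, (((i + s).choose s : ℕ) : ℝ)) atTop
      atTop := by
    refine tendsto_atTop_mono ?_ tendsto_natCast_atTop_atTop
    intro n
    have : ∀ i ∈ Finset.range n, (1 : ℝ) ≤ (((i + s).choose s : ℕ) : ℝ) := by
      intro i _
      exact_mod_cast Nat.choose_pos (by omega)
    calc (n : ℝ) = ∑ i ∈ Finset.range n, (1 : ℝ) := by simp
      _ ≤ _ := Finset.sum_le_sum this
  have h2 := sum_div_tendsto (a := fun i => L (i + 1)) (fun i => by
    have : 0 < (i + s).choose s := Nat.choose_pos (by omega)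
    positivity) hsum h1
  have h3 := h2.mul (tendsto_choose_div s (s + 1))
  rw [mul_one] at h3
  refine h3.congr' ?_
  filter_upwards [eventually_gt_atTop 0] with n hn
  have h5 : (n : ℝ) ≠ 0 := by positivity
  have h8 : (((n + s).choose (s + 1) : ℕ) : ℝ) ≠ 0 := by
    have : 0 < (n + s).choose (s + 1) := Nat.choose_pos (by omega)
    positivity
  have h9 : ∑ i ∈ Finset.range n, (((i + s).choose s : ℕ) : ℝ) =
      (((n + s).choose (s + 1) : ℕ) : ℝ) := by
    rw [← sum_choose_range]
    push_cast
    rfl
  rw [h9]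
  field_simp

lemma sumf_ne_top {L : ℕ → ℕ∞} (h : ∀ i, L i ≠ ⊤) (j : ℕ) : sumf L j ≠ ⊤ := by
  rw [sumf]
  exact WithTop.sum_ne_top.mpr fun i _ => h (i + 1)

lemma sumf_toNat {L : ℕ → ℕ∞} (h : ∀ i, L i ≠ ⊤) (j : ℕ) :
    (sumf L j).toNat = ∑ i ∈ Finset.range j, (L (i + 1)).toNat := by
  have h1 : sumf L j = ((∑ i ∈ Finset.range j, (L (i + 1)).toNat : ℕ) : ℕ∞) := by
    rw [sumf]
    push_cast
    refine Finset.sum_congr rfl fun i _ => ?_
    exact (ENat.natCast_toNat (h (i + 1))).symm
  rw [h1, ENat.toNat_natCast]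

lemma sumf_iterate_tendsto {L : ℕ → ℕ∞} (h : ∀ i, L i ≠ ⊤) {s : ℕ} {e : ℝ}
    (he : Tendsto (fun N : ℕ => (s.factorial : ℝ) * ((L N).toNat : ℝ) / (N : ℝ) ^ s) atTop
      (𝓝 e)) (p : ℕ) :
    (∀ j, sumf^[p] L j ≠ ⊤) ∧
      Tendsto (fun N : ℕ => ((s + p).factorial : ℝ) * ((sumf^[p] L N).toNat : ℝ) /
        (N : ℝ) ^ (s + p)) atTop (𝓝 e) := by
  induction p with
  | zero => exact ⟨h, he⟩
  | succ p ih =>
    obtain ⟨ih1, ih2⟩ := ih
    refine ⟨fun j => ?_, ?_⟩
    · rw [Function.iterate_succ_apply']
      exact sumf_ne_top ih1 j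
    · have h3 := tendsto_sum_step ih2
      refine h3.congr fun N => ?_
      rw [Function.iterate_succ_apply', sumf_toNat ih1]
      push_cast
      rfl

/-- If iterated sums are comparable then so are the leading coefficients. -/
theorem coeff_le_of_sumf_le {L L' : ℕ → ℕ∞} (h : ∀ i, L i ≠ ⊤) (h' : ∀ i, L' i ≠ ⊤) {s p : ℕ}
    {e e' : ℕ}
    (he : Tendsto (fun N : ℕ => (s.factorial : ℝ) * ((L N).toNat : ℝ) / (N : ℝ) ^ s) atTop
      (𝓝 (e : ℝ)))
    (he' : Tendsto (fun N : ℕ => ((s + 1).factorial : ℝ) * ((L' N).toNat : ℝ) /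
      (N : ℝ) ^ (s + 1)) atTop (𝓝 (e' : ℝ)))
    (hle : ∀ j, (sumf^[p + 1] L) j ≤ (sumf^[p] L') j) : e ≤ e' := by
  obtain ⟨h1, h2⟩ := sumf_iterate_tendsto h he (p + 1)
  obtain ⟨h3, h4⟩ := sumf_iterate_tendsto h' he' p
  have h5 : s + (p + 1) = s + 1 + p := by ring
  rw [h5] at h2
  have h6 : (e : ℝ) ≤ (e' : ℝ) := by
    refine le_of_tendsto_of_tendsto' h2 h4 fun N => ?_
    have h7 : (sumf^[p + 1] L N).toNat ≤ (sumf^[p] L' N).toNat :=
      ENat.toNat_le_toNat (hle N) (h3 N)
    gcongr
  exact_mod_cast h6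

end Vale.Agent.P202
end

section

/-!
Localization inequality at a prime with regular one-dimensional quotient.
-/

namespace Vale.Agent.P202

open IsLocalRing

section chain

variable {A : Type*} [CommRing A] {M : Type*} [AddCommGroup M] [Module A M]

/-- a function on submodules that drops by `m` along strict inclusions. -/
lemma locDvr_chain {m : ℕ∞} {ψ : Submodule A M → ℕ∞} (h : ∀ L L', L < L' → m + ψ L' ≤ ψ L)
    (hfin : Module.length A M ≠ ⊤) : Module.length A M * m + ψ ⊤ ≤ ψ ⊥ := by
  obtain ⟨n, hn⟩ := ENat.ne_top_iff_exists.mp hfin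
  rw [Module.length_eq_height] at hn
  obtain ⟨p, hp1, rfl⟩ := Order.exists_series_of_height_eq_coe (⊤ : Submodule A M) hn.symm
  have hanti : ∀ L L', L ≤ L' → ψ L' ≤ ψ L := by
    intro L L' hL
    rcases hL.eq_or_lt with rfl | hlt
    · exact le_rfl
    · exact le_trans le_add_self (h L L' hlt)
  have key : ∀ i : Fin (p.length + 1), (i.val : ℕ∞) * m + ψ (p i) ≤ ψ (p 0) := by
    intro i
    induction i using Fin.induction with
    | zero => simp
    | succ i ih =>
      have h1 := h _ _ (p.strictMono i.castSucc_lt_succ)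
      have e : ((i.succ.val : ℕ) : ℕ∞) * m = ((i.castSucc.val : ℕ) : ℕ∞) * m + m := by
        rw [Fin.val_succ, Fin.val_castSucc]
        push_cast
        rw [add_mul, one_mul]
      calc ((i.succ.val : ℕ) : ℕ∞) * m + ψ (p i.succ)
          = ((i.castSucc.val : ℕ) : ℕ∞) * m + (m + ψ (p i.succ)) := by rw [e, add_assoc]
        _ ≤ ((i.castSucc.val : ℕ) : ℕ∞) * m + ψ (p i.castSucc) := by gcongr
        _ ≤ ψ (p 0) := ih
  have h1 := key (Fin.last _)
  have h2 : p (Fin.last _) = ⊤ := hp1
  rw [h2, Fin.val_last] at h1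
  rw [Module.length_eq_height, ← hn]
  exact h1.trans (hanti _ _ bot_le)

lemma locDvr_rl {m : ℕ∞} {K N : Submodule A M} (hKN : K ≤ N) {ψ : Submodule A M → ℕ∞}
    (h : ∀ L L', K ≤ L → L < L' → L' ≤ N → m + ψ L' ≤ ψ L) (hfin : rl K N ≠ ⊤) :
    rl K N * m + ψ N ≤ ψ K := by
  have h1 := locDvr_chain (A := A) (M := ↥N ⧸ K.submoduleOf N) (m := m)
    (ψ := fun X => ψ ((X.comap (K.submoduleOf N).mkQ).map N.subtype)) ?_ hfin
  · have e1 : (((⊤ : Submodule A (↥N ⧸ K.submoduleOf N)).comap (K.submoduleOf N).mkQ).map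
        N.subtype) = N := by
      rw [Submodule.comap_top, Submodule.map_subtype_top]
    have e2 : (((⊥ : Submodule A (↥N ⧸ K.submoduleOf N)).comap (K.submoduleOf N).mkQ).map
        N.subtype) = K := by
      rw [← LinearMap.ker, Submodule.ker_mkQ, Submodule.submoduleOf, Submodule.map_comap_subtype,
        inf_eq_right.2 hKN]
    simp only [e1, e2] at h1
    exact h1
  · intro L L' hL
    refine h _ _ ?_ ?_ ?_
    · intro x hx
      refine ⟨⟨x, hKN hx⟩, ?_, rfl⟩
      rw [SetLike.mem_coe, Submodule.mem_comap, Submodule.mkQ_apply,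
        (Submodule.Quotient.mk_eq_zero _).2]
      · exact L.zero_mem
      · exact hx
    · refine Submodule.map_lt_map_iff_of_injective ?_ |>.2 ?_
      · exact N.subtype_injective
      · refine lt_of_le_of_ne (Submodule.comap_mono hL.le) ?_
        intro h2
        exact hL.ne (Submodule.comap_injective_of_surjective (Submodule.mkQ_surjective _) h2)
    · exact Submodule.map_subtype_le _ _

end chain

section main

variable {S : Type*} [CommRing S] [IsLocalRing S] [IsNoetherianRing S] (Q : Ideal S)
    [Q.IsPrime]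

/-- binomial bound -/
lemma locDvr_pow {S : Type*} [CommSemiring S] (Q T : Ideal S) (a b : ℕ) :
    (Q ⊔ T) ^ (a + b) ≤ Q ^ (a + 1) ⊔ T ^ b := by
  rw [← Ideal.add_eq_sup, add_pow]
  refine Finset.sum_induction _ (· ≤ Q ^ (a + 1) + T ^ b) (fun x y hx hy => ?_) ?_ ?_
  · rw [Ideal.add_eq_sup]; exact sup_le hx hy
  · exact bot_le
  · intro i hi
    refine le_trans Ideal.mul_le_left ?_
    rw [Ideal.add_eq_sup]
    by_cases h : a + 1 ≤ i
    · exact le_trans (Ideal.mul_le_left.trans (Ideal.pow_le_pow_right h)) le_sup_left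
    · exact le_trans (Ideal.mul_le_right.trans (Ideal.pow_le_pow_right (by omega))) le_sup_right

/-- one step of the chain. -/
lemma locDvr_step (t : S) (htQ : t ∉ Q) (ht : t ∈ maximalIdeal S)
    (hmax : maximalIdeal S ≤ Q ⊔ Ideal.span {t}) {i j : ℕ} (hij : i < j)
    {I₁ I₂ : Ideal (Localization.AtPrime Q)}
    (hI : maximalIdeal (Localization.AtPrime Q) ^ (i + 1) ≤ I₁) (hlt : I₁ < I₂) :
    ((j - i : ℕ) : ℕ∞) + ell (I₂.comap (algebraMap S (Localization.AtPrime Q)) ⊔
      maximalIdeal S ^ j) ≤
      ell (I₁.comap (algebraMap S (Localization.AtPrime Q)) ⊔ maximalIdeal S ^ j) := by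
  set f := algebraMap S (Localization.AtPrime Q) with hf
  set J₁ := I₁.comap f with hJ₁
  set J₂ := I₂.comap f with hJ₂
  have hJ : J₁ ≤ J₂ := Ideal.comap_mono hlt.le
  have htu : IsUnit (f t) := IsLocalization.map_units (Localization.AtPrime Q)
    (⟨t, htQ⟩ : Q.primeCompl)
  have hreg : ∀ (I : Ideal (Localization.AtPrime Q)) (a : ℕ) (x : S),
      t ^ a * x ∈ I.comap f → x ∈ I.comap f := by
    intro I a x hx
    rw [Ideal.mem_comap, map_mul, map_pow] at hx
    rw [Ideal.mem_comap]
    exact (Ideal.unit_mul_mem_iff_mem _ (htu.pow a)).1 hx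
  have hQ1 : Q ^ (i + 1) ≤ J₁ := by
    have h1 : Q ≤ (maximalIdeal (Localization.AtPrime Q)).comap f := by
      intro x hx
      rw [Ideal.mem_comap]
      exact (IsLocalization.AtPrime.to_map_mem_maximal_iff (Localization.AtPrime Q) Q x).2 hx
    calc Q ^ (i + 1) ≤ ((maximalIdeal (Localization.AtPrime Q)).comap f) ^ (i + 1) :=
          Ideal.pow_right_mono h1 _
      _ ≤ (maximalIdeal (Localization.AtPrime Q) ^ (i + 1)).comap f := Ideal.le_comap_pow f _
      _ ≤ J₁ := Ideal.comap_mono hI
  let L : ℕ → Ideal S := fun a => J₁ ⊔ maximalIdeal S ^ j ⊔ Ideal.span {t ^ a} * J₂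
  have hLanti : ∀ a, L (a + 1) ≤ L a := by
    intro a
    refine sup_le_sup_left (Ideal.mul_mono_left ?_) _
    rw [Ideal.span_singleton_le_iff_mem, pow_succ]
    exact Ideal.mul_mem_right _ _ (Ideal.mem_span_singleton_self _)
  have hLne : ∀ a < j - i, ¬ L a ≤ L (a + 1) := by
    intro a ha hle
    have hsub : J₂ ≤ J₁ ⊔ Ideal.span {t} * J₂ := by
      intro z hz
      have h1 : t ^ a * z ∈ L (a + 1) := hle (Ideal.mem_sup_right
        (Ideal.mul_mem_mul (Ideal.mem_span_singleton_self _) hz))
      obtain ⟨y, hy, w', hw', he⟩ := Submodule.mem_sup.1 h1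
      obtain ⟨z₁, hz₁, w, hw, rfl⟩ := Submodule.mem_sup.1 hy
      obtain ⟨z₂, hz₂, rfl⟩ := Ideal.mem_span_singleton_mul.1 hw'
      have hw2 : w ∈ Q ^ (i + 1) ⊔ Ideal.span {t} ^ (j - i) := by
        refine locDvr_pow Q (Ideal.span {t}) i (j - i) ?_
        rw [show i + (j - i) = j by omega]
        exact Ideal.pow_right_mono hmax j hw
      obtain ⟨u, hu, v', hv', rfl⟩ := Submodule.mem_sup.1 hw2
      rw [Ideal.span_singleton_pow] at hv'
      obtain ⟨v, rfl⟩ := Ideal.mem_span_singleton'.1 hv'
      have hv2 : v ∈ J₂ := by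
        refine hreg I₂ (j - i) v ?_
        have e1 : t ^ (j - i) * v = t ^ a * z - z₁ - u - t ^ (a + 1) * z₂ := by
          rw [← he]; ring
        rw [e1]
        refine sub_mem (sub_mem (sub_mem (Ideal.mul_mem_left _ _ hz) (hJ hz₁)) (hJ (hQ1 hu)))
          (Ideal.mul_mem_left _ _ hz₂)
      have h2 : t ^ a * (z - t * (z₂ + t ^ (j - i - a - 1) * v)) ∈ J₁ := by
        have e2 : t ^ (j - i) = t ^ a * (t * t ^ (j - i - a - 1)) := by
          rw [← pow_succ', ← pow_add]
          congr 1
          omega
        have e1 : t ^ a * (z - t * (z₂ + t ^ (j - i - a - 1) * v)) = z₁ + u := by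
          have : t ^ a * z = z₁ + (u + v * t ^ (j - i)) + t ^ (a + 1) * z₂ := he.symm
          rw [mul_sub, this, e2]
          ring
        rw [e1]
        exact add_mem hz₁ (hQ1 hu)
      have h3 := hreg I₁ a _ h2
      have e3 : z = (z - t * (z₂ + t ^ (j - i - a - 1) * v)) +
          t * (z₂ + t ^ (j - i - a - 1) * v) := by ring
      rw [e3]
      refine Submodule.add_mem_sup h3 (Ideal.mul_mem_mul (Ideal.mem_span_singleton_self _) ?_)
      exact add_mem hz₂ (Ideal.mul_mem_left _ _ hv2)
    have hnak : J₂ ≤ J₁ := by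
      refine Submodule.le_of_le_smul_of_le_jacobson_bot (I := Ideal.span {t})
        (IsNoetherian.noetherian J₂) ?_ hsub
      rw [Ideal.span_singleton_le_iff_mem, IsLocalRing.jacobson_eq_maximalIdeal ⊥ bot_ne_top]
      exact ht
    have h4 : I₂ ≤ I₁ := by
      rw [← IsLocalization.map_under Q.primeCompl (Localization.AtPrime Q) I₂,
        ← IsLocalization.map_under Q.primeCompl (Localization.AtPrime Q) I₁]
      exact Ideal.map_mono hnak
    exact absurd h4 (not_le_of_gt hlt)
  have key : ∀ a ≤ j - i, (a : ℕ∞) + ell (L 0) ≤ ell (L a) := by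
    intro a
    induction a with
    | zero => intro _; simp
    | succ a ih =>
      intro ha
      have h1 := ih (by omega)
      have h2 : ell (L (a + 1)) = rl (L (a + 1)) (L a) + ell (L a) := by
        have := rl_add (hLanti a) (le_top : L a ≤ (⊤ : Ideal S))
        rw [rl_top, rl_top] at this
        exact this
      have h3 : 1 ≤ rl (L (a + 1)) (L a) := by
        rw [Order.one_le_iff_ne_zero]
        intro h0
        exact hLne a (by omega) (rl_eq_zero_iff.1 h0)
      calc ((a + 1 : ℕ) : ℕ∞) + ell (L 0) = 1 + ((a : ℕ∞) + ell (L 0)) := by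
            push_cast; ring
        _ ≤ rl (L (a + 1)) (L a) + ell (L a) := by gcongr
        _ = ell (L (a + 1)) := h2.symm
  have hL0 : L 0 = J₂ ⊔ maximalIdeal S ^ j := by
    change J₁ ⊔ maximalIdeal S ^ j ⊔ Ideal.span {t ^ 0} * J₂ = _
    rw [pow_zero, Ideal.span_singleton_one, Ideal.top_mul, sup_right_comm, sup_eq_right.2 hJ]
  have h5 := key (j - i) le_rfl
  rw [hL0] at h5
  exact h5.trans (ell_mono le_sup_left)

end main

/-- localization inequality at a prime with regular one-dimensional quotient. -/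
theorem loc_dvr {S : Type*} [CommRing S] [IsLocalRing S] [IsNoetherianRing S] (Q : Ideal S)
    [Q.IsPrime] (t : S) (htQ : t ∉ Q) (ht : t ∈ maximalIdeal S)
    (hmax : maximalIdeal S ≤ Q ⊔ Ideal.span {t}) (j : ℕ) :
    sumf (fun i => ell (maximalIdeal (Localization.AtPrime Q) ^ i)) j ≤
      ell (maximalIdeal S ^ j) := by
  have : IsNoetherianRing (Localization.AtPrime Q) :=
    IsLocalization.isNoetherianRing Q.primeCompl _ inferInstance
  set f := algebraMap S (Localization.AtPrime Q) with hf
  set M := maximalIdeal (Localization.AtPrime Q) with hM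
  have hfin : ∀ i, rl (M ^ (i + 1)) (M ^ i) ≠ ⊤ := by
    intro i
    refine BaseAux.rl_ne_top_of_smul_le ?_
    rw [smul_eq_mul, ← pow_succ']
  have hell : ∀ n, ell (M ^ n) = ∑ k ∈ Finset.range n, rl (M ^ (k + 1)) (M ^ k) := by
    intro n
    induction n with
    | zero => simp [Ideal.one_eq_top, ell_top]
    | succ n ih =>
      rw [Finset.sum_range_succ, ← ih, add_comm (ell (M ^ n))]
      have := rl_add (Ideal.pow_le_pow_right (Nat.le_succ n) : M ^ (n + 1) ≤ M ^ n)
        (le_top : M ^ n ≤ (⊤ : Ideal (Localization.AtPrime Q)))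
      rw [rl_top, rl_top] at this
      exact this
  have hsum : ∀ n, sumf (fun i => ell (M ^ i)) n =
      ∑ k ∈ Finset.range n, rl (M ^ (k + 1)) (M ^ k) * ((n - k : ℕ) : ℕ∞) := by
    intro n
    rw [sumf]
    induction n with
    | zero => simp
    | succ n ih =>
      rw [Finset.sum_range_succ, ih, hell (n + 1), Finset.sum_range_succ, Finset.sum_range_succ,
        ← add_assoc, ← Finset.sum_add_distrib]
      congr 1
      · refine Finset.sum_congr rfl fun k hk => ?_
        have hk' := Finset.mem_range.1 hk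
        rw [show n + 1 - k = (n - k) + 1 by omega]
        push_cast
        rw [mul_add, mul_one]
      · rw [show n + 1 - n = 1 by omega]
        simp
  have key : ∀ a ≤ j, ∑ k ∈ Finset.range a, rl (M ^ (k + 1)) (M ^ k) * ((j - k : ℕ) : ℕ∞) ≤
      ell ((M ^ a).comap f ⊔ maximalIdeal S ^ j) := by
    intro a
    induction a with
    | zero => intro _; simp
    | succ a ih =>
      intro ha
      rw [Finset.sum_range_succ]
      have h1 := locDvr_rl (m := ((j - a : ℕ) : ℕ∞)) (K := M ^ (a + 1)) (N := M ^ a)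
        (Ideal.pow_le_pow_right (Nat.le_succ a))
        (ψ := fun I : Ideal (Localization.AtPrime Q) => ell (I.comap f ⊔ maximalIdeal S ^ j))
        (fun I₁ I₂ h1 h2 _ => locDvr_step Q t htQ ht hmax (by omega) h1 h2) (hfin a)
      refine le_trans ?_ h1
      rw [add_comm]
      gcongr
      exact ih (by omega)
  rw [hsum]
  exact (key j le_rfl).trans (ell_mono le_sup_right)

end Vale.Agent.P202
end

section

/-!
Lower bound for a flat one-element extension of the maximal ideal.
-/

set_option linter.unusedSectionVars false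

namespace Vale.Agent.P202

open IsLocalRing

lemma exists_socle_elt {A : Type*} [CommRing A] [IsLocalRing A] {I : Ideal A} {s : ℕ}
    (hs : maximalIdeal A ^ s ≤ I) (hI : I ≠ ⊤) :
    ∃ x, x ∉ I ∧ ∀ m ∈ maximalIdeal A, m * x ∈ I := by
  classical
  have hex : ∃ t, maximalIdeal A ^ t ≤ I := ⟨s, hs⟩
  have ht := Nat.find_spec hex
  have ht0 : Nat.find hex ≠ 0 := by
    intro h0
    rw [h0, pow_zero, Ideal.one_eq_top, top_le_iff] at ht
    exact hI ht
  obtain ⟨t, htt⟩ := Nat.exists_eq_succ_of_ne_zero ht0
  have hlt : ¬ maximalIdeal A ^ t ≤ I := Nat.find_min hex (by lia)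
  obtain ⟨x, hx, hxI⟩ := Set.not_subset.mp hlt
  refine ⟨x, hxI, fun m hm => ht ?_⟩
  rw [htt, Nat.succ_eq_add_one, pow_succ']
  exact Ideal.mul_mem_mul hm hx

section LowerFlat

variable {A A₁ : Type*} [CommRing A] [IsLocalRing A] [IsNoetherianRing A]
    [CommRing A₁] [IsLocalRing A₁] [IsNoetherianRing A₁] [Algebra A A₁]
    [IsLocalHom (algebraMap A A₁)] [Module.Flat A A₁]

lemma flat_socle {I : Ideal A} {x : A} (hxI : x ∉ I) (hmx : ∀ m ∈ maximalIdeal A, m * x ∈ I)
    {b : A₁} (hb : algebraMap A A₁ x * b ∈ I.map (algebraMap A A₁)) :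
    b ∈ (maximalIdeal A).map (algebraMap A A₁) := by
  by_contra hcon
  have h1 : b ∉ maximalIdeal A • (⊤ : Submodule A A₁) := by
    rw [Ideal.smul_top_eq_map]
    exact hcon
  refine hxI (mem_of_smul_mem (A := A) (V := A₁) (maximalIdeal A) (I := I)
    (I' := I ⊔ Ideal.span {x}) le_sup_left ?_ (maximalIdeal A • (⊤ : Submodule A A₁)) le_rfl h1
    (Ideal.mem_sup_right (Ideal.mem_span_singleton_self x)) (Submodule.mem_sup_right ?_))
  · rw [Ideal.mul_sup, sup_le_iff]
    refine ⟨Ideal.mul_le_right, ?_⟩
    rw [Ideal.mul_le]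
    intro m hm c hc
    obtain ⟨d, rfl⟩ := Ideal.mem_span_singleton'.mp hc
    have := I.mul_mem_left d (hmx m hm)
    rwa [← mul_assoc, mul_comm d m, mul_assoc] at this
  · rw [Ideal.smul_top_eq_map, Algebra.smul_def]
    exact hb

/-- `h` is regular modulo every extended ideal of finite colength. -/
lemma reg_all {h : A₁} (hreg : ∀ a : A₁, h * a ∈ (maximalIdeal A).map (algebraMap A A₁) →
      a ∈ (maximalIdeal A).map (algebraMap A A₁)) (s : ℕ) (I : Ideal A) :
    maximalIdeal A ^ s ≤ I → ∀ a, h * a ∈ I.map (algebraMap A A₁) →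
      a ∈ I.map (algebraMap A A₁) := by
  induction I using IsNoetherian.induction with
  | hgt I' ih =>
  let I : Ideal A := I'
  change maximalIdeal A ^ s ≤ I → ∀ a, h * a ∈ I.map (algebraMap A A₁) →
      a ∈ I.map (algebraMap A A₁)
  change ∀ J : Ideal A, J > I → maximalIdeal A ^ s ≤ J → ∀ a, h * a ∈ J.map (algebraMap A A₁) →
      a ∈ J.map (algebraMap A A₁) at ih
  clear_value I
  intro hs a ha
  by_cases hI : I = ⊤
  · rw [hI, Ideal.map_top]; exact Submodule.mem_top
  obtain ⟨x, hxI, hmx⟩ := exists_socle_elt hs hI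
  have hlt : I < I ⊔ Ideal.span {x} := lt_of_le_of_ne le_sup_left fun h => hxI
    (by rw [h]; exact Ideal.mem_sup_right (Ideal.mem_span_singleton_self x))
  have h1 := ih _ hlt (hs.trans le_sup_left) a (Ideal.map_mono le_sup_left ha)
  rw [Ideal.map_sup, Ideal.map_span, Set.image_singleton] at h1
  obtain ⟨i, hi, y, hy, rfl⟩ := Submodule.mem_sup.mp h1
  obtain ⟨b, rfl⟩ := Ideal.mem_span_singleton'.mp hy
  have h2 : algebraMap A A₁ x * (h * b) ∈ Ideal.map (algebraMap A A₁) I := by
    have h3 : algebraMap A A₁ x * (h * b) = h * (i + b * algebraMap A A₁ x) - h * i := by ring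
    rw [h3]
    exact Ideal.sub_mem _ ha (Ideal.mul_mem_left _ _ hi)
  have h4 := hreg b (flat_socle hxI hmx h2)
  refine Ideal.add_mem _ hi ?_
  have h5 : b * algebraMap A A₁ x ∈
      (maximalIdeal A).map (algebraMap A A₁) * Ideal.span {algebraMap A A₁ x} :=
    Ideal.mul_mem_mul h4 (Ideal.mem_span_singleton_self _)
  have h6 : (maximalIdeal A).map (algebraMap A A₁) * Ideal.span {algebraMap A A₁ x} ≤
      Ideal.map (algebraMap A A₁) I := by
    rw [← Set.image_singleton, ← Ideal.map_span, ← Ideal.map_mul]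
    refine Ideal.map_mono ?_
    rw [Ideal.mul_le]
    intro m hm c hc
    obtain ⟨d, rfl⟩ := Ideal.mem_span_singleton'.mp hc
    have := Ideal.mul_mem_left I d (hmx m hm)
    rwa [← mul_assoc, mul_comm d m, mul_assoc] at this
  exact h6 h5

/-- lengths do not drop modulo `h`. -/
lemma ell_le_ell_map_sup {h : A₁} (hh : h ∈ maximalIdeal A₁)
    (hreg : ∀ a : A₁, h * a ∈ (maximalIdeal A).map (algebraMap A A₁) →
      a ∈ (maximalIdeal A).map (algebraMap A A₁)) (s : ℕ) (I : Ideal A) :
    maximalIdeal A ^ s ≤ I → ell I ≤ ell (I.map (algebraMap A A₁) ⊔ Ideal.span {h}) := by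
  induction I using IsNoetherian.induction with
  | hgt I' ih =>
  let I : Ideal A := I'
  change maximalIdeal A ^ s ≤ I → ell I ≤ ell (I.map (algebraMap A A₁) ⊔ Ideal.span {h})
  change ∀ J : Ideal A, J > I → maximalIdeal A ^ s ≤ J →
    ell J ≤ ell (J.map (algebraMap A A₁) ⊔ Ideal.span {h}) at ih
  clear_value I
  intro hs
  by_cases hI : I = ⊤
  · rw [hI, ell_top]; exact zero_le
  obtain ⟨x, hxI, hmx⟩ := exists_socle_elt hs hI
  have hlt : I < I ⊔ Ideal.span {x} := lt_of_le_of_ne le_sup_left fun h => hxI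
    (by rw [h]; exact Ideal.mem_sup_right (Ideal.mem_span_singleton_self x))
  have hJs : maximalIdeal A ^ s ≤ I ⊔ Ideal.span {x} := hs.trans le_sup_left
  have h1 := ih _ hlt hJs
  have hcol : col I x = maximalIdeal A := by
    refine le_antisymm (le_maximalIdeal fun h => hxI (col_eq_top_iff.mp h)) fun m hm => ?_
    exact mem_col.mpr (hmx m hm)
  rw [ell_eq_add I x, hcol, ell_maximalIdeal,
    ell_eq_add (Ideal.map (algebraMap A A₁) I ⊔ Ideal.span {h}) (algebraMap A A₁ x)]
  refine add_le_add (one_le_ell fun htop => ?_) (h1.trans (ell_mono ?_))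
  · -- `x` is not in `I A₁ + (h)`
    rw [col_eq_top_iff] at htop
    obtain ⟨i, hi, y, hy, hxy⟩ := Submodule.mem_sup.mp htop
    obtain ⟨b, rfl⟩ := Ideal.mem_span_singleton'.mp hy
    have h2 : h * b ∈ (I ⊔ Ideal.span {x}).map (algebraMap A A₁) := by
      have h3 : h * b = algebraMap A A₁ x - i := by rw [← hxy]; ring
      rw [h3]
      exact Ideal.sub_mem _ (Ideal.mem_map_of_mem _
        (Ideal.mem_sup_right (Ideal.mem_span_singleton_self x))) (Ideal.map_mono le_sup_left hi)
    have h4 := reg_all hreg s _ hJs b h2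
    rw [Ideal.map_sup, Ideal.map_span, Set.image_singleton] at h4
    obtain ⟨i', hi', z, hz, rfl⟩ := Submodule.mem_sup.mp h4
    obtain ⟨c, rfl⟩ := Ideal.mem_span_singleton'.mp hz
    have h5 : algebraMap A A₁ x * (1 - h * c) ∈ Ideal.map (algebraMap A A₁) I := by
      have h6 : algebraMap A A₁ x * (1 - h * c) = i + h * i' := by
        linear_combination -hxy
      rw [h6]
      exact Ideal.add_mem _ hi (Ideal.mul_mem_left _ _ hi')
    have h7 : (1 - h * c) ∈ maximalIdeal A₁ :=
      IsLocalRing.map_maximalIdeal_le (algebraMap A A₁) (flat_socle hxI hmx h5)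
    have h8 : (1 : A₁) ∈ maximalIdeal A₁ := by
      have := Ideal.add_mem _ h7 (Ideal.mul_mem_right c _ hh)
      simpa using this
    exact (Ideal.ne_top_iff_one _).mp (maximalIdeal.isMaximal A₁).ne_top h8
  · rw [Ideal.map_sup, Ideal.map_span, Set.image_singleton]
    exact sup_le (le_sup_left.trans le_sup_left |> fun h => sup_le h le_sup_right)
      (le_sup_right.trans le_sup_left)

end LowerFlat

lemma sup_pow_le_three {R : Type*} [CommRing R] (N H : Ideal R) (j : ℕ) :
    ∀ i k, i + k = j → (N ⊔ H) ^ j ≤ N ^ k * H ^ i ⊔ (N ^ (k + 1) ⊔ H ^ (i + 1)) := by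
  induction j with
  | zero =>
    intro i k hik
    obtain ⟨rfl, rfl⟩ : i = 0 ∧ k = 0 := by lia
    simp
  | succ j ih =>
    intro i k hik
    have hN : N * (N ⊔ H) ^ j ≤ N ^ k * H ^ i ⊔ (N ^ (k + 1) ⊔ H ^ (i + 1)) := by
      rcases k with _ | k
      · have h1 : N * (N ⊔ H) ^ j ≤ N := Ideal.mul_le_left
        have h2 : N ≤ N ^ (0 + 1) := by rw [zero_add, pow_one]
        exact (h1.trans h2).trans (le_sup_left.trans le_sup_right)
      · have h1 : N * (N ⊔ H) ^ j ≤ N * (N ^ k * H ^ i ⊔ (N ^ (k + 1) ⊔ H ^ (i + 1))) :=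
          Ideal.mul_mono le_rfl (ih i k (by lia))
        refine h1.trans ?_
        rw [Ideal.mul_sup, Ideal.mul_sup]
        have h2 : N * (N ^ k * H ^ i) = N ^ (k + 1) * H ^ i := by ring
        have h3 : N * N ^ (k + 1) = N ^ (k + 1 + 1) := by ring
        have h4 : N * H ^ (i + 1) ≤ H ^ (i + 1) := Ideal.mul_le_right
        rw [h2, h3]
        exact sup_le_sup_left (sup_le_sup_left h4 _) _
    have hH : H * (N ⊔ H) ^ j ≤ N ^ k * H ^ i ⊔ (N ^ (k + 1) ⊔ H ^ (i + 1)) := by
      rcases i with _ | i
      · have h1 : H * (N ⊔ H) ^ j ≤ H := Ideal.mul_le_left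
        have h2 : H ≤ H ^ (0 + 1) := by rw [zero_add, pow_one]
        exact (h1.trans h2).trans (le_sup_right.trans le_sup_right)
      · have h1 : H * (N ⊔ H) ^ j ≤ H * (N ^ k * H ^ i ⊔ (N ^ (k + 1) ⊔ H ^ (i + 1))) :=
          Ideal.mul_mono le_rfl (ih i k (by lia))
        refine h1.trans ?_
        rw [Ideal.mul_sup, Ideal.mul_sup]
        have h2 : H * (N ^ k * H ^ i) = N ^ k * H ^ (i + 1) := by ring
        have h3 : H * H ^ (i + 1) = H ^ (i + 1 + 1) := by ring
        have h4 : H * N ^ (k + 1) ≤ N ^ (k + 1) := Ideal.mul_le_right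
        rw [h2, h3]
        exact sup_le_sup_left (sup_le_sup_right h4 _) _
    rw [pow_succ', Ideal.sup_mul]
    exact sup_le hN hH

/-- lower bound for a flat one-element extension of the maximal ideal. -/
theorem sum_lower {A A₁ : Type*} [CommRing A] [IsLocalRing A] [IsNoetherianRing A]
    [CommRing A₁] [IsLocalRing A₁] [IsNoetherianRing A₁] [Algebra A A₁]
    [IsLocalHom (algebraMap A A₁)] [Module.Flat A A₁] (h : A₁)
    (hmax : maximalIdeal A₁ = (maximalIdeal A).map (algebraMap A A₁) ⊔ Ideal.span {h})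
    (hreg : ∀ a : A₁, h * a ∈ (maximalIdeal A).map (algebraMap A A₁) →
      a ∈ (maximalIdeal A).map (algebraMap A A₁)) (j : ℕ) :
    sumf (fun i => ell (maximalIdeal A ^ i)) j ≤ ell (maximalIdeal A₁ ^ j) := by
  have hh : h ∈ maximalIdeal A₁ := by
    rw [hmax]; exact Ideal.mem_sup_right (Ideal.mem_span_singleton_self h)
  have hmapp : ∀ k, (maximalIdeal A ^ k).map (algebraMap A A₁) =
      (maximalIdeal A).map (algebraMap A A₁) ^ k := fun k => Ideal.map_pow _ _ _
  have hpowreg : ∀ (k i : ℕ) (a : A₁), a * h ^ i ∈ (maximalIdeal A ^ k).map (algebraMap A A₁) →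
      a ∈ (maximalIdeal A ^ k).map (algebraMap A A₁) := by
    intro k i
    induction i with
    | zero => intro a ha; simpa using ha
    | succ i ih =>
      intro a ha
      refine ih a (reg_all hreg k _ le_rfl _ ?_)
      have : h * (a * h ^ i) = a * h ^ (i + 1) := by ring
      rw [this]; exact ha
  have hcol : ∀ i k : ℕ, i + k = j → col (maximalIdeal A₁ ^ j ⊔ Ideal.span {h ^ (i + 1)}) (h ^ i) ≤
      (maximalIdeal A ^ k).map (algebraMap A A₁) ⊔ Ideal.span {h} := by
    intro i k hik a ha
    rw [mem_col] at ha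
    have h1 := sup_pow_le_three ((maximalIdeal A).map (algebraMap A A₁)) (Ideal.span {h}) j i k hik
    rw [← hmax, Ideal.span_singleton_pow, Ideal.span_singleton_pow, ← hmapp, ← hmapp] at h1
    have h2 : a * h ^ i ∈ (maximalIdeal A ^ k).map (algebraMap A A₁) * Ideal.span {h ^ i} ⊔
        ((maximalIdeal A ^ (k + 1)).map (algebraMap A A₁) ⊔ Ideal.span {h ^ (i + 1)}) :=
      (sup_le h1 (le_sup_right.trans le_sup_right)) ha
    obtain ⟨p, hp, q, hq, hpq⟩ := Submodule.mem_sup.mp h2
    obtain ⟨c, hc, rfl⟩ := Ideal.mem_mul_span_singleton.mp hp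
    obtain ⟨r, hr, w, hw, rfl⟩ := Submodule.mem_sup.mp hq
    obtain ⟨b, rfl⟩ := Ideal.mem_span_singleton'.mp hw
    have h3 : (a - c - b * h) * h ^ i ∈ (maximalIdeal A ^ (k + 1)).map (algebraMap A A₁) := by
      have : (a - c - b * h) * h ^ i = r := by linear_combination -hpq
      rw [this]; exact hr
    have h4 := hpowreg (k + 1) i _ h3
    have h5 : a = (a - c - b * h + c) + b * h := by ring
    rw [h5]
    refine Submodule.add_mem_sup (Ideal.add_mem _ ?_ hc)
      (Ideal.mul_mem_left _ _ (Ideal.mem_span_singleton_self h))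
    exact Ideal.map_mono (Ideal.pow_le_pow_right (by lia)) h4
  have key : ∀ i, i ≤ j → ∑ t ∈ Finset.range i, ell (maximalIdeal A ^ (j - t)) ≤
      ell (maximalIdeal A₁ ^ j ⊔ Ideal.span {h ^ i}) := by
    intro i
    induction i with
    | zero => intro _; simp
    | succ i ih =>
      intro hi
      rw [Finset.sum_range_succ, ell_eq_add (maximalIdeal A₁ ^ j ⊔ Ideal.span {h ^ (i + 1)}) (h ^ i),
        add_comm]
      refine add_le_add ?_ ((ih (by lia)).trans (ell_mono ?_))
      · exact (ell_le_ell_map_sup hh hreg (j - i) _ le_rfl).trans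
          (ell_mono (hcol i (j - i) (by lia)))
      · refine sup_le (sup_le le_sup_left ?_) le_sup_right
        refine le_trans ?_ le_sup_right
        rw [Ideal.span_singleton_le_span_singleton]
        exact pow_dvd_pow h (by lia)
  have h1 := key j le_rfl
  have h2 : maximalIdeal A₁ ^ j ⊔ Ideal.span {h ^ j} = maximalIdeal A₁ ^ j := by
    refine sup_eq_left.mpr ?_
    rw [Ideal.span_singleton_le_iff_mem]
    exact Ideal.pow_mem_pow hh j
  rw [h2] at h1
  refine le_trans (le_of_eq ?_) h1
  rw [sumf, ← Finset.sum_range_reflect]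
  refine Finset.sum_congr rfl fun t ht => ?_
  rw [Finset.mem_range] at ht
  rw [show j - 1 - t + 1 = j - t by lia]

end Vale.Agent.P202
end

section

/-!
Upper bound for a one-element extension of the maximal ideal.
-/

set_option linter.unusedSectionVars false

namespace Vale.Agent.P202

open IsLocalRing

section Upper

variable {S S₁ : Type*} [CommRing S] [IsLocalRing S] [IsNoetherianRing S]
    [CommRing S₁] [IsLocalRing S₁] [IsNoetherianRing S₁] [Algebra S S₁]
    [IsLocalHom (algebraMap S S₁)]

/-- lengths do not grow modulo `g`. -/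
lemma ell_map_sup_le {g : S₁}
    (hmax : maximalIdeal S₁ = (maximalIdeal S).map (algebraMap S S₁) ⊔ Ideal.span {g})
    (s : ℕ) (I : Ideal S) :
    maximalIdeal S ^ s ≤ I → ell (I.map (algebraMap S S₁) ⊔ Ideal.span {g}) ≤ ell I := by
  induction I using IsNoetherian.induction with
  | hgt I' ih =>
  let I : Ideal S := I'
  change maximalIdeal S ^ s ≤ I → ell (I.map (algebraMap S S₁) ⊔ Ideal.span {g}) ≤ ell I
  change ∀ J : Ideal S, J > I → maximalIdeal S ^ s ≤ J →
    ell (J.map (algebraMap S S₁) ⊔ Ideal.span {g}) ≤ ell J at ih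
  clear_value I
  intro hs
  by_cases hI : I = ⊤
  · rw [hI, Ideal.map_top, top_sup_eq, ell_top]; exact zero_le
  obtain ⟨x, hxI, hmx⟩ := exists_socle_elt hs hI
  have hlt : I < I ⊔ Ideal.span {x} := lt_of_le_of_ne le_sup_left fun h => hxI
    (by rw [h]; exact Ideal.mem_sup_right (Ideal.mem_span_singleton_self x))
  have hJs : maximalIdeal S ^ s ≤ I ⊔ Ideal.span {x} := hs.trans le_sup_left
  have h1 := ih _ hlt hJs
  have hcol : col I x = maximalIdeal S := by
    refine le_antisymm (le_maximalIdeal fun h => hxI (col_eq_top_iff.mp h)) fun m hm => ?_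
    exact mem_col.mpr (hmx m hm)
  rw [ell_eq_add I x, hcol, ell_maximalIdeal,
    ell_eq_add (Ideal.map (algebraMap S S₁) I ⊔ Ideal.span {g}) (algebraMap S S₁ x)]
  refine add_le_add ?_ (le_trans (le_of_eq ?_) h1)
  · rw [← ell_maximalIdeal (A := S₁)]
    refine ell_mono ?_
    rw [hmax]
    refine sup_le ?_ ?_
    · rw [Ideal.map_le_iff_le_comap]
      intro m hm
      rw [Ideal.mem_comap, mem_col, ← map_mul]
      exact Ideal.mem_sup_left (Ideal.mem_map_of_mem _ (hmx m hm))
    · rw [Ideal.span_singleton_le_iff_mem, mem_col]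
      exact Ideal.mem_sup_right (Ideal.mul_mem_right _ _ (Ideal.mem_span_singleton_self g))
  · rw [Ideal.map_sup, Ideal.map_span, Set.image_singleton, sup_right_comm]

end Upper

/-- upper bound for a one-element extension of the maximal ideal. -/
theorem sum_upper {S S₁ : Type*} [CommRing S] [IsLocalRing S] [IsNoetherianRing S]
    [CommRing S₁] [IsLocalRing S₁] [IsNoetherianRing S₁] [Algebra S S₁]
    [IsLocalHom (algebraMap S S₁)] (g : S₁)
    (hmax : maximalIdeal S₁ = (maximalIdeal S).map (algebraMap S S₁) ⊔ Ideal.span {g}) (j : ℕ) :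
    ell (maximalIdeal S₁ ^ j) ≤ sumf (fun i => ell (maximalIdeal S ^ i)) j := by
  have hg : g ∈ maximalIdeal S₁ := by
    rw [hmax]; exact Ideal.mem_sup_right (Ideal.mem_span_singleton_self g)
  have hle : (maximalIdeal S).map (algebraMap S S₁) ≤ maximalIdeal S₁ := by
    rw [hmax]; exact le_sup_left
  have hcol : ∀ i k : ℕ, i + k = j → (maximalIdeal S ^ k).map (algebraMap S S₁) ⊔ Ideal.span {g} ≤
      col (maximalIdeal S₁ ^ j ⊔ Ideal.span {g ^ (i + 1)}) (g ^ i) := by
    intro i k hik
    refine sup_le (fun a ha => ?_) ?_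
    · rw [mem_col]
      refine Ideal.mem_sup_left ?_
      rw [Ideal.map_pow] at ha
      rw [← hik, add_comm i k, pow_add]
      exact Ideal.mul_mem_mul (Ideal.pow_right_mono hle k ha) (Ideal.pow_mem_pow hg i)
    · rw [Ideal.span_singleton_le_iff_mem, mem_col, ← pow_succ']
      exact Ideal.mem_sup_right (Ideal.mem_span_singleton_self _)
  have key : ∀ i, i ≤ j → ell (maximalIdeal S₁ ^ j ⊔ Ideal.span {g ^ i}) ≤
      ∑ t ∈ Finset.range i, ell (maximalIdeal S ^ (j - t)) := by
    intro i
    induction i with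
    | zero =>
      intro _
      have : maximalIdeal S₁ ^ j ⊔ Ideal.span {g ^ 0} = ⊤ := by
        rw [pow_zero, Ideal.span_singleton_one, sup_top_eq]
      rw [this, ell_top]
      exact zero_le
    | succ i ih =>
      intro hi
      rw [Finset.sum_range_succ, ell_eq_add (maximalIdeal S₁ ^ j ⊔ Ideal.span {g ^ (i + 1)}) (g ^ i),
        add_comm]
      refine add_le_add ((ell_mono ?_).trans (ih (by lia))) ?_
      · exact sup_le (le_sup_left.trans le_sup_left) le_sup_right
      · exact (ell_mono (hcol i (j - i) (by lia))).trans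
          (ell_map_sup_le hmax (j - i) _ le_rfl)
  have h1 := key j le_rfl
  have h2 : maximalIdeal S₁ ^ j ⊔ Ideal.span {g ^ j} = maximalIdeal S₁ ^ j := by
    refine sup_eq_left.mpr ?_
    rw [Ideal.span_singleton_le_iff_mem]
    exact Ideal.pow_mem_pow hg j
  rw [h2] at h1
  refine le_trans h1 (le_of_eq ?_)
  rw [sumf, ← Finset.sum_range_reflect]
  refine Finset.sum_congr rfl fun t ht => ?_
  rw [Finset.mem_range] at ht
  rw [show j - (j - 1 - t) = t + 1 by lia]

end Vale.Agent.P202
end

section

/-!
The localization inequality when the quotient has a birational finite extension which is a discrete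
valuation ring.
-/

set_option linter.unusedSectionVars false

namespace Vale.Agent.P202

open IsLocalRing Polynomial

section Step

variable {S V : Type*} [CommRing S] [IsLocalRing S] [IsNoetherianRing S]
    [CommRing V] [IsDomain V] [IsLocalRing V] [Algebra S V]

/-- The kernel of the residue map on polynomials is principal over the maximal ideal. -/
lemma exists_gen_over (N : Ideal S[X]) (hN : (maximalIdeal S).map (C : S →+* S[X]) ≤ N) :
    ∃ G : S[X], N = (maximalIdeal S).map (C : S →+* S[X]) ⊔ Ideal.span {G} := by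
  let φ : S[X] →+* (ResidueField S)[X] := mapRingHom (residue S)
  have hφ : Function.Surjective φ := map_surjective _ residue_surjective
  have hker : RingHom.ker φ = (maximalIdeal S).map (C : S →+* S[X]) := by
    rw [Polynomial.ker_mapRingHom, ker_residue]
  obtain ⟨g, hg⟩ : ∃ g, N.map φ = Ideal.span {g} :=
    (IsPrincipalIdealRing.principal (N.map φ)).principal
  obtain ⟨G, rfl⟩ := hφ g
  refine ⟨G, ?_⟩
  have h1 : N = (N.map φ).comap φ := by
    rw [Ideal.comap_map_of_surjective φ hφ]
    refine le_antisymm le_sup_left (sup_le le_rfl ?_)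
    change RingHom.ker φ ≤ N
    rw [hker]; exact hN
  rw [h1, hg, ← Set.image_singleton, ← Ideal.map_span, Ideal.comap_map_of_surjective φ hφ, sup_comm]
  congr 1

end Step

/-- flatness, maximal ideal and regularity for the one-element extension of the localization at
`Q`. -/
lemma lower_step {S V : Type*} [CommRing S] [IsLocalRing S] [IsNoetherianRing S]
    [CommRing V] [IsDomain V] [Algebra S V]
    (Q : Ideal S) [hQp : Q.IsPrime] (hQ : Q = RingHom.ker (algebraMap S V)) (v : V) (a b : S)
    (ha : a ∉ Q) (hab : algebraMap S V a * v = algebraMap S V b)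
    (A₁ : Type*) [CommRing A₁] [IsLocalRing A₁] [IsNoetherianRing A₁] [Algebra S[X] A₁]
    [Algebra S A₁] [IsScalarTower S S[X] A₁]
    (P : Ideal S[X]) [hP : P.IsPrime] (hPv : ∀ F : S[X], F ∈ P ↔ aeval v F = 0)
    [IsLocalization.AtPrime A₁ P] (j : ℕ) :
    sumf (fun i => ell (maximalIdeal (Localization.AtPrime Q) ^ i)) j ≤
      ell (maximalIdeal A₁ ^ j) := by
  have hmemQ : ∀ s : S, s ∈ Q ↔ algebraMap S V s = 0 := fun s => by
    rw [hQ, RingHom.mem_ker]
  have hCP : ∀ s : S, (C s : S[X]) ∈ P ↔ s ∈ Q := fun s => by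
    rw [hPv, hmemQ, aeval_C]
  have hunit : ∀ s : Q.primeCompl, IsUnit (algebraMap S A₁ s) := by
    intro s
    rw [IsScalarTower.algebraMap_apply S S[X] A₁]
    exact IsLocalization.map_units A₁ (⟨algebraMap S S[X] s, fun hs => s.2 ((hCP _).mp hs)⟩ :
      P.primeCompl)
  let algA : Algebra (Localization.AtPrime Q) A₁ :=
    (IsLocalization.lift (S := Localization.AtPrime Q) (M := Q.primeCompl) hunit).toAlgebra
  have tow : IsScalarTower S (Localization.AtPrime Q) A₁ :=
    IsScalarTower.of_algebraMap_eq fun x => (IsLocalization.lift_eq hunit x).symm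
  -- the extended ideal
  have hmapQ : (maximalIdeal (Localization.AtPrime Q)).map
      (algebraMap (Localization.AtPrime Q) A₁) =
      (Q.map (C : S →+* S[X])).map (algebraMap S[X] A₁) := by
    rw [← Localization.AtPrime.map_eq_maximalIdeal, Ideal.map_map, Ideal.map_map,
      ← IsScalarTower.algebraMap_eq S (Localization.AtPrime Q) A₁,
      IsScalarTower.algebraMap_eq S S[X] A₁]
    rfl
  have hPX : (Q.map (C : S →+* S[X])).IsPrime := Ideal.isPrime_map_C_of_isPrime
  have hPXP : Q.map (C : S →+* S[X]) ≤ P := by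
    rw [Ideal.map_le_iff_le_comap]
    intro s hs
    exact (hCP s).mpr hs
  have hdisj : Disjoint (P.primeCompl : Set S[X]) (Q.map (C : S →+* S[X]) : Ideal S[X]) := by
    rw [Set.disjoint_left]
    intro F hF hF'
    exact hF (hPXP hF')
  have hJp : ((Q.map (C : S →+* S[X])).map (algebraMap S[X] A₁)).IsPrime :=
    IsLocalization.isPrime_of_isPrime_disjoint P.primeCompl A₁ _ hPX hdisj
  have hJc : ((Q.map (C : S →+* S[X])).map (algebraMap S[X] A₁)).comap (algebraMap S[X] A₁) =
      Q.map (C : S →+* S[X]) :=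
    IsLocalization.under_map_of_isPrime_disjoint P.primeCompl A₁ hPX hdisj
  have hmaxP : P.map (algebraMap S[X] A₁) = maximalIdeal A₁ :=
    IsLocalization.AtPrime.map_eq_maximalIdeal P A₁
  have hJle : (maximalIdeal (Localization.AtPrime Q)).map
      (algebraMap (Localization.AtPrime Q) A₁) ≤ maximalIdeal A₁ := by
    rw [hmapQ, ← hmaxP]
    exact Ideal.map_mono hPXP
  have hloc : IsLocalHom (algebraMap (Localization.AtPrime Q) A₁) :=
    ((local_hom_TFAE (algebraMap (Localization.AtPrime Q) A₁)).out 0 2).mpr hJle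
  have hflat : Module.Flat (Localization.AtPrime Q) A₁ := by
    rw [Module.flat_iff_of_isLocalization (Localization.AtPrime Q) Q.primeCompl]
    have h1 : Module.Flat S[X] A₁ := IsLocalization.flat A₁ P.primeCompl
    exact Module.Flat.trans S S[X] A₁
  -- the element
  set β : Localization.AtPrime Q := IsLocalization.mk' _ b (⟨a, ha⟩ : Q.primeCompl) with hβ
  set h : A₁ := algebraMap S[X] A₁ X - algebraMap (Localization.AtPrime Q) A₁ β with hh
  have haβ : algebraMap S (Localization.AtPrime Q) a * β =
      algebraMap S (Localization.AtPrime Q) b := by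
    rw [hβ, mul_comm]
    exact IsLocalization.mk'_spec (Localization.AtPrime Q) b (⟨a, ha⟩ : Q.primeCompl)
  have hah : algebraMap S A₁ a * h = algebraMap S[X] A₁ (C a * X - C b) := by
    have h1 : algebraMap S A₁ a * algebraMap (Localization.AtPrime Q) A₁ β =
        algebraMap S A₁ b := by
      rw [IsScalarTower.algebraMap_apply S (Localization.AtPrime Q) A₁, ← map_mul, haβ,
        ← IsScalarTower.algebraMap_apply]
    have hC : ∀ s : S, algebraMap S[X] A₁ (C s) = algebraMap S A₁ s := fun s =>
      (IsScalarTower.algebraMap_apply S S[X] A₁ s).symm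
    rw [hh, mul_sub, h1, map_sub, map_mul, hC, hC]
  have hXP : C a * X - C b ∈ P := by
    rw [hPv, map_sub, map_mul, aeval_C, aeval_X, aeval_C, hab, sub_self]
  have hau : IsUnit (algebraMap S A₁ a) := hunit ⟨a, ha⟩
  have hhmem : h ∈ maximalIdeal A₁ := by
    have h1 : algebraMap S A₁ a * h ∈ maximalIdeal A₁ := by
      rw [hah, ← hmaxP]
      exact Ideal.mem_map_of_mem _ hXP
    exact (Ideal.unit_mul_mem_iff_mem _ hau).mp h1
  refine sum_lower h (le_antisymm ?_ (sup_le hJle ?_)) ?_ j
  · -- the maximal ideal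
    rw [← hmaxP, Ideal.map_le_iff_le_comap]
    intro F hF
    rw [Ideal.mem_comap]
    have h1 : algebraMap S[X] A₁ F = aeval (algebraMap S[X] A₁ X) F := by
      have : IsScalarTower.toAlgHom S S[X] A₁ = aeval (algebraMap S[X] A₁ X) := by
        apply Polynomial.algHom_ext
        rw [aeval_X]; rfl
      exact congrArg (fun f : S[X] →ₐ[S] A₁ => f F) this
    have h2 : h ∣ algebraMap S[X] A₁ F -
        algebraMap (Localization.AtPrime Q) A₁ (aeval β F) := by
      rw [h1, ← aeval_algebraMap_apply, aeval_def, aeval_def, ← eval_map, ← eval_map]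
      exact sub_dvd_eval_sub _ _ _
    have h3 : aeval β F ∈ maximalIdeal (Localization.AtPrime Q) := by
      have hg : ∀ s : Q.primeCompl,
          IsUnit (((algebraMap V (FractionRing V)).comp (algebraMap S V)) s) := by
        intro s
        refine IsUnit.mk0 _ fun h0 => s.2 ((hmemQ _).mpr ?_)
        exact (IsFractionRing.to_map_eq_zero_iff (K := FractionRing V)).mp h0
      let φ : Localization.AtPrime Q →+* FractionRing V :=
        IsLocalization.lift (S := Localization.AtPrime Q) (M := Q.primeCompl) hg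
      have hφ : ∀ s : S, φ (algebraMap S (Localization.AtPrime Q) s) =
          algebraMap V (FractionRing V) (algebraMap S V s) := fun s =>
        IsLocalization.lift_eq hg s
      have hφβ : φ β = algebraMap V (FractionRing V) v := by
        have h4 : algebraMap V (FractionRing V) (algebraMap S V a) * φ β =
            algebraMap V (FractionRing V) (algebraMap S V a) *
              algebraMap V (FractionRing V) v := by
          rw [← map_mul (algebraMap V (FractionRing V)), hab, ← hφ, ← hφ, ← map_mul, haβ]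
        have h5 : algebraMap V (FractionRing V) (algebraMap S V a) ≠ 0 := fun h0 =>
          ha ((hmemQ _).mpr ((IsFractionRing.to_map_eq_zero_iff (K := FractionRing V)).mp h0))
        exact mul_left_cancel₀ h5 h4
      have h6 : φ (aeval β F) = 0 := by
        rw [aeval_def, hom_eval₂, hφβ,
          show φ.comp (algebraMap S (Localization.AtPrime Q)) =
            (algebraMap V (FractionRing V)).comp (algebraMap S V) from RingHom.ext hφ,
          ← hom_eval₂, ← aeval_def, (hPv F).mp hF, map_zero]
      rw [mem_maximalIdeal, mem_nonunits_iff]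
      intro hu
      have := hu.map φ
      rw [h6] at this
      exact not_isUnit_zero this
    have h4 : algebraMap S[X] A₁ F = algebraMap (Localization.AtPrime Q) A₁ (aeval β F) +
        (algebraMap S[X] A₁ F - algebraMap (Localization.AtPrime Q) A₁ (aeval β F)) := by ring
    rw [h4]
    exact Submodule.add_mem_sup (Ideal.mem_map_of_mem _ h3) (Ideal.mem_span_singleton.mpr h2)
  · rw [Ideal.span_singleton_le_iff_mem]; exact hhmem
  · intro x hx
    rw [hmapQ] at hx ⊢
    refine (hJp.mem_or_mem hx).resolve_left fun hcon => ?_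
    have h1 : algebraMap S A₁ a * h ∈ (Q.map (C : S →+* S[X])).map (algebraMap S[X] A₁) :=
      Ideal.mul_mem_left _ _ hcon
    rw [hah, ← Ideal.mem_comap, hJc, Ideal.mem_map_C_iff] at h1
    have h2 := h1 1
    simp only [coeff_sub, coeff_C_mul, coeff_X_one, mul_one, coeff_C_succ, sub_zero] at h2
    exact ha h2

universe u w

lemma comap_maximalIdeal_of_finite {S V : Type*} [CommRing S] [IsLocalRing S] [CommRing V]
    [IsLocalRing V] [Algebra S V] [Module.Finite S V] :
    (maximalIdeal V).comap (algebraMap S V) = maximalIdeal S := by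
  have h1 : ((maximalIdeal V).comap (algebraMap S V)).IsMaximal :=
    Ideal.isMaximal_comap_of_isIntegral_of_isMaximal (maximalIdeal V)
  exact IsLocalRing.eq_maximalIdeal h1

lemma loc_base {S V : Type*} [CommRing S] [IsLocalRing S] [IsNoetherianRing S]
    [CommRing V] [IsDomain V] [IsDiscreteValuationRing V] [Algebra S V] [Module.Finite S V]
    (Q : Ideal S) [Q.IsPrime] (hQ : Q = RingHom.ker (algebraMap S V))
    (hsurj : Function.Surjective (algebraMap S V)) (j : ℕ) :
    sumf (fun i => ell (maximalIdeal (Localization.AtPrime Q) ^ i)) j ≤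
      ell (maximalIdeal S ^ j) := by
  obtain ⟨ϖ, hϖ⟩ := IsDiscreteValuationRing.exists_irreducible V
  have hm : maximalIdeal V = Ideal.span {ϖ} := hϖ.maximalIdeal_eq
  obtain ⟨t, rfl⟩ := hsurj ϖ
  refine loc_dvr Q t ?_ ?_ ?_ j
  · intro ht
    rw [hQ, RingHom.mem_ker] at ht
    exact hϖ.ne_zero ht
  · rw [← comap_maximalIdeal_of_finite (S := S) (V := V), Ideal.mem_comap, hm]
    exact Ideal.mem_span_singleton_self _
  · intro m hmm
    rw [← comap_maximalIdeal_of_finite (S := S) (V := V), Ideal.mem_comap, hm,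
      Ideal.mem_span_singleton'] at hmm
    obtain ⟨c, hc⟩ := hmm
    obtain ⟨s, rfl⟩ := hsurj c
    have h1 : m - s * t ∈ Q := by
      rw [hQ, RingHom.mem_ker, map_sub, map_mul, hc, sub_self]
    have h2 : m = (m - s * t) + s * t := by ring
    rw [h2]
    exact Submodule.add_mem_sup h1 (Ideal.mul_mem_left _ _ (Ideal.mem_span_singleton_self _))

/-- the lower bound, for the localization of a localization of `S[X]`. -/
lemma lower_step' {S V : Type*} [CommRing S] [IsLocalRing S] [IsNoetherianRing S]
    [CommRing V] [IsDomain V] [Algebra S V]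
    (Q : Ideal S) [hQp : Q.IsPrime] (hQ : Q = RingHom.ker (algebraMap S V)) (v : V) (a b : S)
    (ha : a ∉ Q) (hab : algebraMap S V a * v = algebraMap S V b)
    (NN : Ideal S[X]) [NN.IsPrime]
    (S₁ : Type*) [CommRing S₁] [IsNoetherianRing S₁] [Algebra S[X] S₁]
    [Algebra S S₁] [IsScalarTower S S[X] S₁] [IsLocalization.AtPrime S₁ NN] (f : S₁ →+* V)
    (hf : ∀ F : S[X], f (algebraMap S[X] S₁ F) = aeval v F) (Q₁ : Ideal S₁) [Q₁.IsPrime]
    (hQ₁ : Q₁ = RingHom.ker f) (j : ℕ) :
    sumf (fun i => ell (maximalIdeal (Localization.AtPrime Q) ^ i)) j ≤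
      ell (maximalIdeal (Localization.AtPrime Q₁) ^ j) := by
  have h1 : IsLocalization.AtPrime (Localization.AtPrime Q₁) (Q₁.comap (algebraMap S[X] S₁)) :=
    IsLocalization.isLocalization_isLocalization_atPrime_isLocalization NN.primeCompl
      (Localization.AtPrime Q₁) Q₁
  have h2 : IsScalarTower S S[X] (Localization.AtPrime Q₁) :=
    IsScalarTower.of_algebraMap_eq fun x => by
      rw [IsScalarTower.algebraMap_apply S[X] S₁ (Localization.AtPrime Q₁),
        IsScalarTower.algebraMap_apply S S₁ (Localization.AtPrime Q₁),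
        IsScalarTower.algebraMap_apply S S[X] S₁]
  exact lower_step Q hQ v a b ha hab (Localization.AtPrime Q₁)
    (Q₁.comap (algebraMap S[X] S₁)) (fun F => by
      rw [Ideal.mem_comap, hQ₁, RingHom.mem_ker, hf]) j

/-- the two bounds, for an abstract localization of `S[X]`. -/
lemma loc_step {S V : Type*} [CommRing S] [IsLocalRing S] [IsNoetherianRing S]
    [CommRing V] [IsDomain V] [IsLocalRing V] [Algebra S V] [Module.Finite S V]
    (Q : Ideal S) [hQp : Q.IsPrime] (hQ : Q = RingHom.ker (algebraMap S V)) (v : V) (a b : S)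
    (ha : a ∉ Q) (hab : algebraMap S V a * v = algebraMap S V b)
    (NN : Ideal S[X]) [NN.IsPrime] (hNN : ∀ F : S[X], F ∈ NN ↔ aeval v F ∈ maximalIdeal V)
    (S₁ : Type*) [CommRing S₁] [IsLocalRing S₁] [IsNoetherianRing S₁] [Algebra S[X] S₁]
    [Algebra S S₁] [IsScalarTower S S[X] S₁] [IsLocalization.AtPrime S₁ NN] (f : S₁ →+* V)
    (hf : ∀ F : S[X], f (algebraMap S[X] S₁ F) = aeval v F) (Q₁ : Ideal S₁) [Q₁.IsPrime]
    (hQ₁ : Q₁ = RingHom.ker f) :
    (∀ j, ell (maximalIdeal S₁ ^ j) ≤ sumf (fun i => ell (maximalIdeal S ^ i)) j) ∧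
    ∀ j, sumf (fun i => ell (maximalIdeal (Localization.AtPrime Q) ^ i)) j ≤
      ell (maximalIdeal (Localization.AtPrime Q₁) ^ j) := by
  refine ⟨?_, fun j => lower_step' Q hQ v a b ha hab NN S₁ f hf Q₁ hQ₁ j⟩
  have hcm := comap_maximalIdeal_of_finite (S := S) (V := V)
  have hle : (maximalIdeal S).map (C : S →+* S[X]) ≤ NN := by
    rw [Ideal.map_le_iff_le_comap]
    intro s hs
    rw [Ideal.mem_comap, hNN, aeval_C, ← Ideal.mem_comap, hcm]
    exact hs
  obtain ⟨G, hG⟩ := exists_gen_over NN hle
  have hmax1 : maximalIdeal S₁ =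
      (maximalIdeal S).map (algebraMap S S₁) ⊔ Ideal.span {algebraMap S[X] S₁ G} := by
    have h1 := congrArg (Ideal.map (algebraMap S[X] S₁)) hG
    rw [Ideal.map_sup, Ideal.map_map, Ideal.map_span, Set.image_singleton,
      IsLocalization.AtPrime.map_eq_maximalIdeal NN S₁] at h1
    rw [h1, IsScalarTower.algebraMap_eq S S[X] S₁]
    rfl
  have hloc1 : IsLocalHom (algebraMap S S₁) :=
    ((local_hom_TFAE (algebraMap S S₁)).out 0 2).mpr (by rw [hmax1]; exact le_sup_left)
  exact fun j => sum_upper (algebraMap S[X] S₁ G) hmax1 j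

/-- existence of the one-element extension. -/
lemma exists_step {S : Type u} {V : Type w} [CommRing S] [IsLocalRing S] [IsNoetherianRing S]
    [CommRing V] [IsDomain V] [IsLocalRing V] [Algebra S V] [Module.Finite S V]
    (Q : Ideal S) [hQp : Q.IsPrime] (hQ : Q = RingHom.ker (algebraMap S V))
    (hbir : ∀ v : V, ∃ a b : S, a ∉ Q ∧ algebraMap S V a * v = algebraMap S V b) (v : V) :
    ∃ (S₁ : Type u) (_ : CommRing S₁) (_ : IsLocalRing S₁) (_ : IsNoetherianRing S₁)
      (_ : Algebra S₁ V) (_ : Module.Finite S₁ V) (Q₁ : Ideal S₁) (_ : Q₁.IsPrime),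
      Q₁ = RingHom.ker (algebraMap S₁ V) ∧
      (∀ v : V, ∃ a b : S₁, a ∉ Q₁ ∧ algebraMap S₁ V a * v = algebraMap S₁ V b) ∧
      Set.range (algebraMap S V) ⊆ Set.range (algebraMap S₁ V) ∧
      v ∈ Set.range (algebraMap S₁ V) ∧
      (∀ j, ell (maximalIdeal S₁ ^ j) ≤ sumf (fun i => ell (maximalIdeal S ^ i)) j) ∧
      ∀ j, sumf (fun i => ell (maximalIdeal (Localization.AtPrime Q) ^ i)) j ≤
        ell (maximalIdeal (Localization.AtPrime Q₁) ^ j) := by
  obtain ⟨a, b, ha, hab⟩ := hbir v
  let NN : Ideal S[X] := (maximalIdeal V).comap (aeval v : S[X] →ₐ[S] V)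
  have hNN : NN.IsPrime := inferInstance
  have hNNu : ∀ F : NN.primeCompl, IsUnit ((aeval v : S[X] →ₐ[S] V).toRingHom F) := by
    intro F
    by_contra hcon
    exact F.2 ((mem_maximalIdeal _).mpr hcon)
  let alg1 : Algebra (Localization.AtPrime NN) V :=
    (IsLocalization.lift (S := Localization.AtPrime NN) (M := NN.primeCompl) hNNu).toAlgebra
  have halg1 : ∀ F : S[X], algebraMap (Localization.AtPrime NN) V
      (algebraMap S[X] (Localization.AtPrime NN) F) = aeval v F := fun F =>
    IsLocalization.lift_eq hNNu F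
  have tow1 : IsScalarTower S (Localization.AtPrime NN) V :=
    IsScalarTower.of_algebraMap_eq fun x => by
      rw [IsScalarTower.algebraMap_apply S S[X] (Localization.AtPrime NN), halg1, algebraMap_eq,
        aeval_C]
  have hfin1 : Module.Finite (Localization.AtPrime NN) V :=
    Module.Finite.of_restrictScalars_finite S (Localization.AtPrime NN) V
  have hQ₁ : (RingHom.ker (algebraMap (Localization.AtPrime NN) V)).IsPrime :=
    RingHom.ker_isPrime _
  have hst := loc_step Q hQ v a b ha hab NN (fun F => Iff.rfl) (Localization.AtPrime NN)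
    (algebraMap (Localization.AtPrime NN) V) halg1
    (RingHom.ker (algebraMap (Localization.AtPrime NN) V)) rfl
  refine ⟨Localization.AtPrime NN, inferInstance, inferInstance, inferInstance, alg1, hfin1,
    RingHom.ker (algebraMap (Localization.AtPrime NN) V), hQ₁, rfl, ?_, ?_, ?_, hst.1, hst.2⟩
  · intro z
    obtain ⟨c, d, hc, hcd⟩ := hbir z
    refine ⟨algebraMap S _ c, algebraMap S _ d, ?_, ?_⟩
    · rw [RingHom.mem_ker, ← IsScalarTower.algebraMap_apply]
      rw [hQ, RingHom.mem_ker] at hc
      exact hc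
    · rw [← IsScalarTower.algebraMap_apply, ← IsScalarTower.algebraMap_apply, hcd]
  · rintro _ ⟨s, rfl⟩
    exact ⟨algebraMap S _ s, (IsScalarTower.algebraMap_apply S _ V s).symm⟩
  · exact ⟨algebraMap S[X] _ X, by rw [halg1, aeval_X]⟩

theorem loc_aux {S₀ : Type u} {V : Type w} [CommRing S₀] [IsNoetherianRing S₀]
    [CommRing V] [IsDomain V] [IsDiscreteValuationRing V] [Algebra S₀ V] [Module.Finite S₀ V]
    (W : Submodule S₀ V) :
    ∀ (S : Type u) [CommRing S] [IsLocalRing S] [IsNoetherianRing S] [Algebra S V]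
      [Module.Finite S V] (Q : Ideal S) [Q.IsPrime], Q = RingHom.ker (algebraMap S V) →
      (∀ v : V, ∃ a b : S, a ∉ Q ∧ algebraMap S V a * v = algebraMap S V b) →
      (W : Set V) = Set.range (algebraMap S V) →
    ∃ p : ℕ, ∀ j : ℕ,
      (sumf^[p + 1] (fun i => ell (maximalIdeal (Localization.AtPrime Q) ^ i))) j ≤
        (sumf^[p] (fun i => ell (maximalIdeal S ^ i))) j := by
  have hno : IsNoetherian S₀ V := isNoetherian_of_isNoetherianRing_of_finite S₀ V
  induction W using IsNoetherian.induction with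
  | hgt W ih =>
  intro S _ _ _ _ _ Q _ hQ hbir hW
  by_cases hsurj : Function.Surjective (algebraMap S V)
  · exact ⟨0, fun j => loc_base Q hQ hsurj j⟩
  · obtain ⟨v, hv⟩ : ∃ v : V, v ∉ Set.range (algebraMap S V) := by
      by_contra hcon
      push Not at hcon
      exact hsurj hcon
    obtain ⟨S₁, _, _, _, _, _, Q₁, _, hQ₁, hbir₁, hsub, hv₁, hup, hlow⟩ :=
      exists_step Q hQ hbir v
    have hS₀ : ∀ s : S₀, algebraMap S₀ V s ∈ Set.range (algebraMap S V) := by
      intro s
      rw [← hW, Algebra.algebraMap_eq_smul_one]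
      refine W.smul_mem _ ?_
      rw [← SetLike.mem_coe, hW]
      exact ⟨1, map_one _⟩
    let W₁ : Submodule S₀ V :=
      { carrier := Set.range (algebraMap S₁ V)
        add_mem' := by
          rintro _ _ ⟨x, rfl⟩ ⟨y, rfl⟩
          exact ⟨x + y, map_add _ _ _⟩
        zero_mem' := ⟨0, map_zero _⟩
        smul_mem' := by
          rintro s _ ⟨x, rfl⟩
          obtain ⟨y, hy⟩ := hsub (hS₀ s)
          exact ⟨y * x, by rw [map_mul, hy, Algebra.smul_def]⟩ }
    have hW₁ : (W₁ : Set V) = Set.range (algebraMap S₁ V) := rfl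
    have hlt : W < W₁ := by
      refine lt_of_le_of_ne (fun x hx => ?_) fun h => hv ?_
      · rw [← SetLike.mem_coe, hW] at hx
        exact hsub hx
      · rw [← hW, h, hW₁]
        exact hv₁
    obtain ⟨p, hp⟩ := ih W₁ hlt S₁ Q₁ hQ₁ hbir₁ hW₁
    refine ⟨p + 1, fun j => ?_⟩
    rw [Function.iterate_succ_apply, Function.iterate_succ_apply (n := p)]
    exact ((sumf_iterate_mono hlow (p + 1) j).trans (hp j)).trans (sumf_iterate_mono hup p j)

/-- the localization inequality when the quotient has a finite extension `V` inside its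
fraction field which is a discrete valuation ring. -/
theorem loc_of_dvr_extension {S V : Type*} [CommRing S] [IsLocalRing S] [IsNoetherianRing S]
    [CommRing V] [IsDomain V] [IsDiscreteValuationRing V] [Algebra S V] [Module.Finite S V]
    (Q : Ideal S) [Q.IsPrime] (hQ : Q = RingHom.ker (algebraMap S V))
    (hbir : ∀ v : V, ∃ a b : S, a ∉ Q ∧ algebraMap S V a * v = algebraMap S V b) :
    ∃ p : ℕ, ∀ j : ℕ,
      (sumf^[p + 1] (fun i => ell (maximalIdeal (Localization.AtPrime Q) ^ i))) j ≤
        (sumf^[p] (fun i => ell (maximalIdeal S ^ i))) j := by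
  refine loc_aux (S₀ := S) (V := V)
    (LinearMap.range (Algebra.linearMap S V)) S Q hQ hbir ?_
  rw [LinearMap.coe_range]
  rfl

end Vale.Agent.P202
end

section

/-!
The localization inequality `e(S_Q) ≤ e(S)` for a complete local ring `S` and a prime `Q` with
`dim S / Q = 1`.
-/

namespace Vale.Agent.P202

open IsLocalRing Filter Topology

section quotient

variable {R : Type*} [CommRing R] (I : Ideal R)

lemma loc_isPrecomplete_of_surjective {M N : Type*} [AddCommGroup M] [Module R M]
    [AddCommGroup N] [Module R N] [IsPrecomplete I M] (f : M →ₗ[R] N)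
    (hf : Function.Surjective f) : IsPrecomplete I N := by
  rw [← AdicCompletion.of_surjective_iff]
  intro y
  obtain ⟨x, rfl⟩ := AdicCompletion.map_surjective I hf y
  obtain ⟨z, rfl⟩ := AdicCompletion.of_surjective I M x
  exact ⟨f z, (AdicCompletion.map_of ..).symm⟩

lemma loc_isPrecomplete_quotient [IsPrecomplete I R] (P : Ideal R) :
    IsPrecomplete (I.map (Ideal.Quotient.mk P)) (R ⧸ P) := by
  have h1 : IsPrecomplete I (R ⧸ P) :=
    loc_isPrecomplete_of_surjective I P.mkQ P.mkQ_surjective
  exact IsPrecomplete.map_algebraMap_iff.mpr h1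

end quotient

/-- A nonzero quotient of a complete local ring is complete. -/
lemma loc_isAdicComplete_quotient {S : Type*} [CommRing S] [IsLocalRing S] [IsNoetherianRing S]
    [IsAdicComplete (maximalIdeal S) S] (Q : Ideal S) (hQ : Q ≠ ⊤) [IsLocalRing (S ⧸ Q)] :
    IsAdicComplete (maximalIdeal (S ⧸ Q)) (S ⧸ Q) := by
  have h1 : IsPrecomplete (maximalIdeal (S ⧸ Q)) (S ⧸ Q) := by
    have h1 := loc_isPrecomplete_quotient (maximalIdeal S) Q
    have h2 : (maximalIdeal S).map (Ideal.Quotient.mk Q) = maximalIdeal (S ⧸ Q) := by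
      apply eq_maximalIdeal
      refine Ideal.IsMaximal.map_of_surjective_of_ker_le Ideal.Quotient.mk_surjective ?_
      rw [Ideal.mk_ker]
      exact IsLocalRing.le_maximalIdeal hQ
    rwa [h2] at h1
  have h3 : IsHausdorff (maximalIdeal (S ⧸ Q)) (S ⧸ Q) :=
    IsHausdorff.of_le_jacobson _ _ (by rw [IsLocalRing.jacobson_eq_maximalIdeal ⊥ bot_ne_top])
  exact { h1, h3 with }

theorem mult_localization {S : Type*} [CommRing S] [IsLocalRing S] [IsNoetherianRing S]
    [IsAdicComplete (maximalIdeal S) S] (Q : Ideal S) [Q.IsPrime] {s : ℕ}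
    (hQ1 : ringKrullDim (S ⧸ Q) = 1) {eQ eS : ℕ}
    (hteQ : Tendsto (fun N : ℕ => (s.factorial : ℝ) *
      ((ell (maximalIdeal (Localization.AtPrime Q) ^ N)).toNat : ℝ) / (N : ℝ) ^ s) atTop
      (𝓝 (eQ : ℝ)))
    (hteS : Tendsto (fun N : ℕ => ((s + 1).factorial : ℝ) *
      ((ell (maximalIdeal S ^ N)).toNat : ℝ) / (N : ℝ) ^ (s + 1)) atTop (𝓝 (eS : ℝ))) :
    eQ ≤ eS := by
  have hQ : Q ≠ ⊤ := Ideal.IsPrime.ne_top ‹_›
  have : Nontrivial (S ⧸ Q) := Ideal.Quotient.nontrivial_iff.mpr hQ
  have : IsLocalRing (S ⧸ Q) :=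
    IsLocalRing.of_surjective' (Ideal.Quotient.mk Q) Ideal.Quotient.mk_surjective
  have hc := loc_isAdicComplete_quotient Q hQ
  obtain ⟨hfin, hdvr⟩ := exists_dvr_extension (B := S ⧸ Q) hQ1
  have hfin' : Module.Finite S (integralClosure (S ⧸ Q) (FractionRing (S ⧸ Q))) := by
    have : Module.Finite S (S ⧸ Q) := inferInstance
    exact Module.Finite.trans (S ⧸ Q) _
  have hinj : Function.Injective (algebraMap (S ⧸ Q)
      (integralClosure (S ⧸ Q) (FractionRing (S ⧸ Q)))) := by
    intro x y hxy
    exact IsFractionRing.injective (S ⧸ Q) (FractionRing (S ⧸ Q)) (congrArg Subtype.val hxy)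
  have hmap : ∀ x : S, algebraMap S (integralClosure (S ⧸ Q) (FractionRing (S ⧸ Q))) x =
      algebraMap (S ⧸ Q) _ (Ideal.Quotient.mk Q x) := fun x => rfl
  obtain ⟨p, hp⟩ := loc_of_dvr_extension (S := S)
    (V := integralClosure (S ⧸ Q) (FractionRing (S ⧸ Q))) Q (by
      ext x
      rw [RingHom.mem_ker, hmap, map_eq_zero_iff _ hinj, Ideal.Quotient.eq_zero_iff_mem]) (by
      intro v
      obtain ⟨b, c, hc0, hbc⟩ := IsFractionRing.div_surjective (A := S ⧸ Q)
        (v : FractionRing (S ⧸ Q))
      obtain ⟨b, rfl⟩ := Ideal.Quotient.mk_surjective b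
      obtain ⟨c, rfl⟩ := Ideal.Quotient.mk_surjective c
      have hc1 : Ideal.Quotient.mk Q c ≠ 0 := nonZeroDivisors.ne_zero hc0
      refine ⟨c, b, fun h => hc1 (Ideal.Quotient.eq_zero_iff_mem.mpr h), ?_⟩
      rw [hmap, hmap]
      apply Subtype.ext
      have hc2 : algebraMap (S ⧸ Q) (FractionRing (S ⧸ Q)) (Ideal.Quotient.mk Q c) ≠ 0 := by
        rw [Ne, FaithfulSMul.algebraMap_eq_zero_iff]
        exact hc1
      rw [div_eq_iff hc2] at hbc
      change algebraMap (S ⧸ Q) (FractionRing (S ⧸ Q)) (Ideal.Quotient.mk Q c) * v =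
        algebraMap (S ⧸ Q) (FractionRing (S ⧸ Q)) (Ideal.Quotient.mk Q b)
      rw [hbc, mul_comm])
  exact coeff_le_of_sumf_le (p := p) (fun i => ell_ne_top_of_pow_le le_rfl)
    (fun i => ell_ne_top_of_pow_le le_rfl) hteQ hteS hp

end Vale.Agent.P202
end

section

/-!
Assembly relative to a class of base rings: from the inequality for complete rings of the class
with infinite residue field and equal dimensions to all flat local maps with base in the class.
-/

set_option linter.unusedSectionVars false

namespace Vale.Agent.P202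

open Ideal IsLocalRing Finset Filter Topology Polynomial

universe u

/-- A class of Noetherian local rings. -/
abbrev RCls : Type (u + 1) :=
  ∀ (R : Type u) [CommRing R] [IsLocalRing R] [IsNoetherianRing R], Prop

/-- The class is stable under completion and under enlarging the residue field. -/
structure RStable (C : RCls.{u}) : Prop where
  compl : ∀ (R : Type u) [CommRing R] [IsLocalRing R] [IsNoetherianRing R]
    [IsNoetherianRing (AdicCompletion (maximalIdeal R) R)],
    C R → C (AdicCompletion (maximalIdeal R) R)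
  nag : ∀ (R : Type u) [CommRing R] [IsLocalRing R] [IsNoetherianRing R], C R → C (Nag R)

/-- Enlarging the residue field, for a stable class. -/
theorem exists_infinite_residue_cls {C : RCls.{u}} (hC : RStable C) {R S : Type u} [CommRing R]
    [IsLocalRing R] [IsNoetherianRing R]
    [CommRing S] [IsLocalRing S] [IsNoetherianRing S] [Algebra R S]
    [IsLocalHom (algebraMap R S)] [Module.Flat R S] (hR : C R) :
    ∃ (R' S' : Type u) (_ : CommRing R') (_ : IsLocalRing R') (_ : IsNoetherianRing R')
      (_ : CommRing S') (_ : IsLocalRing S') (_ : IsNoetherianRing S') (_ : Algebra R' S')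
      (_ : IsLocalHom (algebraMap R' S')) (_ : Module.Flat R' S')
      (_ : Infinite (ResidueField R')),
      (∀ j, Module.length R' (R' ⧸ maximalIdeal R' ^ j) =
        Module.length R (R ⧸ maximalIdeal R ^ j)) ∧
      (∀ j, Module.length S' (S' ⧸ maximalIdeal S' ^ j) =
        Module.length S (S ⧸ maximalIdeal S ^ j)) ∧
      ringKrullDim R' = ringKrullDim R ∧ ringKrullDim S' = ringKrullDim S ∧ C R' := by
  let a0 : Algebra R[X] S[X] := Polynomial.algebra R S
  have : (mX S).LiesOver (mX R) := liesOver_mX R S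
  have : Module.Flat R[X] S[X] := flat_polynomial R S
  let a1 : Algebra (Nag R) (Nag S) := Localization.AtPrime.algebraOfLiesOver (mX R) (mX S)
  have h1 : Localization.AtPrime.IsLiesOverAlgebra (mX R) (mX S) := ⟨rfl⟩
  exact ⟨Nag R, Nag S, inferInstance, inferInstance, inferInstance, inferInstance, inferInstance,
    inferInstance, a1, inferInstance, inferInstance, infinite_nag R, length_nag_pow R,
    length_nag_pow S, ringKrullDim_nag R, ringKrullDim_nag S, hC.nag R hR⟩

/-- Completion of a flat local homomorphism, for a stable class. -/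
theorem exists_completion_cls {C : RCls.{u}} (hC : RStable C) {R S : Type u} [CommRing R]
    [IsLocalRing R] [IsNoetherianRing R]
    [CommRing S] [IsLocalRing S] [IsNoetherianRing S] [Algebra R S]
    [IsLocalHom (algebraMap R S)] [Module.Flat R S] (hR : C R) :
    ∃ (R' S' : Type u) (_ : CommRing R') (_ : IsLocalRing R') (_ : IsNoetherianRing R')
      (_ : CommRing S') (_ : IsLocalRing S') (_ : IsNoetherianRing S') (_ : Algebra R' S')
      (_ : IsLocalHom (algebraMap R' S')) (_ : Module.Flat R' S')
      (_ : IsAdicComplete (maximalIdeal R') R') (_ : IsAdicComplete (maximalIdeal S') S'),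
      (∀ j, Module.length R' (R' ⧸ maximalIdeal R' ^ j) =
        Module.length R (R ⧸ maximalIdeal R ^ j)) ∧
      (∀ j, Module.length S' (S' ⧸ maximalIdeal S' ^ j) =
        Module.length S (S ⧸ maximalIdeal S ^ j)) ∧
      ringKrullDim R' = ringKrullDim R ∧ ringKrullDim S' = ringKrullDim S ∧
      (Infinite (ResidueField R) → Infinite (ResidueField R')) ∧ C R' := by
  have nR : IsNoetherianRing (AdicCompletion (maximalIdeal R) R) :=
    isNoetherianRing_adicCompletion _
  have nS : IsNoetherianRing (AdicCompletion (maximalIdeal S) S) :=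
    isNoetherianRing_adicCompletion _
  have hRS : (maximalIdeal R).map (algebraMap R S) ≤ maximalIdeal S :=
    (((IsLocalRing.local_hom_TFAE (algebraMap R S)).out 0 2) :
      IsLocalHom (algebraMap R S) ↔ _).mp inferInstance
  obtain ⟨Φ, hΦ⟩ := exists_complHom (algebraMap R S) hRS
  let algR'S' : Algebra (AdicCompletion (maximalIdeal R) R) (AdicCompletion (maximalIdeal S) S) :=
    Φ.toAlgebra
  have st1 : IsScalarTower R (AdicCompletion (maximalIdeal R) R)
      (AdicCompletion (maximalIdeal S) S) := IsScalarTower.of_algebraMap_eq fun x => by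
    rw [IsScalarTower.algebraMap_apply R S (AdicCompletion (maximalIdeal S) S)]
    exact (hΦ x).symm
  obtain ⟨loc, fl, hp1, hp2, hp3, hp4, -, hp6, -⟩ := completion_package (R := R) (S := S)
    (R' := AdicCompletion (maximalIdeal R) R) (S' := AdicCompletion (maximalIdeal S) S)
    AdicCompletion.maximalIdeal_eq_map AdicCompletion.maximalIdeal_eq_map adicCompletion_dense
    (AdicCompletion.residueField_map_bijective R) (AdicCompletion.residueField_map_bijective S)
  exact ⟨_, _, inferInstance, inferInstance, nR, inferInstance, inferInstance, nS, algR'S',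
    loc, fl, inferInstance, inferInstance, hp1, hp2, hp3, hp4, hp6, hC.compl R hR⟩

end Vale.Agent.P202
end

section

/-!
P202-CHARP, Z3: stability of the classes of rings of characteristic `p` with `F`-finite residue
field and of Cohen-Macaulay rings under completion and under enlarging the residue field.
-/

namespace Vale.Agent.P202.CharP

open IsLocalRing Polynomial

universe u

section FFin

variable (p : ℕ) [Fact p.Prime]

omit [Fact p.Prime] in
lemma charP_of_algebra (hp : p.Prime) {R R' : Type*} [CommRing R] [CommRing R'] [Nontrivial R']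
    [Algebra R R'] [CharP R p] : CharP R' p := by
  rw [CharP.charP_iff_prime_eq_zero hp]
  have h1 : ((p : ℕ) : R) = 0 := CharP.cast_eq_zero R p
  have h2 : algebraMap R R' ((p : ℕ) : R) = 0 := by rw [h1, map_zero]
  rwa [map_natCast] at h2

end FFin

section CM

end CM

end Vale.Agent.P202.CharP
end

section

/-!
P202: the case `dim R = 0`, and the existence of the multiplicities in all dimensions.
-/

set_option linter.unusedSectionVars false

namespace Vale.Agent.P202

open Ideal IsLocalRing Finset Filter Topology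

universe u

theorem ell_le_ell_map_zd {R S : Type*} [CommRing R] [IsLocalRing R] [IsNoetherianRing R]
    [CommRing S] [IsLocalRing S] [IsNoetherianRing S] [Algebra R S]
    [IsLocalHom (algebraMap R S)] [Module.Flat R S] (J : Ideal R) :
    ell J ≤ ell (J.map (algebraMap R S)) := by
  have h0 : ell (J.map (algebraMap R S)) =
      ell J * ell ((maximalIdeal R).map (algebraMap R S)) := by
    unfold ell
    rw [← IsLocalRing.length_baseChange,
      (Algebra.TensorProduct.quotIdealMapEquivTensorQuot S J).toLinearEquiv.length_eq]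
  rw [h0]
  have h1 : 1 ≤ ell ((maximalIdeal R).map (algebraMap R S)) :=
    one_le_ell (map_maximalIdeal_lt_top (algebraMap R S)).ne
  calc ell J = ell J * 1 := (mul_one _).symm
    _ ≤ _ := by gcongr

theorem exists_pow_eq_bot {A : Type*} [CommRing A] [IsLocalRing A] [IsNoetherianRing A]
    (hA : ringKrullDim A = (0 : ℕ)) : ∃ n, maximalIdeal A ^ n = ⊥ := by
  have h1 : Ring.KrullDimLE 0 A := by
    rw [Ring.KrullDimLE, Order.krullDimLE_iff]
    exact hA.le
  have : IsArtinianRing A := IsNoetherianRing.isArtinianRing_of_krullDimLE_zero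
  have h2 := IsArtinianRing.isNilpotent_jacobson_bot (R := A)
  rw [IsLocalRing.jacobson_eq_maximalIdeal ⊥ bot_ne_top] at h2
  exact h2

theorem tendsto_zero_dim {A : Type u} [CommRing A] [IsLocalRing A] {n : ℕ}
    (h : maximalIdeal A ^ n = ⊥) :
    Tendsto (hsSeq A 0) atTop (𝓝 (((Module.length A (A ⧸ (⊥ : Ideal A))).toNat : ℕ) : ℝ)) := by
  refine tendsto_const_nhds.congr' ?_
  filter_upwards [eventually_ge_atTop n] with N hN
  have h1 : maximalIdeal A ^ N = ⊥ := by
    rw [eq_bot_iff, ← h]
    exact Ideal.pow_le_pow_right hN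
  simp only [hsSeq, Nat.factorial_zero, Nat.cast_one, one_mul, pow_zero, div_one]
  rw [h1]

theorem exists_mult_all {A : Type u} [CommRing A] [IsLocalRing A] [IsNoetherianRing A] {d : ℕ}
    (hdim : ringKrullDim A = d) : ∃ e : ℕ, Tendsto (hsSeq A d) atTop (𝓝 (e : ℝ)) := by
  rcases Nat.eq_zero_or_pos d with rfl | hd
  · obtain ⟨n, hn⟩ := exists_pow_eq_bot hdim
    exact ⟨_, tendsto_zero_dim hn⟩
  · exact exists_mult hd hdim

/-- Lech's inequality for Artinian base rings. -/
theorem lech_zero_aux (n : ℕ) : ∀ {R S : Type u}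
    [CommRing R] [IsLocalRing R] [IsNoetherianRing R]
    [CommRing S] [IsLocalRing S] [IsNoetherianRing S] [Algebra R S]
    [IsLocalHom (algebraMap R S)] [Module.Flat R S]
    (_ : ringKrullDim R = (0 : ℕ)) (_ : ringKrullDim S = (n : ℕ)) (eR eS : ℕ)
    (_ : Tendsto (hsSeq R 0) atTop (𝓝 (eR : ℝ)))
    (_ : Tendsto (hsSeq S n) atTop (𝓝 (eS : ℝ))), eR ≤ eS := by
  induction n with
  | zero =>
    intro R S _ _ _ _ _ _ _ _ _ hR hS eR eS heR heS
    obtain ⟨a, ha⟩ := exists_pow_eq_bot hR
    obtain ⟨b, hb⟩ := exists_pow_eq_bot hS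
    have h1 := tendsto_nhds_unique heR (tendsto_zero_dim ha)
    have h2 := tendsto_nhds_unique heS (tendsto_zero_dim hb)
    have h1' : eR = (Module.length R (R ⧸ (⊥ : Ideal R))).toNat := by exact_mod_cast h1
    have h2' : eS = (Module.length S (S ⧸ (⊥ : Ideal S))).toNat := by exact_mod_cast h2
    rw [h1', h2']
    have hfin : ell (⊥ : Ideal S) ≠ ⊤ := ell_ne_top_of_pow_le (s := b) hb.le
    refine ENat.toNat_le_toNat ?_ hfin
    have h3 := ell_le_ell_map_zd (R := R) (S := S) (⊥ : Ideal R)
    rw [Ideal.map_bot] at h3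
    exact h3
  | succ n ih =>
    intro R S _ _ _ _ _ _ _ _ _ hR hS eR eS heR heS
    obtain ⟨R2, S2, _, _, _, _, _, _, _, _, _, _, _, hlR2, hlS2, hdR2, hdS2, -⟩ :=
      exists_completion_cls (C := fun _ _ _ _ => True) ⟨fun _ _ _ _ _ _ => trivial,
        fun _ _ _ _ _ => trivial⟩ (R := R) (S := S) trivial
    have hR2 : ringKrullDim R2 = (0 : ℕ) := hdR2.trans hR
    have hS2 : ringKrullDim S2 = (n : ℕ) + 1 := by
      rw [hdS2, hS]
      push_cast
      rfl
    obtain ⟨Q, _, hmQ, hQ1, hQs⟩ := exists_prime_dim_one (R := R2) (S := S2) n hS2 (by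
      rw [hR2, hS2]
      have : ((0 : ℕ) : WithBot ℕ∞) < ((n + 1 : ℕ) : WithBot ℕ∞) := by
        exact_mod_cast (by omega : 0 < n + 1)
      refine this.trans_le (le_of_eq ?_)
      push_cast
      rfl)
    have heR2 : Tendsto (hsSeq R2 0) atTop (𝓝 (eR : ℝ)) := by
      have : hsSeq R2 0 = hsSeq R 0 := by
        funext N
        simp only [hsSeq, hlR2]
      rw [this]; exact heR
    have heS2 : Tendsto (hsSeq S2 (n + 1)) atTop (𝓝 (eS : ℝ)) := by
      have : hsSeq S2 (n + 1) = hsSeq S (n + 1) := by
        funext N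
        simp only [hsSeq, hlS2]
      rw [this]; exact heS
    have hflat : Module.Flat R2 (Localization.AtPrime Q) := Module.Flat.trans R2 S2 _
    have hloc : IsLocalHom (algebraMap R2 (Localization.AtPrime Q)) := by
      refine ⟨fun a ha => ?_⟩
      by_contra hna
      have h1 : algebraMap R2 S2 a ∈ Q :=
        hmQ (Ideal.mem_map_of_mem _ ((IsLocalRing.mem_maximalIdeal _).mpr hna))
      rw [IsScalarTower.algebraMap_apply R2 S2 (Localization.AtPrime Q),
        IsLocalization.AtPrime.isUnit_to_map_iff (Localization.AtPrime Q) Q] at ha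
      exact ha h1
    obtain ⟨eQ, heQ⟩ := exists_mult_all (A := Localization.AtPrime Q) (d := n) hQs
    have h1 : eR ≤ eQ :=
      ih (R := R2) (S := Localization.AtPrime Q) hR2 hQs eR eQ heR2 heQ
    have h2 : eQ ≤ eS := mult_localization Q hQ1 heQ heS2
    exact h1.trans h2

/-- The dimension of a Noetherian local ring is a natural number. -/
theorem exists_dim (S : Type u) [CommRing S] [IsLocalRing S] [IsNoetherianRing S] :
    ∃ s : ℕ, ringKrullDim S = s := by
  have h1 := IsLocalRing.maximalIdeal_height_eq_ringKrullDim (R := S)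
  have h2 : (maximalIdeal S).height ≠ ⊤ := Ideal.height_ne_top_of_isPrime
  obtain ⟨s, hs⟩ := ENat.ne_top_iff_exists.mp h2
  exact ⟨s, by rw [← h1, ← hs]; rfl⟩

end Vale.Agent.P202
end

section

/-!
P202-AK, definitions: relative Frobenius, restriction of scalars along a ring homomorphism,
coefficientwise Frobenius on power series.
-/

namespace Vale.Agent.P202.CharP.ArbK

open IsLocalRing TensorProduct

universe u

/-- the ring `R`, seen as an `A`-algebra along `ρ`. -/
def RA {A R : Type*} [CommRing A] [CommRing R] (ρ : A →+* R) : Type _ :=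
  (fun (_ : A →+* R) => R) ρ

/-- the module `N` with scalars restricted along `ρ`. -/
def RM {A R : Type*} [CommRing A] [CommRing R] (ρ : A →+* R) (N : Type*) : Type _ :=
  (fun (_ : A →+* R) => N) ρ

section

variable {A R : Type*} [CommRing A] [CommRing R] (ρ : A →+* R)

instance (N : Type*) [AddCommGroup N] : AddCommGroup (RM ρ N) := inferInstanceAs (AddCommGroup N)

instance (N : Type*) [AddCommGroup N] [Module R N] : Module A (RM ρ N) := Module.compHom N ρ

instance : CommRing (RA ρ) := inferInstanceAs (CommRing R)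

instance : Algebra A (RA ρ) := ρ.toAlgebra

instance [IsLocalRing R] : IsLocalRing (RA ρ) := inferInstanceAs (IsLocalRing R)

instance [IsNoetherianRing R] : IsNoetherianRing (RA ρ) := inferInstanceAs (IsNoetherianRing R)

instance (p : ℕ) [CharP R p] : CharP (RA ρ) p := inferInstanceAs (CharP R p)

/-- the identity `R ≃ RA ρ`. -/
def toRA : R ≃+* RA ρ := RingEquiv.refl R

end

/-- `A` is an unramified flat extension of `R` through which the `p^e`-th power Frobenius of `R`
factors: `R → A → R` and `A → R → A` are the Frobenius maps, `A → R` is finite and surjective on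
residue fields. -/
structure RelFrob (p e : ℕ) (R A : Type*) [CommRing R] [IsLocalRing R] [CommRing A]
    [IsLocalRing A] [Algebra R A] (ρ : A →+* R) : Prop where
  flat : Module.Flat R A
  max : maximalIdeal A = (maximalIdeal R).map (algebraMap R A)
  rf : ∀ r : R, ρ (algebraMap R A r) = r ^ p ^ e
  fr : ∀ a : A, algebraMap R A (ρ a) = a ^ p ^ e
  fin : ρ.Finite
  res : ∀ r : R, ∃ a : A, r - ρ a ∈ maximalIdeal R

/-- power series over `k`, as an algebra over themselves through the `p^e`-th power Frobenius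
of the coefficients. -/
def PSc (p n : ℕ) (k : Type*) (e : ℕ) : Type _ := (fun _ _ => MvPowerSeries (Fin n) k) p e

section

variable (p : ℕ) [Fact p.Prime] (n : ℕ) (k : Type*) [Field k] [CharP k p] (e : ℕ)

noncomputable instance : CommRing (PSc p n k e) := inferInstanceAs (CommRing (MvPowerSeries (Fin n) k))

/-- the `p^e`-th power Frobenius of the coefficients. -/
noncomputable def cfrob : MvPowerSeries (Fin n) k →+* MvPowerSeries (Fin n) k :=
  MvPowerSeries.map (iterateFrobenius k p e)

noncomputable instance : Algebra (MvPowerSeries (Fin n) k) (PSc p n k e) :=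
  (cfrob p n k e).toAlgebra

/-- the identity. -/
noncomputable def toPSc : MvPowerSeries (Fin n) k ≃+* PSc p n k e := RingEquiv.refl _

end

end Vale.Agent.P202.CharP.ArbK
end

section

/-!
P202-CHARP, task F1: flatness over a polynomial ring from a regular sequence
(local criterion of flatness).
-/

namespace Vale.Agent.P202.CharP

open Submodule TensorProduct IsLocalRing LinearMap

section general

variable {P : Type*} [CommRing P] {M : Type*} [AddCommGroup M] [Module P M]

/-- adding one regular element to an ideal. -/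
lemma lTensor_inj_sup_span (I : Ideal P) (c : P)
    (hI : Function.Injective (I.subtype.lTensor M))
    (hreg : ∀ m : M, c • m ∈ I • (⊤ : Submodule P M) → m ∈ I • (⊤ : Submodule P M)) :
    Function.Injective ((I ⊔ Ideal.span {c}).subtype.lTensor M) := by
  have hc : c ∈ I ⊔ Ideal.span {c} := Ideal.mem_sup_right (Ideal.subset_span rfl)
  have hle : I ≤ I ⊔ Ideal.span {c} := le_sup_left
  let ι : I →ₗ[P] ↥(I ⊔ Ideal.span {c}) := Submodule.inclusion hle
  let μ : (M ⊗[P] ↥(I ⊔ Ideal.span {c})) →ₗ[P] M :=
    (TensorProduct.rid P M).toLinearMap ∘ₗ ((I ⊔ Ideal.span {c}).subtype.lTensor M)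
  let μ' : (M ⊗[P] I) →ₗ[P] M :=
    (TensorProduct.rid P M).toLinearMap ∘ₗ (I.subtype.lTensor M)
  have hμ' : Function.Injective μ' := (TensorProduct.rid P M).injective.comp hI
  have hμι : ∀ u, μ (ι.lTensor M u) = μ' u := by
    intro u
    simp only [μ, μ', LinearMap.comp_apply, ← LinearMap.lTensor_comp_apply]
    rfl
  have hμt : ∀ (m : M) (j : ↥(I ⊔ Ideal.span {c})), μ (m ⊗ₜ j) = (j : P) • m := by
    intro m j; simp [μ]
  have hμt' : ∀ (m : M) (j : I), μ' (m ⊗ₜ j) = (j : P) • m := by
    intro m j; simp [μ']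
  have hμ'r : ∀ u, μ' u ∈ I • (⊤ : Submodule P M) := by
    intro u
    induction u using TensorProduct.induction_on with
    | zero => rw [map_zero]; exact zero_mem _
    | tmul m j => rw [hμt']; exact Submodule.smul_mem_smul j.2 trivial
    | add x y hx hy => rw [map_add]; exact add_mem hx hy
  have hdec : ∀ z : M ⊗[P] ↥(I ⊔ Ideal.span {c}), ∃ (u : M ⊗[P] I) (m : M),
      z = ι.lTensor M u + m ⊗ₜ[P] (⟨c, hc⟩ : ↥(I ⊔ Ideal.span {c})) := by
    intro z
    induction z using TensorProduct.induction_on with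
    | zero => exact ⟨0, 0, by simp⟩
    | tmul m j =>
      obtain ⟨i, hi, s, hs, his⟩ := Submodule.mem_sup.mp j.2
      obtain ⟨b, rfl⟩ := Ideal.mem_span_singleton'.mp hs
      refine ⟨m ⊗ₜ ⟨i, hi⟩, b • m, ?_⟩
      rw [LinearMap.lTensor_tmul, TensorProduct.smul_tmul, ← TensorProduct.tmul_add]
      congr 1
      apply Subtype.ext
      exact his.symm
    | add x y hx hy =>
      obtain ⟨u, m, rfl⟩ := hx
      obtain ⟨u', m', rfl⟩ := hy
      refine ⟨u + u', m + m', ?_⟩
      rw [map_add, TensorProduct.add_tmul]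
      abel
  rw [← LinearMap.ker_eq_bot, LinearMap.ker_eq_bot']
  intro z hz
  have hz' : μ z = 0 := by simp only [μ, LinearMap.comp_apply, hz, map_zero]
  obtain ⟨u, m, rfl⟩ := hdec z
  rw [map_add, hμι, hμt] at hz'
  have hm : m ∈ I • (⊤ : Submodule P M) := by
    apply hreg
    have : c • m = - μ' u := by
      rw [eq_neg_iff_add_eq_zero, add_comm]; exact hz'
    rw [this]
    exact neg_mem (hμ'r u)
  have hin : ∀ m ∈ I • (⊤ : Submodule P M), ∃ u' : M ⊗[P] I,
      m ⊗ₜ[P] (⟨c, hc⟩ : ↥(I ⊔ Ideal.span {c})) = ι.lTensor M u' := by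
    intro m hm
    induction hm using Submodule.smul_induction_on' with
    | smul i hi m' hm' =>
      refine ⟨(c • m') ⊗ₜ ⟨i, hi⟩, ?_⟩
      rw [LinearMap.lTensor_tmul, TensorProduct.smul_tmul, TensorProduct.smul_tmul]
      congr 1
      apply Subtype.ext
      exact mul_comm i c
    | add x hx y hy hx' hy' =>
      obtain ⟨u', h1⟩ := hx'
      obtain ⟨u'', h2⟩ := hy'
      exact ⟨u' + u'', by rw [TensorProduct.add_tmul, h1, h2, map_add]⟩
  obtain ⟨u', hu'⟩ := hin m hm
  have h0 : μ' (u + u') = 0 := by
    rw [map_add, ← hμι u', ← hu', hμt]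
    exact hz'
  have h1 : u + u' = 0 := hμ' (by rw [h0, map_zero])
  rw [hu', ← map_add, h1, map_zero]

/-- one simple step. -/
lemma lTensor_inj_step (n : Ideal P) (hn : Function.Injective (n.subtype.lTensor M))
    {N : Type*} [AddCommGroup N] [Module P N] (N' : Submodule P N) (u : N)
    (hu : ∀ a : P, a • u ∈ N' ↔ a ∈ n) :
    Function.Injective
      ((Submodule.inclusion (le_sup_left : N' ≤ N' ⊔ Submodule.span P {u})).lTensor M) := by
  have huK : u ∈ N' ⊔ Submodule.span P {u} :=
    Submodule.mem_sup_right (Submodule.mem_span_singleton_self u)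
  let K := N' ⊔ Submodule.span P {u}
  let ι : N' →ₗ[P] K := Submodule.inclusion le_sup_left
  let f : n →ₗ[P] (N' × P) :=
    { toFun := fun a => (⟨-((a : P) • u), neg_mem ((hu a).2 a.2)⟩, (a : P))
      map_add' := by
        intro a b
        ext
        · simp [add_smul]; abel
        · simp
      map_smul' := by
        intro c a
        ext
        · simp [mul_smul]
        · simp }
  let g : (N' × P) →ₗ[P] K := LinearMap.coprod ι (LinearMap.toSpanSingleton P K ⟨u, huK⟩)
  have hg : Function.Surjective g := by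
    rintro ⟨x, hx⟩
    obtain ⟨y, hy, s, hs, hys⟩ := Submodule.mem_sup.mp hx
    obtain ⟨b, rfl⟩ := Submodule.mem_span_singleton.mp hs
    refine ⟨(⟨y, hy⟩, b), ?_⟩
    apply Subtype.ext
    simp only [g, LinearMap.coprod_apply, LinearMap.toSpanSingleton_apply]
    exact hys
  have hfg : Function.Exact f g := by
    rintro ⟨⟨x, hx⟩, b⟩
    constructor
    · intro h
      have h1 : x + b • u = 0 := congrArg Subtype.val h
      have h2 : b ∈ n := by
        rw [← hu]
        have : b • u = -x := by rw [eq_neg_iff_add_eq_zero, add_comm]; exact h1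
        rw [this]; exact neg_mem hx
      refine ⟨⟨b, h2⟩, ?_⟩
      ext
      · change -(b • u) = x
        rw [neg_eq_iff_add_eq_zero, add_comm]; exact h1
      · rfl
    · rintro ⟨a, ha⟩
      rw [← ha]
      apply Subtype.ext
      change -((a : P) • u) + (a : P) • u = 0
      exact neg_add_cancel _
  have hex := _root_.lTensor_exact M hfg hg
  rw [← LinearMap.ker_eq_bot, LinearMap.ker_eq_bot']
  intro z hz
  have h1 : (g.lTensor M) ((LinearMap.inl P N' P).lTensor M z) = 0 := by
    rw [← LinearMap.lTensor_comp_apply]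
    have : g ∘ₗ LinearMap.inl P N' P = ι := LinearMap.coprod_inl _ _
    rw [this]; exact hz
  obtain ⟨w, hw⟩ := (hex _).mp h1
  have h2 : n.subtype.lTensor M w = 0 := by
    have h3 := congrArg ((LinearMap.snd P N' P).lTensor M) hw
    rw [← LinearMap.lTensor_comp_apply, ← LinearMap.lTensor_comp_apply, LinearMap.snd_comp_inl,
      LinearMap.lTensor_zero, LinearMap.zero_apply] at h3
    exact h3
  have h4 : w = 0 := hn (by rw [h2, map_zero])
  have h5 := congrArg ((LinearMap.fst P N' P).lTensor M) hw
  rw [h4, map_zero, map_zero, ← LinearMap.lTensor_comp_apply, LinearMap.fst_comp_inl,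
    LinearMap.lTensor_id, LinearMap.id_apply] at h5
  exact h5.symm

/-- a finite filtration. -/
lemma lTensor_inj_chain (n : Ideal P) [n.IsMaximal]
    (hn : Function.Injective (n.subtype.lTensor M))
    {N : Type*} [AddCommGroup N] [Module P N] [IsNoetherian P N] (N' : Submodule P N)
    (hu : ∀ u : N, ∃ j : ℕ, ∀ a ∈ n ^ j, a • u ∈ N') :
    Function.Injective (N'.subtype.lTensor M) := by
  let S : Set (Submodule P N) :=
    {K | ∃ h : N' ≤ K, Function.Injective ((Submodule.inclusion h).lTensor M)}
  have hS : S.Nonempty := by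
    refine ⟨N', le_rfl, ?_⟩
    have : Submodule.inclusion (le_refl N') = LinearMap.id := by ext; rfl
    rw [this, LinearMap.lTensor_id]
    exact Function.injective_id
  obtain ⟨K, ⟨hK1, hK2⟩, hmax⟩ := set_has_maximal_iff_noetherian.mpr ‹IsNoetherian P N› S hS
  have hKtop : K = ⊤ := by
    by_contra hne
    obtain ⟨u, hu1⟩ : ∃ u, u ∉ K := by
      by_contra h
      push Not at h
      exact hne (Submodule.eq_top_iff'.mpr h)
    obtain ⟨j, hj⟩ := hu u
    -- minimal exponent
    have hex : ∃ j : ℕ, ∀ a ∈ n ^ j, a • u ∈ K := ⟨j, fun a ha => hK1 (hj a ha)⟩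
    classical
    have hspec := Nat.find_spec hex
    have hmin : ∀ i < Nat.find hex, ¬ ∀ a ∈ n ^ i, a • u ∈ K := fun i hi => Nat.find_min hex hi
    set t := Nat.find hex with ht
    have ht0 : t ≠ 0 := by
      intro h0
      rw [h0] at hspec
      apply hu1
      have := hspec 1 (by simp)
      rwa [one_smul] at this
    obtain ⟨s, hs⟩ := Nat.exists_eq_succ_of_ne_zero ht0
    have h1 := hmin s (by omega)
    push Not at h1
    obtain ⟨a, ha, hau⟩ := h1
    have hn1 : n ≠ ⊤ := Ideal.IsMaximal.ne_top inferInstance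
    have hau2 : ∀ b : P, b • (a • u) ∈ K ↔ b ∈ n := by
      intro b
      have hforw : ∀ b ∈ n, b • (a • u) ∈ K := by
        intro b hb
        rw [smul_smul]
        apply hspec
        rw [hs, pow_succ']
        exact Ideal.mul_mem_mul hb ha
      constructor
      · intro hb
        by_contra hbn
        obtain ⟨c, m, hm, hc⟩ := Ideal.IsMaximal.exists_inv (I := n) inferInstance hbn
        apply hau
        have : a • u = c • (b • (a • u)) + m • (a • u) := by
          rw [smul_smul c b, ← add_smul, hc, one_smul]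
        rw [this]
        exact add_mem (K.smul_mem _ hb) (hforw m hm)
      · exact hforw b
    have hstep := lTensor_inj_step n hn K (a • u) hau2
    have hlt : K < K ⊔ Submodule.span P {a • u} := by
      rw [left_lt_sup, Submodule.span_singleton_le_iff_mem]
      exact hau
    refine hmax (K ⊔ Submodule.span P {a • u}) ?_ hlt
    refine ⟨hK1.trans le_sup_left, ?_⟩
    have hcomp : Submodule.inclusion (hK1.trans (le_sup_left : K ≤ K ⊔ Submodule.span P {a • u})) =
      (Submodule.inclusion (le_sup_left : K ≤ K ⊔ Submodule.span P {a • u})) ∘ₗ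
        (Submodule.inclusion hK1) := by ext; rfl
    rw [hcomp, LinearMap.lTensor_comp]
    exact hstep.comp hK2
  subst hKtop
  have hcomp : N'.subtype = (⊤ : Submodule P N).subtype ∘ₗ Submodule.inclusion hK1 := by
    ext; rfl
  have htop : Function.Injective ((⊤ : Submodule P N).subtype.lTensor M) := by
    have : (⊤ : Submodule P N).subtype = (Submodule.topEquiv : _ ≃ₗ[P] N).toLinearMap := by
      ext; rfl
    rw [this]
    exact (LinearEquiv.lTensor M (Submodule.topEquiv : _ ≃ₗ[P] N)).injective
  rw [hcomp, LinearMap.lTensor_comp, LinearMap.coe_comp]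
  exact htop.comp hK2

/-- the kernel of `M ⊗ I → M ⊗ (I + K)` comes from the intersection. -/
lemma mem_range_of_inclusion_sup (I K : Ideal P) (z : M ⊗[P] I)
    (hz : (Submodule.inclusion (le_sup_left : I ≤ I ⊔ K)).lTensor M z = 0) :
    z ∈ LinearMap.range ((Submodule.inclusion (inf_le_left : I ⊓ K ≤ I)).lTensor M) := by
  let f : ↥(I ⊓ K) →ₗ[P] (I × K) :=
    LinearMap.prod (Submodule.inclusion inf_le_left) (-(Submodule.inclusion inf_le_right))
  let g : (I × K) →ₗ[P] ↥(I ⊔ K) :=
    LinearMap.coprod (Submodule.inclusion le_sup_left) (Submodule.inclusion le_sup_right)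
  have hg : Function.Surjective g := by
    rintro ⟨x, hx⟩
    obtain ⟨y, hy, s, hs, hys⟩ := Submodule.mem_sup.mp hx
    exact ⟨(⟨y, hy⟩, ⟨s, hs⟩), Subtype.ext hys⟩
  have hfg : Function.Exact f g := by
    rintro ⟨⟨x, hx⟩, ⟨y, hy⟩⟩
    constructor
    · intro h
      have h1 : x + y = 0 := congrArg Subtype.val h
      have h2 : y = -x := by rw [eq_neg_iff_add_eq_zero, add_comm]; exact h1
      subst h2
      refine ⟨⟨x, hx, by simpa using neg_mem hy⟩, ?_⟩
      ext
      · rfl
      · rfl
    · rintro ⟨⟨a, ha⟩, h⟩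
      rw [← h]
      apply Subtype.ext
      change a + -a = 0
      exact add_neg_cancel _
  have hex := _root_.lTensor_exact M hfg hg
  have h1 : (g.lTensor M) ((LinearMap.inl P I K).lTensor M z) = 0 := by
    rw [← LinearMap.lTensor_comp_apply]
    have : g ∘ₗ LinearMap.inl P I K = Submodule.inclusion le_sup_left :=
      LinearMap.coprod_inl _ _
    rw [this]; exact hz
  obtain ⟨w, hw⟩ := (hex _).mp h1
  refine ⟨w, ?_⟩
  have h5 := congrArg ((LinearMap.fst P I K).lTensor M) hw
  rw [← LinearMap.lTensor_comp_apply, ← LinearMap.lTensor_comp_apply, LinearMap.fst_comp_inl,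
      LinearMap.lTensor_id, LinearMap.id_apply] at h5
  rw [← h5]
  rfl

end general

section alg

variable {P A' : Type*} [CommRing P] [CommRing A'] [Algebra P A']

/-- elements of `n ^ s • I` go to `𝔪 ^ s • (A' ⊗ I)`. -/
lemma tmul_mem_of_mem_pow_smul (n : Ideal P) (m : Ideal A') (hnm : n.map (algebraMap P A') ≤ m)
    (I : Ideal P) (s : ℕ) (a : A') (y : I) (hy : (y : P) ∈ n ^ s • (I : Submodule P P)) :
    a ⊗ₜ[P] y ∈ (m ^ s • (⊤ : Submodule A' (A' ⊗[P] I))) := by
  have hy' : y ∈ n ^ s • (⊤ : Submodule P I) := by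
    rw [Submodule.mem_smul_top_iff]
    exact hy
  clear hy
  induction hy' using Submodule.smul_induction_on' with
  | smul c hc y' hy' =>
    have h1 : a ⊗ₜ[P] (c • y') = (algebraMap P A' c) • (a ⊗ₜ[P] y') := by
      rw [TensorProduct.tmul_smul, algebraMap_smul]
    rw [h1]
    refine Submodule.smul_mem_smul ?_ Submodule.mem_top
    have h2 : algebraMap P A' c ∈ (n ^ s).map (algebraMap P A') := Ideal.mem_map_of_mem _ hc
    rw [Ideal.map_pow] at h2
    exact Ideal.pow_right_mono hnm s h2
  | add x hx y hy hx' hy' =>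
    rw [TensorProduct.tmul_add]
    exact add_mem hx' hy'

/-- local criterion. -/
theorem flat_of_maximal_injective [IsNoetherianRing P] [IsLocalRing A'] [IsNoetherianRing A']
    (n : Ideal P) [n.IsMaximal] (hnm : n.map (algebraMap P A') ≤ maximalIdeal A')
    (hn : Function.Injective (n.subtype.lTensor A')) : Module.Flat P A' := by
  rw [Module.Flat.iff_lTensor_injective']
  intro I
  rw [← LinearMap.ker_eq_bot, LinearMap.ker_eq_bot']
  intro z hz
  obtain ⟨k, hk⟩ := Ideal.exists_pow_inf_eq_pow_smul n (M := P) I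
  have hfin : Module.Finite P I := Module.Finite.iff_fg.mpr (IsNoetherian.noetherian I)
  have hkrull := Ideal.iInf_pow_smul_eq_bot_of_isLocalRing (R := A') (M := A' ⊗[P] I)
    (I := maximalIdeal A') (Ideal.IsPrime.ne_top inferInstance)
  have hzmem : z ∈ (⨅ i : ℕ, (maximalIdeal A') ^ i • ⊤ : Submodule A' (A' ⊗[P] I)) := by
    rw [Submodule.mem_iInf]
    intro s
    -- `J = I + n ^ (s + k)`
    have hJ : Function.Injective ((I ⊔ n ^ (s + k)).subtype.lTensor A') := by
      apply lTensor_inj_chain n hn
      intro u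
      refine ⟨s + k, fun a ha => Submodule.mem_sup_right ?_⟩
      exact Ideal.mul_mem_right _ _ ha
    have h1 : (Submodule.inclusion (le_sup_left : I ≤ I ⊔ n ^ (s + k))).lTensor A' z = 0 := by
      apply hJ
      rw [map_zero, ← LinearMap.lTensor_comp_apply]
      exact hz
    obtain ⟨w, hw⟩ := mem_range_of_inclusion_sup I (n ^ (s + k)) z h1
    rw [← hw]
    have h2 := hk (s + k) (by omega)
    have h3 : ∀ y : ↥(I ⊓ n ^ (s + k)), (y : P) ∈ n ^ s • (I : Submodule P P) := by
      intro y
      have h4 : (y : P) ∈ n ^ (s + k) • (⊤ : Submodule P P) ⊓ I := by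
        refine ⟨?_, y.2.1⟩
        have := Submodule.smul_mem_smul (y.2.2 : (y : P) ∈ n ^ (s + k))
          (Submodule.mem_top : (1 : P) ∈ (⊤ : Submodule P P))
        simpa using this
      rw [h2, Nat.add_sub_cancel] at h4
      exact Submodule.smul_mono le_rfl inf_le_right h4
    clear hw
    induction w using TensorProduct.induction_on with
    | zero => rw [map_zero]; exact zero_mem _
    | tmul a y =>
      rw [LinearMap.lTensor_tmul]
      exact tmul_mem_of_mem_pow_smul n (maximalIdeal A') hnm I s a _ (h3 y)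
    | add x y hx hy => rw [map_add]; exact add_mem hx hy
  rw [hkrull] at hzmem
  exact hzmem

/-- the ideal generated by elements whose images form a weakly regular sequence. -/
theorem lTensor_inj_of_regular {k : ℕ} (X : Fin k → P)
    (hreg : RingTheory.Sequence.IsWeaklyRegular A' (List.ofFn fun l => algebraMap P A' (X l))) :
    Function.Injective ((Ideal.span (Set.range X)).subtype.lTensor A') := by
  have hreg' : ∀ (i : ℕ) (hi : i < k) (m : A'),
      X ⟨i, hi⟩ • m ∈ (Ideal.span (X '' {l | (l : ℕ) < i})) • (⊤ : Submodule P A') →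
        m ∈ (Ideal.span (X '' {l | (l : ℕ) < i})) • (⊤ : Submodule P A') := by
    intro i hi m hm
    have h1 := hreg.regular_mod_prev i (by simpa using hi)
    have hid : (Ideal.ofList ((List.ofFn fun l => algebraMap P A' (X l)).take i)) =
        (Ideal.span (X '' {l | (l : ℕ) < i})).map (algebraMap P A') := by
      rw [Ideal.map_span, Ideal.ofList]
      congr 1
      ext a
      simp only [Set.mem_ofPred_eq, Set.mem_image, exists_exists_and_eq_and]
      rw [List.mem_take_iff_getElem]
      constructor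
      · rintro ⟨j, hj, rfl⟩
        simp only [List.length_ofFn, lt_inf_iff] at hj
        exact ⟨⟨j, by omega⟩, by simpa using hj.1, by simp⟩
      · rintro ⟨j, hj, rfl⟩
        exact ⟨j, by simp; omega, by simp⟩
    rw [hid] at h1
    rw [isSMulRegular_on_quot_iff_lsmul_comap_le] at h1
    have h2 : ∀ a : A', a ∈ (Ideal.span (X '' {l | (l : ℕ) < i})).map (algebraMap P A') ↔
        a ∈ (Ideal.span (X '' {l | (l : ℕ) < i})) • (⊤ : Submodule P A') := by
      intro a
      rw [Ideal.smul_top_eq_map]; rfl
    rw [← h2] at hm ⊢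
    have h3 : m ∈ (((Ideal.span (X '' {l | (l : ℕ) < i})).map (algebraMap P A')) •
        (⊤ : Submodule A' A')) := by
      apply h1
      rw [Submodule.mem_comap]
      simp only [List.getElem_ofFn, LinearMap.lsmul_apply, smul_eq_mul, Ideal.mul_top]
      rw [Algebra.smul_def] at hm
      exact hm
    simpa using h3
  have key : ∀ i : ℕ, i ≤ k →
      Function.Injective ((Ideal.span (X '' {l | (l : ℕ) < i})).subtype.lTensor A') := by
    intro i
    induction i with
    | zero =>
      intro _
      have h0 : Ideal.span (X '' {l | (l : ℕ) < 0}) = ⊥ := by simp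
      rw [h0]
      have : Subsingleton (A' ⊗[P] (⊥ : Ideal P)) := by
        refine ⟨fun a b => ?_⟩
        have : ∀ z : A' ⊗[P] (⊥ : Ideal P), z = 0 := by
          intro z
          induction z using TensorProduct.induction_on with
          | zero => rfl
          | tmul a y => rw [Subsingleton.elim y 0, TensorProduct.tmul_zero]
          | add x y hx hy => rw [hx, hy, add_zero]
        rw [this a, this b]
      exact Function.injective_of_subsingleton _
    | succ i ih =>
      intro hi
      have hset : X '' {l | (l : ℕ) < i + 1} = X '' {l | (l : ℕ) < i} ∪ {X ⟨i, by omega⟩} := by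
        ext a
        simp only [Set.mem_image, Set.mem_ofPred_eq, Set.mem_union, Set.mem_singleton_iff]
        constructor
        · rintro ⟨l, hl, rfl⟩
          rcases Nat.lt_succ_iff_lt_or_eq.mp hl with h | h
          · exact Or.inl ⟨l, h, rfl⟩
          · right; congr 1; exact Fin.ext h
        · rintro (⟨l, hl, rfl⟩ | rfl)
          · exact ⟨l, by omega, rfl⟩
          · exact ⟨_, by simp, rfl⟩
      rw [hset, Ideal.span_union]
      exact lTensor_inj_sup_span _ _ (ih (by omega)) (hreg' i (by omega))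
  have h := key k le_rfl
  have hr : X '' {l | (l : ℕ) < k} = Set.range X := by
    have : {l : Fin k | (l : ℕ) < k} = Set.univ := by ext l; simp
    rw [this, Set.image_univ]
  rwa [hr] at h

end alg

section F

variable {κ : Type*} [Field κ] {r : ℕ} {A' : Type*} [CommRing A'] [Algebra (PP κ r) A']

end F

end Vale.Agent.P202.CharP
end

section

/-!
P202-AK-4: flatness over power series rings from a regular sequence; powers of the variables
form a regular sequence; the Frobenius of a power series ring and the Frobenius of the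
coefficients are flat.
-/

namespace Vale.Agent.P202.CharP.ArbK

open IsLocalRing TensorProduct MvPowerSeries

/-- TASK AK-4: flatness over power series rings from a regular sequence. -/
theorem flat_of_regular_powerSeries {K : Type*} [Field K] {v : ℕ} {M : Type*} [CommRing M]
    [IsLocalRing M] [IsNoetherianRing M] [Algebra (MvPowerSeries (Fin v) K) M]
    (hx : ∀ i : Fin v, algebraMap (MvPowerSeries (Fin v) K) M (X i) ∈ maximalIdeal M)
    (hreg : RingTheory.Sequence.IsWeaklyRegular M
      (List.ofFn fun i : Fin v => algebraMap (MvPowerSeries (Fin v) K) M (X i))) :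
    Module.Flat (MvPowerSeries (Fin v) K) M := by
  have hmax : (Ideal.span (Set.range X) : Ideal (MvPowerSeries (Fin v) K)).IsMaximal := by
    have h1 : (Ideal.span (Set.range X) : Ideal (MvPowerSeries (Fin v) K)) =
        maximalIdeal (MvPowerSeries (Fin v) K) := (CZ.maximalIdeal_eq (σ := Fin v) (K := K)).symm
    rw [h1]
    infer_instance
  refine flat_of_maximal_injective (Ideal.span (Set.range X)) ?_ ?_
  · rw [Ideal.map_span, Ideal.span_le]
    rintro _ ⟨_, ⟨l, rfl⟩, rfl⟩
    exact hx l
  · exact lTensor_inj_of_regular (fun l : Fin v => (X l : MvPowerSeries (Fin v) K)) hreg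

/-- the ideal generated by the `q`-th powers of some variables, coefficientwise. -/
lemma mem_span_X_pow_iff {K : Type*} [CommRing K] {v : ℕ} (q : ℕ) (i : ℕ)
    (f : MvPowerSeries (Fin v) K) :
    f ∈ Ideal.span ((fun l : Fin v => (X l : MvPowerSeries (Fin v) K) ^ q) '' {l | (l : ℕ) < i}) ↔
      ∀ d : Fin v →₀ ℕ, (∀ j : Fin v, (j : ℕ) < i → d j < q) → coeff d f = 0 := by
  classical
  constructor
  · intro hf
    refine Submodule.span_induction (p := fun f _ => ∀ d : Fin v →₀ ℕ,
      (∀ j : Fin v, (j : ℕ) < i → d j < q) → coeff d f = 0) ?_ ?_ ?_ ?_ hf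
    · rintro _ ⟨l, hl, rfl⟩ d hd
      simp only [Set.mem_ofPred_eq] at hl
      rw [coeff_X_pow, if_neg]
      intro h
      have := hd l hl
      rw [h] at this
      simp at this
    · intro d _
      exact map_zero _
    · intro x y _ _ hx hy d hd
      rw [map_add, hx d hd, hy d hd, add_zero]
    · intro a x _ hx d hd
      rw [smul_eq_mul, coeff_mul]
      refine Finset.sum_eq_zero ?_
      rintro ⟨a1, a2⟩ ha
      rw [Finset.HasAntidiagonal.mem_antidiagonal] at ha
      have h2 : coeff a2 x = 0 := by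
        apply hx
        intro j hj
        have h3 := hd j hj
        have h4 : a1 j + a2 j = d j := by rw [← ha]; rfl
        simp only at *
        omega
      simp only
      rw [h2, mul_zero]
  · intro hf
    by_cases hv : ∃ l : Fin v, True
    swap
    · have hd0 : ∀ d : Fin v →₀ ℕ, ∀ j : Fin v, (j : ℕ) < i → d j < q := by
        intro d j
        exact absurd ⟨j, trivial⟩ hv
      have : f = 0 := by
        ext d
        rw [hf d (hd0 d), map_zero]
      rw [this]
      exact zero_mem _
    obtain ⟨l0, -⟩ := hv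
    -- choice of an index
    have hex : ∀ d : Fin v →₀ ℕ, ∃ j : Fin v,
        (∃ j' : Fin v, (j' : ℕ) < i ∧ q ≤ d j') → ((j : ℕ) < i ∧ q ≤ d j) := by
      intro d
      by_cases h : ∃ j' : Fin v, (j' : ℕ) < i ∧ q ≤ d j'
      · obtain ⟨j', hj'⟩ := h
        exact ⟨j', fun _ => hj'⟩
      · exact ⟨l0, fun h' => absurd h' h⟩
    choose cf hcf using hex
    let g : Fin v → MvPowerSeries (Fin v) K := fun j γ =>
      if cf (γ + Finsupp.single j q) = j then coeff (γ + Finsupp.single j q) f else 0
    have key : f = ∑ j ∈ Finset.univ.filter (fun j : Fin v => (j : ℕ) < i),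
        (X j : MvPowerSeries (Fin v) K) ^ q * g j := by
      ext β
      rw [map_sum]
      have h1 : ∀ j ∈ Finset.univ.filter (fun j : Fin v => (j : ℕ) < i),
          coeff β ((X j : MvPowerSeries (Fin v) K) ^ q * g j) =
          if (q ≤ β j ∧ cf β = j) then coeff β f else 0 := by
        intro j _
        rw [X_pow_eq, coeff_monomial_mul, one_mul]
        by_cases hj : q ≤ β j
        · have hle : Finsupp.single j q ≤ β := by
            rw [Finsupp.single_le_iff]
            exact hj
          have h2 : coeff (β - Finsupp.single j q) (g j) =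
              if cf β = j then coeff β f else 0 := by
            change g j (β - Finsupp.single j q) = _
            simp only [g, tsub_add_cancel_of_le hle]
          simp only [hle, hj, true_and, if_true, h2]
        · have hle : ¬ Finsupp.single j q ≤ β := by
            rw [Finsupp.single_le_iff]
            exact hj
          simp only [hle, hj, false_and, if_false]
      rw [Finset.sum_congr rfl h1]
      by_cases hβ : ∃ j' : Fin v, (j' : ℕ) < i ∧ q ≤ β j'
      · obtain ⟨h3, h4⟩ := hcf β hβ
        rw [Finset.sum_eq_single (cf β)]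
        · simp [h4]
        · intro j _ hne
          rw [if_neg]
          rintro ⟨_, h⟩
          exact hne h.symm
        · intro h
          exact absurd (by simpa using h3) h
      · have h5 : coeff β f = 0 := by
          apply hf
          intro j hj
          by_contra h6
          exact hβ ⟨j, hj, not_lt.mp h6⟩
        rw [h5, Finset.sum_eq_zero]
        intro j _
        split_ifs <;> rfl
    rw [key]
    refine Ideal.sum_mem _ fun j hj => Ideal.mul_mem_right _ _ ?_
    rw [Finset.mem_filter] at hj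
    exact Ideal.subset_span ⟨j, hj.2, rfl⟩

/-- TASK AK-4: powers of the variables form a regular sequence. -/
theorem isWeaklyRegular_X_pow (K : Type*) [Field K] (v : ℕ) (q : ℕ) (hq : 1 ≤ q) :
    RingTheory.Sequence.IsWeaklyRegular (MvPowerSeries (Fin v) K)
      (List.ofFn fun i : Fin v => (X i : MvPowerSeries (Fin v) K) ^ q) := by
  classical
  refine ⟨fun i hi => ?_⟩
  have hiv : i < v := by simpa using hi
  have hid : (Ideal.ofList ((List.ofFn fun i : Fin v =>
      (X i : MvPowerSeries (Fin v) K) ^ q).take i)) =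
      Ideal.span ((fun l : Fin v => (X l : MvPowerSeries (Fin v) K) ^ q) ''
        {l | (l : ℕ) < i}) := by
    rw [Ideal.ofList]
    congr 1
    ext a
    simp only [Set.mem_ofPred_eq, Set.mem_image]
    rw [List.mem_take_iff_getElem]
    constructor
    · rintro ⟨j, hj, rfl⟩
      simp only [List.length_ofFn, lt_inf_iff] at hj
      exact ⟨⟨j, by omega⟩, by simpa using hj.1, by simp⟩
    · rintro ⟨j, hj, rfl⟩
      exact ⟨j, by simp; omega, by simp⟩
  rw [hid, isSMulRegular_on_quot_iff_lsmul_comap_le]
  intro f hf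
  rw [Submodule.mem_comap] at hf
  simp only [List.getElem_ofFn, LinearMap.lsmul_apply, smul_eq_mul, Ideal.mul_top] at hf ⊢
  rw [mem_span_X_pow_iff] at hf ⊢
  intro d hd
  have h1 := hf (d + Finsupp.single ⟨i, hiv⟩ q) (by
    intro j hj
    have hne : (⟨i, hiv⟩ : Fin v) ≠ j := by
      rintro rfl
      exact lt_irrefl _ hj
    rw [Finsupp.add_apply, Finsupp.single_eq_of_ne hne.symm, add_zero]
    exact hd j hj)
  rw [X_pow_eq, coeff_monomial_mul] at h1
  have hle : Finsupp.single (⟨i, hiv⟩ : Fin v) q ≤ d + Finsupp.single ⟨i, hiv⟩ q :=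
    le_add_self
  rw [if_pos hle, add_tsub_cancel_right, one_mul] at h1
  exact h1

/-- TASK AK-4: the Frobenius of a power series ring is flat. -/
theorem flat_Fr_powerSeries (p : ℕ) [Fact p.Prime] (K : Type*) [Field K] [CharP K p]
    (v e : ℕ) [CharP (MvPowerSeries (Fin v) K) p] :
    Module.Flat (MvPowerSeries (Fin v) K) (Fr p (MvPowerSeries (Fin v) K) e) := by
  have hp : p ^ e ≠ 0 := pow_ne_zero _ (Fact.out : p.Prime).ne_zero
  refine flat_of_regular_powerSeries ?_ ?_
  · intro i
    change (X i : MvPowerSeries (Fin v) K) ^ p ^ e ∈ maximalIdeal (MvPowerSeries (Fin v) K)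
    refine Ideal.pow_mem_of_mem _ ?_ _ (Nat.pos_of_ne_zero hp)
    rw [CZ.maximalIdeal_eq, CZ.mm]
    exact Ideal.subset_span ⟨i, rfl⟩
  · exact isWeaklyRegular_X_pow K v (p ^ e) (Nat.one_le_iff_ne_zero.mpr hp)

/-- TASK AK-4: the Frobenius of the coefficients is flat. -/
theorem flat_PSc (p : ℕ) [Fact p.Prime] (n : ℕ) (k : Type*) [Field k] [CharP k p] (e : ℕ) :
    Module.Flat (MvPowerSeries (Fin n) k) (PSc p n k e) := by
  have : IsLocalRing (PSc p n k e) := inferInstanceAs (IsLocalRing (MvPowerSeries (Fin n) k))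
  have : IsNoetherianRing (PSc p n k e) :=
    inferInstanceAs (IsNoetherianRing (MvPowerSeries (Fin n) k))
  have hX : ∀ i : Fin n, algebraMap (MvPowerSeries (Fin n) k) (PSc p n k e) (X i) =
      toPSc p n k e (X i) := by
    intro i
    change cfrob p n k e (X i) = X i
    rw [cfrob, MvPowerSeries.map_X]
  refine flat_of_regular_powerSeries ?_ ?_
  · intro i
    rw [hX]
    change (X i : MvPowerSeries (Fin n) k) ∈ maximalIdeal (MvPowerSeries (Fin n) k)
    rw [CZ.maximalIdeal_eq, CZ.mm]
    exact Ideal.subset_span ⟨i, rfl⟩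
  · simp only [hX]
    have h := isWeaklyRegular_X_pow k n 1 le_rfl
    simp only [pow_one] at h
    exact h

end Vale.Agent.P202.CharP.ArbK
end

section

/-!
P202 MIX, M4b: the perfection of `k[[x_0, .., x_r]]` is flat over it.
-/

namespace Vale.Agent.P202.Mix

open Vale.Agent.P202.CharP

universe u

/-- every element of the perfect closure has a power in the ring -/
lemma fp_exists_pow {R : Type u} [CommRing R] (p : ℕ) [Fact p.Prime] [CharP R p]
    (x : PerfectClosure R p) : ∃ (e : ℕ) (z : R), x ^ p ^ e = PerfectClosure.of R p z := by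
  refine PerfectClosure.induction_on x fun y => ?_
  obtain ⟨n, z⟩ := y
  refine ⟨n, z, ?_⟩
  rw [← PerfectClosure.iterate_frobenius_mk (K := R) (p := p) n z, ← coe_iterateFrobenius,
    iterateFrobenius_def]

/-- common exponent -/
lemma fp_exists_pow_fin {R : Type u} [CommRing R] (p : ℕ) [Fact p.Prime] [CharP R p] {l : ℕ}
    (x : Fin l → PerfectClosure R p) :
    ∃ (e : ℕ) (z : Fin l → R), ∀ i, x i ^ p ^ e = PerfectClosure.of R p (z i) := by
  choose e z hz using fun i => fp_exists_pow p (x i)
  refine ⟨∑ i, e i, fun i => z i ^ p ^ (∑ j, e j - e i), fun i => ?_⟩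
  have h1 : e i ≤ ∑ j, e j := Finset.single_le_sum (fun _ _ => Nat.zero_le _) (Finset.mem_univ i)
  have h2 : ∑ j, e j = e i + (∑ j, e j - e i) := by omega
  rw [map_pow, ← hz i, ← pow_mul, ← pow_add, ← h2]

/-- TASK M4b: the perfection of `k[[x_0, .., x_r]]` is flat over it (colimit of Frobenius powers,
`CharP.ArbK.flat_Fr_powerSeries`). -/
theorem flat_perfectClosure (p : ℕ) [Fact p.Prime] (k : Type u) [Field k] [CharP k p] (r : ℕ) :
    letI := (PerfectClosure.of (R0 k r) p).toAlgebra
    Module.Flat (R0 k r) (Rp p k r) := by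
  letI := (PerfectClosure.of (R0 k r) p).toAlgebra
  rw [Module.Flat.iff_forall_isTrivialRelation]
  intro l f x h
  obtain ⟨e, z, hz⟩ := fp_exists_pow_fin p x
  have hof : Function.Injective (PerfectClosure.of (R0 k r) p) := by
    intro a b hab
    have := (PerfectClosure.eq_iff (R0 k r) p (0, a) (0, b)).1 hab
    simpa using this
  have hsmul : ∀ (a : R0 k r) (y : Rp p k r), a • y = PerfectClosure.of (R0 k r) p a * y :=
    fun a y => rfl
  have h0 : ∑ i, f i ^ p ^ e * z i = 0 := by
    apply hof
    rw [map_sum, map_zero]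
    have h1 := congrArg (iterateFrobenius (Rp p k r) p e) h
    rw [map_sum, map_zero] at h1
    rw [← h1]
    refine Finset.sum_congr rfl fun i _ => ?_
    rw [hsmul, iterateFrobenius_def, mul_pow, hz, map_mul, map_pow]
  have hflat := ArbK.flat_Fr_powerSeries p k (r + 1) e
  rw [Module.Flat.iff_forall_isTrivialRelation] at hflat
  have h2 : ∑ i, f i • toFr p (R0 k r) e (z i) = 0 := by
    have h3 : ∀ i, f i • toFr p (R0 k r) e (z i) = toFr p (R0 k r) e (f i ^ p ^ e * z i) := by
      intro i
      rw [Algebra.smul_def, algebraMap_Fr, map_mul]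
    simp only [h3]
    rw [← map_sum, h0, map_zero]
  obtain ⟨n, a, y, hy, ha⟩ := hflat h2
  refine ⟨n, a, fun j => rt p e (PerfectClosure.of (R0 k r) p ((toFr p (R0 k r) e).symm (y j))),
    fun i => ?_, ha⟩
  apply (iterateFrobeniusEquiv (Rp p k r) p e).injective
  rw [map_sum]
  have h4 : iterateFrobeniusEquiv (Rp p k r) p e (x i) = PerfectClosure.of (R0 k r) p (z i) := by
    rw [iterateFrobeniusEquiv_apply, iterateFrobenius_def, hz]
  rw [h4]
  have h5 : z i = ∑ j, a i j ^ p ^ e * (toFr p (R0 k r) e).symm (y j) := by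
    apply (toFr p (R0 k r) e).injective
    have h6 : toFr p (R0 k r) e (z i) = ∑ j, a i j • y j := hy i
    rw [h6, map_sum]
    refine Finset.sum_congr rfl fun j _ => ?_
    rw [Algebra.smul_def, algebraMap_Fr, map_mul, RingEquiv.apply_symm_apply]
  rw [h5, map_sum]
  refine Finset.sum_congr rfl fun j _ => ?_
  rw [hsmul, map_mul, map_mul, map_pow]
  unfold rt
  rw [RingEquiv.apply_symm_apply, iterateFrobeniusEquiv_apply, iterateFrobenius_def]

end Vale.Agent.P202.Mix
end

section

/-!
P202-ARBK: presentation of a local homomorphism of complete Noetherian local rings of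
characteristic `p` by power series rings over the residue fields.
-/

namespace Vale.Agent.P202.CharP.ArbK

open MvPowerSeries IsLocalRing
open Vale.Agent.P202.CZ

universe u v

section complete

/-- a complete Noetherian local ring is complete for every ideal. -/
theorem isAdicComplete_of_le {R : Type*} [CommRing R] [IsLocalRing R] [IsNoetherianRing R]
    [IsAdicComplete (maximalIdeal R) R] (J : Ideal R) (hJ : J ≤ maximalIdeal R) :
    IsAdicComplete J R := by
  have hh : IsHausdorff J R :=
    IsHausdorff.of_le_jacobson _ _ (hJ.trans (maximalIdeal_le_jacobson _))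
  refine { hh with prec' := fun f hf => ?_ }
  obtain ⟨L, hL⟩ := IsPrecomplete.prec (I := maximalIdeal R) (M := R) inferInstance (f := f)
    (fun {m n} hmn => by
      have h1 := hf hmn
      rw [SModEq.sub_mem, smul_eq_mul, Ideal.mul_top] at h1 ⊢
      exact Ideal.pow_right_mono hJ m h1)
  refine ⟨L, fun m => ?_⟩
  rw [SModEq.sub_mem, smul_eq_mul, Ideal.mul_top]
  have key : ∀ n : ℕ, f m - L ∈ J ^ m ⊔ maximalIdeal R ^ n := by
    intro n
    have h1 : f m - f (max m n) ∈ J ^ m := by
      have h2 := hf (le_max_left m n)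
      rwa [SModEq.sub_mem, smul_eq_mul, Ideal.mul_top] at h2
    have h3 : f (max m n) - L ∈ maximalIdeal R ^ n := by
      have h4 := hL (max m n)
      rw [SModEq.sub_mem, smul_eq_mul, Ideal.mul_top] at h4
      exact Ideal.pow_le_pow_right (le_max_right m n) h4
    have h5 : f m - L = (f m - f (max m n)) + (f (max m n) - L) := by ring
    rw [h5]
    exact Submodule.add_mem_sup h1 h3
  have hk : (⨅ n : ℕ, maximalIdeal R ^ n • (⊤ : Submodule R (R ⧸ J ^ m))) = ⊥ :=
    Ideal.iInf_pow_smul_eq_bot_of_le_jacobson _ (maximalIdeal_le_jacobson _)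
  have hz : (Ideal.Quotient.mk (J ^ m) (f m - L)) ∈
      (⨅ n : ℕ, maximalIdeal R ^ n • (⊤ : Submodule R (R ⧸ J ^ m))) := by
    rw [Submodule.mem_iInf]
    intro n
    obtain ⟨a, ha, b, hb, hab⟩ := Submodule.mem_sup.mp (key n)
    rw [← hab, map_add, Ideal.Quotient.eq_zero_iff_mem.mpr ha, zero_add]
    have h1 : Ideal.Quotient.mk (J ^ m) b = b • (1 : R ⧸ J ^ m) := by
      rw [Algebra.smul_def, mul_one]
      rfl
    rw [h1]
    exact Submodule.smul_mem_smul hb trivial
  rw [hk] at hz
  exact Ideal.Quotient.eq_zero_iff_mem.mp ((Submodule.mem_bot R).mp hz)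

end complete

section uniq

variable {K S : Type*} [CommRing K] [CommRing S]

/-- a homomorphism from a power series ring to a separated ring is determined by the images of the
constants and of the variables. -/
theorem hom_ext_of_isHausdorff (I : Ideal S) [IsHausdorff I S] {d : ℕ}
    {φ ψ : MvPowerSeries (Fin d) K →+* S} (hX : ∀ i, φ (X i) ∈ I)
    (h1 : ∀ a, φ (C a) = ψ (C a)) (h2 : ∀ i, φ (X i) = ψ (X i)) : φ = ψ := by
  have hφ : (Ideal.span (Set.range X) : Ideal (MvPowerSeries (Fin d) K)).map φ ≤ I := by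
    rw [Ideal.map_span, Ideal.span_le]
    rintro _ ⟨_, ⟨i, rfl⟩, rfl⟩
    exact hX i
  have hψ : (Ideal.span (Set.range X) : Ideal (MvPowerSeries (Fin d) K)).map ψ ≤ I := by
    rw [Ideal.map_span, Ideal.span_le]
    rintro _ ⟨_, ⟨i, rfl⟩, rfl⟩
    rw [← h2]
    exact hX i
  have hpoly : ∀ f : MvPolynomial (Fin d) K, φ (f : MvPowerSeries (Fin d) K) =
      ψ (f : MvPowerSeries (Fin d) K) := by
    intro f
    have : φ.comp (MvPolynomial.coeToMvPowerSeries.ringHom) =
        ψ.comp (MvPolynomial.coeToMvPowerSeries.ringHom) := by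
      refine MvPolynomial.ringHom_ext (fun a => ?_) (fun i => ?_)
      · rw [RingHom.comp_apply, RingHom.comp_apply]
        simpa using h1 a
      · rw [RingHom.comp_apply, RingHom.comp_apply]
        simpa using h2 i
    exact congr($this f)
  ext f
  apply (IsHausdorff.eq_iff_smodEq (I := I)).2
  intro n
  rw [SModEq.sub_mem, smul_eq_mul, Ideal.mul_top]
  have hf : f - (f.truncTotal n : MvPolynomial (Fin d) K) ∈
      (Ideal.span (Set.range X) : Ideal (MvPowerSeries (Fin d) K)) ^ n := by
    rw [mem_pow_iff]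
    intro e he
    rw [map_sub, sub_eq_zero, MvPolynomial.coeff_coe, coeff_truncTotal _ he]
  have h3 : φ f - ψ f = φ (f - (f.truncTotal n : MvPolynomial (Fin d) K)) -
      ψ (f - (f.truncTotal n : MvPolynomial (Fin d) K)) := by
    rw [map_sub, map_sub, hpoly]
    ring
  rw [h3]
  refine sub_mem ?_ ?_
  · have := Ideal.mem_map_of_mem φ hf
    rw [Ideal.map_pow] at this
    exact Ideal.pow_right_mono hφ n this
  · have := Ideal.mem_map_of_mem ψ hf
    rw [Ideal.map_pow] at this
    exact Ideal.pow_right_mono hψ n this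

end uniq

section surj

/-- presentation of a complete local ring. -/
theorem exists_surjective_of_coeff {S : Type*} [CommRing S] [IsLocalRing S] [IsNoetherianRing S]
    [IsAdicComplete (maximalIdeal S) S] {K : Type*} [Field K] (σ : K →+* S)
    (hσ : ∀ z : S, ∃ a : K, z - σ a ∈ maximalIdeal S) :
    ∃ (h : ℕ) (φ : MvPowerSeries (Fin h) K →+* S), (∀ a, φ (C a) = σ a) ∧
      (∀ i, φ (X i) ∈ maximalIdeal S) ∧ Function.Surjective φ := by
  obtain ⟨h, x, hx⟩ := Submodule.fg_iff_exists_fin_generating_family.mp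
    (IsNoetherian.noetherian (maximalIdeal S))
  have hxm : ∀ i, x i ∈ maximalIdeal S := fun i => by
    rw [← hx]
    exact Submodule.subset_span (Set.mem_range_self i)
  obtain ⟨φ, h1, h2⟩ := exists_powerSeries_hom (maximalIdeal S) σ x hxm
  refine ⟨h, φ, h1, fun i => by rw [h2]; exact hxm i, ?_⟩
  algebraize [φ]
  have hfin : Module.Finite (MvPowerSeries (Fin h) K) S := by
    refine finite_over_powerSeries (M := 1) (fun z => ?_) (fun i => ?_) ?_
    · obtain ⟨a, ha⟩ := hσ z
      refine ⟨a, ?_⟩
      rw [← h1] at ha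
      exact ha
    · change φ (X i) ∈ _
      rw [h2]
      exact hxm i
    · rw [pow_one, ← hx]
      refine Submodule.span_mono ?_
      rintro _ ⟨i, rfl⟩
      exact ⟨i, h2 i⟩
  -- Nakayama
  have hmap : (maximalIdeal (MvPowerSeries (Fin h) K)).map φ = maximalIdeal S := by
    rw [maximalIdeal_eq, mm, Ideal.map_span, ← Set.range_comp]
    rw [← hx]
    congr 2
    funext i
    exact h2 i
  have hle : (⊤ : Submodule (MvPowerSeries (Fin h) K) S) ≤
      Submodule.span (MvPowerSeries (Fin h) K) {(1 : S)} := by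
    refine Submodule.le_of_le_smul_of_le_jacobson_bot Module.Finite.fg_top
      (maximalIdeal_le_jacobson (⊥ : Ideal (MvPowerSeries (Fin h) K))) ?_
    intro z _
    obtain ⟨a, ha⟩ := hσ z
    have h3 : z = σ a + (z - σ a) := by ring
    rw [h3]
    refine Submodule.add_mem_sup ?_ ?_
    · rw [Submodule.mem_span_singleton]
      refine ⟨C a, ?_⟩
      rw [Algebra.smul_def, mul_one]
      exact h1 a
    · rw [Ideal.smul_top_eq_map, Submodule.restrictScalars_mem]
      rw [← hmap] at ha
      exact ha
  intro z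
  obtain ⟨f, hf⟩ := Submodule.mem_span_singleton.mp (hle (Submodule.mem_top (x := z)))
  refine ⟨f, ?_⟩
  rw [Algebra.smul_def, mul_one] at hf
  exact hf

end surj

section coeff

/-- lifting a homomorphism from a field of characteristic `p` along the quotient by an ideal of a
complete local ring. -/
theorem exists_lift_field (p : ℕ) [Fact p.Prime] {k : Type v} [Field k] [CharP k p] {P : Type u}
    [CommRing P] [CharP P p] {S : Type*} [CommRing S] (π : P →+* S) (hπ : Function.Surjective π)
    [IsAdicComplete (RingHom.ker π) P] (f : k →+* S) :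
    ∃ g : k →+* P, π.comp g = f := by
  let _ : Algebra (ZMod p) k := ZMod.algebra k p
  let _ : Algebra (ZMod p) P := ZMod.algebra P p
  have hfs : Algebra.FormallySmooth (ZMod p) k := formallySmooth_zmod p k
  let e : (P ⧸ RingHom.ker π) ≃+* S := RingHom.quotientKerEquivOfSurjective hπ
  let g0 : k →+* (P ⧸ RingHom.ker π) := (e.symm : S →+* _).comp f
  let g1 : k →ₐ[ZMod p] (P ⧸ RingHom.ker π) :=
    { g0 with
      commutes' := fun r => RingHom.congr_fun (Subsingleton.elim
        (g0.comp (algebraMap (ZMod p) k)) (algebraMap (ZMod p) (P ⧸ RingHom.ker π))) r }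
  obtain ⟨g, hg⟩ := Algebra.FormallySmooth.exists_mkₐ_comp_eq_of_isAdicComplete
    (R := ZMod p) (A := k) (I := RingHom.ker π) g1
  refine ⟨g.toRingHom, ?_⟩
  ext a
  have h1 : Ideal.Quotient.mk (RingHom.ker π) (g a) = e.symm (f a) := congr($hg a)
  have h2 := congr(e $h1)
  rw [RingEquiv.apply_symm_apply] at h2
  exact h2

/-- TASK AK-1: coefficient fields in characteristic `p`. -/
theorem exists_coefficient_field (p : ℕ) [Fact p.Prime] {R : Type u} [CommRing R]
    [IsLocalRing R] [IsAdicComplete (maximalIdeal R) R] [CharP R p] :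
    ∃ σ : ResidueField R →+* R, ∀ a, residue R (σ a) = a := by
  have hk : CharP (ResidueField R) p := by
    rw [CharP.charP_iff_prime_eq_zero (Fact.out : p.Prime)]
    rw [← map_natCast (residue R), CharP.cast_eq_zero, map_zero]
  have hc : IsAdicComplete (RingHom.ker (residue R)) R := by
    rw [ker_residue]
    infer_instance
  obtain ⟨g, hg⟩ := exists_lift_field p (residue R) residue_surjective (RingHom.id _)
  exact ⟨g, fun a => congr($hg a)⟩

instance charP_mvPowerSeries {p : ℕ} {σ k : Type*} [CommRing k] [CharP k p] :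
    CharP (MvPowerSeries σ k) p where
  cast_eq_zero_iff a := by
    rw [← CharP.cast_eq_zero_iff k p a, ← map_natCast (C (σ := σ) (R := k)) a]
    constructor
    · intro h
      have h1 := congr(constantCoeff $h)
      rwa [constantCoeff_C, map_zero] at h1
    · intro h
      rw [h, map_zero]

end coeff

section skel

/-- TASK AK-1: homomorphisms from power series rings are determined by constants and
variables. -/
theorem powerSeries_hom_ext {k R : Type*} [CommRing k] [CommRing R] (I : Ideal R)
    [IsHausdorff I R] {n : ℕ} (f g : MvPowerSeries (Fin n) k →+* R)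
    (hC : ∀ a, f (C a) = g (C a)) (hX : ∀ i, f (X i) = g (X i)) (hI : ∀ i, f (X i) ∈ I) :
    f = g :=
  hom_ext_of_isHausdorff I hI hC hX

/-- TASK AK-2: lifting homomorphisms of fields. -/
theorem exists_lift (p : ℕ) [Fact p.Prime] {k : Type*} [Field k] [CharP k p] {L : Type*}
    [CommRing L] [IsLocalRing L] [IsNoetherianRing L] [IsAdicComplete (maximalIdeal L) L]
    [CharP L p] {S : Type*} [CommRing S] [Nontrivial S] (Θ : L →+* S) (hΘ : Function.Surjective Θ)
    (τ : k →+* S) : ∃ ι : k →+* L, ∀ a, Θ (ι a) = τ a := by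
  have := isAdicComplete_of_le (RingHom.ker Θ) (le_maximalIdeal (RingHom.ker_ne_top Θ))
  obtain ⟨ι, hι⟩ := exists_lift_field p Θ hΘ τ
  exact ⟨ι, fun a => congr($hι a)⟩

/-- TASK AK-3: Cohen's structure theorem in characteristic `p`. -/
theorem exists_powerSeries_surjection (p : ℕ) [Fact p.Prime] {S : Type u} [CommRing S]
    [IsLocalRing S] [IsNoetherianRing S] [IsAdicComplete (maximalIdeal S) S] [CharP S p] :
    ∃ (v : ℕ) (Θ : MvPowerSeries (Fin v) (ResidueField S) →+* S), Function.Surjective Θ ∧
      Ideal.span (Set.range fun i => Θ (X i)) = maximalIdeal S := by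
  obtain ⟨τ, hτ⟩ := exists_coefficient_field p (R := S)
  obtain ⟨h, b, hb1, hb2, hb3⟩ := exists_surjective_of_coeff τ fun z => ⟨residue S z, by
    rw [← residue_eq_zero_iff, map_sub, hτ, sub_self]⟩
  refine ⟨h, b, hb3, ?_⟩
  have hbm : ∀ f, b f ∈ maximalIdeal S → f ∈ maximalIdeal _ := by
    intro f hf
    rw [mem_maximalIdeal, mem_nonunits_iff] at hf ⊢
    exact fun h => hf (h.map b)
  refine le_antisymm ?_ ?_
  · rw [Ideal.span_le]
    rintro _ ⟨i, rfl⟩
    exact hb2 i
  · intro z hz
    obtain ⟨f, rfl⟩ := hb3 z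
    have hf := hbm f hz
    rw [maximalIdeal_eq, mm] at hf
    have h1 := Ideal.mem_map_of_mem b hf
    rw [Ideal.map_span, ← Set.range_comp] at h1
    exact h1

end skel

end Vale.Agent.P202.CharP.ArbK
end

section

/-!
P202-AK-5: a flat extension of a complete Noetherian local ring of characteristic `p` containing
`p^e`-th roots of the elements of a given subfield.
-/

namespace Vale.Agent.P202.CharP.ArbK

open IsLocalRing TensorProduct MvPowerSeries

universe u

/-- the image of a complete Noetherian local ring is complete. -/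
theorem isAdicComplete_of_surjective {L M : Type*} [CommRing L] [IsLocalRing L]
    [IsNoetherianRing L] [IsAdicComplete (maximalIdeal L) L] [CommRing M] [IsLocalRing M]
    (j : L →+* M) (hj : Function.Surjective j) : IsAdicComplete (maximalIdeal M) M := by
  have hN : IsNoetherianRing M := isNoetherianRing_of_surjective L M j hj
  let _ : Algebra L M := j.toAlgebra
  have hmap : (maximalIdeal L).map (algebraMap L M) = maximalIdeal M := by
    apply eq_maximalIdeal
    refine Ideal.IsMaximal.map_of_surjective_of_ker_le hj ?_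
    exact le_maximalIdeal (RingHom.ker_ne_top j)
  have h1 : IsPrecomplete (maximalIdeal L) M := by
    rw [← AdicCompletion.of_surjective_iff]
    intro y
    have hj' : Function.Surjective (Algebra.linearMap L M) := hj
    obtain ⟨x, rfl⟩ := AdicCompletion.map_surjective (maximalIdeal L) hj' y
    obtain ⟨z, rfl⟩ := AdicCompletion.of_surjective (maximalIdeal L) L x
    exact ⟨Algebra.linearMap L M z, (AdicCompletion.map_of ..).symm⟩
  have h2 : IsPrecomplete (maximalIdeal M) M := by
    rw [← hmap]
    exact IsPrecomplete.map_algebraMap_iff.mpr h1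
  have h3 : IsHausdorff (maximalIdeal M) M :=
    IsHausdorff.of_le_jacobson _ _ (by rw [IsLocalRing.jacobson_eq_maximalIdeal ⊥ bot_ne_top])
  exact { h2, h3 with }

/-- TASK AK-5: a flat extension containing `p^e`-th roots of the elements of a subfield. -/
theorem exists_root_ext (p : ℕ) [Fact p.Prime] {S : Type u} [CommRing S] [IsLocalRing S]
    [IsNoetherianRing S] [IsAdicComplete (maximalIdeal S) S] [CharP S p] {k : Type u} [Field k]
    [CharP k p] (τ₀ : k →+* S) (e : ℕ) :
    ∃ (S₁ : Type u) (_ : CommRing S₁) (_ : IsLocalRing S₁) (_ : IsNoetherianRing S₁)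
      (_ : IsAdicComplete (maximalIdeal S₁) S₁) (_ : CharP S₁ p) (_ : Algebra S S₁)
      (_ : Module.Flat S S₁) (_ : IsLocalHom (algebraMap S S₁)) (τ : k →+* S₁),
      Module.length S₁ (S₁ ⧸ (maximalIdeal S).map (algebraMap S S₁)) ≠ ⊤ ∧
      ∀ a, τ a ^ p ^ e = algebraMap S S₁ (τ₀ a) := by
  have hq : p ^ e ≠ 0 := pow_ne_zero _ (Fact.out : p.Prime).ne_zero
  have hkS : CharP (ResidueField S) p := by
    rw [CharP.charP_iff_prime_eq_zero (Fact.out : p.Prime)]
    rw [← map_natCast (residue S), CharP.cast_eq_zero, map_zero]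
  obtain ⟨v, Θ, hΘ, hΘm⟩ := exists_powerSeries_surjection p (S := S)
  obtain ⟨ι, hι⟩ := exists_lift p Θ hΘ τ₀
  let L := MvPowerSeries (Fin v) (ResidueField S)
  have hLp : CharP L p := charP_mvPowerSeries
  let _ : Algebra L S := Θ.toAlgebra
  have hflat : Module.Flat L (Fr p L e) := flat_Fr_powerSeries p (ResidueField S) v e
  have hal : ∀ l : L, algebraMap L (Fr p L e) l = toFr p L e (l ^ p ^ e) := fun l => rfl
  have hloc : IsLocalHom (algebraMap L (Fr p L e)) := by
    refine ⟨fun l hl => ?_⟩
    have h1 : IsUnit (l ^ p ^ e : L) := hl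
    exact (isUnit_pow_iff hq).mp h1
  have hff : Module.FaithfullyFlat L (Fr p L e) := Module.FaithfullyFlat.of_flat_of_isLocalHom
  have hnt : Nontrivial (S ⊗[L] Fr p L e) := inferInstance
  -- the surjection from `L`
  let j : L →+* S ⊗[L] Fr p L e :=
    (Algebra.TensorProduct.includeRight : Fr p L e →ₐ[L] S ⊗[L] Fr p L e).toRingHom.comp
      (toFr p L e).toRingHom
  have hjdef : ∀ l : L, j l = (1 : S) ⊗ₜ[L] (toFr p L e l) := fun l => rfl
  have hjq : ∀ l : L, j (l ^ p ^ e) = (Θ l) ⊗ₜ[L] (1 : Fr p L e) := by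
    intro l
    rw [hjdef, ← hal, Algebra.algebraMap_eq_smul_one, ← TensorProduct.smul_tmul,
      Algebra.smul_def, mul_one]
    rfl
  have hj : Function.Surjective j := by
    intro z
    induction z using TensorProduct.induction_on with
    | zero => exact ⟨0, map_zero j⟩
    | tmul s a =>
      obtain ⟨l, rfl⟩ := hΘ s
      refine ⟨l ^ p ^ e * (toFr p L e).symm a, ?_⟩
      rw [map_mul, hjq, hjdef, Algebra.TensorProduct.tmul_mul_tmul, mul_one, one_mul,
        RingEquiv.apply_symm_apply]
    | add x y hx hy =>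
      obtain ⟨x', rfl⟩ := hx
      obtain ⟨y', rfl⟩ := hy
      exact ⟨x' + y', map_add j _ _⟩
  have i1 : IsLocalRing (S ⊗[L] Fr p L e) := IsLocalRing.of_surjective' j hj
  have i2 : IsNoetherianRing (S ⊗[L] Fr p L e) := isNoetherianRing_of_surjective L _ j hj
  have i3 : IsAdicComplete (maximalIdeal (S ⊗[L] Fr p L e)) (S ⊗[L] Fr p L e) :=
    isAdicComplete_of_surjective j hj
  have i4 : CharP (S ⊗[L] Fr p L e) p := by
    rw [CharP.charP_iff_prime_eq_zero (Fact.out : p.Prime)]
    rw [← map_natCast (algebraMap S (S ⊗[L] Fr p L e)), CharP.cast_eq_zero, map_zero]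
  have i5 : Module.Flat S (S ⊗[L] Fr p L e) := inferInstance
  have hjl : IsLocalHom j := IsLocalHom.of_surjective j hj
  have hjm : ∀ l ∈ maximalIdeal L, j l ∈ maximalIdeal (S ⊗[L] Fr p L e) := by
    intro l hl
    rw [mem_maximalIdeal, mem_nonunits_iff] at hl ⊢
    exact fun h => hl (isUnit_of_map_unit j l h)
  have i6 : IsLocalHom (algebraMap S (S ⊗[L] Fr p L e)) := by
    refine ⟨fun s hs => ?_⟩
    obtain ⟨l, rfl⟩ := hΘ s
    have h1 : IsUnit (j (l ^ p ^ e)) := by
      rw [hjq]
      exact hs
    have h2 := isUnit_of_map_unit j _ h1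
    exact ((isUnit_pow_iff hq).mp h2).map Θ
  refine ⟨S ⊗[L] Fr p L e, inferInstance, i1, i2, i3, i4, inferInstance, i5, i6,
    j.comp ι, ?_, ?_⟩
  · have hmap : (maximalIdeal L).map j = maximalIdeal (S ⊗[L] Fr p L e) := by
      apply eq_maximalIdeal
      refine Ideal.IsMaximal.map_of_surjective_of_ker_le hj ?_
      exact le_maximalIdeal (RingHom.ker_ne_top j)
    have hfg : (maximalIdeal (S ⊗[L] Fr p L e)).FG := IsNoetherian.noetherian _
    have hle : maximalIdeal (S ⊗[L] Fr p L e) ≤
        ((maximalIdeal S).map (algebraMap S (S ⊗[L] Fr p L e))).radical := by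
      rw [← hmap, CZ.maximalIdeal_eq, CZ.mm, Ideal.map_span, Ideal.span_le]
      rintro _ ⟨_, ⟨i, rfl⟩, rfl⟩
      refine ⟨p ^ e, ?_⟩
      rw [← map_pow, hjq]
      refine Ideal.mem_map_of_mem (algebraMap S (S ⊗[L] Fr p L e)) ?_
      rw [← hΘm]
      exact Ideal.subset_span ⟨i, rfl⟩
    obtain ⟨N, hN⟩ := Ideal.exists_pow_le_of_le_radical_of_fg hle hfg
    exact ell_ne_top_of_pow_le hN
  · intro a
    rw [RingHom.comp_apply, ← map_pow, hjq, hι]
    rfl

end Vale.Agent.P202.CharP.ArbK
end
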