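import Vale.Agent.P202.MathlibUsed
import Vale.Agent.P202.Bdl.B10
import Vale.Agent.P202.Bdl.B1
import Vale.Agent.P202.Bdl.B8
import Vale.Agent.P202.Bdl.B9
import Vale.Agent.P202.Bdl.B4
import Vale.Agent.P202.Bdl.B7
import Vale.Agent.P202.Bdl.B2
attribute [-instance] DenselyNormedField.toNontriviallyNormedField DenselyNormedField.toNormedField NontriviallyNormedField.toNormedField RCLike.toDenselyNormedField NormedField.toField IdemCommSemiring.toCommSemiring NormedField.toNormedDivisionRing NormedDivisionRing.toDivisionRing DivisionRing.toDivisionSemiring IdemCommSemiring.toIdemSemiring KleeneAlgebra.toIdemSemiring CommSemiRingCat.instCommSemiringObjForgetRingHomCarrier SemiRingCat.instSemiringObjForgetRingHomCarrier NormedField.toNormedCommRing NormedCommRing.toNormedRing NormedDivisionRing.toNormedRing NormedCommRing.toSeminormedCommRing NormedRing.toSeminormedRing SeminormedCommRing.toSeminormedRing EuclideanDomain.toCommRing NormedCommRing.toCommRing SeminormedCommRing.toCommRing NormedRing.toRing SeminormedRing.toRing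 LinearOrderedAddCommGroupWithTop.instLinearOrderedAddCommMonoidWithTop LinearOrderedAddCommGroupWithTop.toAddCommMonoid Ring.toNonAssocRing NormedCommRing.toNonUnitalNormedCommRing NonUnitalNormedCommRing.toNonUnitalNormedRing NormedRing.toNonUnitalNormedRing CommSemiring.toNonAssocCommSemiring NonAssocCommRing.toNonAssocCommSemiring NonAssocCommSemiring.toNonAssocSemiring NonAssocRing.toNonAssocSemiring CommRing.toAddCommGroupWithOne AddCommGroupWithOne.toAddCommMonoidWithOne NonUnitalNormedCommRing.toNonUnitalSeminormedCommRing SeminormedCommRing.toNonUnitalSeminormedCommRing SemimoduleCat.isAddCommMonoid NonUnitalNormedRing.toNonUnitalSeminormedRing NonUnitalSeminormedCommRing.toNonUnitalSeminormedRing SeminormedRing.toNonUnitalSeminormedRing GradedMonoid.GradeZero.smul Pi.nonUnitalNonAssocSemiring NonUnitalNormedCommRing.toNonUnitalCommRing NonUnitalSeminormedCommRing.toNonUnitalCommRing NonUnitalNormedRing.toNonUnitalRing NonUnitalSeminormedRing.toNonUnitalRing Ring.toNonUnitalRing NonAssocCommRing.toNonUnitalNonAssocCommRing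 NonAssocRing.toNonUnitalNonAssocRing NonUnitalRing.toNonUnitalNonAssocRing NonUnitalRing.toNonUnitalSemiring Semiring.toNonUnitalSemiring NonAssocCommSemiring.toNonUnitalNonAssocCommSemiring NonUnitalNonAssocCommSemiring.toNonUnitalNonAssocSemiring AddCommMonoidWithOne.toAddCommMonoid LieAlgebra.toModule NormedSpace.toModule AbsoluteValue.funLike ModuleCat.instAddCommGroupCarrierMkOfSMul' NonUnitalNormedRing.toNormedAddCommGroup LinearOrderedAddCommGroupWithTop.toSubNegMonoid LieRing.toAddCommGroup NormedCommGroup.toNormedGroup NormedCommGroup.toSeminormedCommGroup NormedGroup.toSeminormedGroup SeminormedCommGroup.toSeminormedGroup AddCommGroupWithOne.toAddGroupWithOne Pi.seminormedAddCommGroup MonCat.monoidObj MulSemiringAction.toDistribMulAction ModuleCat.isModule NormedAlgebra.toAlgebra NormedAddCommGroup.toNormedAddGroup Pi.nonAssocSemiring CommGroup.toGroup NormedCommGroup.toCommGroup NormedGroup.toGroup SeminormedCommGroup.toCommGroup SeminormedGroup.toGroup instCoeT NonUnitalSeminormedRing.toSeminormedAddCommGroup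 NormedAddCommGroup.toSeminormedAddCommGroup instDistribSMul instSMulZeroClass NormedAddGroup.toSeminormedAddGroup SeminormedAddCommGroup.toSeminormedAddGroup AddCommGroupWithOne.toAddCommGroup NonUnitalNonAssocRing.toAddCommGroup NormedAddCommGroup.toAddCommGroup SeminormedAddCommGroup.toAddCommGroup NormedAlgebra.id EMetricSpace.toPseudoEMetricSpace MetricSpace.toEMetricSpace MetricSpace.toPseudoMetricSpace NonUnitalNormedRing.toMetricSpace NonUnitalSeminormedRing.toPseudoMetricSpace NormedAddCommGroup.toMetricSpace NormedAddGroup.toMetricSpace NormedCommGroup.toMetricSpace NormedDivisionRing.toMetricSpace NormedField.toMetricSpace NormedGroup.toMetricSpace NormedRing.toMetricSpace PseudoEMetricSpace.toUniformSpace PseudoMetricSpace.toPseudoEMetricSpace PseudoMetricSpace.toUniformSpace SeminormedAddCommGroup.toPseudoMetricSpace SeminormedAddGroup.toPseudoMetricSpace SeminormedCommGroup.toPseudoMetricSpace SeminormedGroup.toPseudoMetricSpace SeminormedRing.toPseudoMetricSpace UniformSpace.toTopologicalSpace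 Valued.toUniformSpace WithIdeal.instTopologicalSpace WithIdeal.instUniformSpace LinearOrderedCommGroupWithZero.toLinearOrderedCommMonoidWithZero AddOpposite.instAddZero NormedAddGroup.toAddGroup SeminormedAddGroup.toAddGroup LinearOrderedAddCommGroupWithTop.toSubtractionMonoid AddCancelCommMonoid.toAddCommMonoid AddCommGroup.toAddCancelCommMonoid ESeminormedAddCommMonoid.toAddCommMonoid SubtractionCommMonoid.toAddCommMonoid Pi.instTopForall CompleteAtomicBooleanAlgebra.toCompleteBooleanAlgebra RingCat.instRingObjForgetRingHomCarrier ENormedAddCommMonoid.toESeminormedAddCommMonoid NormedAddCommGroup.toENormedAddCommMonoid AddCancelCommMonoid.toAddCancelMonoid AddCancelCommMonoid.toAddLeftCancelMonoid AddCancelMonoid.toAddLeftCancelMonoid AddLeftCancelMonoid.toAddMonoid AddRightCancelMonoid.toAddMonoid ENormedAddCommMonoid.toENormedAddMonoid ENormedAddMonoid.toESeminormedAddMonoid ESeminormedAddCommMonoid.toESeminormedAddMonoid ESeminormedAddMonoid.toAddMonoid NormedAddGroup.toENormedAddMonoid TopologicalSpace.Compacts.instSetLike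 CommGroupWithZero.toGroupWithZero LinearOrderedCommGroupWithZero.toCommGroupWithZero Semifield.toCommGroupWithZero CompleteAtomicBooleanAlgebra.toCompletelyDistribLattice Filter.instMembership instNonUnitalAlgHomClassOfNonUnitalAlgEquivClass CompleteBooleanAlgebra.toBooleanAlgebra CompleteBooleanAlgebra.toCompleteDistribLattice CompletelyDistribLattice.toCompleteDistribLattice Pi.partialOrder instCoeTOfCoeDep CommGroupWithZero.toCommMonoidWithZero CommMonoidWithZero.toMonoidWithZero CommSemiring.toCommMonoidWithZero GroupWithZero.toMonoidWithZero LinearOrderedCommMonoidWithZero.toCommMonoidWithZero Pi.nonUnitalSemiring MonoidWithZero.toSemigroupWithZero NonUnitalNonAssocSemiring.toMulZeroClass SemigroupWithZero.toMulZeroClass BooleanAlgebra.toBiheytingAlgebra CompleteDistribLattice.toBiheytingAlgebra CompleteDistribLattice.toCoframe CompleteDistribLattice.toFrame CompleteLinearOrder.toBiheytingAlgebra CompletelyDistribLattice.toBiheytingAlgebra CompleteLinearOrder.toConditionallyCompleteLinearOrderBot CompleteBooleanAlgebra.toCompleteLattice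 Invertible.toNeZero LinearOrderedCommMonoidWithZero.toIsBotZeroClass NeZero.of_gt' Nat.AtLeastTwo.toNeZero Submodule.instOrderBot Torsor.toMulAction GradedMonoid.GradeZero.mulAction ConditionallyCompleteLinearOrderBot.toConditionallyCompleteLinearOrder OrderDual.instDivisionRing Algebra.TensorProduct.instNonAssocRing AddMonCat.addMonoidObj BiheytingAlgebra.toCoheytingAlgebra BiheytingAlgebra.toHeytingAlgebra BooleanAlgebra.toGeneralizedBooleanAlgebra CompleteLinearOrder.toCompleteLattice Order.Coframe.toCoheytingAlgebra Order.Coframe.toCompleteLattice Order.Frame.toCompleteLattice Order.Frame.toHeytingAlgebra OrderDual.instDivisionSemiring CompleteLinearOrder.toLinearOrder ConditionallyCompleteLinearOrder.toLinearOrder LinearOrderedAddCommGroupWithTop.toLinearOrder LinearOrderedCommMonoidWithZero.toLinearOrder MulSemiringActionSemiHomClass.toDistribMulActionSemiHomClass Pi.addMonoidWithOne instSMulCommClassOfIsScalarTower AddHom.addHomClass Algebra.Generators.instRing Nat.instAtLeastTwoHAddOfNat TwoSidedIdeal.instIsTwoSidedCoeOrderHomIdealAsIdeal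 CoheytingAlgebra.toGeneralizedCoheytingAlgebra GeneralizedBooleanAlgebra.toGeneralizedCoheytingAlgebra HeytingAlgebra.toGeneralizedHeytingAlgebra instCoeTC AddGrpCat.str AbsoluteValue.mulHomClass Nat.instNontrivial Nat.instOne Nat.Prime.one_lt' ValuationClass.toMonoidWithZeroHomClass instCoeTCOfCoe OrderAddMonoidHom.instAddMonoidHomClass IsScalarTower.to_smulCommClass' CommRing.toGrindCommRing Field.toGrindField Ring.toGrindRing MonoidWithZero.toMulActionWithZero instConditionallyCompletePartialOrderSup CompleteLattice.toCompleteSemilatticeInf CompleteLattice.toCompleteSemilatticeSup ConditionallyCompleteLattice.toConditionallyCompletePartialOrder ConditionallyCompleteLinearOrder.toConditionallyCompleteLattice ConditionallyCompletePartialOrder.toConditionallyCompletePartialOrderInf ConditionallyCompletePartialOrder.toConditionallyCompletePartialOrderSup Pi.instBotForall Fin.completeLinearOrder AddCommGroup.toGrindIntModule BooleanAlgebra.toDistribLattice ChainCompletePartialOrder.instOfCompleteLattice ChainCompletePartialOrder.instOmegaCompletePartialOrder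 ChainCompletePartialOrder.toPartialOrder CompleteLattice.toLattice CompleteLattice.toPartialOrder' CompletePartialOrder.toOmegaCompletePartialOrder CompleteSemilatticeInf.toPartialOrder CompleteSemilatticeSup.toPartialOrder ConditionallyCompletePartialOrderInf.toPartialOrder ConditionallyCompletePartialOrderSup.toPartialOrder GeneralizedBooleanAlgebra.toDistribLattice GeneralizedCoheytingAlgebra.toDistribLattice GeneralizedCoheytingAlgebra.toLattice GeneralizedHeytingAlgebra.toDistribLattice GeneralizedHeytingAlgebra.toLattice Lattice.toSemilatticeInf LinearOrder.toLattice OmegaCompletePartialOrder.toPartialOrder SemilatticeInf.toPartialOrder Order.Coframe.toDistribLattice Order.Frame.toDistribLattice Pi.normedCommutativeRing ContinuousSemilinearEquivClass.continuousSemilinearMapClass ContinuousSemilinearMapClass.toSemilinearMapClass RingHomClass.toLinearMapClassNNRat RingHomClass.toLinearMapClassRat SemilinearIsometryClass.toContinuousSemilinearMapClass SemilinearIsometryClass.toSemilinearMapClass Pi.seminormedCommRing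 MulEquivClass.toMonoidWithZeroHomClass MulRingSeminormClass.toMonoidWithZeroHomClass Pi.commRing MulSemiringAction.toMulDistribMulAction instOfNatAtLeastTwo Pi.instOne instCoeHTC instCoeHTCT TensorProduct.isScalarTower TensorProduct.isScalarTower_right Algebra.TensorProduct.right_isScalarTower Algebra.TensorProduct.instNonUnitalRing Pi.mulZeroOneClass AlgHomClass.linearMapClass NonUnitalAlgHomClass.instSemilinearMapClassOfNonUnitalAlgSemiHomClassToMonoidHomRingHom ENormedCommMonoid.toESeminormedCommMonoid NormedCommGroup.toENormedCommMonoid instSubsingleton IsEmpty.instSubsingleton Unique.instSubsingleton OrderRingHom.instRingHomClass CommSemiring.toGrindCommSemiring Semiring.toGrindSemiring Pi.distribMulAction' TensorProduct.instSMul AbsoluteValue.zeroHomClass instIsDedekindDomainOfIsDomainOfIsDedekindRing IsDedekindDomainDvr.isDedekindDomain Pi.instIdemCommSemiringForall Pi.normedRing instNonemptyOfMonad Pi.seminormedRing Fin.instBiheytingAlgebra instIsDomain CancelCommMonoid.toCancelMonoid CancelCommMonoid.toCommMonoid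 CancelCommMonoid.toLeftCancelMonoid CancelMonoid.toLeftCancelMonoid CancelMonoid.toRightCancelMonoid CommGroup.toCancelCommMonoid CommGroup.toCommMonoid CommGroup.toDivisionCommMonoid CommGroupWithZero.toDivisionCommMonoid CommMonoidWithZero.toCommMonoid DivInvMonoid.toMonoid DivInvOneMonoid.toDivInvMonoid DivisionCommMonoid.toCommMonoid DivisionCommMonoid.toDivisionMonoid DivisionMonoid.toDivInvMonoid DivisionMonoid.toDivInvOneMonoid DivisionRing.isDomain DivisionRing.toDivInvMonoid ENormedCommMonoid.toENormedMonoid ENormedMonoid.toESeminormedMonoid ESeminormedCommMonoid.toCommMonoid ESeminormedCommMonoid.toESeminormedMonoid ESeminormedMonoid.toMonoid EuclideanDomain.instIsDomain Field.isDomain Group.toCancelMonoid Group.toDivInvMonoid Group.toDivisionMonoid GroupWithZero.toDivInvMonoid GroupWithZero.toDivisionMonoid IsDedekindDomain.toIsDomain IsStrictOrderedRing.isDomain LeftCancelMonoid.toMonoid NormedGroup.toENormedMonoid RightCancelMonoid.toMonoid GradedMonoid.GradeZero.commMonoid GradedMonoid.GradeZero.monoid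 AddCommMonoid.toGrindNatModule MulZeroClass.toSMulWithZero Pi.nonAssocRing Field.henselian Field.instIsLocalRing HenselianLocalRing.toIsLocalRing IsDiscreteValuationRing.toIsLocalRing IsRegularLocalRing.instOfIsLocalRingOfIsDomainOfIsPrincipalIdealRing IsRegularLocalRing.toIsLocalRing ValuationRing.isLocalRing ContinuousAddMonoidHom.instCoeOutOfAddMonoidHomClassOfContinuousMapClass ContinuousMonoidHom.instCoeOutOfMonoidHomClassOfContinuousMapClass HomeomorphClass.instCoeOutHomeomorph IsometryClass.instCoeOutIsometryEquiv MonomialOrder.orderBot bot_nonempty infSet_to_nonempty instInhabitedOfMonad supSet_to_nonempty top_nonempty AddTorsor.nonempty ConnectedSpace.toNonempty IrreducibleSpace.toNonempty Nontrivial.to_nonempty One.instNonempty Torsor.nonempty Unique.instInhabited Zero.instNonempty CategoryTheory.IsConnected.is_nonempty LinOrd.str Pi.smulZeroClass' IsRegularRing.toIsNoetherian Algebra.TensorProduct.instNonUnitalNonAssocRing MulZeroClass.negZeroClass MulOpposite.instMulOne Pi.distribSMul' instIsNoetherianRingOfIsArtinianRing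 isNoetherian_of_finite isNoetherian_of_isNoetherianRing_of_finite isNoetherian_of_subsingleton IsDedekindDomainDvr.toIsNoetherian IsDedekindRing.toIsNoetherian IsRegularLocalRing.toIsNoetherian IsSemisimpleModule.instIsNoetherianOfFinite IsSimpleModule.instIsNoetherian PrincipalIdealRing.isNoetherianRing Ring.HasFiniteQuotients.instIsNoetherianRing instRingHomSurjectiveForallEvalRingHom Algebra.Generators.instIsScalarTowerRing Pi.instIdemSemiring Pi.instKleeneAlgebraForall instCoeOutOfCoeFun Pi.semigroup LinearMap.IsScalarTower.compatibleSMul' instFiniteOfFinitePresentation instFinitePresentation Algebra.instFiniteOfIsQuadraticExtension FiniteDimensional.finiteDimensional_self Module.instFiniteDimensionalOfIsReflexive NumberField.instFiniteDimensional Algebra.IsFiniteSplit.instFinitePresentation Module.Finite.of_finite Module.Finite.self Module.FinitePresentation.of_subsingleton Module.Invertible.instFinite RingHom.Finite.instFinite MulActionWithZero.toMulAction MulDistribMulAction.toMulAction instNontrivialOfCharZero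 DivisionRing.toNontrivial IsSimpleOrder.toNontrivial LinearOrderedAddCommGroupWithTop.toNontrivial SemilinearIsometryEquivClass.toSemilinearIsometryClass Pi.commMagma NonUnitalAlgHomClass.toNonUnitalRingHomClass RingEquivClass.toNonUnitalRingHomClass Fin.instCoheytingAlgebra Fin.instHeytingAlgebra instInfiniteOfUncountable CharZero.infinite Denumerable.instInfinite DivInvOneMonoid.toInvOneClass GroupWithZero.toNontrivial Infinite.instNontrivial InvOneClass.toOne IsAlgClosed.instInfinite IsOrderedRing.toIsStrictOrderedRing IsSimpleAddGroup.toNontrivial IsSimpleGroup.toNontrivial IsSimpleRing.instNontrivial IsStrictOrderedRing.toNontrivial NoMaxOrder.infinite NoMinOrder.infinite NontriviallyNormedField.infinite One.ofOfNat1 GradedMonoid.GradeZero.one Pi.mulZeroClass FloorSemiring.instCharZero IsStrictOrderedRing.toCharZero NumberField.to_charZero RCLike.charZero_rclike IsLocalRing.instFiniteResidueField Module.Invertible.inst RCLike.toDecidableEq LieAlgebra.ofAssociativeAlgebra AddGroup.instAddTorsor BooleanAlgebra.toBot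 BooleanAlgebra.toBoundedOrder BooleanAlgebra.toTop BoundedOrder.toOrderBot BoundedOrder.toOrderTop CategoryTheory.isConnected_of_nonempty_and_subsingleton CoheytingAlgebra.toBoundedOrder CoheytingAlgebra.toOrderTop CompleteLattice.toBoundedOrder CompletePartialOrder.toOrderBot CompletePartialOrder.toSupSet CompleteSemilatticeInf.toInfSet CompleteSemilatticeSup.toSupSet ConditionallyCompleteLattice.toInfSet ConditionallyCompleteLattice.toSupSet ConditionallyCompleteLinearOrderBot.toOrderBot ConditionallyCompletePartialOrderInf.toInfSet ConditionallyCompletePartialOrderSup.toSupSet GeneralizedBooleanAlgebra.toBot GeneralizedBooleanAlgebra.toOrderBot GeneralizedCoheytingAlgebra.toOrderBot GeneralizedHeytingAlgebra.toOrderTop Group.instTorsor HeytingAlgebra.toBoundedOrder HeytingAlgebra.toOrderBot IdemSemiring.toOrderBot IrreducibleSpace.connectedSpace LinearOrderedAddCommGroupWithTop.toOrderTop LinearOrderedCommMonoidWithZero.toOrderBot PathConnectedSpace.connectedSpace Preorder.smallCategory CategoryTheory.Groupoid.toCategory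 CategoryTheory.StrictBicategory.category IsSemisimpleRing.isSemisimpleModule AlgHom.instRingHomCompTripleComp instMulActionSemiHomClassMulActionHom coePNatNat instCoeHTCTOfCoeTailOfCoeHTC instCoeTailIntOfIntCast instCoeTailNatOfNatCast instCoeTailRatOfRatCast instNatCastNat DivisionRing.toNNRatCast DivisionRing.toRatCast DivisionSemiring.toNNRatCast LinearMapClass.instCoeToLinearMap NNRatCast.toCoeTail NonUnitalStarRingHomClass.instCoeHeadNonUnitalStarRingHom SemilinearMapClass.instCoeToSemilinearMap StarAlgEquivClass.instCoeHead StarRingEquivClass.instCoeHead Nat.Primes.coeNat Nat.Primes.coePNat Pi.instOrderTop Pi.instSemilatticeSup Pi.nonUnitalNonAssocRing Part.ofOptionDecidable Module.Finite.tensorProduct IsScalarTower.of_algHom Semigroup.isScalarTower SubfieldClass.toField SubfieldClass.toNormedField SubringClass.toCommRing SubringClass.toNormedCommRing SubringClass.toSeminormedCommRing SetLike.GradeZero.instCommRing AddCommSemigroup.toAddSemigroup AddLeftCancelMonoid.toAddLeftCancelSemigroup AddLeftCancelSemigroup.toAddSemigroup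 AddRightCancelSemigroup.toAddSemigroup Ring.toIntAlgebra Semiring.toNatAlgebra MulCharClass.toMonoidHomClass MulDistribMulActionSemiHomClass.toMonoidHomClass decidableEq_of_subsingleton of_isDiscreteValuationRing ValuationRing.instLinearOrderIdealOfDecidableLE ValuationRing.instOfIsLocalRingOfIsBezout ValuationRing.of_field ValuationRing.toPreValuationRing instIsSemisimpleModuleOfIsSimpleModule SubsemiringClass.toCommSemiring SetLike.GradeZero.instCommSemiring Algebra.TensorProduct.instAddCommGroupWithOne Std.DTreeMap.Raw.instSingletonSigma instFiniteProp instIsSemisimpleRingOfSubsingleton MulSemiringActionSemiHomClass.toRingHomClass RingEquivClass.toRingHomClass instIsDomainCyclotomicRing SubalgebraClass.normedRing SubalgebraClass.seminormedRing SubfieldClass.toDivisionRing SubringClass.toNormedRing SubringClass.toRing SubringClass.toSeminormedRing SetLike.GradeZero.instRing Pi.nonUnitalNormedCommRing Pi.nonUnitalNormedRing -- iprune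

set_option linter.all false

section

/-!
P202-CHARP, task T6: the Euler characteristic of the Frobenius pushforward.
-/

namespace Vale.Agent.P202.CharP

open Submodule TensorProduct IsLocalRing

section FrMod

/-- the module `N`, to be seen as an `A`-module through the `e`-th power of the Frobenius. -/
def FrM (p : ℕ) (e : ℕ) (N : Type*) : Type _ := (fun _ _ => N) p e

variable (p : ℕ) (e : ℕ)

instance (N : Type*) [AddCommGroup N] : AddCommGroup (FrM p e N) := inferInstanceAs (AddCommGroup N)

variable [Fact p.Prime] {A : Type*} [CommRing A]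

instance (N : Type*) [AddCommGroup N] [Module A N] : Module (Fr p A e) (FrM p e N) :=
  inferInstanceAs (Module A N)

variable [CharP A p]

instance (N : Type*) [AddCommGroup N] [Module A N] : Module A (FrM p e N) :=
  Module.compHom _ (algebraMap A (Fr p A e))

instance (N : Type*) [AddCommGroup N] [Module A N] :
    IsScalarTower A (Fr p A e) (FrM p e N) where
  smul_assoc a b x := by
    rw [Algebra.smul_def, mul_smul]
    rfl

end FrMod

section restrict

variable {A A' : Type*} [CommRing A] [CommRing A'] [Algebra A A']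

lemma kos_map : ∀ (n : ℕ) (x : Fin n → A) (a b : KIdx n),
    kos n (fun j => algebraMap A A' (x j)) a b = algebraMap A A' (kos n x a b)
  | 0, x, a, b => by simp [kos]
  | n + 1, x, Sum.inl a, Sum.inl b => by
    have := kos_map n (fun i => x i.succ) a b
    simpa [kos] using this
  | n + 1, x, Sum.inl a, Sum.inr b => by
    show (algebraMap A A' (x 0) • (1 : Matrix (KIdx n) (KIdx n) A')) a b =
      algebraMap A A' ((x 0 • (1 : Matrix (KIdx n) (KIdx n) A)) a b)
    rw [Matrix.smul_apply, Matrix.smul_apply, smul_eq_mul, smul_eq_mul, map_mul,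
      Matrix.one_apply, Matrix.one_apply]
    congr 1
    split_ifs <;> simp
  | n + 1, x, Sum.inr a, Sum.inl b => by simp [kos]
  | n + 1, x, Sum.inr a, Sum.inr b => by
    have := kos_map n (fun i => x i.succ) a b
    simpa [kos] using this

variable {N : Type*} [AddCommGroup N] [Module A N] [Module A' N] [IsScalarTower A A' N]

lemma act_restrict {n : ℕ} (x : Fin n → A) (f : KIdx n → N) :
    act (kos n (fun j => algebraMap A A' (x j))) N f = act (kos n x) N f := by
  ext a
  show ∑ b, _ = ∑ b, _
  refine Finset.sum_congr rfl fun b _ => ?_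
  rw [kos_map, algebraMap_smul]

lemma tot_restrict {n : ℕ} (x : Fin n → A) (f : KIdx n → N) :
    tot (kdeg n) (kos n (fun j => algebraMap A A' (x j))) (0 : N →ₗ[A'] N) f =
      tot (kdeg n) (kos n x) (0 : N →ₗ[A] N) f := by
  ext a
  show act _ N f a + _ = act _ N f a + _
  rw [act_restrict]
  rfl

lemma rl_restrict (X Y : Submodule A' N) (c : ℕ∞)
    (hc : Module.length A (↥Y ⧸ X.submoduleOf Y) = Module.length A' (↥Y ⧸ X.submoduleOf Y) * c) :
    rl (X.restrictScalars A) (Y.restrictScalars A) = rl X Y * c := by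
  rw [rl.eq_def X Y, ← hc]
  let f : ↥(Y.restrictScalars A) →ₗ[A] (↥Y ⧸ X.submoduleOf Y) :=
    (mkQ (X.submoduleOf Y)).restrictScalars A
  have hs : Function.Surjective f := by
    intro z
    obtain ⟨w, hw⟩ := mkQ_surjective (X.submoduleOf Y) z
    exact ⟨w, hw⟩
  have hk : LinearMap.ker f = (X.restrictScalars A).submoduleOf (Y.restrictScalars A) := by
    ext z
    rw [LinearMap.mem_ker]
    exact Submodule.Quotient.mk_eq_zero (X.submoduleOf Y) (x := (show ↥Y from z))
  exact rl_eq_length_of_surjective f hs hk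

lemma conc_restrict (X : Submodule A' N) (p : ℤ) :
    (conc X p).restrictScalars A = conc (X.restrictScalars A) p := by
  unfold conc
  split_ifs <;> rfl

lemma mem_lift_conc_restrict {n : ℕ} (X : Submodule A' N) (δ : ℤ) (f : KIdx n → N) :
    f ∈ lift (kdeg n) (conc (X.restrictScalars A)) δ ↔ f ∈ lift (kdeg n) (conc X) δ := by
  simp only [lift, Submodule.mem_pi]
  refine forall_congr' fun a => ?_
  rw [← conc_restrict]
  rfl

lemma kk_restrict {n : ℕ} (x : Fin n → A) (c : ℕ∞)
    (hc : ∀ X Y : Submodule A' (KIdx n → N), Module.length A (↥Y ⧸ X.submoduleOf Y) =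
      Module.length A' (↥Y ⧸ X.submoduleOf Y) * c) (i : ℤ) :
    kk x N i = kk (fun j => algebraMap A A' (x j)) N i * c := by
  unfold kk kh khs hh
  rw [← rl_restrict (A := A) _ _ c (hc _ _)]
  have hT : (⊤ : Submodule A N) = (⊤ : Submodule A' N).restrictScalars A := rfl
  have hB : (⊥ : Submodule A N) = (⊥ : Submodule A' N).restrictScalars A := rfl
  have hb : bb (tot (kdeg n) (kos n x) (0 : N →ₗ[A] N))
        (lift (kdeg n) (conc (⊤ : Submodule A N))) (lift (kdeg n) (conc (⊥ : Submodule A N))) i =
      (bb (tot (kdeg n) (kos n fun j => algebraMap A A' (x j)) (0 : N →ₗ[A'] N))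
        (lift (kdeg n) (conc (⊤ : Submodule A' N)))
        (lift (kdeg n) (conc (⊥ : Submodule A' N))) i).restrictScalars A := by
    ext f
    rw [Submodule.restrictScalars_mem]
    unfold bb
    rw [Submodule.mem_sup, Submodule.mem_sup]
    constructor
    · rintro ⟨u, ⟨v, hv, rfl⟩, w, hw, rfl⟩
      refine ⟨_, ⟨v, ?_, rfl⟩, w, ?_, ?_⟩
      · exact (mem_lift_conc_restrict (A := A) ⊤ _ v).mp hv
      · exact (mem_lift_conc_restrict (A := A) ⊥ _ w).mp hw
      · rw [tot_restrict]
    · rintro ⟨u, ⟨v, hv, rfl⟩, w, hw, rfl⟩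
      refine ⟨_, ⟨v, ?_, rfl⟩, w, ?_, ?_⟩
      · exact (mem_lift_conc_restrict (A := A) ⊤ _ v).mpr hv
      · exact (mem_lift_conc_restrict (A := A) ⊥ _ w).mpr hw
      · rw [tot_restrict]
  have hz : zz (tot (kdeg n) (kos n x) (0 : N →ₗ[A] N))
        (lift (kdeg n) (conc (⊤ : Submodule A N))) (lift (kdeg n) (conc (⊥ : Submodule A N))) i =
      (zz (tot (kdeg n) (kos n fun j => algebraMap A A' (x j)) (0 : N →ₗ[A'] N))
        (lift (kdeg n) (conc (⊤ : Submodule A' N)))
        (lift (kdeg n) (conc (⊥ : Submodule A' N))) i).restrictScalars A := by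
    ext f
    rw [Submodule.restrictScalars_mem]
    unfold zz
    rw [Submodule.mem_inf, Submodule.mem_inf, Submodule.mem_comap, Submodule.mem_comap,
      tot_restrict, hT, mem_lift_conc_restrict (A := A) ⊤, hB, mem_lift_conc_restrict (A := A) ⊥]
  rw [hb, hz]

end restrict

section Compare

variable (p : ℕ) [Fact p.Prime] {A : Type*} [CommRing A] [IsLocalRing A] [CharP A p]
  [CharP (ResidueField A) p]

end Compare

section dim

variable {A S : Type*} [CommRing A] [IsLocalRing A] [IsNoetherianRing A]
    [CommRing S] [IsLocalRing S] [IsNoetherianRing S] [Algebra A S]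
    [IsLocalHom (algebraMap A S)]

omit [IsNoetherianRing A] in
lemma span_minimal {n : ℕ} (y : Fin n → S) (hy : ∀ i, y i ∈ maximalIdeal S)
    (hyl : Module.length S (S ⧸ Ideal.span (Set.range y)) ≠ ⊤) :
    maximalIdeal S ∈ (Ideal.span (Set.range y)).minimalPrimes := by
  obtain ⟨s, hs⟩ := exists_pow_le_of_ell_ne_top (I := Ideal.span (Set.range y)) hyl
  refine ⟨⟨inferInstance, Ideal.span_le.mpr (by rintro _ ⟨i, rfl⟩; exact hy i)⟩, ?_⟩
  rintro P ⟨hP, hIP⟩ _
  exact hP.le_of_pow_le (hs.trans hIP)

lemma dim_le_of_span {n : ℕ} (y : Fin n → S) (hy : ∀ i, y i ∈ maximalIdeal S)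
    (hyl : Module.length S (S ⧸ Ideal.span (Set.range y)) ≠ ⊤) :
    (maximalIdeal S).height ≤ n := by
  classical
  have h := span_minimal y hy hyl
  have e : (Set.range y : Set S) = ((Finset.univ.image y : Finset S) : Set S) := by simp
  rw [e] at h
  refine (Ideal.height_le_card_of_mem_minimalPrimes_span_finset h).trans ?_
  exact_mod_cast Finset.card_image_le.trans (by simp)

/-- the fibre has finite length. -/
lemma exists_pow_le_fibre [Module.Flat A S] {n : ℕ} (hdim : ringKrullDim A = n)
    (y : Fin n → S) (hy : ∀ i, y i ∈ maximalIdeal S)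
    (hyl : Module.length S (S ⧸ Ideal.span (Set.range y)) ≠ ⊤) :
    ∃ s, maximalIdeal S ^ s ≤ (maximalIdeal A).map (algebraMap A S) := by
  have hA : (maximalIdeal A).height = n := by
    rw [← IsLocalRing.maximalIdeal_height_eq_ringKrullDim] at hdim
    exact_mod_cast hdim
  have hS := dim_le_of_span y hy hyl
  have hloc : IsLocalHom (algebraMap A S) := inferInstance
  have hle : (maximalIdeal A).map (algebraMap A S) ≤ maximalIdeal S :=
    ((IsLocalRing.local_hom_TFAE (algebraMap A S)).out 0 2).mp hloc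
  have hmin : maximalIdeal S ∈ ((maximalIdeal A).map (algebraMap A S)).minimalPrimes := by
    refine ⟨⟨inferInstance, hle⟩, ?_⟩
    rintro P ⟨hP, hIP⟩ -
    by_contra hne
    have hPm : P ≤ maximalIdeal S := le_maximalIdeal hP.ne_top
    have hlt : P < maximalIdeal S := lt_of_le_of_ne hPm (fun h => hne h.ge)
    have hover : P.LiesOver (maximalIdeal A) := by
      refine ⟨?_⟩
      have h5 : maximalIdeal A ≤ P.under A := Ideal.map_le_iff_le_comap.mp hIP
      have h6 : P.under A ≠ ⊤ := (hP.under A).ne_top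
      exact (IsLocalRing.maximalIdeal.isMaximal A).eq_of_le h6 h5
    have h1 := Ideal.height_eq_height_add_of_liesOver_of_hasGoingDown (maximalIdeal A) P
    have h2 : P.height < (maximalIdeal S).height :=
      Ideal.height_strict_mono_of_isPrime_of_isPrime hlt
    have h3 : (n : ℕ∞) ≤ P.height := by
      rw [h1, hA]
      exact le_self_add
    exact absurd (h3.trans_lt h2) (not_lt.mpr hS)
  have := IsLocalRing.quotient_artinian_of_mem_minimalPrimes_of_isLocalRing _ hmin
  exact exists_maximalIdeal_pow_le_of_isArtinianRing_quotient _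

lemma dim_quot_lt {n : ℕ} (hfib : ∃ s, maximalIdeal S ^ s ≤ (maximalIdeal A).map (algebraMap A S))
    (I : Ideal A) (hI : ringKrullDim (A ⧸ I) < n) :
    ringKrullDim (S ⧸ I.map (algebraMap A S)) < n := by
  have hloc : IsLocalHom (algebraMap A S) := inferInstance
  have hle : (maximalIdeal A).map (algebraMap A S) ≤ maximalIdeal S :=
    ((IsLocalRing.local_hom_TFAE (algebraMap A S)).out 0 2).mp hloc
  by_cases hIt : I = ⊤
  · have hs : Subsingleton (S ⧸ I.map (algebraMap A S)) := by
      rw [hIt, Ideal.map_top]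
      exact Ideal.Quotient.subsingleton_iff.mpr rfl
    rw [ringKrullDim_eq_bot_of_subsingleton]
    exact WithBot.bot_lt_coe _
  · have hn1 : Nontrivial (A ⧸ I) := Ideal.Quotient.nontrivial_iff.mpr hIt
    have hIm : I ≤ maximalIdeal A := le_maximalIdeal hIt
    have hIS : I.map (algebraMap A S) ≠ ⊤ := by
      intro h
      have h1 : (⊤ : Ideal S) ≤ maximalIdeal S := h ▸ (Ideal.map_mono hIm).trans hle
      exact (maximalIdeal.isMaximal S).ne_top (top_le_iff.mp h1)
    have hn2 : Nontrivial (S ⧸ I.map (algebraMap A S)) := Ideal.Quotient.nontrivial_iff.mpr hIS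
    have hl1 : IsLocalRing (A ⧸ I) :=
      IsLocalRing.of_surjective' (Ideal.Quotient.mk I) Ideal.Quotient.mk_surjective
    have hl2 : IsLocalRing (S ⧸ I.map (algebraMap A S)) :=
      IsLocalRing.of_surjective' (Ideal.Quotient.mk _) Ideal.Quotient.mk_surjective
    obtain ⟨d, hd⟩ : ∃ d : ℕ, ringKrullDim (A ⧸ I) = d := by
      have h0 : (0 : WithBot ℕ∞) ≤ ringKrullDim (A ⧸ I) := ringKrullDim_nonneg_of_nontrivial
      obtain ⟨m, hm⟩ := WithBot.ne_bot_iff_exists.mp (ne_bot_of_le_ne_bot (by simp) h0)
      rw [← hm] at hI ⊢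
      have hI' : m < (n : ℕ∞) := by exact_mod_cast hI
      obtain ⟨d, hd⟩ := ENat.ne_top_iff_exists.mp (ne_top_of_lt hI')
      exact ⟨d, by rw [← hd]; rfl⟩
    rw [hd] at hI
    obtain ⟨w, hw, s, hs⟩ := exists_parameters hd
    obtain ⟨t, ht⟩ := hfib
    let g : (A ⧸ I) →+* (S ⧸ I.map (algebraMap A S)) :=
      Ideal.quotientMap _ (algebraMap A S) Ideal.le_comap_map
    have hcA : (maximalIdeal (A ⧸ I)).comap (Ideal.Quotient.mk I) = maximalIdeal A :=
      IsLocalRing.eq_maximalIdeal
        (Ideal.comap_isMaximal_of_surjective _ Ideal.Quotient.mk_surjective)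
    have hcS : (maximalIdeal (S ⧸ I.map (algebraMap A S))).comap (Ideal.Quotient.mk _) =
        maximalIdeal S :=
      IsLocalRing.eq_maximalIdeal
        (Ideal.comap_isMaximal_of_surjective _ Ideal.Quotient.mk_surjective)
    have hmA : (maximalIdeal A).map (Ideal.Quotient.mk I) ≤ maximalIdeal (A ⧸ I) := by
      rw [Ideal.map_le_iff_le_comap, hcA]
    have hmS : maximalIdeal (S ⧸ I.map (algebraMap A S)) ≤
        (maximalIdeal S).map (Ideal.Quotient.mk (I.map (algebraMap A S))) := by
      intro z hz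
      obtain ⟨z, rfl⟩ := Ideal.Quotient.mk_surjective z
      refine Ideal.mem_map_of_mem _ ?_
      rw [← hcS]
      exact hz
    have h1 : maximalIdeal (S ⧸ I.map (algebraMap A S)) ^ t ≤ (maximalIdeal (A ⧸ I)).map g := by
      calc maximalIdeal (S ⧸ I.map (algebraMap A S)) ^ t ≤
          ((maximalIdeal S).map (Ideal.Quotient.mk _)) ^ t := Ideal.pow_right_mono hmS t
        _ = ((maximalIdeal S) ^ t).map (Ideal.Quotient.mk _) := (Ideal.map_pow _ _ _).symm
        _ ≤ ((maximalIdeal A).map (algebraMap A S)).map (Ideal.Quotient.mk _) := Ideal.map_mono ht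
        _ = ((maximalIdeal A).map (Ideal.Quotient.mk I)).map g := by
          rw [Ideal.map_map, Ideal.map_map]
          rfl
        _ ≤ _ := Ideal.map_mono hmA
    have h2 : maximalIdeal (S ⧸ I.map (algebraMap A S)) ^ (t * s) ≤
        Ideal.span (Set.range fun i => g (w i)) := by
      calc maximalIdeal (S ⧸ I.map (algebraMap A S)) ^ (t * s) =
          (maximalIdeal (S ⧸ I.map (algebraMap A S)) ^ t) ^ s := pow_mul _ _ _
        _ ≤ ((maximalIdeal (A ⧸ I)).map g) ^ s := Ideal.pow_right_mono h1 s
        _ = ((maximalIdeal (A ⧸ I)) ^ s).map g := (Ideal.map_pow _ _ _).symm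
        _ ≤ (Ideal.span (Set.range w)).map g := Ideal.map_mono hs
        _ = _ := by
          rw [Ideal.map_span, ← Set.range_comp]
          rfl
    have h3 := ell_ne_top_of_pow_le h2
    have h4 := dim_le_of_span (fun i => g (w i)) (fun i => ?_) h3
    · rw [← IsLocalRing.maximalIdeal_height_eq_ringKrullDim]
      refine lt_of_le_of_lt ?_ hI
      exact_mod_cast h4
    · obtain ⟨a, ha⟩ := Ideal.Quotient.mk_surjective (w i)
      have h5 : a ∈ maximalIdeal A := by
        rw [← hcA, Ideal.mem_comap, ha]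
        exact hw i
      have h6 : algebraMap A S a ∈ maximalIdeal S := hle (Ideal.mem_map_of_mem _ h5)
      rw [← hcS] at h6
      show g (w i) ∈ _
      rw [← ha]
      exact h6

end dim

section psi

variable {A S : Type*} [CommRing A] [IsLocalRing A] [IsNoetherianRing A]
    [CommRing S] [IsLocalRing S] [IsNoetherianRing S] [Algebra A S]
    [IsLocalHom (algebraMap A S)] {n : ℕ} (y : Fin n → S)

omit [IsLocalRing A] [IsNoetherianRing A] [IsLocalRing S] [IsNoetherianRing S]
  [IsLocalHom (algebraMap A S)] in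
lemma len_psi (hyl : Module.length S (S ⧸ Ideal.span (Set.range y)) ≠ ⊤) (N : Type*)
    [AddCommGroup N] [Module A N] [Module.Finite A N] :
    Module.length S ((S ⊗[A] N) ⧸ (Ideal.span (Set.range y) • (⊤ : Submodule S (S ⊗[A] N)))) ≠ ⊤ := by
  refine length_ne_top_of_killed hyl _ ?_
  intro r hr m
  obtain ⟨m, rfl⟩ := Submodule.Quotient.mk_surjective _ m
  rw [← Submodule.Quotient.mk_smul, Submodule.Quotient.mk_eq_zero]
  exact Submodule.smul_mem_smul hr Submodule.mem_top

omit [IsLocalRing A] [IsNoetherianRing A] [IsLocalRing S]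
  [IsLocalHom (algebraMap A S)] in
lemma kk_psi (hyl : Module.length S (S ⧸ Ideal.span (Set.range y)) ≠ ⊤) (N : Type*)
    [AddCommGroup N] [Module A N] [Module.Finite A N] (i : ℤ) : kk y (S ⊗[A] N) i ≠ ⊤ :=
  kk_ne_top y _ (len_psi y hyl N) i

omit [IsLocalRing A] [IsNoetherianRing A] [IsLocalRing S]
  [IsLocalHom (algebraMap A S)] in
lemma psi_add [Module.Flat A S] (hyl : Module.length S (S ⧸ Ideal.span (Set.range y)) ≠ ⊤)
    {N₁ N₂ N₃ : Type*} [AddCommGroup N₁] [Module A N₁] [Module.Finite A N₁]
    [AddCommGroup N₂] [Module A N₂] [Module.Finite A N₂]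
    [AddCommGroup N₃] [Module A N₃] [Module.Finite A N₃]
    (f : N₁ →ₗ[A] N₂) (g : N₂ →ₗ[A] N₃) (hf : Function.Injective f)
    (hg : Function.Surjective g) (hfg : Function.Exact f g) :
    kchi y (S ⊗[A] N₂) = kchi y (S ⊗[A] N₁) + kchi y (S ⊗[A] N₃) :=
  kchi_add y (f.baseChange S) (g.baseChange S)
    (Module.Flat.lTensor_preserves_injective_linearMap f hf)
    (LinearMap.lTensor_surjective S hg) (lTensor_exact S hfg hg)
    (kk_psi y hyl N₁) (kk_psi y hyl N₂) (kk_psi y hyl N₃)

omit [IsLocalRing A] [IsNoetherianRing A] [IsLocalRing S]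
  [IsLocalHom (algebraMap A S)] in
lemma psi_congr {N N' : Type*} [AddCommGroup N] [Module A N] [AddCommGroup N'] [Module A N']
    (e : N ≃ₗ[A] N') : kchi y (S ⊗[A] N) = kchi y (S ⊗[A] N') :=
  kchi_congr y (e.baseChange A S N N')

lemma psi_eq_zero (hfib : ∃ s, maximalIdeal S ^ s ≤ (maximalIdeal A).map (algebraMap A S))
    (hy : ∀ i, y i ∈ maximalIdeal S)
    (hyl : Module.length S (S ⧸ Ideal.span (Set.range y)) ≠ ⊤) (N : Type*)
    [AddCommGroup N] [Module A N] [Module.Finite A N] (I : Ideal A)
    (hIN : I ≤ Module.annihilator A N) (hI : ringKrullDim (A ⧸ I) < n) :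
    kchi y (S ⊗[A] N) = 0 := by
  refine kchi_eq_zero y hy _ (len_psi y hyl N) (lt_of_le_of_lt ?_ (dim_quot_lt hfib I hI))
  have h : I.map (algebraMap A S) ≤ Module.annihilator S (S ⊗[A] N) := by
    rw [Ideal.map_le_iff_le_comap]
    intro a ha
    rw [Ideal.mem_comap, Module.mem_annihilator]
    intro z
    rw [algebraMap_smul]
    induction z with
    | zero => rw [smul_zero]
    | add u v hu hv => rw [smul_add, hu, hv, add_zero]
    | tmul s v =>
      rw [← TensorProduct.tmul_smul, (Module.mem_annihilator.mp (hIN ha)) v, TensorProduct.tmul_zero]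
  exact ringKrullDim_le_of_surjective (Ideal.Quotient.factor h) (Ideal.Quotient.factor_surjective h)

end psi

section rho

variable {A S S' : Type*} [CommRing A] [IsLocalRing A] [IsNoetherianRing A]
    [CommRing S] [IsLocalRing S] [IsNoetherianRing S] [Algebra A S]
    [IsLocalHom (algebraMap A S)] [Module.Flat A S]
    [CommRing S'] [IsLocalRing S'] [IsNoetherianRing S'] [Algebra A S']
    [IsLocalHom (algebraMap A S')] [Module.Flat A S'] {n : ℕ} (y : Fin n → S) (y' : Fin n → S')

omit [IsLocalRing A] [IsNoetherianRing A] in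
lemma dim_quot_prime_lt {P Q : Ideal A} [P.IsPrime] (hPQ : P < Q)
    (hP : ringKrullDim (A ⧸ P) ≤ n) : ringKrullDim (A ⧸ Q) < n := by
  obtain ⟨a, haQ, haP⟩ := Set.exists_of_ssubset hPQ
  have h1 : (Ideal.Quotient.mk P a) ∈ nonZeroDivisors (A ⧸ P) := by
    rw [mem_nonZeroDivisors_iff_ne_zero]
    intro h
    exact haP (Ideal.Quotient.eq_zero_iff_mem.mp h)
  have h2 := ringKrullDim_quotient_succ_le_of_nonZeroDivisor h1
  have h3 : ringKrullDim (A ⧸ Q) ≤
      ringKrullDim ((A ⧸ P) ⧸ Ideal.span {Ideal.Quotient.mk P a}) := by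
    let g : ((A ⧸ P) ⧸ Ideal.span {Ideal.Quotient.mk P a}) →+* (A ⧸ Q) :=
      Ideal.Quotient.lift _ (Ideal.Quotient.factor hPQ.le) (by
        intro z hz
        obtain ⟨c, rfl⟩ := Ideal.mem_span_singleton'.mp hz
        rw [map_mul]
        have : Ideal.Quotient.factor hPQ.le (Ideal.Quotient.mk P a) = 0 :=
          Ideal.Quotient.eq_zero_iff_mem.mpr haQ
        rw [this, mul_zero])
    refine ringKrullDim_le_of_surjective g ?_
    intro z
    obtain ⟨z, rfl⟩ := Ideal.Quotient.mk_surjective z
    exact ⟨Ideal.Quotient.mk _ (Ideal.Quotient.mk _ z), rfl⟩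
  have h4 : ringKrullDim (A ⧸ Q) + 1 ≤ n := (add_le_add_left h3 1).trans (h2.trans hP)
  rcases eq_or_ne (ringKrullDim (A ⧸ Q)) ⊥ with h5 | h5
  · rw [h5]
    exact WithBot.bot_lt_coe _
  · obtain ⟨m, hm⟩ := WithBot.ne_bot_iff_exists.mp h5
    rw [← hm] at h4 ⊢
    have h6 : m + 1 ≤ (n : ℕ∞) := by exact_mod_cast h4
    have h7 : m < (n : ℕ∞) := by
      refine (ENat.add_one_le_iff ?_).mp h6
      rintro rfl
      simp at h6
    exact_mod_cast h7

end rho

section main

variable (p : ℕ) [Fact p.Prime]

end main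

end Vale.Agent.P202.CharP
end

section

/-!
P202-AK, task AK-9: lengths, Koszul homology and restriction of scalars along a relative
Frobenius.
-/

namespace Vale.Agent.P202.CharP.ArbK

open IsLocalRing TensorProduct

universe u

lemma algebraMap_RA {A R : Type*} [CommRing A] [CommRing R] (ρ : A →+* R) (a : A) :
    algebraMap A (RA ρ) a = toRA ρ (ρ a) := rfl

section RelF

variable (p : ℕ) [Fact p.Prime] {e : ℕ} {R A : Type u} [CommRing R] [IsLocalRing R]
  [IsNoetherianRing R] [CharP R p] [CommRing A] [IsLocalRing A] [IsNoetherianRing A]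
  [CharP A p] [Algebra R A] {ρ : A →+* R} (H : RelFrob p e R A ρ)

include H

/-- TASK AK-9: lengths, Koszul homology and restriction of scalars along `ρ`. -/
theorem relFrob_basic : ∃ _ : IsLocalHom (algebraMap A (RA ρ)), Module.Finite A (RA ρ) ∧
    Module.length (ResidueField A) (ResidueField (RA ρ)) = 1 := by
  have hloc : IsLocalHom (algebraMap A (RA ρ)) := by
    refine ⟨fun a ha => ?_⟩
    have h1 : IsUnit (ρ a) := ha
    have h2 : IsUnit (a ^ p ^ e) := by
      rw [← H.fr]
      exact h1.map _
    exact (isUnit_pow_iff (pow_ne_zero e (Fact.out : p.Prime).ne_zero)).1 h2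
  refine ⟨hloc, H.fin, ?_⟩
  have hs : Function.Surjective
      (Algebra.linearMap (ResidueField A) (ResidueField (RA ρ))) := by
    intro z
    obtain ⟨r, rfl⟩ := residue_surjective z
    obtain ⟨a, ha⟩ := H.res (show R from r)
    refine ⟨residue A a, ?_⟩
    change residue (RA ρ) (algebraMap A (RA ρ) a) = residue (RA ρ) r
    symm
    rw [← sub_eq_zero, ← map_sub, residue_eq_zero_iff]
    exact ha
  have hi : Function.Injective
      (Algebra.linearMap (ResidueField A) (ResidueField (RA ρ))) :=
    FaithfulSMul.algebraMap_injective (ResidueField A) (ResidueField (RA ρ))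
  rw [← (LinearEquiv.ofBijective _ ⟨hi, hs⟩).length_eq]
  exact Module.length_eq_one _ _

end RelF

/-- powers of `p` of the elements of a power of an ideal. -/
lemma pow_char_mem (p : ℕ) [Fact p.Prime] {R : Type*} [CommRing R] [CharP R p] {n : ℕ}
    (x : Fin n → R) (e Q : ℕ) {a : R} (ha : a ∈ Ideal.span (Set.range x) ^ Q) :
    a ^ p ^ e ∈ Ideal.span (Set.range fun j => x j ^ p ^ e) ^ Q := by
  have h1 : (iterateFrobenius R p e) a ∈
      (Ideal.span (Set.range x) ^ Q).map (iterateFrobenius R p e) := Ideal.mem_map_of_mem _ ha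
  rw [Ideal.map_pow, Ideal.map_span, ← Set.range_comp] at h1
  exact h1

section RelF

variable (p : ℕ) [Fact p.Prime] {e : ℕ} {R A : Type u} [CommRing R] [IsLocalRing R]
  [IsNoetherianRing R] [CharP R p] [CommRing A] [IsLocalRing A] [IsNoetherianRing A]
  [CharP A p] [Algebra R A] {ρ : A →+* R} (H : RelFrob p e R A ρ)

include H

/-- TASK AK-9: the maximal ideal of `A` acts through high powers. -/
theorem push_RA {n : ℕ} (x : Fin n → R) (e₁ e₂ : ℕ) (he : e = e₁ + e₂) (Q : ℕ)
    (hQ : ∀ a ∈ maximalIdeal R, a ^ p ^ e₁ ∈ Ideal.span (Set.range x) ^ Q) :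
    ∀ a ∈ maximalIdeal A, algebraMap A (RA ρ) a ∈
      Ideal.span (Set.range fun j => (toRA ρ (x j ^ p ^ e₂) : RA ρ)) ^ Q := by
  have h1 : maximalIdeal A ≤ (Ideal.span (Set.range fun j => (toRA ρ (x j ^ p ^ e₂) : RA ρ)) ^
      Q).comap (algebraMap A (RA ρ)) := by
    rw [H.max, Ideal.map_le_iff_le_comap]
    intro r hr
    rw [Ideal.mem_comap, Ideal.mem_comap, algebraMap_RA, H.rf, he, pow_add, pow_mul]
    exact pow_char_mem p x e₂ Q (hQ r hr)
  intro a ha
  exact h1 ha

end RelF

end Vale.Agent.P202.CharP.ArbK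
end

section

/-!
P202-G3, the rings `Ω = A'[X_0, .., X_r]` and `Σ = (S ⊗ A')[X_0, .., X_r]`.
-/

namespace Vale.Agent.P202.CharP.Gen2

open Submodule TensorProduct IsLocalRing Gen

universe u

/-- the ring `A'[X_0, .., X_r]`, an algebra over `F_p[X_0, .., X_r]`. -/
def OmR (p r : ℕ) (A' : Type u) [CommRing A'] : Type u :=
  (fun _ : ℕ => MvPolynomial (Fin (r + 1)) A') p

/-- the ring `(S ⊗ A')[X_0, .., X_r]`. -/
def SgR (p r : ℕ) (A S A' : Type u) [CommRing A] [CommRing S] [CommRing A'] [Algebra A S]
    [Algebra A A'] : Type u := (fun _ : ℕ => MvPolynomial (Fin (r + 1)) (S ⊗[A] A')) p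

section

variable (p r : ℕ) [Fact p.Prime] (A S A' : Type u) [CommRing A] [CommRing S] [CommRing A']
  [Algebra A S] [Algebra A A']

noncomputable instance : CommRing (OmR p r A') :=
  inferInstanceAs (CommRing (MvPolynomial (Fin (r + 1)) A'))

noncomputable instance : CommRing (SgR p r A S A') :=
  inferInstanceAs (CommRing (MvPolynomial (Fin (r + 1)) (S ⊗[A] A')))

noncomputable instance : Algebra A' (OmR p r A') :=
  inferInstanceAs (Algebra A' (MvPolynomial (Fin (r + 1)) A'))

noncomputable instance : Algebra A (OmR p r A') :=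
  inferInstanceAs (Algebra A (MvPolynomial (Fin (r + 1)) A'))

noncomputable instance : Algebra A (SgR p r A S A') :=
  inferInstanceAs (Algebra A (MvPolynomial (Fin (r + 1)) (S ⊗[A] A')))

noncomputable instance : Algebra S (SgR p r A S A') :=
  inferInstanceAs (Algebra S (MvPolynomial (Fin (r + 1)) (S ⊗[A] A')))

/-- the map `F_p[X] → A'[X]`. -/
noncomputable def toOm [CharP A' p] : PP (ZMod p) r →+* OmR p r A' :=
  MvPolynomial.map (ZMod.castHom (dvd_refl p) A')

/-- the map `A'[X] → (S ⊗ A')[X]`. -/
noncomputable def toSg : OmR p r A' →+* SgR p r A S A' :=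
  MvPolynomial.map (Algebra.TensorProduct.includeRight : A' →ₐ[A] S ⊗[A] A').toRingHom

noncomputable instance [CharP A' p] : Algebra (PP (ZMod p) r) (OmR p r A') :=
  (toOm p r A').toAlgebra

noncomputable instance : Algebra (OmR p r A') (SgR p r A S A') := (toSg p r A S A').toAlgebra

noncomputable instance [CharP A' p] : Algebra (PP (ZMod p) r) (SgR p r A S A') :=
  ((toSg p r A S A').comp (toOm p r A')).toAlgebra

/-- constants. -/
noncomputable def cOm : A' →+* OmR p r A' := MvPolynomial.C

/-- constants. -/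
noncomputable def cSg : (S ⊗[A] A') →+* SgR p r A S A' := MvPolynomial.C

/-- variables. -/
noncomputable def xOm (l : Fin (r + 1)) : OmR p r A' :=
  (MvPolynomial.X l : MvPolynomial (Fin (r + 1)) A')

variable {A'} in
/-- the elements `z_l - X_l`. -/
noncomputable def vz (z : Fin (r + 1) → A') (l : Fin (r + 1)) : OmR p r A' :=
  cOm p r A' (z l) - xOm p r A' l

variable {S A'} in
/-- the list `(y, z - X)` in `Σ`. -/
noncomputable def LL (y : Fin (r + 1) → S) (z : Fin (r + 1) → A') :
    Fin ((r + 1) + (r + 1)) → SgR p r A S A' :=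
  cat (fun l => algebraMap (OmR p r A') (SgR p r A S A') (vz p r z l)) (r + 1)
    fun l => algebraMap S (SgR p r A S A') (y l)

end

end Vale.Agent.P202.CharP.Gen2
end

section

/-!
P202-G3-H8: the list `(y, z - X)` in `Σ`.
-/

namespace Vale.Agent.P202.CharP.Gen2

open Submodule TensorProduct IsLocalRing Gen

universe u

lemma listO_cat_left {S : Type*} {m : ℕ} (u : Fin m → S) (j : Fin m) (k : ℕ) :
    ∀ y : Fin k → S, u j ∈ Set.range (cat u k y) := by
  induction k with
  | zero => exact fun _ => ⟨j, rfl⟩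
  | succ k ih =>
    intro y
    obtain ⟨i, hi⟩ := ih (fun i => y i.succ)
    exact ⟨i.succ, by rw [← hi]; rfl⟩

lemma listO_cat_right {S : Type*} {m : ℕ} (u : Fin m → S) (k : ℕ) :
    ∀ (y : Fin k → S) (j : Fin k), y j ∈ Set.range (cat u k y) := by
  induction k with
  | zero => exact fun _ j => j.elim0
  | succ k ih =>
    intro y j
    refine Fin.cases ⟨0, rfl⟩ (fun j' => ?_) j
    obtain ⟨i, hi⟩ := ih (fun i => y i.succ) j'
    exact ⟨i.succ, by rw [← hi]; rfl⟩

lemma listO_sup_pow {R : Type*} [CommRing R] (I J : Ideal R) (n : ℕ) :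
    (I ⊔ J) ^ n ≤ I ⊔ J ^ n := by
  induction n with
  | zero => simp
  | succ n ih =>
    calc (I ⊔ J) ^ (n + 1) = (I ⊔ J) ^ n * (I ⊔ J) := pow_succ _ _
      _ ≤ (I ⊔ J ^ n) * (I ⊔ J) := Ideal.mul_mono_left ih
      _ ≤ I ⊔ J ^ (n + 1) := by
        rw [Ideal.sup_mul, Ideal.mul_sup, Ideal.mul_sup, pow_succ]
        refine sup_le (sup_le ?_ ?_) (sup_le ?_ ?_)
        · exact le_sup_of_le_left Ideal.mul_le_right
        · exact le_sup_of_le_left Ideal.mul_le_left
        · exact le_sup_of_le_left Ideal.mul_le_right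
        · exact le_sup_right

lemma listO_push {R T P ι : Type*} [CommRing R] [CommRing T] [CommRing P] (c : R →+* T)
    (z : ι → R) (v x : ι → T) (h : ∀ l, c (z l) = v l + x l) (f : P →+* T) (m : Ideal P)
    (hx : ∀ l, x l ∈ m.map f) (Q : ℕ) (a : R) (ha : a ∈ Ideal.span (Set.range z) ^ Q) :
    c a ∈ Ideal.span (Set.range v) ⊔ (m ^ Q).map f := by
  have h1 : c a ∈ (Ideal.span (Set.range z) ^ Q).map c := Ideal.mem_map_of_mem c ha
  rw [Ideal.map_pow, Ideal.map_span] at h1
  have h2 : Ideal.span (c '' Set.range z) ≤ Ideal.span (Set.range v) ⊔ m.map f := by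
    rw [Ideal.span_le]
    rintro _ ⟨_, ⟨l, rfl⟩, rfl⟩
    rw [SetLike.mem_coe, h l]
    exact add_mem (Ideal.mem_sup_left (Ideal.subset_span ⟨l, rfl⟩))
      (Ideal.mem_sup_right (hx l))
  rw [Ideal.map_pow]
  exact listO_sup_pow _ _ Q (Ideal.pow_right_mono h2 Q h1)

/-- a finite module killed by an ideal of finite colength has finite length. -/
lemma listO_length_ne_top_of_killed {S : Type*} [CommRing S] {I : Ideal S}
    (hfin : Module.length S (S ⧸ I) ≠ ⊤)
    (M : Type*) [AddCommGroup M] [Module S M] [Module.Finite S M]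
    (hI : ∀ r ∈ I, ∀ m : M, r • m = 0) : Module.length S M ≠ ⊤ := by
  obtain ⟨n, π, hπ⟩ := Module.Finite.exists_fin' S M
  let g : Fin n → ((S ⧸ I) →ₗ[S] M) := fun i =>
    Submodule.liftQ I (LinearMap.toSpanSingleton S M (π (Pi.single i 1))) (by
      intro r hr
      rw [LinearMap.mem_ker, LinearMap.toSpanSingleton_apply]
      exact hI r hr _)
  let G : (Fin n → (S ⧸ I)) →ₗ[S] M := LinearMap.lsum S (fun _ => S ⧸ I) S g
  have hG : Function.Surjective G := by
    intro m
    obtain ⟨v, rfl⟩ := hπ m
    refine ⟨fun i => Submodule.Quotient.mk (v i), ?_⟩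
    have h0 : G (fun i => Submodule.Quotient.mk (v i)) =
        ∑ i, g i (Submodule.Quotient.mk (v i)) := by
      simp [G, LinearMap.lsum_apply]
    have h1 : ∀ i, g i (Submodule.Quotient.mk (v i)) = v i • π (Pi.single i 1) := fun i => rfl
    rw [h0]
    simp only [h1, ← map_smul, ← map_sum]
    congr 1
    ext j
    simp [Finset.sum_apply, Pi.single_apply]
  have h2 : Module.length S (Fin n → (S ⧸ I)) ≠ ⊤ := by
    rw [Module.length_pi]
    refine WithTop.mul_ne_top ?_ hfin
    rw [ENat.card_eq_coe_fintype_card]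
    exact ENat.natCast_ne_top _
  exact ne_top_of_le_ne_top h2 (Module.length_le_of_surjective G hG)

/-- lengths of quotients of polynomial rings. -/
lemma listO_length {S T R : Type*} [CommRing S] [CommRing T] [CommRing R] [Algebra S T]
    [Algebra S R] [Module.Finite S T] (I : Ideal S) (hI : Module.length S (S ⧸ I) ≠ ⊤)
    (c : T →+* R) (hc : ∀ s, c (algebraMap S T s) = algebraMap S R s) (J : Ideal R)
    (hIJ : I.map (algebraMap S R) ≤ J) (hsurj : ∀ x : R, ∃ t : T, x - c t ∈ J) :
    Module.length R (R ⧸ J) ≠ ⊤ := by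
  have h1 : Module.length R (R ⧸ J) ≤ Module.length S (R ⧸ J) := by
    have h2 := Submodule.length_le_length_restrictScalars S (⊤ : Submodule R (R ⧸ J))
    rw [Submodule.restrictScalars_top, Module.length_top, Module.length_top] at h2
    exact h2
  refine ne_top_of_le_ne_top ?_ h1
  let g : T →ₗ[S] (R ⧸ J) :=
    { toFun := fun t => Ideal.Quotient.mk J (c t)
      map_add' := fun a b => by rw [map_add, map_add]
      map_smul' := fun s t => by
        rw [Algebra.smul_def, map_mul, hc, RingHom.id_apply, Algebra.smul_def, map_mul]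
        rfl }
  have hg : Function.Surjective g := by
    intro y
    obtain ⟨x, rfl⟩ := Ideal.Quotient.mk_surjective y
    obtain ⟨t, ht⟩ := hsurj x
    exact ⟨t, (Ideal.Quotient.eq.2 ht).symm⟩
  have : Module.Finite S (R ⧸ J) := Module.Finite.of_surjective g hg
  refine listO_length_ne_top_of_killed hI (R ⧸ J) fun a ha m => ?_
  obtain ⟨x, rfl⟩ := Ideal.Quotient.mk_surjective m
  rw [Algebra.smul_def]
  show Ideal.Quotient.mk J (algebraMap S R a) * Ideal.Quotient.mk J x = 0
  rw [← map_mul, Ideal.Quotient.eq_zero_iff_mem]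
  exact Ideal.mul_mem_right _ _ (hIJ (Ideal.mem_map_of_mem _ ha))

section

variable (p r : ℕ) [Fact p.Prime] {A S A' : Type u} [CommRing A] [CommRing S] [CommRing A']
  [Algebra A S] [Algebra A A'] [CharP A' p]

lemma listO_algebraMap_Om (a : A) :
    algebraMap A (OmR p r A') a = cOm p r A' (algebraMap A A' a) := rfl

lemma listO_X_Om (l : Fin (r + 1)) :
    algebraMap (PP (ZMod p) r) (OmR p r A') (MvPolynomial.X l) = xOm p r A' l :=
  MvPolynomial.map_X _ l

/-- TASK G3-H8: `m_A` acts through high powers of the variables. -/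
theorem push_Om [IsLocalRing A] (z : Fin (r + 1) → A') (Q : ℕ)
    (hz : ∀ a ∈ maximalIdeal A, algebraMap A A' a ∈ Ideal.span (Set.range z) ^ Q) :
    ∀ a ∈ maximalIdeal A, algebraMap A (OmR p r A') a ∈
      Ideal.span (Set.range (vz p r z)) ⊔
        ((mX (ZMod p) r) ^ Q).map (algebraMap (PP (ZMod p) r) (OmR p r A')) := by
  intro a ha
  rw [listO_algebraMap_Om]
  refine listO_push (cOm p r A') z (vz p r z) (xOm p r A') (fun l => ?_)
    (algebraMap (PP (ZMod p) r) (OmR p r A')) (mX (ZMod p) r) (fun l => ?_) Q _ (hz a ha)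
  · unfold vz
    ring
  · rw [← listO_X_Om]
    exact Ideal.mem_map_of_mem _ (Ideal.subset_span ⟨l, rfl⟩)

lemma listO_vz_Sg (z : Fin (r + 1) → A') (l : Fin (r + 1)) :
    algebraMap (OmR p r A') (SgR p r A S A') (vz p r z l) =
      cSg p r A S A' ((1 : S) ⊗ₜ[A] z l) -
        algebraMap (PP (ZMod p) r) (SgR p r A S A') (MvPolynomial.X l) := by
  have h1 : algebraMap (PP (ZMod p) r) (SgR p r A S A') (MvPolynomial.X l) =
      toSg p r A S A' (xOm p r A' l) := by
    rw [← listO_X_Om]
    rfl
  have h2 : toSg p r A S A' (cOm p r A' (z l)) = cSg p r A S A' ((1 : S) ⊗ₜ[A] z l) :=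
    MvPolynomial.map_C _ _
  have h3 : algebraMap (OmR p r A') (SgR p r A S A') (vz p r z l) =
      toSg p r A S A' (cOm p r A' (z l) - xOm p r A' l) := rfl
  rw [h3, map_sub, h2, h1]

lemma listO_cSg_algebraMap (s : S) :
    cSg p r A S A' (algebraMap S (S ⊗[A] A') s) = algebraMap S (SgR p r A S A') s := rfl

/-- TASK G3-H8: a power of each variable lies in the ideal of the list. -/
theorem X_pow_mem (y : Fin (r + 1) → S) (z : Fin (r + 1) → A') (N₀ : ℕ)
    (hz : ∀ l, (1 : S) ⊗ₜ[A] (z l ^ N₀) ∈
      (Ideal.span (Set.range y)).map (algebraMap S (S ⊗[A] A'))) (l : Fin (r + 1)) :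
    (algebraMap (PP (ZMod p) r) (SgR p r A S A') (MvPolynomial.X l)) ^ N₀ ∈
      Ideal.span (Set.range (LL p r A y z)) := by
  set X := algebraMap (PP (ZMod p) r) (SgR p r A S A') (MvPolynomial.X l) with hX
  set c := cSg p r A S A' ((1 : S) ⊗ₜ[A] z l) with hc
  have h1 : c - X ∈ Ideal.span (Set.range (LL p r A y z)) := by
    rw [hc, hX, ← listO_vz_Sg]
    exact Ideal.subset_span (listO_cat_left
      (fun l => algebraMap (OmR p r A') (SgR p r A S A') (vz p r z l)) l (r + 1) _)
  have h2 : c ^ N₀ ∈ Ideal.span (Set.range (LL p r A y z)) := by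
    have h3 : c ^ N₀ = cSg p r A S A' ((1 : S) ⊗ₜ[A] (z l ^ N₀)) := by
      rw [hc, ← map_pow, Algebra.TensorProduct.tmul_pow, one_pow]
    have h4 : cSg p r A S A' ((1 : S) ⊗ₜ[A] (z l ^ N₀)) ∈
        ((Ideal.span (Set.range y)).map (algebraMap S (S ⊗[A] A'))).map (cSg p r A S A') :=
      Ideal.mem_map_of_mem _ (hz l)
    rw [h3]
    rw [Ideal.map_map, Ideal.map_span] at h4
    refine Ideal.span_le.2 ?_ h4
    rintro _ ⟨_, ⟨j, rfl⟩, rfl⟩
    exact Ideal.subset_span (listO_cat_right
      (fun l => algebraMap (OmR p r A') (SgR p r A S A') (vz p r z l)) (r + 1)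
      (fun l => algebraMap S (SgR p r A S A') (y l)) j)
  have h5 : c ^ N₀ - X ^ N₀ ∈ Ideal.span (Set.range (LL p r A y z)) :=
    Ideal.mem_of_dvd _ (sub_dvd_pow_sub_pow c X N₀) h1
  have h6 := sub_mem h2 h5
  rwa [sub_sub_cancel] at h6

variable (A S A') in
/-- the identity. -/
noncomputable def listO_i : MvPolynomial (Fin (r + 1)) (S ⊗[A] A') →+* SgR p r A S A' :=
  RingHom.id (MvPolynomial (Fin (r + 1)) (S ⊗[A] A'))

/-- TASK G3-H8: the list generates an ideal of finite colength. -/
theorem length_LL [IsNoetherianRing S] [IsLocalRing S] [Module.Finite A A']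
    (y : Fin (r + 1) → S) (z : Fin (r + 1) → A')
    (hyl : Module.length S (S ⧸ Ideal.span (Set.range y)) ≠ ⊤) :
    Module.length (SgR p r A S A')
      (SgR p r A S A' ⧸ Ideal.span (Set.range (LL p r A y z))) ≠ ⊤ := by
  refine listO_length (Ideal.span (Set.range y)) hyl (cSg p r A S A')
    (listO_cSg_algebraMap p r) _ ?_ ?_
  · rw [Ideal.map_span, Ideal.span_le]
    rintro _ ⟨_, ⟨j, rfl⟩, rfl⟩
    exact Ideal.subset_span (listO_cat_right
      (fun l => algebraMap (OmR p r A') (SgR p r A S A') (vz p r z l)) (r + 1)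
      (fun l => algebraMap S (SgR p r A S A') (y l)) j)
  · have key : ∀ x : MvPolynomial (Fin (r + 1)) (S ⊗[A] A'), ∃ t : S ⊗[A] A',
        listO_i p r A S A' x - cSg p r A S A' t ∈
          Ideal.span (Set.range (LL p r A y z)) := by
      intro x
      induction x using MvPolynomial.induction_on with
      | C a =>
        refine ⟨a, ?_⟩
        have h : listO_i p r A S A' (MvPolynomial.C a) - cSg p r A S A' a = 0 :=
          sub_self _
        rw [h]
        exact zero_mem _
      | add f g hf hg =>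
        obtain ⟨t, ht⟩ := hf
        obtain ⟨t', ht'⟩ := hg
        refine ⟨t + t', ?_⟩
        rw [map_add, map_add, ← sub_add_sub_comm]
        exact add_mem ht ht'
      | mul_X f n hf =>
        obtain ⟨t, ht⟩ := hf
        refine ⟨t * ((1 : S) ⊗ₜ[A] z n), ?_⟩
        have h1 := listO_vz_Sg p r (A := A) (S := S) z n
        have h0 : algebraMap (PP (ZMod p) r) (SgR p r A S A') (MvPolynomial.X n) =
            listO_i p r A S A' (MvPolynomial.X n) := by
          show toSg p r A S A' (toOm p r A' (MvPolynomial.X n)) = _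
          have e1 : toOm p r A' (MvPolynomial.X n) = xOm p r A' n := listO_X_Om p r n
          rw [e1]
          exact MvPolynomial.map_X _ n
        rw [h0] at h1
        have h2 : (cSg p r A S A' ((1 : S) ⊗ₜ[A] z n)) -
            listO_i p r A S A' (MvPolynomial.X n) ∈
              Ideal.span (Set.range (LL p r A y z)) := by
          rw [← h1]
          exact Ideal.subset_span (listO_cat_left
            (fun l => algebraMap (OmR p r A') (SgR p r A S A') (vz p r z l)) n (r + 1) _)
        have h : listO_i p r A S A' (f * MvPolynomial.X n) -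
            cSg p r A S A' (t * ((1 : S) ⊗ₜ[A] z n)) =
            listO_i p r A S A' (MvPolynomial.X n) *
              (listO_i p r A S A' f - cSg p r A S A' t) -
            cSg p r A S A' t * ((cSg p r A S A' ((1 : S) ⊗ₜ[A] z n)) -
              listO_i p r A S A' (MvPolynomial.X n)) := by
          rw [map_mul, map_mul]
          ring
        rw [h]
        exact sub_mem (Ideal.mul_mem_left _ _ ht) (Ideal.mul_mem_left _ _ h2)
    exact key

end

end Vale.Agent.P202.CharP.Gen2
end

section

/-!
P202-G3, G3-H2: the product Koszul complex as a total complex.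
-/

namespace Vale.Agent.P202.CharP.Gen2

open Submodule TensorProduct IsLocalRing Gen

section Equiv

variable {S 𝕋 𝕋' : Type*} [CommRing S] [AddCommGroup 𝕋] [Module S 𝕋] [AddCommGroup 𝕋']
  [Module S 𝕋']

/-- relative homology under an isomorphism. -/
theorem hh_equiv (e : 𝕋 ≃ₗ[S] 𝕋') (D : 𝕋 →ₗ[S] 𝕋) (D' : 𝕋' →ₗ[S] 𝕋')
    (he : ∀ x, D' (e x) = e (D x)) (Y X : ℤ → Submodule S 𝕋) (Y' X' : ℤ → Submodule S 𝕋')
    (hY : ∀ δ x, e x ∈ Y' δ ↔ x ∈ Y δ) (hX : ∀ δ x, e x ∈ X' δ ↔ x ∈ X δ) (δ : ℤ) :
    hh D Y X δ = hh D' Y' X' δ := by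
  have hYm : ∀ δ, (Y δ).map e.toLinearMap = Y' δ := by
    intro δ
    ext y
    constructor
    · rintro ⟨x, hx, rfl⟩
      exact (hY δ x).mpr hx
    · intro hy
      refine ⟨e.symm y, ?_, e.apply_symm_apply y⟩
      have := (hY δ (e.symm y)).mp (by rwa [e.apply_symm_apply])
      exact this
  have hXm : ∀ δ, (X δ).map e.toLinearMap = X' δ := by
    intro δ
    ext y
    constructor
    · rintro ⟨x, hx, rfl⟩
      exact (hX δ x).mpr hx
    · intro hy
      refine ⟨e.symm y, ?_, e.apply_symm_apply y⟩
      have := (hX δ (e.symm y)).mp (by rwa [e.apply_symm_apply])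
      exact this
  have hzz : (zz D Y X δ).map e.toLinearMap = zz D' Y' X' δ := by
    ext y
    constructor
    · rintro ⟨x, hx, rfl⟩
      obtain ⟨h1, h2⟩ := Submodule.mem_inf.mp hx
      refine Submodule.mem_inf.mpr ⟨(hY δ x).mpr h1, ?_⟩
      rw [Submodule.mem_comap]
      change D' (e x) ∈ _
      rw [he, hX]
      exact h2
    · intro hy
      obtain ⟨h1, h2⟩ := Submodule.mem_inf.mp hy
      refine ⟨e.symm y, Submodule.mem_inf.mpr ⟨?_, ?_⟩, e.apply_symm_apply y⟩
      · rw [← hY, e.apply_symm_apply]; exact h1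
      · rw [Submodule.mem_comap, ← hX, ← he, e.apply_symm_apply]; exact h2
  have hcomp : D'.comp e.toLinearMap = e.toLinearMap.comp D := LinearMap.ext he
  have hbb : (bb D Y X δ).map e.toLinearMap = bb D' Y' X' δ := by
    unfold bb
    rw [Submodule.map_sup, hXm, ← hYm (δ + 1), ← Submodule.map_comp, ← Submodule.map_comp, hcomp]
  unfold hh
  rw [← hzz, ← hbb]
  exact (rl_map_of_injective e.toLinearMap e.injective _ _).symm

end Equiv

section Pm

variable {S : Type*} [CommRing S] {M : Type*} [AddCommGroup M] [Module S M]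

/-- TASK G3-H2: the product complex as a total complex. -/
theorem khs_pm (n : ℕ) (y v : Fin n → S) (Y X : Submodule S M) (i : ℤ) :
    khs (pdegP n) (pm n y v) Y X i =
      hh (tot (kdeg n) (kos n y) (act (kos n v) M)) (lift (kdeg n) (KF n Y))
        (lift (kdeg n) (KF n X)) i := by
  unfold khs
  have hl : ∀ (Z : Submodule S M) (δ : ℤ) (f : KIdx n × KIdx n → M),
      LinearEquiv.curry S M (KIdx n) (KIdx n) f ∈ lift (kdeg n) (KF n Z) δ ↔
        f ∈ lift (pdegP n) (conc Z) δ := by
    intro Z δ f
    rw [mem_lift, mem_lift]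
    constructor
    · rintro h ⟨a, b⟩
      have h1 := h a
      unfold KF at h1
      rw [mem_lift] at h1
      have h2 := h1 b
      have e : pdegP n (a, b) - δ = kdeg n b - -(kdeg n a - δ) := by
        unfold pdegP; ring
      rw [e]
      exact h2
    · intro h a
      unfold KF
      rw [mem_lift]
      intro b
      have h2 := h (a, b)
      have e : pdegP n (a, b) - δ = kdeg n b - -(kdeg n a - δ) := by
        unfold pdegP; ring
      rw [e] at h2
      exact h2
  refine hh_equiv (LinearEquiv.curry S M (KIdx n) (KIdx n)) _ _ ?_ _ _ _ _ (hl Y) (hl X) i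
  intro f
  ext a b
  have e1 : (tot (kdeg n) (kos n y) (act (kos n v) M)
      (LinearEquiv.curry S M (KIdx n) (KIdx n) f)) a b =
      ∑ a', kos n y a a' • f (a', b) +
        ((kdeg n a).negOnePow : ℤ) • ∑ b', kos n v b b' • f (a, b') := by
    rw [tot_apply, Pi.add_apply, Finset.sum_apply]
    rfl
  have e2 : (LinearEquiv.curry S M (KIdx n) (KIdx n)
      (tot (pdegP n) (pm n y v) (0 : M →ₗ[S] M) f)) a b =
      ∑ x', pm n y v (a, b) x' • f x' := by
    change tot (pdegP n) (pm n y v) (0 : M →ₗ[S] M) f (a, b) = _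
    rw [tot_zero_apply]
  rw [e1, e2, Fintype.sum_prod_type]
  simp only [pm, add_smul, Finset.sum_add_distrib, ite_smul, zero_smul]
  congr 1
  · refine Finset.sum_congr rfl fun a' _ => ?_
    rw [Finset.sum_ite_eq]
    simp
  · rw [Finset.sum_comm]
    simp only [Finset.sum_ite_eq, Finset.mem_univ, if_true, mul_smul]
    rw [Finset.smul_sum]
    refine Finset.sum_congr rfl fun b' _ => ?_
    rw [Int.cast_smul_eq_zsmul]

/-- TASK G3-H2: basic properties of `KF`. -/
theorem KF_cstab (n : ℕ) (v : Fin n → S) (Y : Submodule S M) :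
    CStab (act (kos n v) M) (KF n Y) := by
  intro p f hf
  unfold KF at hf ⊢
  rw [mem_lift] at hf ⊢
  intro a
  rw [act_apply]
  refine Submodule.sum_mem _ fun b _ => ?_
  by_cases hab : kos n v a b = 0
  · rw [hab, zero_smul]; exact Submodule.zero_mem _
  · have h1 := (kos_isCx n v).deg_eq a b hab
    have h2 := hf b
    rw [h1] at h2
    refine Submodule.smul_mem _ _ ?_
    have e : kdeg n a - -(p + 1) = kdeg n a + 1 - -p := by ring
    rw [e]; exact h2

end Pm

end Vale.Agent.P202.CharP.Gen2
end

section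

/-!
P202-G3-H9: Koszul homology over `A` of the residue field of the polynomial ring.
-/

namespace Vale.Agent.P202.CharP.Gen2

set_option linter.unusedSectionVars false

open Submodule TensorProduct IsLocalRing Gen

universe u

section general

variable {A A' : Type*} [CommRing A] [CommRing A'] [Algebra A A'] {T : Type*} [AddCommGroup T]
  [Module A T] [Module A' T] [IsScalarTower A A' T]

/-- change of the base ring for the length of the homology of a pair. -/
lemma hat_hh_restrict (D : T →ₗ[A'] T) (Y X : ℤ → Submodule A' T) (c : ℕ∞)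
    (hc : ∀ Y X : Submodule A' T, Module.length A (↥Y ⧸ X.submoduleOf Y) =
      Module.length A' (↥Y ⧸ X.submoduleOf Y) * c) (δ : ℤ) :
    hh (D.restrictScalars A) (fun δ => (Y δ).restrictScalars A)
      (fun δ => (X δ).restrictScalars A) δ = hh D Y X δ * c := by
  unfold hh
  rw [← rl_restrict (A := A) _ _ c (hc _ _)]
  have hb : bb (D.restrictScalars A) (fun δ => (Y δ).restrictScalars A)
      (fun δ => (X δ).restrictScalars A) δ = (bb D Y X δ).restrictScalars A := by
    ext f
    rw [Submodule.restrictScalars_mem]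
    unfold bb
    rw [Submodule.mem_sup, Submodule.mem_sup]
    constructor
    · rintro ⟨u, ⟨v, hv, rfl⟩, w, hw, rfl⟩
      exact ⟨_, ⟨v, hv, rfl⟩, w, hw, rfl⟩
    · rintro ⟨u, ⟨v, hv, rfl⟩, w, hw, rfl⟩
      exact ⟨_, ⟨v, hv, rfl⟩, w, hw, rfl⟩
  have hz : zz (D.restrictScalars A) (fun δ => (Y δ).restrictScalars A)
      (fun δ => (X δ).restrictScalars A) δ = (zz D Y X δ).restrictScalars A := by
    ext f
    rfl
  rw [hb, hz]

lemma hat_mem_lift_conc {n : ℕ} {S M : Type*} [CommRing S] [AddCommGroup M] [Module S M]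
    (X : Submodule S M) (δ : ℤ) (f : KIdx n → M) :
    f ∈ lift (kdeg n) (conc X) δ ↔ ∀ a, (kdeg n a = δ → f a ∈ X) ∧ (kdeg n a ≠ δ → f a = 0) := by
  simp only [lift, Submodule.mem_pi, Set.mem_univ, true_implies]
  refine forall_congr' fun a => ?_
  unfold conc
  by_cases h : kdeg n a = δ
  · rw [if_pos (by omega)]
    simp [h]
  · rw [if_neg (by omega)]
    simp [h]

end general

section

variable (p r : ℕ) [Fact p.Prime] {A A' : Type u} [CommRing A] [CommRing A'] [Algebra A A']
  [CharP A' p]

omit [CharP A' p] in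
lemma hat_cc_smul (a : A) (f : MvPolynomial (Fin (r + 1)) A') :
    MvPolynomial.constantCoeff (a • f) = a • MvPolynomial.constantCoeff f := by
  rw [Algebra.smul_def, map_mul, MvPolynomial.algebraMap_apply, MvPolynomial.constantCoeff_C,
    Algebra.smul_def]

omit [CharP A' p] in
lemma hat_ker (f : MvPolynomial (Fin (r + 1)) A') : MvPolynomial.constantCoeff f = 0 ↔
    f ∈ Ideal.span ((MvPolynomial.X : Fin (r + 1) → MvPolynomial (Fin (r + 1)) A') '' Set.univ) := by
  rw [MvPolynomial.mem_ideal_span_X_image, MvPolynomial.constantCoeff_eq]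
  constructor
  · intro h m hm
    by_contra hc
    push Not at hc
    have h3 : m = 0 := by
      ext i
      exact hc i (Set.mem_univ i)
    rw [MvPolynomial.mem_support_iff, h3] at hm
    exact hm h
  · intro h
    by_contra hc
    obtain ⟨i, -, hi⟩ := h 0 (MvPolynomial.mem_support_iff.mpr hc)
    exact hi rfl

/-- the constant coefficient, `A`-linear. -/
noncomputable def hatC (A A' : Type u) [CommRing A] [CommRing A'] [Algebra A A'] (p r : ℕ) :
    OmR p r A' →ₗ[A] A' where
  toFun f := MvPolynomial.constantCoeff (f : MvPolynomial (Fin (r + 1)) A')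
  map_add' f g := map_add (MvPolynomial.constantCoeff (R := A') (σ := Fin (r + 1))) f g
  map_smul' a f := hat_cc_smul r a f

variable {p r} in
lemma hatC_mul (f g : OmR p r A') : hatC A A' p r (f * g) = hatC A A' p r f * hatC A A' p r g :=
  map_mul (MvPolynomial.constantCoeff (R := A') (σ := Fin (r + 1))) f g

/-- kernel of the constant coefficient. -/
lemma hatC_eq_zero (f : OmR p r A') :
    hatC A A' p r f = 0 ↔ f ∈ (mX (ZMod p) r).map (algebraMap (PP (ZMod p) r) (OmR p r A')) := by
  have h1 : (mX (ZMod p) r).map (algebraMap (PP (ZMod p) r) (OmR p r A')) =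
      Ideal.span ((MvPolynomial.X : Fin (r + 1) → MvPolynomial (Fin (r + 1)) A') '' Set.univ) := by
    rw [mX, Ideal.map_span, ← Set.range_comp, Set.image_univ]
    congr 1
    congr 1
    funext l
    change MvPolynomial.map (ZMod.castHom (dvd_refl p) A') (MvPolynomial.X l) = _
    rw [MvPolynomial.map_X]
  rw [h1]
  exact hat_ker r f

variable [SMulCommClass (PP (ZMod p) r) A (OmR p r A')]

/-- the map to the residue module. -/
noncomputable def hatPhi (A A' : Type u) [CommRing A] [CommRing A'] [Algebra A A'] (p r : ℕ)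
    [Fact p.Prime] [CharP A' p] [SMulCommClass (PP (ZMod p) r) A (OmR p r A')] :
    (OmR p r A' ⊗[PP (ZMod p) r] (PP (ZMod p) r)) →ₗ[A] A' :=
  (hatC A A' p r).comp
    ((AlgebraTensorModule.rid (PP (ZMod p) r) (OmR p r A') (OmR p r A')).toLinearMap.restrictScalars A)

lemma hatPhi_smul (w : OmR p r A') (x : OmR p r A' ⊗[PP (ZMod p) r] (PP (ZMod p) r)) :
    hatPhi A A' p r (w • x) = hatC A A' p r w * hatPhi A A' p r x := by
  unfold hatPhi
  rw [LinearMap.comp_apply, LinearMap.comp_apply, LinearMap.restrictScalars_apply,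
    LinearMap.restrictScalars_apply, map_smul, smul_eq_mul, hatC_mul]

lemma hatPhi_surjective : Function.Surjective (hatPhi A A' p r) := by
  intro y
  refine ⟨(cOm p r A' y) ⊗ₜ 1, ?_⟩
  unfold hatPhi
  rw [LinearMap.comp_apply, LinearMap.restrictScalars_apply]
  change hatC A A' p r ((1 : PP (ZMod p) r) • cOm p r A' y) = y
  rw [one_smul]
  exact MvPolynomial.constantCoeff_C _ y

lemma hatPhi_eq_zero (x : OmR p r A' ⊗[PP (ZMod p) r] (PP (ZMod p) r)) :
    hatPhi A A' p r x = 0 ↔
      x ∈ (show Submodule (PP (ZMod p) r) (PP (ZMod p) r) from mX (ZMod p) r).baseChange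
        (OmR p r A') := by
  set e := AlgebraTensorModule.rid (PP (ZMod p) r) (OmR p r A') (OmR p r A') with he
  have h1 : hatPhi A A' p r x = hatC A A' p r (e x) := rfl
  rw [h1, hatC_eq_zero]
  have h2 : (((show Submodule (PP (ZMod p) r) (PP (ZMod p) r) from mX (ZMod p) r).baseChange
      (OmR p r A')).map e.toLinearMap) =
      (mX (ZMod p) r).map (algebraMap (PP (ZMod p) r) (OmR p r A')) := by
    rw [Submodule.baseChange_eq_span, Submodule.map_span, Ideal.map, Ideal.span]
    congr 1
    ext y
    constructor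
    · rintro ⟨_, ⟨q, hq, rfl⟩, rfl⟩
      refine ⟨q, hq, ?_⟩
      change algebraMap (PP (ZMod p) r) (OmR p r A') q = q • (1 : OmR p r A')
      rw [Algebra.algebraMap_eq_smul_one]
    · rintro ⟨q, hq, rfl⟩
      refine ⟨_, ⟨q, hq, rfl⟩, ?_⟩
      change q • (1 : OmR p r A') = algebraMap (PP (ZMod p) r) (OmR p r A') q
      rw [Algebra.algebraMap_eq_smul_one]
  rw [← h2, Submodule.mem_map]
  constructor
  · rintro ⟨y, hy, hye⟩
    have : y = x := e.injective hye
    rwa [← this]
  · intro hx
    exact ⟨x, hx, rfl⟩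

lemma hat_kos : ∀ (n : ℕ) (z : Fin n → A') (u : Fin n → OmR p r A')
    (_ : ∀ l, hatC A A' p r (u l) = z l) (a b : KIdx n),
    hatC A A' p r (kos n u a b) = kos n z a b
  | 0, z, u, h, a, b => by
    change hatC A A' p r (0 : OmR p r A') = (0 : A')
    exact map_zero _
  | n + 1, z, u, h, Sum.inl a, Sum.inl b =>
    hat_kos n (fun i => z i.succ) (fun i => u i.succ) (fun l => h l.succ) a b
  | n + 1, z, u, h, Sum.inl a, Sum.inr b => by
    change hatC A A' p r ((u 0 • (1 : Matrix (KIdx n) (KIdx n) (OmR p r A'))) a b) =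
      (z 0 • (1 : Matrix (KIdx n) (KIdx n) A')) a b
    rw [Matrix.smul_apply, Matrix.smul_apply, smul_eq_mul, smul_eq_mul, hatC_mul, h 0,
      Matrix.one_apply, Matrix.one_apply]
    congr 1
    split_ifs
    · exact map_one (MvPolynomial.constantCoeff (R := A') (σ := Fin (r + 1)))
    · exact map_zero _
  | n + 1, z, u, h, Sum.inr a, Sum.inl b => by
    change hatC A A' p r (0 : OmR p r A') = (0 : A')
    exact map_zero _
  | n + 1, z, u, h, Sum.inr a, Sum.inr b => by
    have := hat_kos n (fun i => z i.succ) (fun i => u i.succ) (fun l => h l.succ) a b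
    change hatC A A' p r (-(kos n (fun i => u i.succ) a b)) = -(kos n (fun i => z i.succ) a b)
    rw [map_neg, this]

/-- Koszul homology over `A` of the residue field of the polynomial ring. -/
theorem hat_main [IsLocalRing A] [IsLocalRing A'] [IsLocalHom (algebraMap A A')]
    (z : Fin (r + 1) → A') (b : ℤ) :
    hA A (vz p r z) (⊤ : Submodule (PP (ZMod p) r) (PP (ZMod p) r)) (mX (ZMod p) r) b =
      Module.length (ResidueField A) (ResidueField A') * kk z A' b := by
  have hu : ∀ l, hatC A A' p r (vz p r z l) = z l := by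
    intro l
    change MvPolynomial.constantCoeff (MvPolynomial.C (z l) -
      (MvPolynomial.X l : MvPolynomial (Fin (r + 1)) A')) = z l
    rw [map_sub, MvPolynomial.constantCoeff_C, MvPolynomial.constantCoeff_X, sub_zero]
  have h1 := hc_transport (DA A (PP (ZMod p) r) (vz p r z))
    ((act (kos (r + 1) z) A').restrictScalars A)
    ((hatPhi A A' p r).compLeft (KIdx (r + 1))) (by
      intro x
      funext a
      change hatPhi A A' p r (∑ b, kos (r + 1) (vz p r z) a b • x b) =
        ∑ b, kos (r + 1) z a b • hatPhi A A' p r (x b)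
      rw [map_sum]
      refine Finset.sum_congr rfl fun b _ => ?_
      rw [hatPhi_smul, hat_kos p r (r + 1) z _ hu, smul_eq_mul])
    (KA A (OmR p r A') (r + 1) (mX (ZMod p) r : Submodule (PP (ZMod p) r) (PP (ZMod p) r)))
    (KA A (OmR p r A') (r + 1) (⊤ : Submodule (PP (ZMod p) r) (PP (ZMod p) r)))
    (fun q => (KF (r + 1) (⊥ : Submodule A' A') q).restrictScalars A)
    (fun q => (KF (r + 1) (⊤ : Submodule A' A') q).restrictScalars A)
    (fun q x hx => KF_cstab (r + 1) (vz p r z) _ q x hx)
    (fun q x hx => KF_cstab (r + 1) (vz p r z) _ q x hx)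
    (fun q x hx => KF_cstab (r + 1) z _ q x hx)
    (by
      intro q x hx
      change x ∈ lift (kdeg (r + 1)) (conc _) (-q) at hx
      change x ∈ lift (kdeg (r + 1)) (conc _) (-q)
      rw [hat_mem_lift_conc] at hx ⊢
      intro a
      exact ⟨fun h => Submodule.baseChange_mono _ le_top ((hx a).1 h), (hx a).2⟩)
    (by
      intro q
      apply le_antisymm
      · refine sup_le ?_ ?_
        · rintro _ ⟨x, hx, rfl⟩
          change x ∈ lift (kdeg (r + 1)) (conc _) (-q) at hx
          change _ ∈ lift (kdeg (r + 1)) (conc (⊤ : Submodule A' A')) (-q)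
          rw [hat_mem_lift_conc] at hx ⊢
          intro a
          refine ⟨fun _ => Submodule.mem_top, fun h => ?_⟩
          change hatPhi A A' p r (x a) = 0
          rw [(hx a).2 h, map_zero]
        · intro x hx
          change x ∈ lift (kdeg (r + 1)) (conc (⊥ : Submodule A' A')) (-q) at hx
          change x ∈ lift (kdeg (r + 1)) (conc (⊤ : Submodule A' A')) (-q)
          rw [hat_mem_lift_conc] at hx ⊢
          intro a
          exact ⟨fun _ => Submodule.mem_top, (hx a).2⟩
      · intro y hy
        change y ∈ lift (kdeg (r + 1)) (conc (⊤ : Submodule A' A')) (-q) at hy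
        rw [hat_mem_lift_conc] at hy
        refine Submodule.mem_sup_left ?_
        choose g hg using hatPhi_surjective (A := A) (A' := A') p r
        refine ⟨fun a => if kdeg (r + 1) a = -q then g (y a) else 0, ?_, ?_⟩
        · change _ ∈ lift (kdeg (r + 1)) (conc _) (-q)
          rw [hat_mem_lift_conc]
          intro a
          constructor
          · intro h
            rw [if_pos h]
            have : (⊤ : Submodule (PP (ZMod p) r) (PP (ZMod p) r)).baseChange (OmR p r A') = ⊤ :=
              Submodule.baseChange_top _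
            rw [this]
            exact Submodule.mem_top
          · intro h
            rw [if_neg h]
        · funext a
          change hatPhi A A' p r (if kdeg (r + 1) a = -q then g (y a) else 0) = y a
          split_ifs with h
          · exact hg (y a)
          · rw [map_zero, (hy a).2 h])
    (by
      intro q
      ext x
      constructor
      · rintro ⟨hx1, hx2⟩
        change x ∈ lift (kdeg (r + 1)) (conc _) (-q) at hx1
        change (fun a => hatPhi A A' p r (x a)) ∈ lift (kdeg (r + 1))
          (conc (⊥ : Submodule A' A')) (-q) at hx2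
        change x ∈ lift (kdeg (r + 1)) (conc _) (-q)
        rw [hat_mem_lift_conc] at hx1 hx2 ⊢
        intro a
        exact ⟨fun h => (hatPhi_eq_zero p r (x a)).1 ((hx2 a).1 h), (hx1 a).2⟩
      · intro hx
        change x ∈ lift (kdeg (r + 1)) (conc _) (-q) at hx
        rw [hat_mem_lift_conc] at hx
        constructor
        · change x ∈ lift (kdeg (r + 1)) (conc _) (-q)
          rw [hat_mem_lift_conc]
          intro a
          exact ⟨fun h => Submodule.baseChange_mono _ le_top ((hx a).1 h), (hx a).2⟩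
        · change (fun a => hatPhi A A' p r (x a)) ∈ lift (kdeg (r + 1))
            (conc (⊥ : Submodule A' A')) (-q)
          rw [hat_mem_lift_conc]
          intro a
          refine ⟨fun h => ?_, fun h => ?_⟩
          · exact (hatPhi_eq_zero p r (x a)).2 ((hx a).1 h)
          · rw [(hx a).2 h, map_zero])
    (-b)
  unfold hA
  rw [h1, LesC.hc_eq, neg_neg]
  have h2 := hat_hh_restrict (A := A) (act (kos (r + 1) z) A')
    (fun δ => lift (kdeg (r + 1)) (conc (⊤ : Submodule A' A')) δ)
    (fun δ => lift (kdeg (r + 1)) (conc (⊥ : Submodule A' A')) δ)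
    (Module.length (ResidueField A) (ResidueField A'))
    (fun Y X => length_restrict (A := A) (A' := A') _) b
  have e1 : LesC.rev (fun q => (KF (r + 1) (⊤ : Submodule A' A') q).restrictScalars A) =
      fun δ => (lift (kdeg (r + 1)) (conc (⊤ : Submodule A' A')) δ).restrictScalars A := by
    funext δ
    simp only [LesC.rev, KF, neg_neg]
  have e2 : LesC.rev (fun q => (KF (r + 1) (⊥ : Submodule A' A') q).restrictScalars A) =
      fun δ => (lift (kdeg (r + 1)) (conc (⊥ : Submodule A' A')) δ).restrictScalars A := by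
    funext δ
    simp only [LesC.rev, KF, neg_neg]
  rw [e1, e2, h2, mul_comm]
  congr 1
  have e3 : act (kos (r + 1) z) A' = tot (kdeg (r + 1)) (kos (r + 1) z) (0 : A' →ₗ[A'] A') := by
    ext f a
    simp [tot_apply, act_apply]
  rw [e3]
  rfl

end

section

variable (p r : ℕ) [Fact p.Prime] {A A' : Type u} [CommRing A] [CommRing A'] [Algebra A A']
  [CharP A' p]

theorem hat_smulComm : SMulCommClass (PP (ZMod p) r) A (OmR p r A') :=
  ⟨fun q a x => by
    rw [Algebra.smul_def q, Algebra.smul_def a, Algebra.smul_def q, Algebra.smul_def a,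
      mul_left_comm]⟩

/-- TASK G3-H9: Koszul homology over `A` of the residue field of the polynomial ring. -/
theorem hA_top [IsLocalRing A] [IsLocalRing A'] [IsLocalHom (algebraMap A A')]
    (z : Fin (r + 1) → A') (b : ℤ) :
    letI := hat_smulComm p r (A := A) (A' := A')
    hA A (vz p r z) (⊤ : Submodule (PP (ZMod p) r) (PP (ZMod p) r)) (mX (ZMod p) r) b =
      Module.length (ResidueField A) (ResidueField A') * kk z A' b := by
  letI := hat_smulComm p r (A := A) (A' := A')
  exact hat_main p r z b

end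

end Vale.Agent.P202.CharP.Gen2
end

section

/-!
P202-G3, task H10: lengths over `S` and over `Σ`; the residue degree is finite and positive.
-/

namespace Vale.Agent.P202.CharP.Gen2

open Submodule TensorProduct IsLocalRing Gen

universe u

theorem LengthO_one {σ : Type*} {B : Type*} [CommRing B] (P : Type*) [AddCommGroup P]
    [Module (MvPolynomial σ B) P] [Module B P] [IsScalarTower B (MvPolynomial σ B) P]
    (h : ∀ l, ∀ x : P, (MvPolynomial.X l : MvPolynomial σ B) • x = 0) :
    Module.length B P = Module.length (MvPolynomial σ B) P := by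
  have key : ∀ (f : MvPolynomial σ B) (x : P), f • x = MvPolynomial.constantCoeff f • x := by
    intro f x
    induction f using MvPolynomial.induction_on with
    | C a => rw [MvPolynomial.constantCoeff_C, ← MvPolynomial.algebraMap_eq, algebraMap_smul]
    | add p q hp hq => rw [add_smul, hp, hq, map_add, add_smul]
    | mul_X p l hp =>
      rw [mul_smul, h, smul_zero, map_mul, MvPolynomial.constantCoeff_X, mul_zero, zero_smul]
  let _ : Algebra (MvPolynomial σ B) B := (MvPolynomial.constantCoeff).toAlgebra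
  have : IsScalarTower (MvPolynomial σ B) B P := ⟨fun f b x => by
    show (MvPolynomial.constantCoeff f * b) • x = f • (b • x)
    rw [mul_smul, key]⟩
  exact (Module.length_eq_of_surjective (S := MvPolynomial σ B) (R := B)
    fun b => ⟨MvPolynomial.C b, MvPolynomial.constantCoeff_C σ b⟩).symm

theorem LengthO_pow {σ : Type*} {B : Type*} [CommRing B] (K : ℕ) :
    ∀ (N : Type u) [AddCommGroup N] [Module (MvPolynomial σ B) N] [Module B N]
      [IsScalarTower B (MvPolynomial σ B) N], (∀ L : List σ, L.length = K → ∀ x : N,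
        (L.map (MvPolynomial.X : σ → MvPolynomial σ B)).prod • x = 0) →
      Module.length B N = Module.length (MvPolynomial σ B) N := by
  induction K with
  | zero =>
    intro N _ _ _ _ h
    have : Subsingleton N := ⟨fun x y => by
      have h1 := h [] rfl x
      have h2 := h [] rfl y
      simp only [List.map_nil, List.prod_nil, one_smul] at h1 h2
      rw [h1, h2]⟩
    rw [Module.length_eq_zero, Module.length_eq_zero]
  | succ K ih =>
    intro N _ _ _ _ h
    let P : Submodule (MvPolynomial σ B) N :=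
      { carrier := {x | ∀ l : σ, (MvPolynomial.X l : MvPolynomial σ B) • x = 0}
        add_mem' := fun {a b} ha hb l => by rw [smul_add, ha l, hb l, add_zero]
        zero_mem' := fun l => smul_zero _
        smul_mem' := fun c x hx l => by rw [smul_comm, hx l, smul_zero] }
    have h1 : Module.length B N = Module.length B P + Module.length B (N ⧸ P) :=
      Module.length_eq_add_of_exact (P.subtype.restrictScalars B) (P.mkQ.restrictScalars B)
        (Submodule.subtype_injective P) (Submodule.mkQ_surjective P)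
        (LinearMap.exact_subtype_mkQ P)
    have h2 : Module.length (MvPolynomial σ B) N = Module.length (MvPolynomial σ B) P +
        Module.length (MvPolynomial σ B) (N ⧸ P) :=
      Module.length_eq_add_of_exact P.subtype P.mkQ
        (Submodule.subtype_injective P) (Submodule.mkQ_surjective P)
        (LinearMap.exact_subtype_mkQ P)
    rw [h1, h2, LengthO_one P fun l x => Subtype.ext (x.2 l), ih (N ⧸ P) ?_]
    intro L hL x
    obtain ⟨y, rfl⟩ := P.mkQ_surjective x
    rw [← map_smul, Submodule.mkQ_apply, Submodule.Quotient.mk_eq_zero]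
    intro l
    rw [smul_smul, ← List.prod_cons, ← List.map_cons]
    exact h (l :: L) (by simp [hL]) y

section

variable (p r : ℕ) [Fact p.Prime] {A S A' : Type u} [CommRing A] [CommRing S] [CommRing A']
  [Algebra A S] [Algebra A A'] [CharP A' p]

theorem LengthO_mem (κ : Type*) [Field κ] (r : ℕ) (L : List (Fin (r + 1))) :
    (L.map (MvPolynomial.X : Fin (r + 1) → PP κ r)).prod ∈ (mX κ r) ^ L.length := by
  induction L with
  | nil => simp
  | cons l L ih =>
    rw [List.map_cons, List.prod_cons, List.length_cons, pow_succ']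
    exact Ideal.mul_mem_mul (Ideal.subset_span ⟨l, rfl⟩) ih

theorem LengthO_map (L : List (Fin (r + 1))) :
    algebraMap (PP (ZMod p) r) (SgR p r A S A') ((L.map MvPolynomial.X).prod) =
      (L.map (MvPolynomial.X : Fin (r + 1) → MvPolynomial (Fin (r + 1)) (S ⊗[A] A'))).prod := by
  have h : ∀ l : Fin (r + 1), algebraMap (PP (ZMod p) r) (SgR p r A S A') (MvPolynomial.X l) =
      (MvPolynomial.X l : MvPolynomial (Fin (r + 1)) (S ⊗[A] A')) := by
    intro l
    show MvPolynomial.map _ (MvPolynomial.map _ (MvPolynomial.X l)) = _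
    rw [MvPolynomial.map_X, MvPolynomial.map_X]
  induction L with
  | nil => exact map_one _
  | cons l L ih =>
    rw [List.map_cons, List.prod_cons, map_mul, ih, h l, List.map_cons, List.prod_cons]
    rfl

/-- TASK G3-H10: lengths over `S` and over `Σ`. -/
theorem length_Sg [IsLocalRing S] [IsLocalRing (S ⊗[A] A')]
    [IsLocalHom (algebraMap S (S ⊗[A] A'))] (K : ℕ)
    (N : Type u) [AddCommGroup N] [Module (SgR p r A S A') N] [Module S N]
    [IsScalarTower S (SgR p r A S A') N]
    (hN : ∀ q ∈ (mX (ZMod p) r) ^ K, ∀ x : N,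
      algebraMap (PP (ZMod p) r) (SgR p r A S A') q • x = 0) :
    Module.length S N = Module.length (ResidueField S) (ResidueField (S ⊗[A] A')) *
      Module.length (SgR p r A S A') N := by
  let m1 : Module (MvPolynomial (Fin (r + 1)) (S ⊗[A] A')) N :=
    ‹Module (SgR p r A S A') N›
  let m2 : Module (S ⊗[A] A') N :=
    Module.compHom N (MvPolynomial.C : (S ⊗[A] A') →+* MvPolynomial (Fin (r + 1)) (S ⊗[A] A'))
  have t1 : IsScalarTower (S ⊗[A] A') (MvPolynomial (Fin (r + 1)) (S ⊗[A] A')) N :=
    ⟨fun b f x => by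
      rw [Algebra.smul_def, mul_smul]
      rfl⟩
  have t2 : IsScalarTower S (S ⊗[A] A') N := ⟨fun s b x => by
    have h1 : ∀ (s : S) (x : N), s • x = (algebraMap S (SgR p r A S A') s) • x :=
      fun s x => (algebraMap_smul (SgR p r A S A') s x).symm
    rw [Algebra.smul_def, mul_smul, h1]
    rfl⟩
  rw [length_restrict (A := S) (A' := S ⊗[A] A') N, mul_comm]
  congr 1
  refine LengthO_pow K N fun L hL x => ?_
  have h2 := hN _ (hL ▸ LengthO_mem (ZMod p) r L) x
  rw [LengthO_map] at h2
  exact h2

/-- TASK G3-H10: the residue degree is finite and positive. -/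
theorem residue_finite [IsLocalRing S] [IsNoetherianRing S] [Module.Finite A A']
    [IsLocalRing (S ⊗[A] A')] :
    ∃ _ : IsLocalHom (algebraMap S (S ⊗[A] A')), ∃ c : ℕ, 1 ≤ c ∧
      Module.length (ResidueField S) (ResidueField (S ⊗[A] A')) = c := by
  have hloc : IsLocalHom (algebraMap S (S ⊗[A] A')) := by
    refine ⟨fun s hs => ?_⟩
    by_contra hns
    have hsm : s ∈ maximalIdeal S := (mem_maximalIdeal s).2 hns
    have h1 : (⊤ : Submodule S (S ⊗[A] A')) ≤ maximalIdeal S • ⊤ := by
      intro b _
      obtain ⟨u, hu⟩ := hs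
      have h2 : b = s • ((↑u⁻¹ : S ⊗[A] A') * b) := by
        rw [Algebra.smul_def, ← hu, Units.mul_inv_cancel_left]
      rw [h2]
      exact Submodule.smul_mem_smul hsm Submodule.mem_top
    have h3 := Submodule.eq_bot_of_le_smul_of_le_jacobson_bot (maximalIdeal S)
      (⊤ : Submodule S (S ⊗[A] A')) Module.Finite.fg_top h1 (maximalIdeal_le_jacobson _)
    have h4 : (1 : S ⊗[A] A') ∈ (⊥ : Submodule S (S ⊗[A] A')) := h3 ▸ Submodule.mem_top
    exact one_ne_zero ((Submodule.mem_bot S).1 h4)
  refine ⟨hloc, ?_⟩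
  have hf : Module.Finite (ResidueField S) (ResidueField (S ⊗[A] A')) := inferInstance
  refine ⟨Module.finrank (ResidueField S) (ResidueField (S ⊗[A] A')), Module.finrank_pos, ?_⟩
  exact Module.length_eq_finrank _ _

end

end Vale.Agent.P202.CharP.Gen2
end

section

/-!
P202-CHARP, tasks K8, K9: in a Cohen-Macaulay local ring the Koszul homology of every system of
parameters vanishes in positive degrees, and every system of parameters is a regular sequence.
-/

namespace Vale.Agent.P202.CharP

open Submodule IsLocalRing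
open scoped Pointwise

section KCm

variable {B : Type*} [CommRing B] {M : Type*} [AddCommGroup M] [Module B M]

theorem kcm_mem_conc {ι : Type*} (deg : ι → ℤ) (X : Submodule B M) (i : ℤ) (f : ι → M) :
    f ∈ lift deg (conc X) i ↔ ∀ a, (deg a = i → f a ∈ X) ∧ (deg a ≠ i → f a = 0) := by
  rw [mem_lift]
  refine forall_congr' fun a => ?_
  unfold conc
  by_cases h : deg a = i
  · simp [h]
  · have : deg a - i ≠ 0 := sub_ne_zero.mpr h
    simp [h, this]

theorem kcm_mem_top {ι : Type*} (deg : ι → ℤ) (i : ℤ) (f : ι → M) :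
    f ∈ lift deg (conc (⊤ : Submodule B M)) i ↔ ∀ a, deg a ≠ i → f a = 0 := by
  rw [kcm_mem_conc]
  simp

theorem kcm_mem_bot {ι : Type*} (deg : ι → ℤ) (i : ℤ) (f : ι → M) :
    f ∈ lift deg (conc (⊥ : Submodule B M)) i ↔ f = 0 := by
  rw [kcm_mem_conc, funext_iff]
  refine forall_congr' fun a => ?_
  simp only [Submodule.mem_bot, Pi.zero_apply]
  tauto

theorem kcm_tot_zero {ι : Type*} [Fintype ι] (deg : ι → ℤ) (Q : Matrix ι ι B) (f : ι → M) :
    tot deg Q (0 : M →ₗ[B] M) f = act Q M f := by
  ext a
  rw [tot_eq]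
  simp

/-- vanishing of the Koszul homology in degree `i`, elementwise. -/
def KVan {n : ℕ} (y : Fin n → B) (M : Type*) [AddCommGroup M] [Module B M] (i : ℤ) : Prop :=
  ∀ f : KIdx n → M, (∀ a, kdeg n a ≠ i → f a = 0) → act (kos n y) M f = 0 →
    ∃ g : KIdx n → M, (∀ a, kdeg n a ≠ i + 1 → g a = 0) ∧ act (kos n y) M g = f

/-- elements of the ideal `(y)` kill the Koszul homology. -/
theorem kcm_homotopy {n : ℕ} (y : Fin n → B) (c : B) (hc : c ∈ Ideal.span (Set.range y)) :
    ∃ h : Matrix (KIdx n) (KIdx n) B,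
    (∀ a b, h a b ≠ 0 → kdeg n a = kdeg n b + 1) ∧ kos n y * h + h * kos n y = c • 1 := by
  obtain ⟨c', hc'⟩ := (Ideal.mem_span_range_iff_exists_fun).mp hc
  choose h h1 h2 using kos_homotopy n y
  refine ⟨∑ l, c' l • h l, ?_, ?_⟩
  · intro a b hab
    by_contra hne
    apply hab
    rw [Matrix.sum_apply]
    refine Finset.sum_eq_zero fun l _ => ?_
    rw [Matrix.smul_apply]
    by_cases h0 : h l a b = 0
    · rw [h0, smul_zero]
    · exact absurd (h1 l a b h0) hne
  · rw [Finset.mul_sum, Finset.sum_mul, ← Finset.sum_add_distrib, ← hc', Finset.sum_smul]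
    refine Finset.sum_congr rfl fun l _ => ?_
    rw [Matrix.mul_smul, Matrix.smul_mul, ← smul_add, h2, smul_smul]

theorem kcm_act_deg {n : ℕ} (y : Fin n → B) {i : ℤ} {f : KIdx n → M}
    (hf : ∀ a, kdeg n a ≠ i + 1 → f a = 0) (a : KIdx n) (ha : kdeg n a ≠ i) :
    act (kos n y) M f a = 0 := by
  rw [act_apply]
  refine Finset.sum_eq_zero fun b _ => ?_
  by_cases h : kos n y a b = 0
  · rw [h, zero_smul]
  · have := (kos_isCx n y).deg_eq a b h
    rw [hf b (by omega), smul_zero]

theorem kcm_act_h {n : ℕ} (h : Matrix (KIdx n) (KIdx n) B)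
    (h1 : ∀ a b, h a b ≠ 0 → kdeg n a = kdeg n b + 1) {i : ℤ} {f : KIdx n → M}
    (hf : ∀ a, kdeg n a ≠ i → f a = 0) (a : KIdx n) (ha : kdeg n a ≠ i + 1) :
    act h M f a = 0 := by
  rw [act_apply]
  refine Finset.sum_eq_zero fun b _ => ?_
  by_cases h0 : h a b = 0
  · rw [h0, zero_smul]
  · have := h1 a b h0
    rw [hf b (by omega), smul_zero]

theorem kcm_act_act {n : ℕ} (y : Fin n → B) (f : KIdx n → M) :
    act (kos n y) M (act (kos n y) M f) = 0 := by
  rw [← act_mul, (kos_isCx n y).sq, act_zero]

/-- key step: `z` regular on `M`, `H_{i+1}(y; M/zM) = 0`, then `z` is injective on `H_i(y; M)`. -/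
theorem kcm_step {n : ℕ} (y : Fin n → B) (z : B) (hz : IsSMulRegular M z) (i : ℤ)
    (hv : KVan y (QuotSMulTop z M) (i + 1)) (f : KIdx n → M)
    (g : KIdx n → M) (hg : ∀ a, kdeg n a ≠ i + 1 → g a = 0)
    (hfg : act (kos n y) M g = z • f) :
    ∃ u : KIdx n → M, (∀ a, kdeg n a ≠ i + 1 → u a = 0) ∧ act (kos n y) M u = f := by
  let π : M →ₗ[B] QuotSMulTop z M := Submodule.mkQ _
  have hπs : Function.Surjective π := Submodule.mkQ_surjective _
  have hπz : ∀ m : M, π (z • m) = 0 := by
    intro m
    rw [← LinearMap.mem_ker, Submodule.ker_mkQ]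
    exact Submodule.smul_mem_pointwise_smul m z ⊤ trivial
  have hact : ∀ v : KIdx n → M, act (kos n y) (QuotSMulTop z M) (fun a => π (v a)) =
      fun a => π (act (kos n y) M v a) := by
    intro v
    ext a
    simp only [act_apply, map_sum, map_smul]
  obtain ⟨k, hk1, hk2⟩ := hv (fun a => π (g a)) (fun a ha => by rw [hg a ha, map_zero]) (by
    rw [hact, hfg]
    ext a
    exact hπz _)
  choose k' hk' using fun a => hπs (k a)
  let k'' : KIdx n → M := fun a => if kdeg n a = i + 1 + 1 then k' a else 0
  have hk'' : (fun a => π (k'' a)) = k := by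
    ext a
    by_cases h : kdeg n a = i + 1 + 1
    · simp only [k'', h, if_true, hk']
    · simp only [k'', h, if_false, map_zero, hk1 a h]
  have h1 : ∀ a, g a - act (kos n y) M k'' a ∈ (z • ⊤ : Submodule B M) := by
    intro a
    rw [← Submodule.ker_mkQ (z • ⊤ : Submodule B M), LinearMap.mem_ker]
    change π _ = 0
    rw [map_sub, sub_eq_zero]
    have := congrFun hk2 a
    rw [← hk'', hact] at this
    exact this.symm
  have h2 : ∀ a, ∃ m : M, z • m = g a - act (kos n y) M k'' a := by
    intro a
    obtain ⟨m, -, hm⟩ := (Submodule.mem_smul_pointwise_iff_exists _ _ _).mp (h1 a)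
    exact ⟨m, hm⟩
  choose u hu using h2
  have hdeg : ∀ a, kdeg n a ≠ i + 1 → u a = 0 := by
    intro a ha
    have h3 : g a - act (kos n y) M k'' a = 0 := by
      rw [hg a ha, kcm_act_deg y (i := i + 1) (fun b hb => by simp only [k'', hb, if_false]) a ha,
        sub_zero]
    have h4 := hu a
    rw [h3] at h4
    exact hz (h4.trans (smul_zero z).symm)
  refine ⟨u, hdeg, ?_⟩
  have h5 : z • u = g - act (kos n y) M k'' := by
    ext a
    exact hu a
  have h6 : z • act (kos n y) M u = z • f := by
    rw [← map_smul, h5, map_sub, kcm_act_act, sub_zero, hfg]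
  ext a
  exact hz (congrFun h6 a)

theorem kcm_van_of_regular {n : ℕ} (y : Fin n → B) : ∀ (zs : List B),
    (∀ z ∈ zs, ∃ t : ℕ, z ^ t ∈ Ideal.span (Set.range y)) →
    ∀ (M : Type*) [AddCommGroup M] [Module B M],
    RingTheory.Sequence.IsWeaklyRegular M zs → ∀ i : ℤ, (n : ℤ) - zs.length < i → KVan y M i
  | [], _, M, _, _, _, i, hi => by
    intro f hf hf0
    refine ⟨0, fun a _ => rfl, ?_⟩
    rw [map_zero]
    ext a
    have := kdeg_range n a
    simp only [List.length_nil] at hi
    rw [hf a (by push_cast at hi; omega)]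
    rfl
  | z :: zs, hzs, M, _, _, hreg, i, hi => by
    rw [RingTheory.Sequence.isWeaklyRegular_cons_iff] at hreg
    have ih := kcm_van_of_regular y zs (fun w hw => hzs w (List.mem_cons_of_mem _ hw))
      (QuotSMulTop z M) hreg.2 (i + 1) (by
        rw [List.length_cons] at hi
        push_cast at hi
        omega)
    obtain ⟨t, ht⟩ := hzs z List.mem_cons_self
    obtain ⟨h, h1, h2⟩ := kcm_homotopy y _ ht
    intro f hf hf0
    have key : ∀ s : ℕ, (∃ g : KIdx n → M, (∀ a, kdeg n a ≠ i + 1 → g a = 0) ∧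
        act (kos n y) M g = z ^ s • f) →
        ∃ g : KIdx n → M, (∀ a, kdeg n a ≠ i + 1 → g a = 0) ∧ act (kos n y) M g = f := by
      intro s
      induction s with
      | zero => rintro ⟨g, hg, hgf⟩; exact ⟨g, hg, by rw [hgf, pow_zero, one_smul]⟩
      | succ s ihs =>
        rintro ⟨g, hg, hgf⟩
        apply ihs
        refine kcm_step y z hreg.1 i ih (z ^ s • f) g hg ?_
        rw [hgf, smul_smul, pow_succ, mul_comm]
    refine key t ⟨act h M f, fun a ha => kcm_act_h h h1 hf a ha, ?_⟩
    have h3 : act (kos n y * h + h * kos n y) M f = z ^ t • f := by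
      rw [h2, act_smul, act_one]
    rw [act_add, act_mul, act_mul, hf0, map_zero, add_zero] at h3
    exact h3

end KCm

end Vale.Agent.P202.CharP
end

section

/-!
P202-G3, task H11: the Euler characteristic of the list `(y, z - X)`.
-/

namespace Vale.Agent.P202.CharP.Gen2

open Submodule TensorProduct IsLocalRing Gen
open scoped Pointwise

section Poly

open MvPolynomial

variable {B : Type*} [CommRing B]

lemma kl_sub_mem {n : ℕ} (w : Fin n → B) (f : MvPolynomial (Fin n) B) :
    f - C (aeval w f) ∈
      Ideal.span (Set.range fun l => (C (w l) - X l : MvPolynomial (Fin n) B)) := by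
  set J := Ideal.span (Set.range fun l => (C (w l) - X l : MvPolynomial (Fin n) B)) with hJ
  let φ : MvPolynomial (Fin n) B →ₐ[B] (MvPolynomial (Fin n) B ⧸ J) := Ideal.Quotient.mkₐ B J
  let ψ : MvPolynomial (Fin n) B →ₐ[B] (MvPolynomial (Fin n) B ⧸ J) :=
    (φ.comp (Algebra.ofId B (MvPolynomial (Fin n) B))).comp (aeval w)
  have h : φ = ψ := by
    refine MvPolynomial.algHom_ext fun l => ?_
    have h1 : ψ (X l) = φ (C (w l)) := by
      change φ (algebraMap B (MvPolynomial (Fin n) B) (aeval w (X l))) = _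
      rw [aeval_X]
      rfl
    rw [h1]
    refine (Ideal.Quotient.eq.2 ?_).symm
    exact Ideal.subset_span ⟨l, rfl⟩
  refine Ideal.Quotient.eq.1 ?_
  exact DFunLike.congr_fun h f

lemma kl_mem_span_iff {n : ℕ} (w : Fin n → B) (f : MvPolynomial (Fin n) B) :
    f ∈ Ideal.span (Set.range fun l => (C (w l) - X l : MvPolynomial (Fin n) B)) ↔
      aeval w f = 0 := by
  constructor
  · intro h
    have h1 : Ideal.span (Set.range fun l => (C (w l) - X l : MvPolynomial (Fin n) B)) ≤
        RingHom.ker (aeval w : MvPolynomial (Fin n) B →ₐ[B] B) := by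
      rw [Ideal.span_le]
      rintro _ ⟨l, rfl⟩
      change aeval w (C (w l) - X l) = 0
      rw [map_sub, aeval_X, aeval_C, Algebra.algebraMap_self, RingHom.id_apply, sub_self]
    exact h1 h
  · intro h
    have h1 := kl_sub_mem w f
    rwa [h, C_0, sub_zero] at h1

/-- partial evaluation of the first variable. -/
noncomputable def klp (n : ℕ) (b : B) : MvPolynomial (Fin (n + 1)) B →ₐ[B] MvPolynomial (Fin n) B :=
  aeval (Fin.cons (C b) X)

lemma klp_sub_mem (n : ℕ) (b : B) (f : MvPolynomial (Fin (n + 1)) B) :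
    f - rename Fin.succ (klp n b f) ∈
      Ideal.span {(C b - X 0 : MvPolynomial (Fin (n + 1)) B)} := by
  set J := Ideal.span {(C b - X 0 : MvPolynomial (Fin (n + 1)) B)} with hJ
  let φ : MvPolynomial (Fin (n + 1)) B →ₐ[B] (MvPolynomial (Fin (n + 1)) B ⧸ J) :=
    Ideal.Quotient.mkₐ B J
  let ψ : MvPolynomial (Fin (n + 1)) B →ₐ[B] (MvPolynomial (Fin (n + 1)) B ⧸ J) :=
    (φ.comp (rename Fin.succ)).comp (klp n b)
  have h : φ = ψ := by
    refine MvPolynomial.algHom_ext fun l => ?_
    rcases Fin.eq_zero_or_eq_succ l with rfl | ⟨l, rfl⟩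
    · have h1 : rename Fin.succ (klp n b (X 0)) = (C b : MvPolynomial (Fin (n + 1)) B) := by
        rw [klp, aeval_X, Fin.cons_zero, rename_C]
      have h2 : ψ (X 0) = Ideal.Quotient.mk J (rename Fin.succ (klp n b (X 0))) := rfl
      rw [h2, h1]
      have h3 : Ideal.Quotient.mk J (C b) = Ideal.Quotient.mk J (X 0) :=
        Ideal.Quotient.eq.2 (Ideal.subset_span (Set.mem_singleton _))
      exact h3.symm
    · have h1 : rename Fin.succ (klp n b (X l.succ)) =
          (X l.succ : MvPolynomial (Fin (n + 1)) B) := by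
        rw [klp, aeval_X, Fin.cons_succ, rename_X]
      have h2 : ψ (X l.succ) = Ideal.Quotient.mk J (rename Fin.succ (klp n b (X l.succ))) := rfl
      rw [h2, h1]
      rfl
  exact Ideal.Quotient.eq.1 (DFunLike.congr_fun h f)

lemma kl_reg0 {n : ℕ} (b : B) :
    IsSMulRegular (MvPolynomial (Fin (n + 1)) B) (C b - X 0 : MvPolynomial (Fin (n + 1)) B) := by
  intro f g h
  change (C b - X 0) * f = (C b - X 0) * g at h
  have e1 : finSuccEquiv B n (C b - X 0) = -(Polynomial.X - Polynomial.C (C b)) := by
    rw [map_sub, finSuccEquiv_X_zero]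
    have : finSuccEquiv B n (C b) = Polynomial.C (C b) := by
      simp [finSuccEquiv_apply]
    rw [this]
    ring
  have h2 := congrArg (finSuccEquiv B n) h
  rw [map_mul, map_mul, e1] at h2
  have h3 : (Polynomial.X - Polynomial.C (C b)) * finSuccEquiv B n f =
      (Polynomial.X - Polynomial.C (C b)) * finSuccEquiv B n g := by
    linear_combination (-1 : Polynomial (MvPolynomial (Fin n) B)) * h2
  exact (finSuccEquiv B n).injective ((Polynomial.monic_X_sub_C _).isRegular.left h3)

theorem kl_weaklyRegular : ∀ (n : ℕ) (w : Fin n → B),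
    RingTheory.Sequence.IsWeaklyRegular (MvPolynomial (Fin n) B)
      (List.ofFn fun l => (C (w l) - X l : MvPolynomial (Fin n) B))
  | 0, w => by
    rw [List.ofFn_zero]
    exact RingTheory.Sequence.IsWeaklyRegular.nil _ _
  | n + 1, w => by
    rw [List.ofFn_succ, RingTheory.Sequence.isWeaklyRegular_cons_iff]
    refine ⟨kl_reg0 _, ?_⟩
    have ih := kl_weaklyRegular n (fun i => w i.succ)
    let f : MvPolynomial (Fin (n + 1)) B →ₛₗ[(klp n (w 0)).toRingHom] MvPolynomial (Fin n) B :=
      { toFun := klp n (w 0)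
        map_add' := fun x y => map_add _ x y
        map_smul' := fun x y => map_mul _ x y }
    have hker : ((C (w 0) - X 0 : MvPolynomial (Fin (n + 1)) B) •
        (⊤ : Submodule (MvPolynomial (Fin (n + 1)) B) (MvPolynomial (Fin (n + 1)) B))) ≤
          LinearMap.ker f := by
      rintro _ ⟨x, -, rfl⟩
      have h0 : klp n (w 0) (C (w 0) - X 0) = 0 := by
        have h1 : klp n (w 0) (C (w 0)) = C (w 0) := by
          rw [klp, aeval_C]
          rfl
        have h2 : klp n (w 0) (X 0) = C (w 0) := by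
          rw [klp, aeval_X, Fin.cons_zero]
        rw [map_sub, h1, h2, sub_self]
      have h3 : klp n (w 0) ((C (w 0) - X 0) * x) = 0 := by
        rw [map_mul, h0, zero_mul]
      exact h3
    let e₀ : QuotSMulTop (C (w 0) - X 0 : MvPolynomial (Fin (n + 1)) B)
        (MvPolynomial (Fin (n + 1)) B) →ₛₗ[(klp n (w 0)).toRingHom] MvPolynomial (Fin n) B :=
      Submodule.liftQ _ f hker
    have hinj : Function.Injective e₀ := by
      rw [injective_iff_map_eq_zero]
      intro x hx
      obtain ⟨x, rfl⟩ := Submodule.Quotient.mk_surjective _ x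
      have hx' : klp n (w 0) x = 0 := hx
      have h1 := klp_sub_mem n (w 0) x
      rw [hx', map_zero, sub_zero, Ideal.mem_span_singleton'] at h1
      obtain ⟨c, hc⟩ := h1
      rw [Submodule.Quotient.mk_eq_zero]
      exact ⟨c, trivial, by rw [← hc]; exact mul_comm _ _⟩
    have hsurj : Function.Surjective e₀ := by
      intro y
      refine ⟨Submodule.Quotient.mk (rename Fin.succ y), ?_⟩
      change klp n (w 0) (rename Fin.succ y) = y
      have h1 : (klp n (w 0)).comp (rename Fin.succ) = AlgHom.id B (MvPolynomial (Fin n) B) := by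
        refine MvPolynomial.algHom_ext fun l => ?_
        change klp n (w 0) (rename Fin.succ (X l)) = X l
        rw [rename_X, klp, aeval_X, Fin.cons_succ]
      exact DFunLike.congr_fun h1 y
    let e := AddEquiv.ofBijective e₀.toAddMonoidHom ⟨hinj, hsurj⟩
    refine (AddEquiv.isWeaklyRegular_congr (e := e) ?_).mpr ih
    rw [List.forall₂_iff_get]
    refine ⟨by simp, fun i h1 h2 x => ?_⟩
    simp only [List.get_ofFn]
    change e₀ _ = _ • e₀ x
    rw [LinearMap.map_smulₛₗ]
    congr 1
    change klp n (w 0) (C _ - X _) = _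
    rw [map_sub, klp, aeval_X, aeval_C, Fin.cons_succ]
    rfl

end Poly

section Len

open MvPolynomial

variable {S B : Type*} [CommRing S] [CommRing B] [Algebra S B] {n : ℕ}

lemma kl_length [IsLocalRing S] [IsLocalRing B] [IsLocalHom (algebraMap S B)] (w : Fin n → B)
    (Q : Type*) [AddCommGroup Q] [Module (MvPolynomial (Fin n) B) Q] [Module S Q]
    [IsScalarTower S (MvPolynomial (Fin n) B) Q]
    (hQ : ∀ s : MvPolynomial (Fin n) B, aeval w s = 0 → ∀ q : Q, s • q = 0) :
    Module.length S Q = Module.length (MvPolynomial (Fin n) B) Q *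
      Module.length (ResidueField S) (ResidueField B) := by
  let m1 : Module B Q := Module.compHom Q (C : B →+* MvPolynomial (Fin n) B)
  have t1 : IsScalarTower S B Q := ⟨fun s b q => by
    change (C (s • b) : MvPolynomial (Fin n) B) • q = s • ((C b : MvPolynomial (Fin n) B) • q)
    rw [← smul_assoc]
    congr 1
    rw [Algebra.smul_def, C_mul, Algebra.smul_def]
    rfl⟩
  let a1 : Algebra (MvPolynomial (Fin n) B) B :=
    (aeval w : MvPolynomial (Fin n) B →ₐ[B] B).toRingHom.toAlgebra
  have t2 : IsScalarTower (MvPolynomial (Fin n) B) B Q := ⟨fun f b q => by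
    change (C (aeval w f * b) : MvPolynomial (Fin n) B) • q =
      f • ((C b : MvPolynomial (Fin n) B) • q)
    rw [smul_smul, ← sub_eq_zero, ← sub_smul]
    refine hQ _ ?_ q
    rw [map_sub, map_mul, map_mul, aeval_C, aeval_C, Algebra.algebraMap_self, RingHom.id_apply,
      RingHom.id_apply, map_mul, aeval_C, Algebra.algebraMap_self, RingHom.id_apply, sub_self]⟩
  have h1 : Module.length (MvPolynomial (Fin n) B) Q = Module.length B Q := by
    refine Module.length_eq_of_surjective (S := MvPolynomial (Fin n) B) (R := B) (M := Q) ?_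
    intro b
    refine ⟨C b, ?_⟩
    change aeval w (C b) = b
    rw [aeval_C, Algebra.algebraMap_self, RingHom.id_apply]
  rw [h1]
  exact length_restrict (A := S) (A' := B) Q

end Len

section Main

open MvPolynomial

variable {S B : Type*} [CommRing S] [CommRing B] [Algebra S B] {n : ℕ}

lemma kl_ex (w : Fin n → B) (p : ℤ) (hp : p ≠ 0) :
    Ex (act (kos n fun l => (C (w l) - X l : MvPolynomial (Fin n) B)) (MvPolynomial (Fin n) B))
      (KF n ⊤) (KF n ⊥) p := by
  intro f hf
  have h1 : ∀ a, kdeg n a ≠ -p → f a = 0 := (kcm_mem_top _ _ _).1 hf.1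
  have h2 : act (kos n fun l => (C (w l) - X l : MvPolynomial (Fin n) B))
      (MvPolynomial (Fin n) B) f = 0 := (kcm_mem_bot _ _ _).1 hf.2
  rcases lt_or_gt_of_ne hp with h | h
  · have h3 : KVan (fun l => (C (w l) - X l : MvPolynomial (Fin n) B)) (MvPolynomial (Fin n) B)
        (-p) := by
      refine kcm_van_of_regular _ _ ?_ _ (kl_weaklyRegular n w) (-p) ?_
      · intro z hz
        refine ⟨1, ?_⟩
        rw [pow_one]
        obtain ⟨l, rfl⟩ := (List.mem_ofFn' _ _).mp hz
        exact Ideal.subset_span ⟨l, rfl⟩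
      · rw [List.length_ofFn]
        omega
    obtain ⟨g, hg, hgf⟩ := h3 f h1 h2
    refine Submodule.mem_sup_left ⟨g, ?_, hgf⟩
    refine (kcm_mem_top _ _ _).2 fun a ha => hg a ?_
    omega
  · have h3 : f = 0 := by
      funext a
      refine h1 a ?_
      have := kdeg_range n a
      omega
    rw [h3]
    exact Submodule.zero_mem _

lemma kl_top_bot (M : Type*) [AddCommGroup M] [Module S M] (p : ℤ) :
    KF n (⊥ : Submodule S M) p ≤ KF n ⊤ p := by
  intro f hf
  rw [show f = 0 from (kcm_mem_bot _ _ _).1 hf]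
  exact Submodule.zero_mem _

variable [IsLocalRing S] [IsLocalRing B] [IsLocalHom (algebraMap S B)]

theorem kl_kk (w : Fin n → B) (y : Fin n → S) (i : ℤ) :
    kk y B i = kk (cat (fun l => (C (w l) - X l : MvPolynomial (Fin n) B)) n
      fun l => algebraMap S (MvPolynomial (Fin n) B) (y l)) (MvPolynomial (Fin n) B) i *
        Module.length (ResidueField S) (ResidueField B) := by
  set v : Fin n → MvPolynomial (Fin n) B := fun l => C (w l) - X l with hv
  set y' : Fin n → MvPolynomial (Fin n) B :=
    fun l => algebraMap S (MvPolynomial (Fin n) B) (y l) with hy'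
  let m1 : Module (MvPolynomial (Fin n) B) B :=
    Module.compHom B (aeval w : MvPolynomial (Fin n) B →ₐ[B] B).toRingHom
  have hsm : ∀ (f : MvPolynomial (Fin n) B) (b : B), f • b = aeval w f * b := fun _ _ => rfl
  have t1 : IsScalarTower S (MvPolynomial (Fin n) B) B := ⟨fun s f b => by
    rw [hsm, hsm, Algebra.smul_def, Algebra.smul_def, map_mul, mul_assoc]
    congr 1
    change aeval w (C (algebraMap S B s)) = _
    rw [aeval_C, Algebra.algebraMap_self, RingHom.id_apply]⟩
  have e1 : kk (cat v n y') (MvPolynomial (Fin n) B) i = kk y' B i := by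
    have hd : ∀ x, act (kos n v) (MvPolynomial (Fin n) B)
        (act (kos n v) (MvPolynomial (Fin n) B) x) = 0 := fun x => kcm_act_act _ _
    have s1 := khs_cat (M := MvPolynomial (Fin n) B) n y' v ⊤ ⊥ i
    have s2 := khs_pm (M := MvPolynomial (Fin n) B) n y' v ⊤ ⊥ i
    have s3 := hh_lift_of_ex (kdeg n) (kos n y') (kos_isCx n y')
      (act (kos n v) (MvPolynomial (Fin n) B)) hd (KF n ⊥) (KF n ⊤)
      (KF_cstab n v _) (KF_cstab n v _) (kl_top_bot _) 0 (fun p hp => kl_ex w p hp) i
    let φ : (KIdx n → MvPolynomial (Fin n) B) →ₗ[MvPolynomial (Fin n) B] B :=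
      { toFun := fun f => aeval w (f (kz n))
        map_add' := fun f g => by rw [Pi.add_apply, map_add]
        map_smul' := fun c f => by
          rw [Pi.smul_apply, smul_eq_mul, map_mul, RingHom.id_apply, hsm] }
    have s4 := khs_map_eq (kdeg n) (kos n y') (kos_isCx n y') φ
      (cz (act (kos n v) (MvPolynomial (Fin n) B)) (KF n ⊤) (KF n ⊥) 0)
      (cb (act (kos n v) (MvPolynomial (Fin n) B)) (KF n ⊤) (KF n ⊥) 0) ⊤ ⊥
      (TR.cb_le_cz hd (KF_cstab n v _) (KF_cstab n v _) (kl_top_bot _) 0) ?_ ?_ (i + 0)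
    · unfold kk kh
      rw [s1, s2, s3, s4, add_zero]
    · rw [eq_top_iff]
      intro b _
      have hf1 : (Pi.single (kz n) (C b) : KIdx n → MvPolynomial (Fin n) B) ∈
          KF n (⊤ : Submodule (MvPolynomial (Fin n) B) (MvPolynomial (Fin n) B)) 0 := by
        refine (kcm_mem_top _ _ _).2 fun a ha => Pi.single_eq_of_ne ?_ _
        rintro rfl
        exact ha (by rw [kdeg_kz, neg_zero])
      have hf2 : act (kos n v) (MvPolynomial (Fin n) B)
          (Pi.single (kz n) (C b) : KIdx n → MvPolynomial (Fin n) B) = 0 := by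
        have h := (kcm_mem_top _ _ _).1 (KF_cstab n v _ 0 _ hf1)
        funext a
        refine h a ?_
        have := kdeg_range n a
        omega
      refine ⟨Pi.single (kz n) (C b), ⟨hf1, ?_⟩, ?_⟩
      · refine (kcm_mem_bot _ _ _).2 ?_
        exact hf2
      · change aeval w ((Pi.single (kz n) (C b) : KIdx n → MvPolynomial (Fin n) B) (kz n)) = b
        rw [Pi.single_eq_same, aeval_C, Algebra.algebraMap_self, RingHom.id_apply]
    · intro x hx
      have hx1 : ∀ a, kdeg n a - 0 ≠ 0 → x a = 0 := fun a ha =>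
        (kcm_mem_top _ _ _).1 hx.1 a (by omega)
      have h1 := mem_bb_zero v x hx1
      have h2 : tot (kdeg n) (kos n v) (0 : MvPolynomial (Fin n) B →ₗ[MvPolynomial (Fin n) B]
          MvPolynomial (Fin n) B) = act (kos n v) (MvPolynomial (Fin n) B) :=
        LinearMap.ext fun f => kcm_tot_zero _ _ f
      have h3 : cb (act (kos n v) (MvPolynomial (Fin n) B)) (KF n ⊤) (KF n ⊥) 0 =
          bb (tot (kdeg n) (kos n v) (0 : MvPolynomial (Fin n) B →ₗ[MvPolynomial (Fin n) B]
            MvPolynomial (Fin n) B)) (lift (kdeg n) (conc ⊤)) (lift (kdeg n) (conc ⊥)) 0 := by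
        unfold cb bb KF
        rw [h2]
        norm_num
      rw [h3, h1, Submodule.mem_bot, smul_eq_mul, Ideal.mul_top, kl_mem_span_iff]
      rfl
  rw [e1]
  refine kk_restrict (A := S) (A' := MvPolynomial (Fin n) B) (N := B) y _ (fun X Y => ?_) i
  refine kl_length w _ ?_
  intro s hs q
  obtain ⟨z, rfl⟩ := Submodule.Quotient.mk_surjective _ q
  have h1 : s • z = 0 := by
    refine Subtype.ext (funext fun a => ?_)
    change s • (z.1 a) = 0
    rw [hsm, hs, zero_mul]
  rw [← Submodule.Quotient.mk_smul, h1, Submodule.Quotient.mk_zero]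

end Main

section Final

universe u

variable (p r : ℕ) [Fact p.Prime] {A S A' : Type u} [CommRing A] [CommRing S] [CommRing A']
  [Algebra A S] [Algebra A A'] [CharP A' p]

omit [Fact p.Prime] [CharP A' p] in
lemma kl_LL (y : Fin (r + 1) → S) (z : Fin (r + 1) → A') :
    LL p r A y z = cat (fun l => (MvPolynomial.C ((1 : S) ⊗ₜ[A] z l) - MvPolynomial.X l :
      MvPolynomial (Fin (r + 1)) (S ⊗[A] A'))) (r + 1)
      fun l => algebraMap S (MvPolynomial (Fin (r + 1)) (S ⊗[A] A')) (y l) := by
  have h1 : (fun l => algebraMap (OmR p r A') (SgR p r A S A') (vz p r z l)) =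
      fun l => (MvPolynomial.C ((1 : S) ⊗ₜ[A] z l) - MvPolynomial.X l :
        MvPolynomial (Fin (r + 1)) (S ⊗[A] A')) := by
    funext l
    have h2 : MvPolynomial.map
        (Algebra.TensorProduct.includeRight : A' →ₐ[A] S ⊗[A] A').toRingHom
        (MvPolynomial.C (z l) - MvPolynomial.X l : MvPolynomial (Fin (r + 1)) A') =
        MvPolynomial.C ((1 : S) ⊗ₜ[A] z l) - MvPolynomial.X l := by
      rw [map_sub, MvPolynomial.map_C, MvPolynomial.map_X]
      rfl
    exact h2
  unfold LL
  rw [h1]
  rfl

/-- TASK G3-H11: the Euler characteristic of the list. -/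
theorem kchi_LL [IsLocalRing S] [IsNoetherianRing S] [Module.Finite A A']
    [IsLocalRing (S ⊗[A] A')] [IsLocalHom (algebraMap S (S ⊗[A] A'))]
    (y : Fin (r + 1) → S) (z : Fin (r + 1) → A') (hy : ∀ i, y i ∈ maximalIdeal S)
    (hyl : Module.length S (S ⧸ Ideal.span (Set.range y)) ≠ ⊤) (c : ℕ)
    (hc : Module.length (ResidueField S) (ResidueField (S ⊗[A] A')) = c) :
    (c : ℤ) * kchi (LL p r A y z) (SgR p r A S A') = kchi y (S ⊗[A] A') := by
  have key : ∀ i : ℤ, kk y (S ⊗[A] A') i = kk (LL p r A y z) (SgR p r A S A') i * c := by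
    intro i
    have h1 := kl_kk (S := S) (B := S ⊗[A] A') (fun l => (1 : S) ⊗ₜ[A] z l) y i
    rw [hc] at h1
    rw [kl_LL]
    exact h1
  unfold kchi
  rw [Finset.mul_sum]
  have h1 : ∑ i ∈ Finset.range (r + 1 + 1), (-1 : ℤ) ^ i * ((kk y (S ⊗[A] A') (i : ℤ)).toNat : ℤ) =
      ∑ i ∈ Finset.range (r + 1 + (r + 1) + 1),
        (-1 : ℤ) ^ i * ((kk y (S ⊗[A] A') (i : ℤ)).toNat : ℤ) := by
    refine Finset.sum_subset (Finset.range_mono (by omega)) fun i _ hi => ?_
    rw [kk_out y (S ⊗[A] A') i (Or.inr (by
      rw [Finset.mem_range, not_lt] at hi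
      omega))]
    simp
  rw [h1]
  refine Finset.sum_congr rfl fun i _ => ?_
  rw [key, ENat.toNat_mul, ENat.toNat_natCast]
  push_cast
  ring

end Final

end Vale.Agent.P202.CharP.Gen2
end

section

/-!
P202-G3-H5: transport from `Sg ⊗ V` to `S ⊗ (Om ⊗ V)`, with the change of lengths.
-/

namespace Vale.Agent.P202.CharP.Gen2

open Submodule TensorProduct IsLocalRing Gen

universe u w

section Restrict

variable {S Sg : Type*} [CommRing S] [CommRing Sg] [Algebra S Sg] {𝕋 : Type*} [AddCommGroup 𝕋]
  [Module S 𝕋] [Module Sg 𝕋] [IsScalarTower S Sg 𝕋]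

theorem tr_zz_restrict (D : 𝕋 →ₗ[Sg] 𝕋) (Y X : ℤ → Submodule Sg 𝕋) (δ : ℤ) :
    zz (D.restrictScalars S) (fun p => (Y p).restrictScalars S)
      (fun p => (X p).restrictScalars S) δ = (zz D Y X δ).restrictScalars S := rfl

theorem tr_bb_restrict (D : 𝕋 →ₗ[Sg] 𝕋) (Y X : ℤ → Submodule Sg 𝕋) (δ : ℤ) :
    bb (D.restrictScalars S) (fun p => (Y p).restrictScalars S)
      (fun p => (X p).restrictScalars S) δ = (bb D Y X δ).restrictScalars S := by
  ext f
  rw [Submodule.restrictScalars_mem]
  unfold bb
  rw [Submodule.mem_sup, Submodule.mem_sup]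
  constructor
  · rintro ⟨z, ⟨x, hx, rfl⟩, t, ht, rfl⟩
    exact ⟨_, ⟨x, hx, rfl⟩, t, ht, rfl⟩
  · rintro ⟨z, ⟨x, hx, rfl⟩, t, ht, rfl⟩
    exact ⟨_, ⟨x, hx, rfl⟩, t, ht, rfl⟩

end Restrict

section Pm

variable {S : Type*} [CommRing S] {M : Type*} [AddCommGroup M] [Module S M]

theorem tr_pm_deg (n : ℕ) (y v : Fin n → S) (x x' : KIdx n × KIdx n)
    (h : pm n y v x x' ≠ 0) : pdegP n x' = pdegP n x + 1 := by
  unfold pm at h
  unfold pdegP
  by_cases h2 : x.2 = x'.2
  · by_cases h1 : x.1 = x'.1
    · exfalso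
      apply h
      have e1 : kos n y x.1 x'.1 = 0 := by
        by_contra h3
        have := (kos_isCx n y).deg_eq _ _ h3
        rw [h1] at this
        omega
      have e2 : kos n v x.2 x'.2 = 0 := by
        by_contra h3
        have := (kos_isCx n v).deg_eq _ _ h3
        rw [h2] at this
        omega
      rw [if_pos h2, if_pos h1, e1, e2, mul_zero, add_zero]
    · rw [if_pos h2, if_neg h1, add_zero] at h
      have := (kos_isCx n y).deg_eq _ _ h
      rw [← h2]
      omega
  · by_cases h1 : x.1 = x'.1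
    · rw [if_neg h2, if_pos h1, zero_add] at h
      have := (kos_isCx n v).deg_eq _ _ (right_ne_zero_of_mul h)
      rw [← h1]
      omega
    · exfalso
      apply h
      rw [if_neg h2, if_neg h1, add_zero]

theorem tr_pm_stab (n : ℕ) (y v : Fin n → S) (Y : Submodule S M) :
    Stab (tot (pdegP n) (pm n y v) (0 : M →ₗ[S] M)) (lift (pdegP n) (conc Y)) := by
  intro δ f hf
  rw [khc_mem_lift] at hf ⊢
  intro a
  rw [tot_zero_apply]
  refine Submodule.sum_mem _ fun b _ => ?_
  by_cases hab : pm n y v a b = 0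
  · rw [hab, zero_smul]; exact Submodule.zero_mem _
  · have h1 := tr_pm_deg n y v a b hab
    have h2 := hf b
    rw [h1] at h2
    refine Submodule.smul_mem _ _ ?_
    have e : pdegP n a - (δ - 1) = pdegP n a + 1 - δ := by ring
    rw [e]; exact h2

theorem tr_tot_pm (n : ℕ) (y v : Fin n → S) (h : KIdx n × KIdx n → M) (a b : KIdx n) :
    tot (pdegP n) (pm n y v) (0 : M →ₗ[S] M) h (a, b) =
      ∑ a', kos n y a a' • h (a', b) +
        ((kdeg n a).negOnePow : ℤ) • ∑ b', kos n v b b' • h (a, b') := by
  rw [tot_zero_apply]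
  have e : ∀ x' : KIdx n × KIdx n, pm n y v (a, b) x' • h x' =
      (if b = x'.2 then kos n y a x'.1 • h x' else 0) +
        (if a = x'.1 then ((kdeg n a).negOnePow : ℤ) • kos n v b x'.2 • h x' else 0) := by
    intro x'
    unfold pm
    rw [add_smul, ite_smul, zero_smul, ite_smul, zero_smul]
    congr 1
    split_ifs with h1
    · rw [mul_smul, Int.cast_smul_eq_zsmul]
    · rfl
  simp only [e]
  rw [Finset.sum_add_distrib, Fintype.sum_prod_type, Fintype.sum_prod_type]
  congr 1
  · refine Finset.sum_congr rfl fun a' _ => ?_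
    simp
  · rw [Finset.sum_comm, Finset.smul_sum]
    refine Finset.sum_congr rfl fun b' _ => ?_
    simp

end Pm

section Trans

variable {A P Om S : Type*} {Sg : Type u} [CommRing A] [CommRing P] [CommRing Om]
  [Algebra A Om] [Algebra P Om] [SMulCommClass P A Om] [CommRing S] [Algebra A S]
  [CommRing Sg] [Algebra A Sg] [Algebra P Sg] [Algebra S Sg] [Algebra Om Sg]
  [IsScalarTower A S Sg] [IsScalarTower A Om Sg] [IsScalarTower P Om Sg]
  {V : Type w} [AddCommGroup V] [Module P V] {n : ℕ}

variable (P Om Sg V) in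
/-- the map `Om ⊗ V → Sg ⊗ V`. -/
noncomputable def trPsi : Om ⊗[P] V →ₗ[Om] Sg ⊗[P] V :=
  TensorProduct.AlgebraTensorModule.map (Algebra.linearMap Om Sg) LinearMap.id

omit [CommRing A] [Algebra A Om] [SMulCommClass P A Om] in
theorem trPsi_tmul (o : Om) (x : V) :
    trPsi P Om Sg V (o ⊗ₜ x) = algebraMap Om Sg o ⊗ₜ x := rfl

theorem trPsi_mem (Y : Submodule P V) {t : Om ⊗[P] V} (ht : t ∈ Y.baseChange Om) :
    trPsi P Om Sg V t ∈ Y.baseChange Sg := by
  have h : Y.baseChange Om ≤ ((Y.baseChange Sg).restrictScalars Om).comap (trPsi P Om Sg V) := by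
    rw [Submodule.baseChange_eq_span Om Y, span_le]
    rintro _ ⟨x, hx, rfl⟩
    show trPsi P Om Sg V (1 ⊗ₜ x) ∈ Y.baseChange Sg
    rw [trPsi_tmul, map_one]
    exact tmul_mem_baseChange_of_mem _ hx
  exact h ht

variable (A P Om S Sg V) in
/-- the map `S ⊗ (Om ⊗ V) → Sg ⊗ V`. -/
noncomputable def trTh : S ⊗[A] (Om ⊗[P] V) →ₗ[S] Sg ⊗[P] V :=
  ((trPsi P Om Sg V).restrictScalars A).liftBaseChange S

theorem trTh_tmul (s : S) (t : Om ⊗[P] V) :
    trTh A P Om S Sg V (s ⊗ₜ t) = s • trPsi P Om Sg V t := rfl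

theorem trTh_bij [Algebra.IsPushout A S Om Sg] :
    Function.Bijective (trTh A P Om S Sg V) := by
  have h : (trTh A P Om S Sg V : S ⊗[A] (Om ⊗[P] V) → Sg ⊗[P] V) =
      (AlgebraTensorModule.cancelBaseChange P Om Sg Sg V) ∘
        (Algebra.IsPushout.cancelBaseChange A S Om Sg (Om ⊗[P] V)).symm := by
    funext t
    rw [Function.comp_apply]
    induction t with
    | zero => simp
    | add x y hx hy => rw [map_add, map_add, map_add, hx, hy]
    | tmul s t =>
      rw [trTh_tmul, Algebra.IsPushout.cancelBaseChange_symm_tmul]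
      induction t with
      | zero => simp
      | add x y hx hy => rw [map_add, smul_add, hx, hy, TensorProduct.tmul_add, map_add]
      | tmul o x =>
        rw [trPsi_tmul, AlgebraTensorModule.cancelBaseChange_tmul, TensorProduct.smul_tmul',
          Algebra.smul_def, Algebra.smul_def, mul_comm]
  rw [h]
  exact (LinearEquiv.bijective _).comp (LinearEquiv.bijective _)

/-- surjectivity onto `Y.baseChange Sg`. -/
theorem trTh_surj [Algebra.IsPushout A S Om Sg] (Y : Submodule P V) {z : Sg ⊗[P] V}
    (hz : z ∈ Y.baseChange Sg) :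
    ∃ t ∈ ((Y.baseChange Om).restrictScalars A).baseChange S, trTh A P Om S Sg V t = z := by
  obtain ⟨z, rfl⟩ := hz
  induction z with
  | zero => exact ⟨0, Submodule.zero_mem _, by simp⟩
  | add x y hx hy =>
    obtain ⟨t, ht, h1⟩ := hx
    obtain ⟨t', ht', h1'⟩ := hy
    exact ⟨t + t', Submodule.add_mem _ ht ht', by rw [map_add, h1, h1', map_add]⟩
  | tmul g x =>
    obtain ⟨r, rfl⟩ := (Algebra.IsPushout.equiv A S Om Sg).surjective g
    induction r with
    | zero => exact ⟨0, Submodule.zero_mem _, by simp⟩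
    | add r r' hr hr' =>
      obtain ⟨t, ht, h1⟩ := hr
      obtain ⟨t', ht', h1'⟩ := hr'
      exact ⟨t + t', Submodule.add_mem _ ht ht', by
        rw [map_add, h1, h1', map_add, TensorProduct.add_tmul, map_add]⟩
    | tmul s o =>
      refine ⟨s ⊗ₜ (o ⊗ₜ x.1), tmul_mem_baseChange_of_mem _ ?_, ?_⟩
      · exact tmul_mem_baseChange_of_mem (p := Y) o x.2
      · rw [trTh_tmul, trPsi_tmul, Algebra.IsPushout.equiv_tmul, LinearMap.baseChange_tmul,
          TensorProduct.smul_tmul', Algebra.smul_def]
        rfl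

variable (A P Om S Sg V n) in
/-- the map `S ⊗ (Om ⊗ V)ⁿ → (Sg ⊗ V)ⁿ`. -/
noncomputable def trPhi : S ⊗[A] (KIdx n → Om ⊗[P] V) →ₗ[S] (KIdx n → Sg ⊗[P] V) :=
  (LinearMap.pi fun b => (trTh A P Om S Sg V) ∘ₗ
    (LinearMap.proj b : (KIdx n → S ⊗[A] (Om ⊗[P] V)) →ₗ[S] S ⊗[A] (Om ⊗[P] V))) ∘ₗ
    (TensorProduct.piRight A S S (fun _ : KIdx n => Om ⊗[P] V)).toLinearMap

theorem trPhi_apply (t : S ⊗[A] (KIdx n → Om ⊗[P] V)) (b : KIdx n) :
    trPhi A P Om S Sg V n t b = trTh A P Om S Sg V
      (TensorProduct.piRight A S S (fun _ : KIdx n => Om ⊗[P] V) t b) := rfl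

theorem trPhi_tmul (s : S) (g : KIdx n → Om ⊗[P] V) (b : KIdx n) :
    trPhi A P Om S Sg V n (s ⊗ₜ g) b = s • trPsi P Om Sg V (g b) := by
  rw [trPhi_apply, TensorProduct.piRight_apply, TensorProduct.piRightHom_tmul, trTh_tmul]

theorem trPhi_bij [Algebra.IsPushout A S Om Sg] :
    Function.Bijective (trPhi A P Om S Sg V n) := by
  have h : (trPhi A P Om S Sg V n : S ⊗[A] (KIdx n → Om ⊗[P] V) → (KIdx n → Sg ⊗[P] V)) =
      (fun (h : KIdx n → S ⊗[A] (Om ⊗[P] V)) b => trTh A P Om S Sg V (h b)) ∘
      (TensorProduct.piRight A S S (fun _ : KIdx n => Om ⊗[P] V)) := rfl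
  rw [h]
  refine Function.Bijective.comp ⟨?_, ?_⟩ (LinearEquiv.bijective _)
  · intro f g hfg
    funext b
    exact trTh_bij.1 (congrFun hfg b)
  · intro g
    choose f hf using fun b => (trTh_bij (A := A) (P := P) (Om := Om) (S := S)).2 (g b)
    exact ⟨f, funext hf⟩

theorem mem_KA (Y : Submodule P V) (p : ℤ) (g : KIdx n → Om ⊗[P] V) :
    g ∈ KA A Om n Y p ↔ ∀ b, g b ∈ conc (Y.baseChange Om) (kdeg n b + p) := by
  unfold KA
  rw [Submodule.restrictScalars_mem, khc_mem_lift]
  simp only [sub_neg_eq_add]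

theorem trPhi_single [Algebra.IsPushout A S Om Sg] (Y : Submodule P V) (p : ℤ) (b : KIdx n)
    {z : Sg ⊗[P] V} (hz : z ∈ conc (Y.baseChange Sg) (kdeg n b + p)) :
    ∃ t ∈ (KA A Om n Y p).baseChange S, trPhi A P Om S Sg V n t = Pi.single b z := by
  rw [mem_conc] at hz
  by_cases h : kdeg n b + p = 0
  · obtain ⟨t, ht, rfl⟩ := trTh_surj (A := A) (Om := Om) (S := S) Y (hz.1 h)
    refine ⟨(LinearMap.single A (fun _ : KIdx n => Om ⊗[P] V) b).baseChange S t, ?_, ?_⟩
    · have h1 : ((Y.baseChange Om).restrictScalars A).map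
          (LinearMap.single A (fun _ : KIdx n => Om ⊗[P] V) b) ≤ KA A Om n Y p := by
        rintro _ ⟨x, hx, rfl⟩
        rw [mem_KA]
        intro b'
        rw [mem_conc]
        by_cases hb : b' = b
        · subst hb
          refine ⟨fun _ => ?_, fun h' => absurd h h'⟩
          rw [LinearMap.single_apply, Pi.single_eq_same]
          exact hx
        · rw [LinearMap.single_apply, Pi.single_eq_of_ne hb]
          exact ⟨fun _ => Submodule.zero_mem _, fun _ => rfl⟩
      refine baseChange_mono S h1 ?_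
      rw [baseChange_map]
      exact ⟨t, ht, rfl⟩
    · clear ht hz
      funext b'
      induction t with
      | zero => simp
      | add x y hx hy => rw [map_add, map_add, Pi.add_apply, hx, hy, map_add, Pi.single_add,
          Pi.add_apply]
      | tmul s x =>
        rw [LinearMap.baseChange_tmul, trPhi_tmul, LinearMap.single_apply, trTh_tmul]
        by_cases hb : b' = b
        · subst hb
          rw [Pi.single_eq_same, Pi.single_eq_same]
        · rw [Pi.single_eq_of_ne hb, Pi.single_eq_of_ne hb, map_zero, smul_zero]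
  · rw [hz.2 h]
    exact ⟨0, Submodule.zero_mem _, by rw [map_zero, Pi.single_zero]⟩

theorem trPhi_mem [Algebra.IsPushout A S Om Sg] (Y : Submodule P V) (p : ℤ)
    (t : S ⊗[A] (KIdx n → Om ⊗[P] V)) :
    t ∈ (KA A Om n Y p).baseChange S ↔
      ∀ b, trPhi A P Om S Sg V n t b ∈ conc (Y.baseChange Sg) (kdeg n b + p) := by
  constructor
  · intro ht
    have h : (KA A Om n Y p).baseChange S ≤ (Submodule.pi Set.univ fun b : KIdx n =>
        (conc (Y.baseChange Sg) (kdeg n b + p)).restrictScalars S).comap
          (trPhi A P Om S Sg V n) := by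
      rw [Submodule.baseChange_eq_span S (KA A Om n Y p), span_le]
      rintro _ ⟨g, hg, rfl⟩
      rw [SetLike.mem_coe, mem_KA] at hg
      show trPhi A P Om S Sg V n (1 ⊗ₜ g) ∈ Submodule.pi Set.univ fun b : KIdx n =>
        (conc (Y.baseChange Sg) (kdeg n b + p)).restrictScalars S
      rw [Submodule.mem_pi]
      intro b _
      rw [Submodule.restrictScalars_mem, trPhi_tmul, one_smul, mem_conc]
      have h1 := hg b
      rw [mem_conc] at h1
      refine ⟨fun h => trPsi_mem Y (h1.1 h), fun h => ?_⟩
      rw [h1.2 h, map_zero]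
    have h2 := h ht
    rw [Submodule.mem_comap, Submodule.mem_pi] at h2
    exact fun b => h2 b (Set.mem_univ b)
  · intro h
    choose t' ht' hp using fun b => trPhi_single (A := A) (Om := Om) (S := S) Y p b (h b)
    have h1 : t = ∑ b, t' b := by
      refine (trPhi_bij (A := A) (P := P) (Om := Om) (S := S) (Sg := Sg)).1 ?_
      rw [map_sum]
      simp only [hp]
      funext b
      rw [Finset.sum_apply, Finset.sum_eq_single b]
      · rw [Pi.single_eq_same]
      · intro b' _ hb'
        rw [Pi.single_eq_of_ne hb'.symm]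
      · intro hb
        exact absurd (Finset.mem_univ b) hb
    rw [h1]
    exact Submodule.sum_mem _ fun b _ => ht' b

theorem trPhi_DA (v : Fin n → Om) (t : S ⊗[A] (KIdx n → Om ⊗[P] V)) (b : KIdx n) :
    trPhi A P Om S Sg V n ((DA A V v).baseChange S t) b =
      ∑ b', kos n (fun l => algebraMap Om Sg (v l)) b b' • trPhi A P Om S Sg V n t b' := by
  induction t with
  | zero => simp
  | add x y hx hy =>
    rw [map_add, map_add, Pi.add_apply, hx, hy, ← Finset.sum_add_distrib]
    refine Finset.sum_congr rfl fun b' _ => ?_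
    rw [map_add, Pi.add_apply, smul_add]
  | tmul s g =>
    rw [LinearMap.baseChange_tmul, trPhi_tmul]
    have h1 : DA A V v g b = ∑ b', kos n v b b' • g b' := rfl
    rw [h1, map_sum, Finset.smul_sum]
    refine Finset.sum_congr rfl fun b' _ => ?_
    rw [trPhi_tmul, map_smul, kos_map, algebraMap_smul]
    exact smul_comm _ _ _

variable (A P Om S Sg V n) in
/-- the transport map. -/
noncomputable def trF : (KIdx n → S ⊗[A] (KIdx n → Om ⊗[P] V)) →ₗ[S]
    (KIdx n × KIdx n → Sg ⊗[P] V) :=
  LinearMap.pi fun x => (LinearMap.proj x.2) ∘ₗ (trPhi A P Om S Sg V n) ∘ₗ (LinearMap.proj x.1)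

theorem trF_apply (f : KIdx n → S ⊗[A] (KIdx n → Om ⊗[P] V)) (a b : KIdx n) :
    trF A P Om S Sg V n f (a, b) = trPhi A P Om S Sg V n (f a) b := rfl

theorem trF_surj [Algebra.IsPushout A S Om Sg] :
    Function.Surjective (trF A P Om S Sg V n) := by
  intro h
  choose f hf using fun a => (trPhi_bij (A := A) (P := P) (Om := Om) (S := S)).2
    (fun b => h (a, b))
  refine ⟨f, ?_⟩
  funext ⟨a, b⟩
  rw [trF_apply, hf]

theorem trF_mem [Algebra.IsPushout A S Om Sg] (Y : Submodule P V) (δ : ℤ)
    (f : KIdx n → S ⊗[A] (KIdx n → Om ⊗[P] V)) :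
    f ∈ lift (kdeg n) (bcf S (KA A Om n Y)) δ ↔
      trF A P Om S Sg V n f ∈ lift (pdegP n) (conc (Y.baseChange Sg)) δ := by
  rw [khc_mem_lift, khc_mem_lift]
  unfold bcf pdegP
  simp only [trPhi_mem (Sg := Sg)]
  constructor
  · rintro h ⟨a, b⟩
    have h1 := h a b
    rw [trF_apply]
    have e : kdeg n b + (kdeg n a - δ) = kdeg n a + kdeg n b - δ := by ring
    rw [e] at h1
    exact h1
  · intro h a b
    have h1 := h (a, b)
    rw [trF_apply] at h1
    have e : kdeg n b + (kdeg n a - δ) = kdeg n a + kdeg n b - δ := by ring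
    rw [e]
    exact h1

theorem trF_comm (y : Fin n → S) (v : Fin n → Om)
    (f : KIdx n → S ⊗[A] (KIdx n → Om ⊗[P] V)) :
    tot (pdegP n) (pm n (fun l => algebraMap S Sg (y l)) fun l => algebraMap Om Sg (v l))
      (0 : Sg ⊗[P] V →ₗ[Sg] Sg ⊗[P] V) (trF A P Om S Sg V n f) =
    trF A P Om S Sg V n (tot (kdeg n) (kos n y) ((DA A V v).baseChange S) f) := by
  funext ⟨a, b⟩
  rw [tr_tot_pm, trF_apply]
  have h1 : tot (kdeg n) (kos n y) ((DA A V v).baseChange S) f a =
      ∑ a', kos n y a a' • f a' +
        ((kdeg n a).negOnePow : ℤ) • (DA A V v).baseChange S (f a) := rfl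
  rw [h1, map_add, map_sum, map_zsmul, Pi.add_apply, Pi.smul_apply, trPhi_DA, Finset.sum_apply]
  congr 1
  refine Finset.sum_congr rfl fun a' _ => ?_
  rw [kos_map, algebraMap_smul, map_smul, trF_apply]
  rfl

theorem tr_killed (m : Ideal P) (K : ℕ) (X Y : Submodule P V) (hK : m ^ K • Y ≤ X) {q : P}
    (hq : q ∈ m ^ K) {z : Sg ⊗[P] V} (hz : z ∈ Y.baseChange Sg) :
    algebraMap P Sg q • z ∈ X.baseChange Sg := by
  have h : Y.baseChange Sg ≤ (X.baseChange Sg).comap
      (LinearMap.lsmul Sg (Sg ⊗[P] V) (algebraMap P Sg q)) := by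
    rw [Submodule.baseChange_eq_span Sg Y, span_le]
    rintro _ ⟨x, hx, rfl⟩
    show algebraMap P Sg q • ((1 : Sg) ⊗ₜ[P] x) ∈ X.baseChange Sg
    rw [algebraMap_smul, TensorProduct.smul_tmul', TensorProduct.smul_tmul]
    exact tmul_mem_baseChange_of_mem _ (hK (Submodule.smul_mem_smul hq hx))
  exact h hz

/-- TASK G3-H5: transport from `Sg ⊗ V` to `S ⊗ (Om ⊗ V)`, with the change of lengths. -/
theorem khs_trans [Algebra.IsPushout A S Om Sg] [Module.Flat A S] [Module.Flat P Om]
    (y : Fin n → S) (v : Fin n → Om) (m : Ideal P) (K : ℕ) (X Y : Submodule P V)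
    (hXY : X ≤ Y) (hK : m ^ K • Y ≤ X) (c : ℕ∞)
    (hlen : ∀ (N : Type (max u w)) [AddCommGroup N] [Module Sg N] [Module S N]
      [IsScalarTower S Sg N], (∀ q ∈ m ^ K, ∀ x : N, algebraMap P Sg q • x = 0) →
      Module.length S N = c * Module.length Sg N) (i : ℤ) :
    hh (tot (kdeg n) (kos n y) ((DA A V v).baseChange S))
      (lift (kdeg n) (bcf S (KA A Om n Y))) (lift (kdeg n) (bcf S (KA A Om n X))) i =
    c * khs (pdegP n) (pm n (fun l => algebraMap S Sg (y l)) fun l => algebraMap Om Sg (v l))
      (Y.baseChange Sg) (X.baseChange Sg) i := by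
  set D' := tot (pdegP n) (pm n (fun l => algebraMap S Sg (y l)) fun l => algebraMap Om Sg (v l))
    (0 : Sg ⊗[P] V →ₗ[Sg] Sg ⊗[P] V) with hD'
  set Y' : ℤ → Submodule Sg (KIdx n × KIdx n → Sg ⊗[P] V) :=
    lift (pdegP n) (conc (Y.baseChange Sg)) with hY'
  set X' : ℤ → Submodule Sg (KIdx n × KIdx n → Sg ⊗[P] V) :=
    lift (pdegP n) (conc (X.baseChange Sg)) with hX'
  have h1 : hh (tot (kdeg n) (kos n y) ((DA A V v).baseChange S))
      (lift (kdeg n) (bcf S (KA A Om n Y))) (lift (kdeg n) (bcf S (KA A Om n X))) i =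
      hh (D'.restrictScalars S) (fun p => (Y' p).restrictScalars S)
        (fun p => (X' p).restrictScalars S) i := by
    refine hh_map_eq _ _ (trF A P Om S Sg V n) (fun f => trF_comm y v f) _ _ _ _ ?_ ?_ ?_ ?_ i
    · intro δ f hf
      rw [trF_mem (Sg := Sg)] at hf ⊢
      rw [khc_mem_lift] at hf ⊢
      exact fun a => conc_mono (baseChange_mono Sg hXY) _ (hf a)
    · intro δ f hf
      rw [trF_mem (Sg := Sg)] at hf ⊢
      rw [← trF_comm]
      exact tr_pm_stab n _ _ (Y.baseChange Sg) δ _ hf
    · intro δ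
      ext h
      constructor
      · rintro ⟨f, hf, rfl⟩
        exact (trF_mem Y δ f).1 hf
      · intro hh
        obtain ⟨f, rfl⟩ := trF_surj (A := A) (Om := Om) (S := S) h
        exact ⟨f, (trF_mem Y δ f).2 hh, rfl⟩
    · intro δ f _
      exact (trF_mem X δ f).symm
  rw [h1]
  unfold khs hh
  rw [tr_zz_restrict, tr_bb_restrict, rl_restrict _ _ c, mul_comm]
  rw [mul_comm]
  refine hlen _ ?_
  intro q hq x
  obtain ⟨⟨x, hx⟩, rfl⟩ := Submodule.Quotient.mk_surjective _ x
  rw [← Submodule.Quotient.mk_smul, Submodule.Quotient.mk_eq_zero]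
  show algebraMap P Sg q • x ∈ bb D' Y' X' i
  refine Submodule.mem_sup_right ?_
  have h2 : x ∈ Y' i := (Submodule.mem_inf.1 hx).1
  have h4 := khc_mem_lift.1 h2
  refine khc_mem_lift.2 ?_
  intro a
  have h3 := h4 a
  rw [mem_conc] at h3 ⊢
  refine ⟨fun h => tr_killed m K X Y hK hq (h3.1 h), fun h => ?_⟩
  rw [Pi.smul_apply, h3.2 h, smul_zero]

end Trans

end Vale.Agent.P202.CharP.Gen2
end
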