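import Vale.Agent.P202.MathlibUsed
import Vale.Agent.P202.Bdl.B2
import Vale.Agent.P202.Bdl.B1
attribute [-instance] DenselyNormedField.toNontriviallyNormedField DenselyNormedField.toNormedField NontriviallyNormedField.toNormedField RCLike.toDenselyNormedField NormedField.toField NormedField.toNormedDivisionRing Field.toDivisionRing NormedDivisionRing.toDivisionRing Field.toSemifield IdemCommSemiring.toCommSemiring Semifield.toCommSemiring DivisionRing.toDivisionSemiring Semifield.toDivisionSemiring IdemCommSemiring.toIdemSemiring KleeneAlgebra.toIdemSemiring DivisionSemiring.toSemiring SemiRingCat.instSemiringObjForgetRingHomCarrier DivisionRing.toRing NormedField.toNormedCommRing NormedCommRing.toSeminormedCommRing NormedCommRing.toNormedRing NormedDivisionRing.toNormedRing NormedRing.toSeminormedRing SeminormedCommRing.toSeminormedRing EuclideanDomain.toCommRing Field.toCommRing Field.toEuclideanDomain NormedCommRing.toCommRing SeminormedCommRing.toCommRing NormedRing.toRing SeminormedRing.toRing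 Ring.toNonAssocRing CommSemiring.toNonAssocCommSemiring NonAssocCommRing.toNonAssocCommSemiring NonAssocCommSemiring.toNonAssocSemiring NonAssocRing.toNonAssocSemiring CommRing.toAddCommGroupWithOne NonAssocRing.toAddCommGroupWithOne AddCommGroupWithOne.toAddCommMonoidWithOne NormedCommRing.toNonUnitalNormedCommRing NonUnitalNormedCommRing.toNonUnitalNormedRing NormedRing.toNonUnitalNormedRing NonUnitalNormedCommRing.toNonUnitalSeminormedCommRing SeminormedCommRing.toNonUnitalSeminormedCommRing NonUnitalNormedRing.toNonUnitalSeminormedRing NonUnitalSeminormedCommRing.toNonUnitalSeminormedRing SeminormedRing.toNonUnitalSeminormedRing NonUnitalNormedCommRing.toNonUnitalCommRing NonUnitalSeminormedCommRing.toNonUnitalCommRing NonUnitalNormedRing.toNonUnitalRing NonUnitalSeminormedRing.toNonUnitalRing Ring.toNonUnitalRing NonUnitalRing.toNonUnitalSemiring Semiring.toNonUnitalSemiring NonAssocCommRing.toNonUnitalNonAssocCommRing NonAssocRing.toNonUnitalNonAssocRing NonUnitalRing.toNonUnitalNonAssocRing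 NonAssocCommSemiring.toNonUnitalNonAssocCommSemiring NonUnitalNonAssocCommSemiring.toNonUnitalNonAssocSemiring LinearOrderedAddCommGroupWithTop.instLinearOrderedAddCommMonoidWithTop LinearOrderedAddCommGroupWithTop.toAddCommMonoid LinearOrderedAddCommMonoidWithTop.toAddCommMonoid AddCommMonoidWithOne.toAddCommMonoid SemimoduleCat.isAddCommMonoid Pi.nonUnitalNonAssocSemiring CommSemiRingCat.instCommSemiringObjForgetRingHomCarrier AddCommGroupWithOne.toAddGroupWithOne instCoeT LinearOrderedAddCommGroupWithTop.toSubNegMonoid instCoeTOfCoeDep AbsoluteValue.funLike CommGroupWithZero.toGroupWithZero DivisionSemiring.toGroupWithZero LinearOrderedCommGroupWithZero.toCommGroupWithZero Semifield.toCommGroupWithZero LinearOrderedCommGroupWithZero.toLinearOrderedCommMonoidWithZero MulSemiringAction.toDistribMulAction CommGroupWithZero.toCommMonoidWithZero CommMonoidWithZero.toMonoidWithZero CommSemiring.toCommMonoidWithZero GroupWithZero.toMonoidWithZero LinearOrderedCommMonoidWithZero.toCommMonoidWithZero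 MonoidWithZero.toMulZeroOneClass MonoidWithZero.toSemigroupWithZero SemigroupWithZero.toMulZeroClass instCoeTC instCoeTCOfCoe instCoeTCOfCoe_1 Filter.instMembership AddOpposite.instAddZero instDistribSMul NormedCommGroup.toNormedGroup NormedCommGroup.toSeminormedCommGroup NormedGroup.toSeminormedGroup SeminormedCommGroup.toSeminormedGroup CommGroup.toGroup NormedCommGroup.toCommGroup NormedGroup.toGroup SeminormedCommGroup.toCommGroup SeminormedGroup.toGroup AddGrpCat.str instCoeOTCOfCoeTC instCoeHTC Pi.instIdemCommSemiringForall Pi.normedCommutativeRing Pi.seminormedCommRing MonCat.monoidObj CompleteAtomicBooleanAlgebra.toCompleteBooleanAlgebra instSMulZeroClass instNonUnitalAlgHomClassOfNonUnitalAlgEquivClass AlgHom.instNonUnitalAlgHomClassOfAlgHomClass Pi.instIdemSemiring Pi.instKleeneAlgebraForall Pi.normedRing Pi.seminormedRing LieRing.toAddCommGroup MulSemiringActionSemiHomClass.toDistribMulActionSemiHomClass NonUnitalAlgSemiHomClass.toDistribMulActionSemiHomClass CompleteAtomicBooleanAlgebra.toCompletelyDistribLattice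 CompleteBooleanAlgebra.toCompleteDistribLattice CompleteLinearOrder.toCompletelyDistribLattice CompletelyDistribLattice.toCompleteDistribLattice instCoeHTCT OrderAddMonoidHom.instAddMonoidHomClass CompleteDistribLattice.toCoframe CompleteDistribLattice.toFrame NormedAlgebra.toAlgebra ContinuousAddMonoidHom.instCoeOutOfAddMonoidHomClassOfContinuousMapClass ContinuousMonoidHom.instCoeOutOfMonoidHomClassOfContinuousMapClass HomeomorphClass.instCoeOutHomeomorph IsometryClass.instCoeOutIsometryEquiv Std.DTreeMap.Raw.instInsertSigma NormedAlgebra.id AbsoluteValue.zeroHomClass CompleteBooleanAlgebra.toCompleteLattice CompleteLinearOrder.toCompleteLattice CompletelyDistribLattice.toCompleteLattice Order.Coframe.toCompleteLattice Order.Frame.toCompleteLattice Torsor.toMulAction GradedMonoid.GradeZero.mulAction instCoeOutOfCoeFun LinearMapClass.instCoeToLinearMap NonUnitalStarRingHomClass.instCoeHeadNonUnitalStarRingHom SemilinearMapClass.instCoeToSemilinearMap StarAlgEquivClass.instCoeHead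 StarRingEquivClass.instCoeHead instCoeTailIntOfIntCast instCoeTailRatOfRatCast DivisionRing.toNNRatCast DivisionRing.toRatCast DivisionSemiring.toNNRatCast NNRatCast.toCoeTail LieAlgebra.toModule NormedSpace.toModule ChainCompletePartialOrder.instOfCompleteLattice ChainCompletePartialOrder.instOmegaCompletePartialOrder ChainCompletePartialOrder.toPartialOrder CompletePartialOrder.toOmegaCompletePartialOrder CompletePartialOrder.toPartialOrder OmegaCompletePartialOrder.toPartialOrder Matrix.instIntCastOfZero Matrix.instNatCastOfZero Matrix.SpecialLinearGroup.hasCoeToMatrix Pi.preorder Invertible.toNeZero LinearOrderedCommMonoidWithZero.toIsBotZeroClass NeZero.of_gt' Nat.AtLeastTwo.toNeZero CompleteLinearOrder.toConditionallyCompleteLinearOrderBot NonUnitalNormedRing.toNormedAddCommGroup ValuationClass.toMonoidWithZeroHomClass CompleteBooleanAlgebra.toBooleanAlgebra CategoryTheory.instFinCategoryOfFintypeOfIsThin SetLike.instFintype Unique.fintype CategoryTheory.FinCategory.fintypeObj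 Pi.instTopForall Set.instEmptyCollection ConditionallyCompleteLinearOrderBot.toConditionallyCompleteLinearOrder AddGroupWithOne.toIntCast MulEquivClass.toMonoidWithZeroHomClass MulRingSeminormClass.toMonoidWithZeroHomClass Pi.addMonoidWithOne Matrix.instAddCommGroupWithOne Matrix.instAddCommMonoidWithOne Matrix.instAddGroupWithOne Matrix.instAddMonoidWithOne Matrix.instNonAssocRing Matrix.instRing Matrix.nonAssocSemiring Matrix.semiring Pi.nonAssocRing ModuleCat.isModule Nat.instNontrivial Nat.instOne Nat.Prime.one_lt' BooleanAlgebra.toBiheytingAlgebra CompleteDistribLattice.toBiheytingAlgebra CompleteLinearOrder.toBiheytingAlgebra CompletelyDistribLattice.toBiheytingAlgebra Ideal.Quotient.isScalarTower Pi.instBotForall instSMulCommClassOfIsScalarTower NormedAddCommGroup.toNormedAddGroup coePNatNat Nat.Primes.coeNat Nat.Primes.coePNat Pi.nonUnitalSemiring Pi.instCompl Pi.seminormedAddCommGroup instRingHomSurjectiveForallEvalRingHom NonUnitalSeminormedRing.toSeminormedAddCommGroup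 NormedAddCommGroup.toSeminormedAddCommGroup MulZeroClass.toSMulWithZero CompleteLinearOrder.toLinearOrder ConditionallyCompleteLinearOrder.toLinearOrder LinearOrderedAddCommGroupWithTop.toLinearOrder LinearOrderedAddCommMonoidWithTop.toLinearOrder LinearOrderedCommMonoidWithZero.toLinearOrder instSubsingleton RingCat.instRingObjForgetRingHomCarrier Pi.instOne Part.ofOptionDecidable IsEmpty.instSubsingleton NormedAddGroup.toSeminormedAddGroup SeminormedAddCommGroup.toSeminormedAddGroup BiheytingAlgebra.toCoheytingAlgebra BiheytingAlgebra.toHeytingAlgebra BooleanAlgebra.toGeneralizedBooleanAlgebra Order.Coframe.toCoheytingAlgebra Order.Frame.toHeytingAlgebra Fin.completeLinearOrder LinOrd.str EMetricSpace.toPseudoEMetricSpace MetricSpace.toEMetricSpace MetricSpace.toPseudoMetricSpace NonUnitalNormedRing.toMetricSpace NonUnitalSeminormedRing.toPseudoMetricSpace NormedAddCommGroup.toMetricSpace NormedAddGroup.toMetricSpace NormedCommGroup.toMetricSpace NormedDivisionRing.toMetricSpace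 NormedField.toMetricSpace NormedGroup.toMetricSpace NormedRing.toMetricSpace PseudoEMetricSpace.toUniformSpace PseudoMetricSpace.toPseudoEMetricSpace PseudoMetricSpace.toUniformSpace SeminormedAddCommGroup.toPseudoMetricSpace SeminormedAddGroup.toPseudoMetricSpace SeminormedCommGroup.toPseudoMetricSpace SeminormedGroup.toPseudoMetricSpace SeminormedRing.toPseudoMetricSpace UniformSpace.toTopologicalSpace Valued.toUniformSpace WithIdeal.instTopologicalSpace WithIdeal.instUniformSpace LinearOrder.toDecidableEq RCLike.toDecidableEq TopologicalSpace.Compacts.instSetLike AddMonCat.addMonoidObj instMulActionSemiHomClassMulActionHom Pi.unique CoheytingAlgebra.toGeneralizedCoheytingAlgebra GeneralizedBooleanAlgebra.toGeneralizedCoheytingAlgebra HeytingAlgebra.toGeneralizedHeytingAlgebra pfunFintype Pi.instFintype instNonemptyOfMonad decidableEq_of_subsingleton boolToProp Fin.instBiheytingAlgebra ENormedAddCommMonoid.toESeminormedAddCommMonoid NormedAddCommGroup.toENormedAddCommMonoid AddCommGroupWithOne.toAddCommGroup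 NormedAddCommGroup.toAddCommGroup NormedAddGroup.toAddGroup SeminormedAddCommGroup.toAddCommGroup SeminormedAddGroup.toAddGroup instIntCastInt Matrix.SpecialLinearGroup.instCoeInt MonomialOrder.orderBot AddSubmonoid.instAddSubmonoidClass ENormedCommMonoid.toESeminormedCommMonoid NormedCommGroup.toENormedCommMonoid AddCancelCommMonoid.toAddCancelMonoid AddCancelCommMonoid.toAddCommMonoid AddCancelMonoid.toAddLeftCancelMonoid AddCommGroup.toGrindIntModule AddCommMonoid.toGrindNatModule AddLeftCancelMonoid.toAddMonoid AddRightCancelMonoid.toAddMonoid CommRing.toGrindCommRing CommSemiring.toGrindCommSemiring ENormedAddCommMonoid.toENormedAddMonoid ENormedAddMonoid.toESeminormedAddMonoid ESeminormedAddCommMonoid.toAddCommMonoid ESeminormedAddCommMonoid.toESeminormedAddMonoid ESeminormedAddMonoid.toAddMonoid Field.toGrindField LinearOrderedAddCommGroupWithTop.toSubtractionMonoid MulZeroClass.negZeroClass NormedAddGroup.toENormedAddMonoid Ring.toGrindRing Semiring.toGrindSemiring Zero.ofOfNat0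 OpenNormalAddSubgroup.instAddSubgroupClass Ideal.Quotient.commRing Ideal.Quotient.normedCommRing Ideal.Quotient.semiNormedCommRing Algebra.TensorProduct.instCommRing Algebra.TensorProduct.instCommSemiring Algebra.TensorProduct.instRing Algebra.TensorProduct.instSemiring instConditionallyCompletePartialOrderSup CompleteLattice.toCompleteSemilatticeInf CompleteLattice.toCompleteSemilatticeSup Pi.commMagma Fin.instCoheytingAlgebra Fin.instHeytingAlgebra Field.henselian Field.instIsLocalRing HenselianLocalRing.toIsLocalRing IsDiscreteValuationRing.toIsLocalRing IsRegularLocalRing.instOfIsLocalRingOfIsDomainOfIsPrincipalIdealRing IsRegularLocalRing.toIsLocalRing ValuationRing.isLocalRing instFiniteProp Pi.mulOneClass Ideal.instIdemCommSemiring Submodule.instIdemCommSemiring AlgHomClass.linearMapClass ContinuousSemilinearEquivClass.continuousSemilinearMapClass ContinuousSemilinearMapClass.toSemilinearMapClass NonUnitalAlgHomClass.instLinearMapClass NonUnitalAlgHomClass.instSemilinearMapClassOfNonUnitalAlgSemiHomClassToMonoidHomRingHom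 RingHomClass.toLinearMapClassNNRat RingHomClass.toLinearMapClassRat SemilinearIsometryClass.toContinuousSemilinearMapClass SemilinearIsometryClass.toSemilinearMapClass AddHom.addHomClass Std.LinearOrderPackage.toLinearPreorderPackage Std.LinearPreorderPackage.toPreorderPackage Pi.nonUnitalCommRing Pi.nonUnitalCommSemiring Pi.nonUnitalNormedCommRing Pi.nonUnitalNormedRing Pi.nonUnitalRing Pi.nonUnitalSeminormedCommRing Pi.nonUnitalSeminormedRing bot_nonempty infSet_to_nonempty instInfiniteOfUncountable instInhabitedOfMonad instIsDedekindDomainOfIsDomainOfIsDedekindRing instIsDomain instNontrivialOfCharZero supSet_to_nonempty top_nonempty AddGroup.instAddTorsor AddTorsor.nonempty BooleanAlgebra.toBot BooleanAlgebra.toBoundedOrder BooleanAlgebra.toTop BoundedOrder.toOrderBot BoundedOrder.toOrderTop CancelCommMonoid.toCancelMonoid CancelCommMonoid.toCommMonoid CancelCommMonoid.toLeftCancelMonoid CancelMonoid.toLeftCancelMonoid CancelMonoid.toRightCancelMonoid CategoryTheory.isConnected_of_nonempty_and_subsingleton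 CharZero.infinite CoheytingAlgebra.toBoundedOrder CoheytingAlgebra.toOrderTop CommGroup.toCancelCommMonoid CommGroup.toCommMonoid CommGroup.toDivisionCommMonoid CommGroupWithZero.toDivisionCommMonoid CommMonoidWithZero.toCommMonoid CompleteLattice.toBoundedOrder CompletePartialOrder.toOrderBot CompleteSemilatticeInf.toInfSet CompleteSemilatticeSup.toSupSet ConditionallyCompleteLattice.toInfSet ConditionallyCompleteLattice.toSupSet ConditionallyCompleteLinearOrderBot.toOrderBot ConditionallyCompletePartialOrderInf.toInfSet ConnectedSpace.toNonempty Denumerable.instInfinite DivInvMonoid.toMonoid DivInvOneMonoid.toDivInvMonoid DivInvOneMonoid.toInvOneClass DivisionCommMonoid.toCommMonoid DivisionCommMonoid.toDivisionMonoid DivisionMonoid.toDivInvMonoid DivisionMonoid.toDivInvOneMonoid DivisionRing.isDomain DivisionRing.toDivInvMonoid DivisionRing.toNontrivial ENormedCommMonoid.toENormedMonoid ENormedMonoid.toESeminormedMonoid ESeminormedCommMonoid.toCommMonoid ESeminormedCommMonoid.toESeminormedMonoid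 ESeminormedMonoid.toMonoid EuclideanDomain.instIsDomain EuclideanDomain.toNontrivial Field.isDomain GeneralizedBooleanAlgebra.toBot GeneralizedBooleanAlgebra.toOrderBot GeneralizedCoheytingAlgebra.toOrderBot GeneralizedHeytingAlgebra.toOrderTop Group.instTorsor Group.toCancelMonoid Group.toDivInvMonoid Group.toDivisionMonoid GroupWithZero.toDivInvMonoid GroupWithZero.toDivisionMonoid GroupWithZero.toNontrivial HeytingAlgebra.toBoundedOrder HeytingAlgebra.toOrderBot IdemSemiring.toOrderBot Infinite.instNontrivial InvOneClass.toOne IrreducibleSpace.connectedSpace IrreducibleSpace.toNonempty IsAlgClosed.instInfinite IsDedekindDomain.toIsDomain IsDedekindDomainDvr.isDedekindDomain IsDomain.of_isSimpleRing IsDomain.toNontrivial IsLocalRing.toNontrivial IsOrderedRing.toIsStrictOrderedRing IsPrincipalIdealRing.isDedekindDomain IsSimpleAddGroup.toNontrivial IsSimpleGroup.toNontrivial IsSimpleOrder.toNontrivial IsSimpleRing.instNontrivial IsStrictOrderedRing.isDomain IsStrictOrderedRing.toNontrivial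 LeftCancelMonoid.toMonoid LinearOrderedAddCommGroupWithTop.toNontrivial LinearOrderedAddCommGroupWithTop.toOrderTop LinearOrderedAddCommMonoidWithTop.toOrderTop LinearOrderedCommMonoidWithZero.toOrderBot MonoidWithZero.toMonoid NoMaxOrder.infinite NoMinOrder.infinite Nontrivial.to_nonempty NontriviallyNormedField.infinite NormedGroup.toENormedMonoid One.instNonempty One.ofOfNat1 PathConnectedSpace.connectedSpace Preorder.smallCategory RightCancelMonoid.toMonoid Torsor.nonempty Zero.instNonempty CategoryTheory.Groupoid.toCategory CategoryTheory.IsConnected.is_nonempty CategoryTheory.StrictBicategory.category GradedMonoid.GradeZero.commMonoid GradedMonoid.GradeZero.monoid Pi.nonUnitalNonAssocRing Pi.instOrderTop Ideal.Quotient.instRingQuotient Algebra.TensorProduct.instNonAssocRing Algebra.TensorProduct.instNonAssocSemiring -- iprune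

set_option linter.all false

section

/-!
P202-MIX, part HON (honest limit module, cycle lifting): definitions.
-/

namespace Vale.Agent.P202.Mix

open Vale.Agent.P202.CharP
open scoped ENNReal

universe u

section

variable {R : Type u} [CommRing R] {n : ℕ}

/-- scalar operators. -/
def sop (V : Type u) [AddCommGroup V] [Module R V] (y : Fin n → R) (l : Fin n) : V →ₗ[R] V :=
  y l • LinearMap.id

/-- Koszul acyclicity in positive degrees. -/
def Acyc {V : Type u} [AddCommGroup V] [Module R V] (T : Fin n → V →ₗ[R] V) : Prop :=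
  ∀ i : ℤ, 1 ≤ i → kcyc T i ≤ kbd T i

/-- weakly regular sequences. -/
def WReg (V : Type u) [AddCommGroup V] [Module R V] (v : Fin n → R) : Prop :=
  ∀ (k : Fin n) (s : V), v k • s ∈ Ideal.span (v '' Set.Iio k) • (⊤ : Submodule R V) →
    s ∈ Ideal.span (v '' Set.Iio k) • (⊤ : Submodule R V)

/-- Koszul cycles modulo `N`, `N'` lift along `f`, elementwise. -/
def LiftMod {M M' : Type u} [AddCommGroup M] [Module R M] [AddCommGroup M'] [Module R M']
    (T : Fin n → M →ₗ[R] M) (N : Submodule R M) (T' : Fin n → M' →ₗ[R] M') (N' : Submodule R M')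
    (f : M →ₗ[R] M') : Prop :=
  ∀ (i : ℤ), ∀ c' ∈ kgr R M' n i, (∀ J, kz T' c' J ∈ N') →
    ∃ c ∈ kgr R M n i, (∀ J, kz T c J ∈ N) ∧ ∀ J, f (c J) - c' J ∈ N'

/-- the submodule `(y) V`. -/
def ys (V : Type u) [AddCommGroup V] [Module R V] (y : Fin n → R) : Submodule R V :=
  Ideal.span (Set.range y) • ⊤

/-- sum of the images of the operators. -/
def trg {V : Type u} [AddCommGroup V] [Module R V] (T : Fin n → V →ₗ[R] V) : Submodule R V :=
  ⨆ l, LinearMap.range (T l)

end

section Limit

variable (R : ℕ → Type u) [∀ e, CommRing (R e)] (X : ℕ → Type u) [∀ e, AddCommGroup (X e)]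
  [∀ e, Module (R e) (X e)] (p : ℕ)

/-- the families which are eventually divisible by every power of `p`. -/
def Jinf : Submodule (∀ e, R e) (∀ e, X e) where
  carrier := {x | ∀ j : ℕ, ∃ e₀, ∀ e, e₀ ≤ e → ∃ x' : X e, x e = (p : R e) ^ j • x'}
  add_mem' := by
    intro x y hx hy j
    obtain ⟨e₁, h1⟩ := hx j
    obtain ⟨e₂, h2⟩ := hy j
    refine ⟨max e₁ e₂, fun e he => ?_⟩
    obtain ⟨x', hx'⟩ := h1 e (le_trans (le_max_left _ _) he)
    obtain ⟨y', hy'⟩ := h2 e (le_trans (le_max_right _ _) he)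
    exact ⟨x' + y', by rw [Pi.add_apply, hx', hy', smul_add]⟩
  zero_mem' := fun j => ⟨0, fun e _ => ⟨0, by simp⟩⟩
  smul_mem' := by
    intro c x hx j
    obtain ⟨e₁, h1⟩ := hx j
    refine ⟨e₁, fun e he => ?_⟩
    obtain ⟨x', hx'⟩ := h1 e he
    exact ⟨c e • x', by rw [Pi.smul_apply', hx', smul_comm]⟩

/-- the limit module before inverting `h`. -/
abbrev XX : Type u := (∀ e, X e) ⧸ Jinf R X p

/-- the honest module. -/
abbrev SS (h : ∀ e, R e) : Type u := LocalizedModule (Submonoid.powers h) (XX R X p)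

end Limit

end Vale.Agent.P202.Mix
end

section

/-!
P202 MIX, M17-D: lengths of quotients of a ring, comparison of quotients of quotients.
-/

namespace Vale.Agent.P202.Mix

open scoped ENNReal

universe u

section

variable {R' : Type u} [CommRing R'] (L : AddLen R')

theorem conv_quot (Y Z : Ideal R') (Zq : Submodule R' (R' ⧸ Y)) (hZ : Zq = Submodule.map Y.mkQ Z) :
    L.len ((R' ⧸ Y) ⧸ Zq) = L.len (R' ⧸ (Y ⊔ Z)) := by
  subst hZ
  exact len_congr L (Submodule.quotientQuotientEquivQuotientSup Y Z)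

theorem conv_ys {n : ℕ} (Y : Ideal R') (z : Fin n → R') :
    ys (R' ⧸ Y) z = Submodule.map (Submodule.mkQ Y) (Ideal.span (Set.range z)) := by
  have h1 : (Ideal.span (Set.range z) : Submodule R' R') =
      Ideal.span (Set.range z) • (⊤ : Submodule R' R') := by
    rw [smul_eq_mul, Ideal.mul_top]
  rw [h1, Submodule.map_smul'', Submodule.map_top, Submodule.range_mkQ, ys]

theorem conv_range (Y : Ideal R') (h : R') :
    LinearMap.range (h • (LinearMap.id : (R' ⧸ Y) →ₗ[R'] R' ⧸ Y)) =
      Submodule.map (Submodule.mkQ Y) (Ideal.span {h}) := by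
  ext x
  simp only [LinearMap.mem_range, LinearMap.smul_apply, LinearMap.id_coe, id_eq, Submodule.mem_map]
  constructor
  · rintro ⟨y, rfl⟩
    obtain ⟨y, rfl⟩ := Submodule.mkQ_surjective Y y
    exact ⟨h * y, Ideal.mul_mem_right _ _ (Ideal.mem_span_singleton_self h), rfl⟩
  · rintro ⟨y, hy, rfl⟩
    obtain ⟨c, rfl⟩ := Ideal.mem_span_singleton'.mp hy
    refine ⟨Submodule.mkQ Y c, ?_⟩
    rw [← map_smul, smul_eq_mul, mul_comm]

theorem conv_ys_self {n : ℕ} (z : Fin n → R') :
    ys R' z = Ideal.span (Set.range z) := by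
  rw [ys, smul_eq_mul, Ideal.mul_top]

end

end Vale.Agent.P202.Mix
end

section

/-!
P202-MIX, part GEO, task C1: lengths of the Koszul cycles of a nilpotent representation.
-/

namespace Vale.Agent.P202.Mix

open Vale.Agent.P202.CharP
open scoped ENNReal

universe u

namespace RepLen

section Len

variable {R : Type u} [CommRing R] (L : AddLen R) {M N : Type u} [AddCommGroup M] [Module R M]
  [AddCommGroup N] [Module R N]

theorem len_sub (h : Subsingleton M) : L.len M = 0 := by
  have h1 := L.add (M := M) (N := PUnit.{u + 1}) (K := PUnit.{u + 1})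
    (0 : M →ₗ[R] PUnit.{u + 1}) LinearMap.id (fun a b _ => Subsingleton.elim a b)
    (fun a => ⟨a, rfl⟩) (fun y => ⟨fun _ => ⟨0, Subsingleton.elim _ _⟩, fun _ =>
      Subsingleton.elim _ _⟩)
  rw [L.zero, add_zero] at h1
  exact h1.symm

theorem len_eq_of_bij (f : M →ₗ[R] N) (hi : Function.Injective f)
    (hs : Function.Surjective f) : L.len M = L.len N := by
  have h1 := L.add (M := M) (N := N) (K := PUnit.{u + 1}) f 0 hi
    (fun a => ⟨0, Subsingleton.elim _ _⟩)
    (fun y => ⟨fun _ => hs y, fun _ => Subsingleton.elim _ _⟩)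
  rw [L.zero, add_zero] at h1
  exact h1.symm

/-- the length of `M` from a map with null cokernel. -/
theorem len_of_rl {X Y : Submodule R M} (hXY : X ≤ Y) (h : L.rl X Y = 0) :
    L.len Y = L.len X := by
  have h1 := L.add (M := ↥(X.submoduleOf Y)) (N := ↥Y) (K := ↥Y ⧸ X.submoduleOf Y)
    (X.submoduleOf Y).subtype (X.submoduleOf Y).mkQ (Submodule.subtype_injective _)
    (Submodule.mkQ_surjective _) (LinearMap.exact_subtype_mkQ _)
  unfold AddLen.rl at h
  rw [h, add_zero] at h1
  rw [h1]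
  refine len_eq_of_bij L ((Submodule.submoduleOfEquivOfLe hXY).toLinearMap)
    (Submodule.submoduleOfEquivOfLe hXY).injective (Submodule.submoduleOfEquivOfLe hXY).surjective

/-- the length of a submodule from its image and its kernel. -/
theorem len_map {K : Type u} [AddCommGroup K] [Module R K] (X : Submodule R M)
    (Z : Submodule R K) (j : K →ₗ[R] M) (f : M →ₗ[R] N) (hj : Function.Injective j)
    (hZ : ∀ z ∈ Z, j z ∈ X) (hf : ∀ z, f (j z) = 0)
    (hex : ∀ v ∈ X, f v = 0 → ∃ z ∈ Z, j z = v) :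
    L.len X = L.len Z + L.len ↥(X.map f) := by
  refine L.add (M := ↥Z) (N := ↥X) (K := ↥(X.map f)) (j.restrict hZ)
    (f.restrict fun v hv => Submodule.mem_map_of_mem hv) ?_ ?_ ?_
  · intro a b hab
    have := congrArg Subtype.val hab
    exact Subtype.ext (hj this)
  · rintro ⟨y, hy⟩
    obtain ⟨v, hv, rfl⟩ := hy
    exact ⟨⟨v, hv⟩, rfl⟩
  · rintro ⟨v, hv⟩
    constructor
    · intro h
      obtain ⟨z, hz, hzv⟩ := hex v hv (congrArg Subtype.val h)
      exact ⟨⟨z, hz⟩, Subtype.ext hzv⟩
    · rintro ⟨⟨z, hz⟩, h⟩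
      apply Subtype.ext
      have h1 : j z = v := congrArg Subtype.val h
      change f v = 0
      rw [← h1]
      exact hf z

end Len

section Mat

variable {R : Type u} [CommRing R] {M : Type u} [AddCommGroup M] [Module R M]
  {α β γ : Type} [Fintype β] [Fintype γ]

theorem za_mul (A : Matrix α β ℤ) (B : Matrix β γ ℤ) (f : γ → M) :
    za (A * B) R M f = za A R M (za B R M f) := by
  ext a
  simp only [za, LinearMap.coe_mk, AddHom.coe_mk, Matrix.mul_apply, Finset.sum_smul,
    Finset.smul_sum, mul_smul]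
  exact Finset.sum_comm

end Mat

section Ker

variable {n : ℕ} (W : MRep n)

/-- a common kernel vector of the endomorphisms. -/
theorem exists_ker {q : ℕ} (hW : W.IsNil q) (h : Nonempty W.ι) :
    ∃ v : W.ι → ℤ, v ≠ 0 ∧ ∀ l, (W.X l).mulVec v = 0 := by
  by_contra hc
  push Not at hc
  have key : ∀ k : ℕ, ∃ (f : Fin k → Fin n) (v : W.ι → ℤ),
      ((List.ofFn fun i => W.X (f i)).prod).mulVec v ≠ 0 := by
    intro k
    induction k with
    | zero =>
      obtain ⟨a⟩ := h
      refine ⟨Fin.elim0, Pi.single a 1, ?_⟩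
      rw [List.ofFn_zero, List.prod_nil, Matrix.one_mulVec]
      intro h0
      have := congrFun h0 a
      simp at this
    | succ k ih =>
      obtain ⟨f, v, hv⟩ := ih
      obtain ⟨l, hl⟩ := hc _ hv
      refine ⟨Fin.cons l f, v, ?_⟩
      rw [List.ofFn_succ]
      simpa [Matrix.mulVec_mulVec] using hl
  obtain ⟨f, v, hv⟩ := key q
  rw [hW.nil f] at hv
  simp at hv

/-- a basis containing a common kernel vector. -/
theorem exists_basis {q : ℕ} (hW : W.IsNil q) (h : Nonempty W.ι) :
    ∃ (b : Module.Basis W.ι ℤ (W.ι → ℤ)) (a : W.ι), ∀ l, (W.X l).mulVec (b a) = 0 := by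
  obtain ⟨v, hv, hv'⟩ := exists_ker W hW h
  let N : Submodule ℤ (W.ι → ℤ) := ⨅ l, LinearMap.ker (W.X l).mulVecLin
  have hN : ∀ w, w ∈ N ↔ ∀ l, (W.X l).mulVec w = 0 := by
    intro w
    simp [N, Submodule.mem_iInf]
  obtain ⟨m, S⟩ := Submodule.smithNormalForm (Pi.basisFun ℤ W.ι) N
  have hm : 0 < m := by
    rcases Nat.eq_zero_or_pos m with h0 | h0
    · subst h0
      exfalso
      have hb := S.bN.ext_elem (x := (⟨v, (hN v).2 hv'⟩ : N)) (y := 0) (fun i => i.elim0)
      exact hv (congrArg Subtype.val hb)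
    · exact h0
  refine ⟨S.bM, S.f ⟨0, hm⟩, fun l => ?_⟩
  have h1 := S.snf ⟨0, hm⟩
  have h2 : ((S.bN ⟨0, hm⟩ : N) : W.ι → ℤ) ∈ N := (S.bN ⟨0, hm⟩).2
  have h3 : S.a ⟨0, hm⟩ ≠ 0 := by
    intro h0
    rw [h0, zero_smul] at h1
    exact S.bN.ne_zero ⟨0, hm⟩ (Subtype.ext h1)
  rw [h1, hN] at h2
  have h4 := h2 l
  rw [Matrix.mulVec_smul] at h4
  exact (smul_eq_zero.mp h4).resolve_left h3

/-- splitting off a trivial representation of rank one. -/
theorem exists_split {q : ℕ} (hW : W.IsNil q) (h : Nonempty W.ι) :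
    ∃ (W' : MRep n) (f : W.Surj W') (e : Matrix W.ι Unit ℤ) (ρ : Matrix Unit W.ι ℤ),
      W'.IsNil q ∧ Fintype.card W.ι = 1 + Fintype.card W'.ι ∧ (∀ l, W.X l * e = 0) ∧
      f.P * e = 0 ∧ ρ * e = 1 ∧ e * ρ + f.σ * f.P = 1 := by
  obtain ⟨b, a, hb⟩ := exists_basis W hW h
  -- the two base change matrices
  let B : Matrix W.ι W.ι ℤ := Matrix.of fun c j => b j c
  let C : Matrix W.ι W.ι ℤ := Matrix.of fun j c => b.repr (Pi.single c 1) j
  have hB : B = (Pi.basisFun ℤ W.ι).toMatrix b := by
    ext c j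
    simp [B, Module.Basis.toMatrix_apply]
  have hC : C = b.toMatrix (Pi.basisFun ℤ W.ι) := by
    ext c j
    simp [C, Module.Basis.toMatrix_apply]
  have hCB : C * B = 1 := by
    rw [hB, hC]
    exact Module.Basis.toMatrix_mul_toMatrix_flip _ _
  have hBC : B * C = 1 := by
    rw [hB, hC]
    exact Module.Basis.toMatrix_mul_toMatrix_flip _ _
  let P : Matrix {j // j ≠ a} W.ι ℤ := Matrix.of fun j c => C j c
  let σ : Matrix W.ι {j // j ≠ a} ℤ := Matrix.of fun c j => B c j
  let e : Matrix W.ι Unit ℤ := Matrix.of fun c _ => B c a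
  let ρ : Matrix Unit W.ι ℤ := Matrix.of fun _ c => C a c
  have hPσ : P * σ = 1 := by
    ext i j
    have h1 := congrFun (congrFun hCB i.1) j.1
    rw [Matrix.mul_apply] at h1
    rw [Matrix.mul_apply]
    change ∑ c, C i.1 c * B c j.1 = _
    rw [h1, Matrix.one_apply, Matrix.one_apply]
    simp only [Subtype.ext_iff]
  have hPe : P * e = 0 := by
    ext i j
    have h1 := congrFun (congrFun hCB i.1) a
    rw [Matrix.mul_apply] at h1
    rw [Matrix.mul_apply]
    change ∑ c, C i.1 c * B c a = _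
    rw [h1, Matrix.one_apply_ne i.2]
    rfl
  have hρe : ρ * e = 1 := by
    ext i j
    have h1 := congrFun (congrFun hCB a) a
    rw [Matrix.mul_apply] at h1
    rw [Matrix.mul_apply]
    change ∑ c, C a c * B c a = _
    rw [h1]
    simp
  have hsum : e * ρ + σ * P = 1 := by
    rw [← hBC]
    ext c d
    rw [Matrix.add_apply, Matrix.mul_apply, Matrix.mul_apply, Matrix.mul_apply]
    rw [Fintype.sum_unique]
    change B c a * C a d + ∑ j : {j // j ≠ a}, B c j * C j d = _
    rw [Fintype.sum_eq_add_sum_subtype_ne (fun j => B c j * C j d) a]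
  have hXe : ∀ l, W.X l * e = 0 := by
    intro l
    ext c j
    have h1 := congrFun (hb l) c
    exact h1
  have hcomm : ∀ l, P * W.X l = (P * W.X l * σ) * P := by
    intro l
    have h1 : σ * P = 1 - e * ρ := by rw [← hsum]; abel
    rw [Matrix.mul_assoc, h1, Matrix.mul_sub, Matrix.mul_one, Matrix.mul_assoc P,
      ← Matrix.mul_assoc (W.X l), hXe, Matrix.zero_mul, Matrix.mul_zero, sub_zero]
  let W' : MRep n := { ι := {j // j ≠ a}, X := fun l => P * W.X l * σ }
  have hcomm' : ∀ l, P * W.X l = W'.X l * P := hcomm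
  refine ⟨W', ⟨P, σ, hPσ, hcomm⟩, e, ρ, ⟨?_, ?_⟩, ?_, hXe, hPe, hρe, hsum⟩
  · intro k l
    change W'.X k * W'.X l = W'.X l * W'.X k
    have h1 : ∀ k l, W'.X k * W'.X l = P * (W.X k * W.X l) * σ := by
      intro k l
      change W'.X k * (P * W.X l * σ) = _
      rw [← Matrix.mul_assoc, ← Matrix.mul_assoc, ← hcomm', Matrix.mul_assoc P]
    rw [h1, h1, hW.comm]
  · intro f
    have h1 : ∀ (k : ℕ) (f : Fin k → Fin n), (List.ofFn fun i => W'.X (f i)).prod =
        P * (List.ofFn fun i => W.X (f i)).prod * σ := by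
      intro k
      induction k with
      | zero =>
        intro f
        simp only [List.ofFn_zero, List.prod_nil, Matrix.mul_one]
        exact hPσ.symm
      | succ k ih =>
        intro f
        rw [List.ofFn_succ, List.ofFn_succ, List.prod_cons, List.prod_cons,
          ih (fun i => f i.succ), ← Matrix.mul_assoc, ← Matrix.mul_assoc, ← hcomm',
          Matrix.mul_assoc P]
    rw [h1, hW.nil, Matrix.mul_zero, Matrix.zero_mul]
  · change Fintype.card W.ι = 1 + Fintype.card {j // j ≠ a}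
    rw [Fintype.card_subtype_compl, Fintype.card_subtype_eq]
    have := Fintype.card_pos (α := W.ι)
    omega

end Ker

section Kz

variable {R : Type u} [CommRing R] {V V' : Type u} [AddCommGroup V] [Module R V]
  [AddCommGroup V'] [Module R V'] {n : ℕ}

theorem kz_map (T : Fin n → V →ₗ[R] V) (T' : Fin n → V' →ₗ[R] V') (f : V →ₗ[R] V')
    (h : ∀ l v, f (T l v) = T' l (f v)) (v : Finset (Fin n) → V) :
    kz T' (kmap n f v) = kmap n f (kz T v) := by
  ext J
  simp only [kz, kmap, LinearMap.coe_mk, AddHom.coe_mk, LinearMap.pi_apply,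
    LinearMap.coe_comp, Function.comp_apply, LinearMap.proj_apply, map_sum, map_zsmul, h]

theorem kcyc_map (T : Fin n → V →ₗ[R] V) (T' : Fin n → V' →ₗ[R] V') (f : V →ₗ[R] V')
    (h : ∀ l v, f (T l v) = T' l (f v)) (i : ℤ) (v : Finset (Fin n) → V) (hv : v ∈ kcyc T i) :
    kmap n f v ∈ kcyc T' i := by
  refine ⟨fun J hJ => hv.1 J ?_, ?_⟩
  · intro h0
    apply hJ
    change f (v J) = 0
    rw [h0, map_zero]
  · have h1 : kz T v = 0 := hv.2
    change kz T' (kmap n f v) = 0
    rw [kz_map T T' f h, h1, map_zero]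

end Kz

end RepLen

open RepLen

variable {R : Type u} [CommRing R] (L : AddLen R) {n q : ℕ} (Q : Type u) [AddCommGroup Q]
  [Module R Q] (x : Fin n → R)

theorem len_cyc_rep (hfin : L.len Q ≠ ⊤) (hCL : CLnull L n q Q x) (hq : 1 ≤ q) (W : MRep n)
    (hW : W.IsNil q) (i : ℤ) :
    L.len ↥(kcyc (W.T Q x) i) =
      Fintype.card W.ι * L.len ↥(kcyc (fun l => -(x l • (LinearMap.id : Q →ₗ[R] Q))) i) := by
  obtain ⟨m, hm⟩ : ∃ m, Fintype.card W.ι = m := ⟨_, rfl⟩
  induction m generalizing W with
  | zero =>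
    have : IsEmpty W.ι := Fintype.card_eq_zero_iff.mp hm
    rw [hm, Nat.cast_zero, zero_mul]
    exact len_sub L inferInstance
  | succ m ih =>
    have hne : Nonempty W.ι := Fintype.card_pos_iff.mp (by omega)
    obtain ⟨W', f, e, ρ, hW', hcard, hXe, hPe, hρe, hsum⟩ := exists_split W hW hne
    have ih' := ih W' hW' (by omega)
    have hnull := hCL W W' hW hW' f i
    -- the rank one trivial representation inside `W`
    let j : Q →ₗ[R] (W.ι → Q) := za e R Q ∘ₗ LinearMap.pi fun _ : Unit => LinearMap.id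
    let r : (W.ι → Q) →ₗ[R] Q := LinearMap.proj () ∘ₗ za ρ R Q
    have hrj : ∀ v, r (j v) = v := by
      intro v
      have h1 := za_mul (R := R) ρ e (fun _ : Unit => v)
      rw [hρe] at h1
      have h2 := congrFun h1 ()
      change r (j v) = v
      have h3 : r (j v) = za ρ R Q (za e R Q fun _ => v) () := rfl
      rw [h3, ← h2]
      simp [za]
    have hTj : ∀ l v, j (-(x l • (LinearMap.id : Q →ₗ[R] Q)) v) = W.T Q x l (j v) := by
      intro l v
      have h1 := za_mul (R := R) (W.X l) e (fun _ : Unit => v)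
      rw [hXe] at h1
      have h2 : za (W.X l) R Q (j v) = 0 := by
        have h3 : za (W.X l) R Q (j v) = za (W.X l) R Q (za e R Q fun _ => v) := rfl
        rw [h3, ← h1]
        ext c
        simp [za]
      simp only [MRep.T, LinearMap.sub_apply, LinearMap.smul_apply, LinearMap.id_apply, h2,
        zero_sub, map_neg, map_smul]
    have hPj : ∀ v, za f.P R Q (j v) = 0 := by
      intro v
      have h1 := za_mul (R := R) f.P e (fun _ : Unit => v)
      rw [hPe] at h1
      have h3 : za f.P R Q (j v) = za f.P R Q (za e R Q fun _ => v) := rfl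
      rw [h3, ← h1]
      ext c
      simp [za]
    have hker : ∀ v, za f.P R Q v = 0 → j (r v) = v := by
      intro v hv
      have h1 := za_mul (R := R) e ρ v
      have h2 := za_mul (R := R) f.σ f.P v
      rw [hv, map_zero] at h2
      have h3 : za (e * ρ + f.σ * f.P) R Q v = v := by
        rw [hsum]
        ext c
        simp [za, Matrix.one_apply]
      have h4 : za (e * ρ + f.σ * f.P) R Q v = za (e * ρ) R Q v + za (f.σ * f.P) R Q v := by
        ext c
        simp [za, add_smul, Finset.sum_add_distrib]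
      rw [h4, h1, h2, add_zero] at h3
      exact h3
    have hPT : ∀ l v, za f.P R Q (W.T Q x l v) = W'.T Q x l (za f.P R Q v) := by
      intro l v
      simp only [MRep.T, LinearMap.sub_apply, LinearMap.smul_apply, LinearMap.id_apply, map_sub,
        map_smul]
      rw [← za_mul, ← za_mul, f.comm]
    have h1 := len_map L (kcyc (W.T Q x) i)
      (kcyc (fun l => -(x l • (LinearMap.id : Q →ₗ[R] Q))) i) (kmap n j)
      (kmap n (za f.P R Q)) ?_ ?_ ?_ ?_
    · have h2 : (kcyc (W.T Q x) i).map (kmap n (za f.P R Q)) ≤ kcyc (W'.T Q x) i := by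
        rintro _ ⟨v, hv, rfl⟩
        exact kcyc_map _ _ _ hPT i v hv
      have h3 := len_of_rl L h2 hnull
      rw [h1, ← h3, ih', hcard, Nat.cast_add, Nat.cast_one, add_mul, one_mul]
    · intro v w hvw
      ext J
      have h2 := congrArg (fun u => r (u J)) hvw
      change r (j (v J)) = r (j (w J)) at h2
      rwa [hrj, hrj] at h2
    · intro z hz
      exact kcyc_map _ _ _ hTj i z hz
    · intro z
      ext J : 1
      exact hPj (z J)
    · intro v hv hv0
      have h2 : ∀ J, j (r (v J)) = v J := fun J => hker _ (congrFun hv0 J)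
      have h3 : kmap n j (kmap n r v) = v := by
        ext J : 1
        exact h2 J
      refine ⟨kmap n r v, ⟨fun J hJ => hv.1 J ?_, ?_⟩, h3⟩
      · intro h0
        apply hJ
        change r (v J) = 0
        rw [h0, map_zero]
      · have h4 : kz (W.T Q x) v = 0 := hv.2
        have h5 := kz_map (fun l => -(x l • (LinearMap.id : Q →ₗ[R] Q))) (W.T Q x) j hTj
          (kmap n r v)
        rw [h3, h4] at h5
        change kz (fun l => -(x l • (LinearMap.id : Q →ₗ[R] Q))) (kmap n r v) = 0
        ext J : 1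
        have h6 := congrArg (fun u => r (u J)) h5
        change r 0 = r (j (kz (fun l => -(x l • (LinearMap.id : Q →ₗ[R] Q)))
          (kmap n r v) J)) at h6
        rw [hrj, map_zero] at h6
        exact h6.symm

end Vale.Agent.P202.Mix
end

section

/-!
P202-MIX, bridge BR-1: elements of `(z)^w` kill `(W ⊗ V)/(X - z)` for `w`-nilpotent `W`.
-/

namespace Vale.Agent.P202.Mix

open Vale.Agent.P202.CharP
open scoped ENNReal

universe u

section Br1

variable {R : Type u} [CommRing R] {V : Type u} [AddCommGroup V] [Module R V] {n : ℕ}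

private theorem br1_T_mem (z : Fin n → R) (W : MRep n) (l : Fin n) (x : W.ι → V) :
    z l • x - za (W.X l) R V x ∈ trg (W.T V z) := by
  have h1 : z l • x - za (W.X l) R V x = W.T V z l (-x) := by
    simp only [MRep.T, LinearMap.sub_apply, LinearMap.smul_apply, LinearMap.id_apply, map_neg]
    abel
  rw [h1]
  exact Submodule.mem_iSup_of_mem l (LinearMap.mem_range_self _ _)

/-- modulo the images of the `X_l - z_l`, powers of `(z)` act through words in the `X_l`. -/
private theorem br1_pow (z : Fin n → R) (W : MRep n) (k : ℕ) :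
    Ideal.span (Set.range z) ^ k • (⊤ : Submodule R (W.ι → V)) ≤
      trg (W.T V z) ⊔ ⨆ f : Fin k → Fin n,
        LinearMap.range (za (List.ofFn fun i => W.X (f i)).prod R V) := by
  induction k with
  | zero =>
    intro x _
    refine Submodule.mem_sup_right (Submodule.mem_iSup_of_mem (fun i => i.elim0) ⟨x, ?_⟩)
    funext a
    change ∑ b, (List.ofFn fun i : Fin 0 => W.X (i.elim0)).prod a b • x b = x a
    simp [Matrix.one_apply]
  | succ k ih =>
    rw [pow_succ', Submodule.mul_smul]
    refine (Submodule.smul_mono le_rfl ih).trans ?_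
    rw [Submodule.smul_le]
    intro r hr x hx
    induction hr using Submodule.span_induction with
    | mem r hr =>
      obtain ⟨l, rfl⟩ := hr
      obtain ⟨t, ht, y, hy, rfl⟩ := Submodule.mem_sup.mp hx
      rw [smul_add]
      refine Submodule.add_mem _ (Submodule.mem_sup_left (Submodule.smul_mem _ _ ht)) ?_
      clear hx ht
      induction hy using Submodule.iSup_induction' with
      | mem f y hy =>
        obtain ⟨v, rfl⟩ := hy
        have h1 := br1_T_mem z W l (za (List.ofFn fun i => W.X (f i)).prod R V v)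
        have h2 : za (W.X l) R V (za (List.ofFn fun i => W.X (f i)).prod R V v) =
            za (List.ofFn fun i => W.X ((Fin.cons l f : Fin (k + 1) → Fin n) i)).prod R V v := by
          rw [List.ofFn_succ, List.prod_cons]
          exact (RepLen.za_mul (R := R) _ _ v).symm
        rw [← sub_add_cancel (z l • za (List.ofFn fun i => W.X (f i)).prod R V v)
          (za (W.X l) R V (za (List.ofFn fun i => W.X (f i)).prod R V v))]
        refine Submodule.add_mem _ (Submodule.mem_sup_left h1) (Submodule.mem_sup_right ?_)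
        rw [h2]
        exact Submodule.mem_iSup_of_mem (Fin.cons l f) (LinearMap.mem_range_self _ _)
      | zero => rw [smul_zero]; exact Submodule.zero_mem _
      | add y y' _ _ h1 h2 => rw [smul_add]; exact Submodule.add_mem _ h1 h2
    | zero => rw [zero_smul]; exact Submodule.zero_mem _
    | add r r' _ _ h1 h2 => rw [add_smul]; exact Submodule.add_mem _ h1 h2
    | smul s r _ h1 => rw [smul_assoc]; exact Submodule.smul_mem _ _ h1

end Br1

/-- if `a V ⊆ (z)^w V` then `a` kills `(W ⊗ V)/(X - z)` for every `w`-nilpotent `W`. -/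
theorem pk_of_le {R : Type u} [CommRing R] {V : Type u} [AddCommGroup V] [Module R V] {n : ℕ}
    (z : Fin n → R) (a : R) (w : ℕ)
    (h : ∀ v : V, a • v ∈ Ideal.span (Set.range z) ^ w • (⊤ : Submodule R V)) (W : MRep n)
    (hW : W.IsNil w) (x : W.ι → V) : a • x ∈ trg (W.T V z) := by
  classical
  have h0 : Ideal.span (Set.range z) ^ w • (⊤ : Submodule R (W.ι → V)) ≤ trg (W.T V z) := by
    refine (br1_pow z W w).trans (sup_le le_rfl (iSup_le fun f => ?_))
    rintro _ ⟨v, rfl⟩
    rw [hW.nil f]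
    have h1 : za (0 : Matrix W.ι W.ι ℤ) R V v = 0 := by
      funext b
      change ∑ c, (0 : Matrix W.ι W.ι ℤ) b c • v c = 0
      simp
    rw [h1]
    exact Submodule.zero_mem _
  refine h0 ?_
  have h2 : a • x = ∑ b, LinearMap.single R (fun _ : W.ι => V) b (a • x b) := by
    simp only [LinearMap.coe_single]
    exact (Finset.univ_sum_single (a • x)).symm
  rw [h2]
  refine Submodule.sum_mem _ fun b _ => ?_
  have h3 := Submodule.mem_map_of_mem (f := LinearMap.single R (fun _ : W.ι => V) b) (h (x b))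
  rw [Submodule.map_smul''] at h3
  exact Submodule.smul_mono le_rfl le_top h3

end Vale.Agent.P202.Mix
end

section

/-!
P202-MIX, part GEO: Koszul complexes of commuting operators, indexed by finite sets.
-/

namespace Vale.Agent.P202.Mix

open Vale.Agent.P202.CharP
open scoped ENNReal

universe u

section KosBasic

variable {R : Type u} [CommRing R] {V W : Type u} [AddCommGroup V] [Module R V]
  [AddCommGroup W] [Module R W] {n : ℕ}

lemma kzb_ksg_mul_self (l : Fin n) (J : Finset (Fin n)) : ksg l J * ksg l J = 1 := by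
  unfold ksg
  rw [← pow_add, ← two_mul, pow_mul]
  norm_num

lemma kzb_ksg_insert {l k : Fin n} {J : Finset (Fin n)} (hl : l ∉ J) :
    ksg k (insert l J) = ksg k J * (if l < k then -1 else 1) := by
  unfold ksg
  rw [Finset.filter_insert]
  by_cases h : l < k
  · rw [if_pos h, if_pos h, Finset.card_insert_of_notMem (by simp [hl]), pow_succ]
  · rw [if_neg h, if_neg h, mul_one]

/-- the basic antisymmetry. -/
lemma kzb_ksg_anti {l k : Fin n} {J : Finset (Fin n)} (hl : l ∉ J) (hk : k ∉ J) (hlk : l ≠ k) :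
    ksg l J * ksg k (insert l J) + ksg k J * ksg l (insert k J) = 0 := by
  rw [kzb_ksg_insert hl, kzb_ksg_insert hk]
  rcases lt_or_gt_of_ne hlk with h | h
  · rw [if_pos h, if_neg (not_lt.mpr h.le)]
    ring
  · rw [if_neg (not_lt.mpr h.le), if_pos h]
    ring

lemma kzb_ksg_anti' {l k : Fin n} {J : Finset (Fin n)} (hl : l ∉ J) (hk : k ∉ J) (hlk : l ≠ k) :
    ksg k (insert l J) * ksg l (insert k J) = -(ksg l J * ksg k J) := by
  rw [kzb_ksg_insert hl, kzb_ksg_insert hk]
  rcases lt_or_gt_of_ne hlk with h | h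
  · rw [if_pos h, if_neg (not_lt.mpr h.le)]
    ring
  · rw [if_neg (not_lt.mpr h.le), if_pos h]
    ring

lemma kzb_apply (T : Fin n → V →ₗ[R] V) (v : Finset (Fin n) → V) (J : Finset (Fin n)) :
    kz T v J = ∑ l ∈ Jᶜ, ksg l J • T l (v (insert l J)) := rfl

theorem kz_sq (T : Fin n → V →ₗ[R] V) (hT : ∀ k l v, T k (T l v) = T l (T k v))
    (v : Finset (Fin n) → V) : kz T (kz T v) = 0 := by
  funext J
  rw [kzb_apply]
  have h1 : ∀ l ∈ Jᶜ, ksg l J • T l (kz T v (insert l J)) =
      ∑ k ∈ (insert l J)ᶜ,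
        (ksg l J * ksg k (insert l J)) • T l (T k (v (insert k (insert l J)))) := by
    intro l _
    rw [kzb_apply, map_sum, Finset.smul_sum]
    refine Finset.sum_congr rfl fun k _ => ?_
    rw [map_zsmul, smul_smul]
  rw [Finset.sum_congr rfl h1, Finset.sum_sigma']
  refine Finset.sum_involution (fun x _ => ⟨x.2, x.1⟩) ?_ ?_ ?_ ?_
  · rintro ⟨l, k⟩ hx
    simp only [Finset.mem_sigma, Finset.mem_compl, Finset.mem_insert, not_or] at hx
    obtain ⟨hl, hkl, hk⟩ := hx
    have e1 : insert l (insert k J) = insert k (insert l J) := Finset.insert_comm l k J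
    show (ksg l J * ksg k (insert l J)) • T l (T k (v (insert k (insert l J)))) +
      (ksg k J * ksg l (insert k J)) • T k (T l (v (insert l (insert k J)))) = 0
    rw [e1, hT k l, ← add_smul, kzb_ksg_anti hl hk (Ne.symm hkl), zero_smul]
  · rintro ⟨l, k⟩ hx _ h
    simp only [Finset.mem_sigma, Finset.mem_compl, Finset.mem_insert, not_or] at hx
    obtain ⟨hl, hkl, hk⟩ := hx
    have h2 := (Sigma.mk.inj_iff.mp h).1
    exact hkl h2
  · rintro ⟨l, k⟩ hx
    simp only [Finset.mem_sigma, Finset.mem_compl, Finset.mem_insert, not_or] at hx ⊢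
    obtain ⟨hl, hkl, hk⟩ := hx
    exact ⟨hk, Ne.symm hkl, hl⟩
  · rintro ⟨l, k⟩ _
    rfl

theorem kz_kmap (T : Fin n → V →ₗ[R] V) (T' : Fin n → W →ₗ[R] W) (f : V →ₗ[R] W)
    (h : ∀ l v, f (T l v) = T' l (f v)) (v : Finset (Fin n) → V) :
    kmap n f (kz T v) = kz T' (kmap n f v) := by
  funext J
  show f (kz T v J) = kz T' (kmap n f v) J
  rw [kzb_apply, kzb_apply, map_sum]
  refine Finset.sum_congr rfl fun l _ => ?_
  rw [map_zsmul, h]
  rfl

theorem kz_kgr (T : Fin n → V →ₗ[R] V) (i : ℤ) (v : Finset (Fin n) → V)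
    (hv : v ∈ kgr R V n (i + 1)) : kz T v ∈ kgr R V n i := by
  intro J hJ
  rw [kzb_apply] at hJ
  obtain ⟨l, hl, h1⟩ := Finset.exists_ne_zero_of_sum_ne_zero hJ
  have h2 : v (insert l J) ≠ 0 := by
    intro h
    apply h1
    rw [h, map_zero, smul_zero]
  have h3 := hv _ h2
  rw [Finset.card_insert_of_notMem (by simpa using hl)] at h3
  push_cast at h3
  omega

/-- contraction when one of the operators is bijective. -/
theorem kz_exact (T : Fin n → V →ₗ[R] V) (hT : ∀ k l v, T k (T l v) = T l (T k v)) (l : Fin n)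
    (hl : Function.Bijective (T l)) (i : ℤ) : kcyc T i ≤ kbd T i := by
  classical
  rintro v ⟨hv1, hv2⟩
  have hv0 : kz T v = 0 := hv2
  set e := LinearEquiv.ofBijective (T l) hl with he
  have hS1 : ∀ x, T l (e.symm x) = x := fun x => e.apply_symm_apply x
  have hS2 : ∀ x, e.symm (T l x) = x := fun x => e.symm_apply_apply x
  have hS3 : ∀ k x, T k (e.symm x) = e.symm (T k x) := by
    intro k x
    apply hl.1
    rw [hS1, hT l k, hS1]
  set w : Finset (Fin n) → V := fun J =>
    if l ∈ J then ksg l (J.erase l) • e.symm (v (J.erase l)) else 0 with hw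
  have hwin : ∀ J, l ∈ J → w J = ksg l (J.erase l) • e.symm (v (J.erase l)) := by
    intro J h
    rw [hw]
    exact if_pos h
  have hwout : ∀ J, l ∉ J → w J = 0 := by
    intro J h
    rw [hw]
    exact if_neg h
  refine ⟨w, ?_, ?_⟩
  · intro J hJ
    by_cases h : l ∈ J
    · have h2 : v (J.erase l) ≠ 0 := by
        intro h0
        apply hJ
        rw [hwin J h, h0, map_zero, smul_zero]
      have h3 := hv1 _ h2
      rw [Finset.card_erase_of_mem h] at h3
      have h4 : 1 ≤ J.card := Finset.card_pos.mpr ⟨l, h⟩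
      omega
    · exact absurd (hwout J h) hJ
  · funext J
    rw [kzb_apply]
    by_cases h : l ∈ J
    · set J' := J.erase l with hJ'
      have hJ'l : l ∉ J' := Finset.notMem_erase l J
      have hJ : insert l J' = J := Finset.insert_erase h
      have hcyc : kz T v J' = 0 := by rw [hv0]; rfl
      rw [kzb_apply] at hcyc
      have hc : J'ᶜ = insert l Jᶜ := by
        ext k
        simp only [Finset.mem_compl, Finset.mem_insert, hJ', Finset.mem_erase]
        tauto
      have hlc : l ∉ Jᶜ := by simpa using h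
      rw [hc, Finset.sum_insert hlc, hJ] at hcyc
      have h1 : ∀ k ∈ Jᶜ, ksg k J • T k (w (insert k J)) =
          -(ksg l J' • e.symm (ksg k J' • T k (v (insert k J')))) := by
        intro k hk
        have hk' : k ∉ J := by simpa using hk
        have hkl : l ≠ k := fun h0 => hk' (h0 ▸ h)
        have hkJ' : k ∉ J' := fun h0 => hk' (Finset.mem_of_mem_erase h0)
        have e2 : (insert k J).erase l = insert k J' := by
          rw [hJ', Finset.erase_insert_of_ne (Ne.symm hkl)]
        rw [hwin _ (Finset.mem_insert_of_mem h), e2, map_zsmul, hS3, smul_smul, map_zsmul,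
          smul_smul, ← neg_smul]
        congr 1
        rw [← hJ]
        exact kzb_ksg_anti' hJ'l hkJ' hkl
      rw [Finset.sum_congr rfl h1, Finset.sum_neg_distrib, ← Finset.smul_sum, ← map_sum,
        eq_neg_of_add_eq_zero_right hcyc, map_neg, map_zsmul, hS2, smul_neg, neg_neg, smul_smul,
        kzb_ksg_mul_self, one_smul]
    · rw [Finset.sum_eq_single l]
      · rw [hwin _ (Finset.mem_insert_self l J), Finset.erase_insert h, map_zsmul, hS1, smul_smul,
          kzb_ksg_mul_self, one_smul]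
      · intro k hk hkl
        have : l ∉ insert k J := by
          simp only [Finset.mem_insert, not_or]
          exact ⟨Ne.symm hkl, h⟩
        rw [hwout _ this, map_zero, smul_zero]
      · intro h0
        exact absurd (by simpa using h) h0

end KosBasic

end Vale.Agent.P202.Mix
end

section

/-!
P202-MIX, part HON, task HON-2: nilpotent representations are Koszul acyclic.
-/

namespace Vale.Agent.P202.Mix

open Vale.Agent.P202.CharP
open scoped ENNReal

universe u

section HonRep

variable {R : Type u} [CommRing R] {V : Type u} [AddCommGroup V] [Module R V] {n : ℕ}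

theorem hr_kmap_kgr {M N : Type u} [AddCommGroup M] [Module R M] [AddCommGroup N] [Module R N]
    (f : M →ₗ[R] N) (i : ℤ) (v : Finset (Fin n) → M) (hv : v ∈ kgr R M n i) :
    kmap n f v ∈ kgr R N n i := by
  intro J hJ
  refine hv J fun h => hJ ?_
  change f (v J) = 0
  rw [h, map_zero]

theorem hr_kz_neg {M : Type u} [AddCommGroup M] [Module R M] (T T' : Fin n → M →ₗ[R] M)
    (h : ∀ l v, T' l v = - T l v) (v : Finset (Fin n) → M) : kz T' v = - kz T v := by
  funext J
  rw [Pi.neg_apply, kzb_apply, kzb_apply, ← Finset.sum_neg_distrib]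
  refine Finset.sum_congr rfl fun l _ => ?_
  rw [h, smul_neg]

theorem hr_comm {q : ℕ} (W : MRep n) (hW : W.IsNil q) (z : Fin n → R) (k l : Fin n)
    (v : W.ι → V) : W.T V z k (W.T V z l v) = W.T V z l (W.T V z k v) := by
  have h1 := RepLen.za_mul (R := R) (W.X k) (W.X l) v
  have h2 := RepLen.za_mul (R := R) (W.X l) (W.X k) v
  rw [hW.comm, h2] at h1
  simp only [MRep.T, LinearMap.sub_apply, LinearMap.smul_apply, LinearMap.id_apply, map_sub,
    map_smul, h1, smul_sub]
  rw [smul_comm (z k) (z l)]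
  abel

theorem acyc_rep (q : ℕ) (W : MRep n) (hW : W.IsNil q) (z : Fin n → R) (hz : Acyc (sop V z)) :
    Acyc (W.T V z) := by
  obtain ⟨m, hm⟩ : ∃ m, Fintype.card W.ι = m := ⟨_, rfl⟩
  induction m generalizing W with
  | zero =>
    have : IsEmpty W.ι := Fintype.card_eq_zero_iff.mp hm
    intro i _ c _
    refine ⟨0, Submodule.zero_mem _, ?_⟩
    rw [map_zero]
    exact Subsingleton.elim _ _
  | succ m ih =>
    have hne : Nonempty W.ι := Fintype.card_pos_iff.mp (by omega)
    obtain ⟨W', f, e, ρ, hW', hcard, hXe, hPe, hρe, hsum⟩ := RepLen.exists_split W hW hne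
    have ih' := ih W' hW' (by omega)
    let j : V →ₗ[R] (W.ι → V) := za e R V ∘ₗ LinearMap.pi fun _ : Unit => LinearMap.id
    let r : (W.ι → V) →ₗ[R] V := LinearMap.proj () ∘ₗ za ρ R V
    have hrj : ∀ v, r (j v) = v := by
      intro v
      have h1 := RepLen.za_mul (R := R) ρ e (fun _ : Unit => v)
      rw [hρe] at h1
      have h2 := congrFun h1 ()
      have h3 : r (j v) = za ρ R V (za e R V fun _ => v) () := rfl
      rw [h3, ← h2]
      simp [za]
    have hTj : ∀ l v, j (-(z l • (LinearMap.id : V →ₗ[R] V)) v) = W.T V z l (j v) := by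
      intro l v
      have h1 := RepLen.za_mul (R := R) (W.X l) e (fun _ : Unit => v)
      rw [hXe] at h1
      have h2 : za (W.X l) R V (j v) = 0 := by
        have h3 : za (W.X l) R V (j v) = za (W.X l) R V (za e R V fun _ => v) := rfl
        rw [h3, ← h1]
        ext c
        simp [za]
      simp only [MRep.T, LinearMap.sub_apply, LinearMap.smul_apply, LinearMap.id_apply, h2,
        zero_sub, map_neg, map_smul]
    have hdec : ∀ v, j (r v) + za f.σ R V (za f.P R V v) = v := by
      intro v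
      have h1 := RepLen.za_mul (R := R) e ρ v
      have h2 := RepLen.za_mul (R := R) f.σ f.P v
      have h3 : j (r v) = za e R V (za ρ R V v) := rfl
      rw [h3, ← h1, ← h2]
      have h4 : za (e * ρ) R V v + za (f.σ * f.P) R V v = za (e * ρ + f.σ * f.P) R V v := by
        ext c
        simp [za, add_smul, Finset.sum_add_distrib]
      rw [h4, hsum]
      ext c
      simp [za, Matrix.one_apply]
    have hPσ : ∀ v, za f.P R V (za f.σ R V v) = v := by
      intro v
      rw [← RepLen.za_mul, f.split]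
      ext c
      simp [za, Matrix.one_apply]
    have hPT : ∀ l v, za f.P R V (W.T V z l v) = W'.T V z l (za f.P R V v) := by
      intro l v
      have h1 := RepLen.za_mul (R := R) f.P (W.X l) v
      have h2 := RepLen.za_mul (R := R) (W'.X l) f.P v
      rw [f.comm l, h2] at h1
      simp only [MRep.T, LinearMap.sub_apply, LinearMap.smul_apply, LinearMap.id_apply, map_sub,
        map_smul, h1]
    intro i hi c hc
    obtain ⟨hc1, hc2⟩ := hc
    have hc0 : kz (W.T V z) c = 0 := hc2
    obtain ⟨b', hb'1, hb'2⟩ := ih' i hi (RepLen.kcyc_map _ _ (za f.P R V) hPT i c ⟨hc1, hc2⟩)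
    set b1 := kmap n (za f.σ R V) b' with hb1
    have hb1k : b1 ∈ kgr R (W.ι → V) n (i + 1) := hr_kmap_kgr _ _ _ hb'1
    have hPb1 : kmap n (za f.P R V) b1 = b' := by
      funext J
      exact hPσ (b' J)
    set d := c - kz (W.T V z) b1 with hd
    have hPd : ∀ J, za f.P R V (d J) = 0 := by
      intro J
      have h1 := kz_kmap (W.T V z) (W'.T V z) (za f.P R V) hPT b1
      rw [hPb1, hb'2] at h1
      have h2 := congrFun h1 J
      change za f.P R V (kz (W.T V z) b1 J) = za f.P R V (c J) at h2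
      rw [hd, Pi.sub_apply, map_sub, h2, sub_self]
    have hdk : d ∈ kgr R (W.ι → V) n i := Submodule.sub_mem _ hc1 (kz_kgr _ _ _ hb1k)
    have hd0 : kz (W.T V z) d = 0 := by
      rw [hd, map_sub, hc0, kz_sq _ (hr_comm W hW z), sub_zero]
    set uu := kmap n r d with hu
    have hju : kmap n j uu = d := by
      funext J
      have h1 := hdec (d J)
      rw [hPd, map_zero, add_zero] at h1
      exact h1
    have hkzj : ∀ w : Finset (Fin n) → V, kz (W.T V z) (kmap n j w) =
        kmap n j (- kz (sop V z) w) := by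
      intro w
      rw [← kz_kmap (fun l => -(z l • (LinearMap.id : V →ₗ[R] V))) (W.T V z) j hTj w]
      congr 1
      exact hr_kz_neg (sop V z) _ (fun l v => rfl) w
    have hu0 : kz (sop V z) uu = 0 := by
      have h1 := hkzj uu
      rw [hju, hd0] at h1
      funext J
      have h2 := congrFun h1 J
      change (0 : W.ι → V) = j (- kz (sop V z) uu J) at h2
      have h3 := congrArg r h2
      rw [map_zero, hrj] at h3
      exact neg_eq_zero.1 h3.symm
    obtain ⟨w, hw1, hw2⟩ := hz i hi ⟨hr_kmap_kgr r i d hdk, hu0⟩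
    refine ⟨b1 + kmap n j (-w), Submodule.add_mem _ hb1k
      (hr_kmap_kgr _ _ _ (Submodule.neg_mem _ hw1)), ?_⟩
    have h5 : kz (W.T V z) (kmap n j (-w)) = d := by
      have h6 : kz (sop V z) (-w) = -kz (sop V z) w := map_neg _ _
      rw [hkzj, h6, neg_neg, hw2]
      exact hju
    rw [map_add, h5, hd]
    abel

theorem acyc_pi (ι : Type) [Fintype ι] (y : Fin n → R) (hy : Acyc (sop V y)) :
    Acyc (sop (ι → V) y) := by
  intro i hi c hc
  obtain ⟨hc1, hc2⟩ := hc
  have hc0 : kz (sop (ι → V) y) c = 0 := hc2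
  have hp : ∀ (a : ι) l (v : ι → V), (LinearMap.proj a : (ι → V) →ₗ[R] V) (sop (ι → V) y l v) =
      sop V y l ((LinearMap.proj a : (ι → V) →ₗ[R] V) v) := fun a l v => rfl
  have h1 : ∀ a : ι, ∃ b ∈ kgr R V n (i + 1), kz (sop V y) b =
      kmap n (LinearMap.proj a : (ι → V) →ₗ[R] V) c := by
    intro a
    obtain ⟨b, hb1, hb2⟩ := hy i hi
      (RepLen.kcyc_map _ _ (LinearMap.proj a : (ι → V) →ₗ[R] V) (hp a) i c ⟨hc1, hc2⟩)
    exact ⟨b, hb1, hb2⟩
  choose b hb1 hb2 using h1
  refine ⟨fun J a => b a J, ?_, ?_⟩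
  · intro J hJ
    have h2 : ∃ a, b a J ≠ 0 := by
      by_contra h
      push Not at h
      exact hJ (funext h)
    obtain ⟨a, ha⟩ := h2
    exact hb1 a J ha
  · funext J a
    have h3 := kz_kmap (sop (ι → V) y) (sop V y) (LinearMap.proj a : (ι → V) →ₗ[R] V) (hp a)
      (fun J a => b a J)
    have h4 : kmap n (LinearMap.proj a : (ι → V) →ₗ[R] V) (fun J a => b a J) = b a := rfl
    rw [h4, hb2 a] at h3
    exact congrFun h3 J

end HonRep

end Vale.Agent.P202.Mix
end

section

/-!
P202-MIX, part HON, task HON-3: exchanging two Koszul complexes.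
-/

namespace Vale.Agent.P202.Mix

open Vale.Agent.P202.CharP

universe u

section

variable {R : Type u} [CommRing R] {n : ℕ} {M M' : Type u} [AddCommGroup M] [Module R M]
  [AddCommGroup M'] [Module R M']

/-- The first differential of the double complex. -/
def hsd (T : Fin n → M →ₗ[R] M) : (Finset (Fin n) → Finset (Fin n) → M) →ₗ[R]
    (Finset (Fin n) → Finset (Fin n) → M) := kz fun l => kmap n (T l)

/-- The second differential of the double complex. -/
def hse (S : Fin n → M →ₗ[R] M) : (Finset (Fin n) → Finset (Fin n) → M) →ₗ[R]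
    (Finset (Fin n) → Finset (Fin n) → M) := kmap n (kz S)

/-- The map of double complexes. -/
def hsF (n : ℕ) (f : M →ₗ[R] M') : (Finset (Fin n) → Finset (Fin n) → M) →ₗ[R]
    (Finset (Fin n) → Finset (Fin n) → M') := kmap n (kmap n f)

/-- The bigraded parts. -/
def hsg (R : Type u) [CommRing R] (M : Type u) [AddCommGroup M] [Module R M] (n : ℕ) (s t : ℤ) :
    Submodule R (Finset (Fin n) → Finset (Fin n) → M) where
  carrier := {a | ∀ J K, a J K ≠ 0 → (J.card : ℤ) = s ∧ (K.card : ℤ) = t}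
  add_mem' := by
    intro v w hv hw J K h
    by_cases h1 : v J K = 0
    · exact hw J K (by intro h2; apply h; simp [h1, h2])
    · exact hv J K h1
  zero_mem' := by intro J K h; exact absurd rfl h
  smul_mem' := by
    intro c v hv J K h
    exact hv J K (by intro h1; apply h; simp [h1])

theorem hsd_apply (T : Fin n → M →ₗ[R] M) (a : Finset (Fin n) → Finset (Fin n) → M)
    (J K : Finset (Fin n)) : hsd T a J K = kz T (fun J => a J K) J := by
  rw [hsd, kzb_apply, kzb_apply, Finset.sum_apply]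
  rfl

theorem hse_apply (S : Fin n → M →ₗ[R] M) (a : Finset (Fin n) → Finset (Fin n) → M)
    (J K : Finset (Fin n)) : hse S a J K = kz S (a J) K := rfl

theorem hsd_mem (T : Fin n → M →ₗ[R] M) {s t : ℤ} {a : Finset (Fin n) → Finset (Fin n) → M}
    (ha : a ∈ hsg R M n (s + 1) t) : hsd T a ∈ hsg R M n s t := by
  intro J K h
  rw [hsd_apply] at h
  by_cases hK : (K.card : ℤ) = t
  · exact ⟨kz_kgr T s (fun J => a J K) (fun J' h' => (ha J' K h').1) J h, hK⟩
  · exfalso
    apply h
    have h1 : (fun J => a J K) = 0 := by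
      funext J'
      by_contra h2
      exact hK (ha J' K h2).2
    rw [h1, map_zero]
    rfl

theorem hse_mem (S : Fin n → M →ₗ[R] M) {s t : ℤ} {a : Finset (Fin n) → Finset (Fin n) → M}
    (ha : a ∈ hsg R M n s (t + 1)) : hse S a ∈ hsg R M n s t := by
  intro J K h
  rw [hse_apply] at h
  by_cases hJ : (J.card : ℤ) = s
  · exact ⟨hJ, kz_kgr S t (a J) (fun K' h' => (ha J K' h').2) K h⟩
  · exfalso
    apply h
    have h1 : a J = 0 := by
      funext K'
      by_contra h2
      exact hJ (ha J K' h2).1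
    rw [h1, map_zero]
    rfl

theorem hs_comm (T S : Fin n → M →ₗ[R] M) (hTS : ∀ k l v, T k (S l v) = S l (T k v))
    (a : Finset (Fin n) → Finset (Fin n) → M) : hsd T (hse S a) = hse S (hsd T a) := by
  refine (kz_kmap (fun l => kmap n (T l)) (fun l => kmap n (T l)) (kz S) (fun l v => ?_) a).symm
  exact (kz_kmap S S (T l) (fun k w => hTS l k w) v).symm

theorem hsd_sq (T : Fin n → M →ₗ[R] M) (hT : ∀ k l v, T k (T l v) = T l (T k v))
    (a : Finset (Fin n) → Finset (Fin n) → M) : hsd T (hsd T a) = 0 := by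
  refine kz_sq _ (fun k l v => ?_) a
  funext K
  exact hT k l (v K)

theorem hse_sq (S : Fin n → M →ₗ[R] M) (hS : ∀ k l v, S k (S l v) = S l (S k v))
    (a : Finset (Fin n) → Finset (Fin n) → M) : hse S (hse S a) = 0 := by
  funext J
  exact kz_sq S hS (a J)

theorem hsF_d (f : M →ₗ[R] M') (T : Fin n → M →ₗ[R] M) (T' : Fin n → M' →ₗ[R] M')
    (hfT : ∀ l v, f (T l v) = T' l (f v)) (a : Finset (Fin n) → Finset (Fin n) → M) :
    hsF n f (hsd T a) = hsd T' (hsF n f a) := by
  refine kz_kmap (fun l => kmap n (T l)) (fun l => kmap n (T' l)) (kmap n f) (fun l v => ?_) a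
  funext K
  exact hfT l (v K)

theorem hsF_e (f : M →ₗ[R] M') (S : Fin n → M →ₗ[R] M) (S' : Fin n → M' →ₗ[R] M')
    (hfS : ∀ l v, f (S l v) = S' l (f v)) (a : Finset (Fin n) → Finset (Fin n) → M) :
    hsF n f (hse S a) = hse S' (hsF n f a) := by
  funext J
  exact kz_kmap S S' f hfS (a J)

theorem hsF_surj (f : M →ₗ[R] M') (hf : Function.Surjective f) {s t : ℤ}
    {a' : Finset (Fin n) → Finset (Fin n) → M'} (ha : a' ∈ hsg R M' n s t) :
    ∃ a ∈ hsg R M n s t, hsF n f a = a' := by
  have h1 : ∀ J K, ∃ m : M, f m = a' J K ∧ (a' J K = 0 → m = 0) := by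
    intro J K
    by_cases h : a' J K = 0
    · exact ⟨0, by rw [map_zero, h], fun _ => rfl⟩
    · obtain ⟨m, hm⟩ := hf (a' J K)
      exact ⟨m, hm, fun h0 => absurd h0 h⟩
  choose a h1 h2 using h1
  refine ⟨a, fun J K h => ha J K fun h0 => h (h2 J K h0), ?_⟩
  funext J K
  exact h1 J K

theorem hsF_mem (f : M →ₗ[R] M') {s t : ℤ} {a : Finset (Fin n) → Finset (Fin n) → M}
    (ha : a ∈ hsg R M n s t) : hsF n f a ∈ hsg R M' n s t := by
  intro J K h
  refine ha J K fun h0 => h ?_
  show f (a J K) = 0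
  rw [h0, map_zero]

theorem hsd_lift (T : Fin n → M →ₗ[R] M) {s t : ℤ} {a : Finset (Fin n) → Finset (Fin n) → M}
    (ha : a ∈ hsg R M n s t) (h : ∀ K, (fun J => a J K) ∈ kbd T s) :
    ∃ b ∈ hsg R M n (s + 1) t, hsd T b = a := by
  have h1 : ∀ K : Finset (Fin n), ∃ v : Finset (Fin n) → M, v ∈ kgr R M n (s + 1) ∧
      kz T v = (fun J => a J K) ∧ ((K.card : ℤ) ≠ t → v = 0) := by
    intro K
    by_cases hK : (K.card : ℤ) = t
    · obtain ⟨v, hv, hv'⟩ := h K
      exact ⟨v, hv, hv', fun h0 => absurd hK h0⟩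
    · refine ⟨0, zero_mem _, ?_, fun _ => rfl⟩
      rw [map_zero]
      funext J
      by_contra h2
      exact hK (ha J K (Ne.symm h2)).2
  choose v hv1 hv2 hv3 using h1
  refine ⟨fun J K => v K J, fun J K h0 => ⟨hv1 K J h0, ?_⟩, ?_⟩
  · by_contra h2
    apply h0
    show v K J = 0
    rw [hv3 K h2]
    rfl
  · funext J K
    rw [hsd_apply]
    exact congrFun (hv2 K) J

theorem hse_lift (S : Fin n → M →ₗ[R] M) {s t : ℤ} {a : Finset (Fin n) → Finset (Fin n) → M}
    (ha : a ∈ hsg R M n s t) (h : ∀ J, a J ∈ kbd S t) :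
    ∃ b ∈ hsg R M n s (t + 1), hse S b = a := by
  have h1 : ∀ J : Finset (Fin n), ∃ v : Finset (Fin n) → M, v ∈ kgr R M n (t + 1) ∧
      kz S v = a J ∧ ((J.card : ℤ) ≠ s → v = 0) := by
    intro J
    by_cases hJ : (J.card : ℤ) = s
    · obtain ⟨v, hv, hv'⟩ := h J
      exact ⟨v, hv, hv', fun h0 => absurd hJ h0⟩
    · refine ⟨0, zero_mem _, ?_, fun _ => rfl⟩
      rw [map_zero]
      funext K
      by_contra h2
      exact hJ (ha J K (Ne.symm h2)).1
  choose v hv1 hv2 hv3 using h1
  refine ⟨v, fun J K h0 => ⟨?_, hv1 J K h0⟩, ?_⟩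
  · by_contra h2
    apply h0
    rw [hv3 J h2]
    rfl
  · funext J
    exact hv2 J

theorem hsd_exact (T : Fin n → M →ₗ[R] M) (hT : Acyc T) {s t : ℤ} (hs : 1 ≤ s)
    {a : Finset (Fin n) → Finset (Fin n) → M} (ha : a ∈ hsg R M n s t) (h : hsd T a = 0) :
    ∃ b ∈ hsg R M n (s + 1) t, hsd T b = a := by
  refine hsd_lift T ha fun K => hT s hs ⟨fun J h0 => (ha J K h0).1, ?_⟩
  rw [SetLike.mem_coe, LinearMap.mem_ker]
  funext J
  rw [← hsd_apply, h]
  rfl

theorem hse_exact (S : Fin n → M →ₗ[R] M) (hS : Acyc S) {s t : ℤ} (ht : 1 ≤ t)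
    {a : Finset (Fin n) → Finset (Fin n) → M} (ha : a ∈ hsg R M n s t) (h : hse S a = 0) :
    ∃ b ∈ hsg R M n s (t + 1), hse S b = a := by
  refine hse_lift S ha fun J => hS t ht ⟨fun K h0 => (ha J K h0).2, ?_⟩
  rw [SetLike.mem_coe, LinearMap.mem_ker]
  exact congrFun h J

theorem hs_trg (T : Fin n → M →ₗ[R] M) (v : Finset (Fin n) → M) : kz T v ∅ ∈ trg T := by
  rw [kzb_apply]
  refine Submodule.sum_mem _ fun l _ => zsmul_mem ?_ _
  exact Submodule.mem_iSup_of_mem l ⟨_, rfl⟩

theorem hs_trg_iff (T : Fin n → M →ₗ[R] M) {v : Finset (Fin n) → M} (hv : v ∈ kgr R M n 0)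
    (h : v ∅ ∈ trg T) : v ∈ kbd T 0 := by
  classical
  obtain ⟨m, hm⟩ : ∃ m : Fin n → M, ∑ l, T l (m l) = v ∅ := by
    rw [trg, Submodule.mem_iSup_iff_exists_finsupp] at h
    obtain ⟨g, hg, hg'⟩ := h
    choose m hm using hg
    refine ⟨m, ?_⟩
    rw [← hg', Finsupp.sum_fintype _ _ (fun _ => rfl)]
    exact Finset.sum_congr rfl fun l _ => hm l
  refine ⟨fun J => if J.card = 1 then ∑ l ∈ J, m l else 0, ?_, ?_⟩
  · intro J hJ
    by_contra h0
    apply hJ
    show (if J.card = 1 then ∑ l ∈ J, m l else 0) = 0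
    rw [if_neg]
    intro h1
    apply h0
    rw [h1]
    norm_num
  · funext J
    rw [kzb_apply]
    by_cases hJ : J = ∅
    · subst hJ
      rw [← hm, Finset.compl_empty]
      refine Finset.sum_congr rfl fun l _ => ?_
      simp [ksg]
    · have h1 : v J = 0 := by
        by_contra h2
        have h3 := hv J h2
        apply hJ
        rw [← Finset.card_eq_zero]
        exact_mod_cast h3
      rw [h1]
      refine Finset.sum_eq_zero fun l hl => ?_
      rw [if_neg, map_zero, smul_zero]
      rw [Finset.card_insert_of_notMem (by simpa using hl)]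
      intro h2
      apply hJ
      rw [← Finset.card_eq_zero]
      omega

theorem hs_neg {s t : ℤ} (hs : s < 0) {a : Finset (Fin n) → Finset (Fin n) → M}
    (ha : a ∈ hsg R M n s t) : a = 0 := by
  funext J K
  by_contra h
  have := (ha J K h).1
  omega

theorem hs_neg' {s t : ℤ} (ht : t < 0) {a : Finset (Fin n) → Finset (Fin n) → M}
    (ha : a ∈ hsg R M n s t) : a = 0 := by
  funext J K
  by_contra h
  have := (ha J K h).2
  omega

/-- The zigzag. -/
theorem hs_main (f : M →ₗ[R] M') (hf : Function.Surjective f) (T S : Fin n → M →ₗ[R] M)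
    (T' S' : Fin n → M' →ₗ[R] M')
    (hT : ∀ k l v, T k (T l v) = T l (T k v)) (hS : ∀ k l v, S k (S l v) = S l (S k v))
    (hTS : ∀ k l v, T k (S l v) = S l (T k v))
    (hT' : ∀ k l v, T' k (T' l v) = T' l (T' k v)) (hS' : ∀ k l v, S' k (S' l v) = S' l (S' k v))
    (hTS' : ∀ k l v, T' k (S' l v) = S' l (T' k v))
    (hfT : ∀ l v, f (T l v) = T' l (f v)) (hfS : ∀ l v, f (S l v) = S' l (f v))
    (h1 : Acyc T) (h2 : Acyc T') (h4 : Acyc S')
    (h : LiftMod S (trg T) S' (trg T') f) (s : ℕ) :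
    ∀ t : ℤ, 0 ≤ t → ∀ c' ∈ hsg R M' n s t,
      (∃ b' ∈ hsg R M' n (s - 1) (t + 1), hse S' b' = hsd T' c') →
      (∃ a' ∈ hsg R M' n (s + 1) (t - 1), hsd T' a' = hse S' c') →
      ∃ c ∈ hsg R M n s t, hsF n f c = c' ∧
        (∃ b ∈ hsg R M n (s - 1) (t + 1), hse S b = hsd T c) ∧
        (∃ a ∈ hsg R M n (s + 1) (t - 1), hsd T a = hse S c) := by
  induction s with
  | zero =>
    intro t ht c' hc' _ hB
    obtain ⟨a', ha', ha'c⟩ := hB
    obtain ⟨c0, hc0, hc0S, hc0f⟩ := h t (c' ∅) (fun K hK => (hc' ∅ K hK).2) (fun K => by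
      rw [← hse_apply, ← ha'c, hsd_apply]
      exact hs_trg T' _)
    -- the element in the double complex
    obtain ⟨c1, hc1⟩ : ∃ c1 : Finset (Fin n) → Finset (Fin n) → M,
        c1 = fun J => if J = ∅ then c0 else 0 := ⟨_, rfl⟩
    have hc1e : c1 ∅ = c0 := by rw [hc1]; exact if_pos rfl
    have hc1n : ∀ J, J ≠ ∅ → c1 J = 0 := fun J hJ => by rw [hc1]; exact if_neg hJ
    have hc1m : c1 ∈ hsg R M n ((0 : ℕ) : ℤ) t := by
      intro J K hJK
      by_cases hJ : J = ∅
      · subst hJ
        rw [hc1e] at hJK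
        exact ⟨by simp, hc0 K hJK⟩
      · rw [hc1n J hJ] at hJK
        exact absurd rfl hJK
    have key : ∀ (N : Type u) [AddCommGroup N] [Module R N] (U : Fin n → N →ₗ[R] N) (t : ℤ)
        (a : Finset (Fin n) → Finset (Fin n) → N), a ∈ hsg R N n ((0 : ℕ) : ℤ) t →
        (∀ K, a ∅ K ∈ trg U) → ∃ b ∈ hsg R N n (((0 : ℕ) : ℤ) + 1) t, hsd U b = a := by
      intro N _ _ U t a ha haK
      refine hsd_lift U ha fun K => ?_
      rw [Nat.cast_zero]
      exact hs_trg_iff U (fun J hJ => (ha J K hJ).1) (haK K)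
    obtain ⟨g', hg', hg'c⟩ := key M' T' t (hsF n f c1 - c')
      (sub_mem (hsF_mem f hc1m) hc') (fun K => by
        have h3 := hc0f K
        rw [← hc1e] at h3
        exact h3)
    obtain ⟨g, hg, hgf⟩ := hsF_surj f hf hg'
    obtain ⟨b1, hb1, hb1c⟩ := key M T (t - 1) (hse S c1)
      (hse_mem S (by rw [sub_add_cancel]; exact hc1m)) (fun K => by
        rw [hse_apply, hc1e]
        exact hc0S K)
    have hcm : c1 - hsd T g ∈ hsg R M n ((0 : ℕ) : ℤ) t := sub_mem hc1m (hsd_mem T hg)
    refine ⟨c1 - hsd T g, hcm, ?_, ⟨0, zero_mem _, ?_⟩, ⟨b1 - hse S g, ?_, ?_⟩⟩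
    · rw [map_sub, hsF_d f T T' hfT, hgf, hg'c, sub_sub_cancel]
    · rw [map_zero]
      have h5 : hsd T (c1 - hsd T g) ∈ hsg R M n (((0 : ℕ) : ℤ) - 1) t :=
        hsd_mem T (by rw [sub_add_cancel]; exact hcm)
      exact (hs_neg (by norm_num) h5).symm
    · exact sub_mem hb1 (hse_mem S (by rw [sub_add_cancel]; exact hg))
    · rw [map_sub, map_sub, hb1c, hs_comm T S hTS]
  | succ s ih =>
    intro t ht c' hc' hA _
    obtain ⟨b', hb', hb'c⟩ := hA
    have e1 : ((s + 1 : ℕ) : ℤ) - 1 = s := by push_cast; ring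
    rw [e1] at hb' ⊢
    -- conditions for `b'`
    have hdb : ∃ b'' ∈ hsg R M' n ((s : ℤ) - 1) (t + 1 + 1), hse S' b'' = hsd T' b' := by
      refine hse_exact S' h4 (by omega) (hsd_mem T' (by rw [sub_add_cancel]; exact hb')) ?_
      rw [← hs_comm T' S' hTS', hb'c, hsd_sq T' hT']
    obtain ⟨b, hb, hbf, -, ⟨c1, hc1, hc1b⟩⟩ := ih (t + 1) (by omega) b' hb' hdb
      ⟨c', by rw [add_sub_cancel_right]; exact_mod_cast hc', hb'c.symm⟩
    rw [add_sub_cancel_right] at hc1
    have hc1' : c1 ∈ hsg R M n ((s + 1 : ℕ) : ℤ) t := by exact_mod_cast hc1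
    obtain ⟨g', hg', hg'c⟩ := hsd_exact T' h2 (s := ((s + 1 : ℕ) : ℤ)) (t := t)
      (by push_cast; omega) (sub_mem (hsF_mem f hc1') hc') (by
        rw [map_sub, ← hsF_d f T T' hfT, hc1b, hsF_e f S S' hfS, hbf, hb'c, sub_self])
    obtain ⟨g, hg, hgf⟩ := hsF_surj f hf hg'
    have hcm : c1 - hsd T g ∈ hsg R M n ((s + 1 : ℕ) : ℤ) t := sub_mem hc1' (hsd_mem T hg)
    have hdc : hsd T (c1 - hsd T g) = hse S b := by
      rw [map_sub, hsd_sq T hT, sub_zero, hc1b]
    refine ⟨c1 - hsd T g, hcm, ?_, ⟨b, hb, hdc.symm⟩, ?_⟩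
    · rw [map_sub, hsF_d f T T' hfT, hgf, hg'c, sub_sub_cancel]
    · refine hsd_exact T h1 (by push_cast; omega)
        (hse_mem S (by rw [sub_add_cancel]; exact hcm)) ?_
      rw [hs_comm T S hTS, hdc, hse_sq S hS]

/-- Exchanging two commuting families. -/
theorem hs_swap (f : M →ₗ[R] M') (hf : Function.Surjective f) (T S : Fin n → M →ₗ[R] M)
    (T' S' : Fin n → M' →ₗ[R] M')
    (hT : ∀ k l v, T k (T l v) = T l (T k v)) (hS : ∀ k l v, S k (S l v) = S l (S k v))
    (hTS : ∀ k l v, T k (S l v) = S l (T k v))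
    (hT' : ∀ k l v, T' k (T' l v) = T' l (T' k v)) (hS' : ∀ k l v, S' k (S' l v) = S' l (S' k v))
    (hTS' : ∀ k l v, T' k (S' l v) = S' l (T' k v))
    (hfT : ∀ l v, f (T l v) = T' l (f v)) (hfS : ∀ l v, f (S l v) = S' l (f v))
    (h1 : Acyc T) (h2 : Acyc T') (h4 : Acyc S')
    (h : LiftMod S (trg T) S' (trg T') f) : LiftMod T (trg S) T' (trg S') f := by
  intro i c' hc' hc'S
  rcases lt_or_ge i 0 with hi | hi
  · have h0 : c' = 0 := by
      funext J
      by_contra h0
      have := hc' J h0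
      omega
    refine ⟨0, zero_mem _, fun J => ?_, fun J => ?_⟩
    · rw [map_zero]
      exact zero_mem _
    · rw [h0]
      simp
  obtain ⟨s, rfl⟩ := Int.eq_ofNat_of_zero_le hi
  obtain ⟨a', ha'⟩ : ∃ a' : Finset (Fin n) → Finset (Fin n) → M',
      a' = fun J K => if K = ∅ then c' J else 0 := ⟨_, rfl⟩
  have ha'e : ∀ J, a' J ∅ = c' J := fun J => by rw [ha']; exact if_pos rfl
  have ha'n : ∀ J K, K ≠ ∅ → a' J K = 0 := fun J K hK => by rw [ha']; exact if_neg hK
  have ha'm : a' ∈ hsg R M' n s 0 := by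
    intro J K hJK
    by_cases hK : K = ∅
    · subst hK
      rw [ha'e] at hJK
      exact ⟨hc' J hJK, by simp⟩
    · exact absurd (ha'n J K hK) hJK
  have hda : hsd T' a' ∈ hsg R M' n ((s : ℤ) - 1) 0 :=
    hsd_mem T' (by rw [sub_add_cancel]; exact ha'm)
  obtain ⟨a, ha, haf, ⟨b, hb, hbd⟩, -⟩ := hs_main f hf T S T' S' hT hS hTS hT' hS' hTS' hfT hfS
    h1 h2 h4 h s 0 le_rfl a' ha'm (by
      rw [zero_add]
      have := hse_lift S' hda (fun J => hs_trg_iff S' (fun K hK => (hda J K hK).2) (by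
        rw [hsd_apply]
        have e : (fun J => a' J ∅) = c' := funext ha'e
        rw [e]
        exact hc'S J))
      rwa [zero_add] at this) ⟨0, zero_mem _, by
        rw [map_zero]
        have h5 : hse S' a' ∈ hsg R M' n s ((0 : ℤ) - 1) :=
          hse_mem S' (by rw [sub_add_cancel]; exact ha'm)
        exact (hs_neg' (by norm_num) h5).symm⟩
  refine ⟨fun J => a J ∅, fun J hJ => (ha J ∅ hJ).1, fun J => ?_, fun J => ?_⟩
  · rw [← hsd_apply, ← hbd, hse_apply]
    exact hs_trg S _
  · have h6 : f (a J ∅) = c' J := by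
      rw [← ha'e, ← haf]
      rfl
    rw [h6, sub_self]
    exact zero_mem _

theorem hs_ys (V : Type u) [AddCommGroup V] [Module R V] (y : Fin n → R) :
    ys V y = trg (sop V y) := by
  apply le_antisymm
  · rw [ys, Submodule.smul_le]
    intro r hr m _
    refine Submodule.span_induction (p := fun r _ => r • m ∈ trg (sop V y)) ?_ ?_ ?_ ?_ hr
    · rintro _ ⟨l, rfl⟩
      exact Submodule.mem_iSup_of_mem l ⟨m, rfl⟩
    · rw [zero_smul]
      exact zero_mem _
    · intro a b _ _ ha hb
      rw [add_smul]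
      exact add_mem ha hb
    · intro c a _ ha
      rw [smul_assoc]
      exact Submodule.smul_mem _ _ ha
  · refine iSup_le fun l => ?_
    rintro _ ⟨m, rfl⟩
    exact Submodule.smul_mem_smul (Ideal.subset_span ⟨l, rfl⟩) trivial

/-- TASK HON-3: exchanging the two sequences. -/
theorem lift_swap
    (f : M →ₗ[R] M') (hf : Function.Surjective f) (T : Fin n → M →ₗ[R] M)
    (T' : Fin n → M' →ₗ[R] M') (hT : ∀ k l v, T k (T l v) = T l (T k v))
    (hT' : ∀ k l v, T' k (T' l v) = T' l (T' k v)) (hfT : ∀ l v, f (T l v) = T' l (f v))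
    (y : Fin n → R) (h1 : Acyc T) (h2 : Acyc T') (h3 : Acyc (sop M y)) (h4 : Acyc (sop M' y))
    (h : LiftMod (sop M y) (trg T) (sop M' y) (trg T') f) :
    LiftMod T (ys M y) T' (ys M' y) f := by
  rw [hs_ys, hs_ys]
  refine hs_swap f hf T (sop M y) T' (sop M' y) hT (fun k l v => ?_) (fun k l v => ?_) hT'
    (fun k l v => ?_) (fun k l v => ?_) hfT (fun l v => ?_) h1 h2 h4 h
  · exact smul_comm _ _ _
  · exact map_smul (T k) (y l) v
  · exact smul_comm _ _ _
  · exact map_smul (T' k) (y l) v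
  · exact map_smul f (y l) v

end

end Vale.Agent.P202.Mix
end

section

/-!
P202-MIX, task HON-5: the levelwise liftings give the lifting on the honest module.
-/

namespace Vale.Agent.P202.Mix

open Vale.Agent.P202.CharP
open scoped ENNReal

universe u

namespace HonLift

section

variable {R : Type u} [CommRing R] {n : ℕ} {V V' : Type u} [AddCommGroup V] [Module R V]
  [AddCommGroup V'] [Module R V']

theorem mem_trg (T : Fin n → V →ₗ[R] V) (x : V) :
    x ∈ trg T ↔ ∃ u : Fin n → V, x = ∑ l, T l (u l) := by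
  constructor
  · intro hx
    have h : trg T ≤ LinearMap.range
        (∑ l, T l ∘ₗ (LinearMap.proj l : (Fin n → V) →ₗ[R] V)) := by
      refine iSup_le fun l => ?_
      rintro _ ⟨w, rfl⟩
      refine ⟨Pi.single l w, ?_⟩
      rw [LinearMap.sum_apply, Finset.sum_eq_single l]
      · simp
      · intro k _ hk
        simp [hk]
      · intro hl
        exact absurd (Finset.mem_univ l) hl
    obtain ⟨u, hu⟩ := h hx
    refine ⟨u, ?_⟩
    rw [← hu, LinearMap.sum_apply]
    rfl
  · rintro ⟨u, rfl⟩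
    exact Submodule.sum_mem _ fun l _ =>
      (le_iSup (fun l => LinearMap.range (T l)) l) ⟨u l, rfl⟩

theorem T_apply (W : MRep n) (z : Fin n → R) (l : Fin n) (x : W.ι → V) (a : W.ι) :
    W.T V z l x a = ∑ b, W.X l a b • x b - z l • x a := rfl

theorem za_apply {α β : Type} [Fintype β] (P : Matrix α β ℤ) (x : β → V) (a : α) :
    za P R V x a = ∑ b, P a b • x b := rfl

theorem kz_apply {ι : Type} (y : Fin n → R) (c : Finset (Fin n) → ι → V) (J : Finset (Fin n))
    (a : ι) :
    kz (sop (ι → V) y) c J a = ∑ l ∈ Jᶜ, ksg l J • (y l • c (insert l J) a) := by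
  show (∑ l ∈ Jᶜ, ksg l J • (sop (ι → V) y l (c (insert l J)))) a = _
  rw [Finset.sum_apply]
  rfl

theorem T_nat (φ : V →ₗ[R] V') (W : MRep n) (z : Fin n → R) (l : Fin n) (x : W.ι → V)
    (a : W.ι) : φ (W.T V z l x a) = W.T V' z l (fun b => φ (x b)) a := by
  rw [T_apply, T_apply, map_sub, map_sum, map_smul]
  simp only [map_zsmul]

theorem za_nat (φ : V →ₗ[R] V') {α β : Type} [Fintype β] (P : Matrix α β ℤ) (x : β → V) (a : α) :
    φ (za P R V x a) = za P R V' (fun b => φ (x b)) a := by
  rw [za_apply, za_apply, map_sum]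
  simp only [map_zsmul]

theorem kz_nat (φ : V →ₗ[R] V') {ι : Type} (y : Fin n → R) (c : Finset (Fin n) → ι → V)
    (J : Finset (Fin n)) (a : ι) :
    φ (kz (sop (ι → V) y) c J a) = kz (sop (ι → V') y) (fun J a => φ (c J a)) J a := by
  rw [kz_apply, kz_apply, map_sum]
  simp only [map_zsmul, map_smul]

theorem sumT_nat (φ : V →ₗ[R] V') (W : MRep n) (z : Fin n → R) (u : Fin n → W.ι → V)
    (a : W.ι) : φ ((∑ l, W.T V z l (u l)) a) = (∑ l, W.T V' z l (fun b => φ (u l b))) a := by
  rw [Finset.sum_apply, Finset.sum_apply, map_sum]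
  exact Finset.sum_congr rfl fun l _ => T_nat φ W z l (u l) a

end

section Fam

variable (R : ℕ → Type u) [∀ e, CommRing (R e)] (X : ℕ → Type u) [∀ e, AddCommGroup (X e)]
  [∀ e, Module (R e) (X e)] {n : ℕ}

theorem T_comp (W : MRep n) (z : ∀ e, Fin n → R e) (l : Fin n) (x : W.ι → ∀ e, X e)
    (a : W.ι) (e : ℕ) :
    W.T (∀ e, X e) (fun l e => z e l) l x a e = W.T (X e) (z e) l (fun b => x b e) a := by
  rw [T_apply (R := ∀ e, R e), T_apply, Pi.sub_apply, Finset.sum_apply]
  rfl

theorem za_comp {α β : Type} [Fintype β] (P : Matrix α β ℤ) (x : β → ∀ e, X e) (a : α) (e : ℕ) :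
    za P (∀ e, R e) (∀ e, X e) x a e = za P (R e) (X e) (fun b => x b e) a := by
  rw [za_apply (R := ∀ e, R e), za_apply, Finset.sum_apply]
  rfl

theorem kz_comp {ι : Type} (y : ∀ e, Fin n → R e) (c : Finset (Fin n) → ι → ∀ e, X e)
    (J : Finset (Fin n)) (a : ι) (e : ℕ) :
    kz (sop (ι → ∀ e, X e) (fun l e => y e l)) c J a e =
      kz (sop (ι → X e) (y e)) (fun J a => c J a e) J a := by
  rw [kz_apply (R := ∀ e, R e), kz_apply, Finset.sum_apply]
  rfl

theorem sumT_comp (W : MRep n) (z : ∀ e, Fin n → R e) (u : Fin n → W.ι → ∀ e, X e)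
    (a : W.ι) (e : ℕ) :
    (∑ l, W.T (∀ e, X e) (fun l e => z e l) l (u l)) a e =
      (∑ l, W.T (X e) (z e) l (fun b => u l b e)) a := by
  rw [Finset.sum_apply, Finset.sum_apply, Finset.sum_apply]
  exact Finset.sum_congr rfl fun l _ => T_comp R X W z l (u l) a e

end Fam

section Loc

variable {A : Type u} [CommRing A] {M N : Type u} [AddCommGroup M] [Module A M]
  [AddCommGroup N] [Module A N]

theorem exists_inv (h : A) (f : M →ₗ[A] N) [IsLocalizedModule (Submonoid.powers h) f] (k : ℕ) :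
    ∃ ψ : N →ₗ[A] N, ∀ x, ψ (h ^ k • x) = x := by
  obtain ⟨u, hu⟩ := IsLocalizedModule.map_units (S := Submonoid.powers h) f ⟨h ^ k, k, rfl⟩
  refine ⟨↑u⁻¹, fun x => ?_⟩
  have h1 : h ^ k • x = (u : Module.End A N) x := by
    rw [hu]
    rfl
  rw [h1]
  have h2 : (↑u⁻¹ * ↑u : Module.End A N) x = x := by
    rw [Units.inv_mul]
    rfl
  exact h2

theorem exists_kill (h : A) (f : M →ₗ[A] N) [IsLocalizedModule (Submonoid.powers h) f]
    {ι : Type} [Fintype ι] (g : ι → M) (hg : ∀ i, f (g i) = 0) : ∃ m : ℕ, ∀ i, h ^ m • g i = 0 := by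
  have h1 : ∀ i, ∃ m : ℕ, h ^ m • g i = 0 := by
    intro i
    obtain ⟨⟨b, m, rfl⟩, hb⟩ := (IsLocalizedModule.eq_zero_iff (Submonoid.powers h) f).1 (hg i)
    exact ⟨m, hb⟩
  choose m hm using h1
  refine ⟨∑ i, m i, fun i => ?_⟩
  have h2 : m i ≤ ∑ i, m i := Finset.single_le_sum (f := m) (fun _ _ => Nat.zero_le _)
    (Finset.mem_univ i)
  rw [← Nat.sub_add_cancel h2, pow_add, mul_smul, hm, smul_zero]

end Loc

end HonLift

open HonLift in
/-- TASK HON-5: the levelwise liftings give the lifting on the honest module. -/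
theorem lift_SS (R : ℕ → Type u) [∀ e, CommRing (R e)] (X : ℕ → Type u)
    [∀ e, AddCommGroup (X e)] [∀ e, Module (R e) (X e)] (p : ℕ) {r : ℕ} (h : ∀ e, R e)
    (y z : ∀ e, Fin (r + 1) → R e) (W W' : MRep (r + 1)) (f : W.Surj W')
    (Hp : ∀ e (x : W.ι → X e), (p : R e) • x ∈ trg (W.T (X e) (z e)))
    (Hp' : ∀ e (x : W'.ι → X e), (p : R e) • x ∈ trg (W'.T (X e) (z e)))
    (HL : ∀ e, LiftMod (sop (W.ι → X e) (y e)) (trg (W.T (X e) (z e)))
      (sop (W'.ι → X e) (y e)) (trg (W'.T (X e) (z e))) (za f.P (R e) (X e))) :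
    LiftMod (sop (W.ι → SS R X p h) (fun l e => y e l))
      (trg (W.T (SS R X p h) (fun l e => z e l)))
      (sop (W'.ι → SS R X p h) (fun l e => y e l))
      (trg (W'.T (SS R X p h) (fun l e => z e l))) (za f.P (∀ e, R e) (SS R X p h)) := by
  classical
  intro i c' hc' hz
  choose u hu using fun J => (mem_trg _ _).1 (hz J)
  let F : XX R X p →ₗ[∀ e, R e] SS R X p h :=
    LocalizedModule.mkLinearMap (Submonoid.powers h) (XX R X p)
  let G : (∀ e, X e) →ₗ[∀ e, R e] SS R X p h := F ∘ₗ (Jinf R X p).mkQ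
  have hG0 : ∀ x ∈ Jinf R X p, G x = 0 := by
    intro x hx
    show F ((Jinf R X p).mkQ x) = 0
    rw [Submodule.mkQ_apply, (Submodule.Quotient.mk_eq_zero _).2 hx, map_zero]
  -- clearing denominators
  obtain ⟨⟨b, k, rfl⟩, hb⟩ := IsLocalizedModule.exist_integer_multiples_of_finite
    (Submonoid.powers h) F (ι := (Finset (Fin (r + 1)) × W'.ι) ⊕
      (Finset (Fin (r + 1)) × Fin (r + 1) × W'.ι))
    (Sum.elim (fun t => c' t.1 t.2) (fun t => u t.1 t.2.1 t.2.2))
  have hb1 : ∀ J a, ∃ q : ∀ e, X e, G q = h ^ k • c' J a := by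
    intro J a
    obtain ⟨m, hm⟩ := hb (Sum.inl (J, a))
    obtain ⟨q, rfl⟩ := Submodule.mkQ_surjective _ m
    exact ⟨q, hm⟩
  have hb2 : ∀ J l a, ∃ q : ∀ e, X e, G q = h ^ k • u J l a := by
    intro J l a
    obtain ⟨m, hm⟩ := hb (Sum.inr (J, l, a))
    obtain ⟨q, rfl⟩ := Submodule.mkQ_surjective _ m
    exact ⟨q, hm⟩
  choose q1 hq1 using hb1
  choose q2 hq2 using hb2
  let c20 : Finset (Fin (r + 1)) → W'.ι → ∀ e, X e := fun J a =>
    if (J.card : ℤ) = i then q1 J a else 0
  have hc20 : ∀ J a, G (c20 J a) = h ^ k • c' J a := by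
    intro J a
    show G (if (J.card : ℤ) = i then q1 J a else 0) = _
    split_ifs with hJ
    · exact hq1 J a
    · have h0 : c' J = 0 := by
        by_contra hne
        exact hJ (hc' J hne)
      rw [h0, map_zero, Pi.zero_apply, smul_zero]
  let D : Finset (Fin (r + 1)) → W'.ι → ∀ e, X e := fun J a =>
    kz (sop (W'.ι → ∀ e, X e) (fun l e => y e l)) c20 J a -
      (∑ l, W'.T (∀ e, X e) (fun l e => z e l) l (q2 J l)) a
  have hD : ∀ J a, G (D J a) = 0 := by
    intro J a
    show G (kz (sop (W'.ι → ∀ e, X e) (fun l e => y e l)) c20 J a -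
      (∑ l, W'.T (∀ e, X e) (fun l e => z e l) l (q2 J l)) a) = 0
    rw [map_sub, kz_nat, sumT_nat]
    simp only [hc20, hq2]
    have e1 := kz_nat (h ^ k • (LinearMap.id : SS R X p h →ₗ[∀ e, R e] SS R X p h))
      (fun l e => y e l) c' J a
    have e2 := sumT_nat (h ^ k • (LinearMap.id : SS R X p h →ₗ[∀ e, R e] SS R X p h)) W'
      (fun l e => z e l) (u J) a
    simp only [LinearMap.smul_apply, LinearMap.id_apply] at e1 e2
    rw [← e1, ← e2, hu J, sub_self]
  obtain ⟨m, hm⟩ := exists_kill h F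
    (fun t : Finset (Fin (r + 1)) × W'.ι => (Jinf R X p).mkQ (D t.1 t.2)) fun t => hD t.1 t.2
  let c2 : Finset (Fin (r + 1)) → W'.ι → ∀ e, X e := fun J a => h ^ m • c20 J a
  let u2 : Finset (Fin (r + 1)) → Fin (r + 1) → W'.ι → ∀ e, X e := fun J l a =>
    h ^ m • q2 J l a
  have hc2 : ∀ J, (J.card : ℤ) ≠ i → ∀ a, c2 J a = 0 := by
    intro J hJ a
    show h ^ m • (if (J.card : ℤ) = i then q1 J a else 0) = 0
    rw [if_neg hJ, smul_zero]
  have hJ : ∀ J a, kz (sop (W'.ι → ∀ e, X e) (fun l e => y e l)) c2 J a -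
      (∑ l, W'.T (∀ e, X e) (fun l e => z e l) l (u2 J l)) a ∈ Jinf R X p := by
    intro J a
    have h1 : h ^ m • D J a ∈ Jinf R X p := by
      rw [← Submodule.Quotient.mk_eq_zero, Submodule.Quotient.mk_smul]
      exact hm (J, a)
    have e1 := kz_nat (h ^ m • (LinearMap.id : (∀ e, X e) →ₗ[∀ e, R e] (∀ e, X e)))
      (fun l e => y e l) c20 J a
    have e2 := sumT_nat (h ^ m • (LinearMap.id : (∀ e, X e) →ₗ[∀ e, R e] (∀ e, X e))) W'
      (fun l e => z e l) (q2 J) a
    simp only [LinearMap.smul_apply, LinearMap.id_apply] at e1 e2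
    have h2 : h ^ m • D J a = kz (sop (W'.ι → ∀ e, X e) (fun l e => y e l)) c2 J a -
        (∑ l, W'.T (∀ e, X e) (fun l e => z e l) l (u2 J l)) a := by
      show h ^ m • (kz (sop (W'.ι → ∀ e, X e) (fun l e => y e l)) c20 J a -
        (∑ l, W'.T (∀ e, X e) (fun l e => z e l) l (q2 J l)) a) = _
      rw [smul_sub, e1, e2]
    rw [← h2]
    exact h1
  obtain ⟨ψ, hψ⟩ := exists_inv h F (k + m)
  let Φ : (∀ e, X e) →ₗ[∀ e, R e] SS R X p h := ψ ∘ₗ G
  have hΦ0 : ∀ x ∈ Jinf R X p, Φ x = 0 := by
    intro x hx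
    show ψ (G x) = 0
    rw [hG0 x hx, map_zero]
  have hΦ : ∀ J a, Φ (c2 J a) = c' J a := by
    intro J a
    show ψ (G (h ^ m • c20 J a)) = _
    rw [map_smul, hc20, ← mul_smul, ← pow_add, add_comm m k, hψ]
  -- the levels
  have he : ∃ e₀, ∀ e, e₀ ≤ e → ∀ J a, ∃ x' : X e,
      (kz (sop (W'.ι → ∀ e, X e) (fun l e => y e l)) c2 J a -
      (∑ l, W'.T (∀ e, X e) (fun l e => z e l) l (u2 J l)) a) e = (p : R e) • x' := by
    have h1 : ∀ t : Finset (Fin (r + 1)) × W'.ι, ∃ e₀, ∀ e, e₀ ≤ e → ∃ x' : X e,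
        (kz (sop (W'.ι → ∀ e, X e) (fun l e => y e l)) c2 t.1 t.2 -
        (∑ l, W'.T (∀ e, X e) (fun l e => z e l) l (u2 t.1 l)) t.2) e = (p : R e) • x' := by
      intro t
      obtain ⟨e₀, h2⟩ := hJ t.1 t.2 1
      refine ⟨e₀, fun e he => ?_⟩
      obtain ⟨x', hx'⟩ := h2 e he
      exact ⟨x', by rw [hx', pow_one]⟩
    choose e1 h1 using h1
    refine ⟨∑ t, e1 t, fun e he J a => h1 (J, a) e (le_trans ?_ he)⟩
    exact Finset.single_le_sum (f := e1) (fun _ _ => Nat.zero_le _) (Finset.mem_univ (J, a))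
  obtain ⟨e₀, he₀⟩ := he
  have key : ∀ e, ∃ (c : Finset (Fin (r + 1)) → W.ι → X e)
      (t : Finset (Fin (r + 1)) → Fin (r + 1) → W.ι → X e)
      (s : Finset (Fin (r + 1)) → Fin (r + 1) → W'.ι → X e),
      c ∈ kgr (R e) (W.ι → X e) (r + 1) i ∧
      (∀ J, kz (sop (W.ι → X e) (y e)) c J = ∑ l, W.T (X e) (z e) l (t J l)) ∧
      (e₀ ≤ e → ∀ J, za f.P (R e) (X e) (c J) - (fun a => c2 J a e) =
        ∑ l, W'.T (X e) (z e) l (s J l)) := by
    intro e
    by_cases hle : e₀ ≤ e
    · obtain ⟨c, hc1, hc3, hc4⟩ := HL e i (fun J a => c2 J a e) (by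
        intro J hne
        by_contra hJi
        exact hne (by funext a; show c2 J a e = 0; rw [hc2 J hJi a]; rfl)) (by
        intro J
        choose x' hx' using he₀ e hle J
        have h1 : kz (sop (W'.ι → X e) (y e)) (fun J a => c2 J a e) J =
            (∑ l, W'.T (X e) (z e) l (fun b => u2 J l b e)) + (p : R e) • x' := by
          funext a
          have h2 := hx' a
          rw [Pi.sub_apply, kz_comp, sumT_comp, sub_eq_iff_eq_add] at h2
          rw [h2, Pi.add_apply, Pi.smul_apply, add_comm]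
        rw [h1]
        exact Submodule.add_mem _ ((mem_trg _ _).2 ⟨_, rfl⟩) (Hp' e x'))
      choose t ht using fun J => (mem_trg _ _).1 (hc3 J)
      choose s hs using fun J => (mem_trg _ _).1 (hc4 J)
      exact ⟨c, t, s, hc1, ht, fun _ => hs⟩
    · refine ⟨0, 0, 0, Submodule.zero_mem _, fun J => ?_, fun h' => absurd h' hle⟩
      rw [map_zero]
      simp
  choose c t s hk ht hs using key
  let c3 : Finset (Fin (r + 1)) → W.ι → ∀ e, X e := fun J a e => c e J a
  let t3 : Finset (Fin (r + 1)) → Fin (r + 1) → W.ι → ∀ e, X e := fun J l a e => t e J l a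
  let s3 : Finset (Fin (r + 1)) → Fin (r + 1) → W'.ι → ∀ e, X e := fun J l a e => s e J l a
  refine ⟨fun J a => Φ (c3 J a), ?_, ?_, ?_⟩
  · intro J hne
    by_contra hJi
    apply hne
    funext a
    have : c3 J a = 0 := by
      funext e
      show c e J a = 0
      have h0 : c e J = 0 := by
        by_contra h0
        exact hJi (hk e J h0)
      rw [h0]
      rfl
    show Φ (c3 J a) = 0
    rw [this, map_zero]
  · intro J
    rw [mem_trg]
    refine ⟨fun l b => Φ (t3 J l b), ?_⟩
    funext a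
    rw [← kz_nat Φ, ← sumT_nat Φ]
    congr 1
    funext e
    rw [kz_comp, sumT_comp]
    exact congrFun (ht e J) a
  · intro J
    rw [mem_trg]
    refine ⟨fun l b => Φ (s3 J l b), ?_⟩
    funext a
    rw [Pi.sub_apply, ← za_nat Φ, ← sumT_nat Φ, ← hΦ J a, ← sub_eq_zero, ← map_sub, ← map_sub]
    apply hΦ0
    intro j
    refine ⟨e₀, fun e hle => ⟨0, ?_⟩⟩
    rw [smul_zero, Pi.sub_apply, Pi.sub_apply, za_comp, sumT_comp, sub_eq_zero]
    exact congrFun (hs e hle J) a

end Vale.Agent.P202.Mix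
end

section

/-!
P202-MIX, part GEO: the cell model (definitions).

Cells are pairs `(I, (s, j))` with `I ⊆ Fin r`, `s : Fin r → ℤ`, `j : ℤ`.
The ambient module is `KV r Q`: functions `(J, I, g) ↦ Q` with `J ⊆ Fin (r + 1)` (Koszul index).
-/

namespace Vale.Agent.P202.Mix

open Vale.Agent.P202.CharP
open scoped ENNReal

universe u

/-- exponents `(s, j)`. -/
abbrev Gz (r : ℕ) : Type := (Fin r → ℤ) × ℤ

/-- the exponent of the shift `L`. -/
def exz {r : ℕ} (L : Finset (Fin r)) : Gz r := (fun i => if i ∈ L then 1 else 0, 1)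

/-- functions on all cells. -/
abbrev UV (r : ℕ) (Q : Type u) : Type u := Finset (Fin r) → Gz r → Q

/-- the ambient module. -/
abbrev KV (r : ℕ) (Q : Type u) : Type u := Finset (Fin (r + 1)) → UV r Q

section

variable {R : Type u} [CommRing R] {Q : Type u} [AddCommGroup Q] [Module R Q] {r : ℕ}

/-- the Čech differential on `UV`. -/
def dU (R : Type u) [CommRing R] (Q : Type u) [AddCommGroup Q] [Module R Q] (r : ℕ) :
    UV r Q →ₗ[R] UV r Q where
  toFun f I g := ∑ i ∈ I, ksg i I • f (I.erase i) g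
  map_add' f f' := by
    ext I g
    simp [Finset.sum_add_distrib]
  map_smul' c f := by
    ext I g
    simp only [Pi.smul_apply, RingHom.id_apply, Finset.smul_sum]
    exact Finset.sum_congr rfl fun i _ => smul_comm _ _ _

/-- the operator `X_l`: sum of the shifts by the subsets of size `l`. -/
def XU (R : Type u) [CommRing R] (Q : Type u) [AddCommGroup Q] [Module R Q] (r : ℕ)
    (l : Fin (r + 1)) : UV r Q →ₗ[R] UV r Q where
  toFun f I g := ∑ L ∈ (Finset.univ : Finset (Fin r)).powersetCard l, f I (g - exz L)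
  map_add' f f' := by
    ext I g
    simp [Finset.sum_add_distrib]
  map_smul' c f := by
    ext I g
    simp only [Pi.smul_apply, RingHom.id_apply, Finset.smul_sum]

/-- the Čech differential on `KV`. -/
def dK (R : Type u) [CommRing R] (Q : Type u) [AddCommGroup Q] [Module R Q] (r : ℕ) :
    KV r Q →ₗ[R] KV r Q := kmap (r + 1) (dU R Q r)

/-- the Koszul differential of the operators `X_l`. -/
def eX (R : Type u) [CommRing R] (Q : Type u) [AddCommGroup Q] [Module R Q] (r : ℕ) :
    KV r Q →ₗ[R] KV r Q := kz (XU R Q r)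

/-- the Koszul differential of the operators `X_l - x_l`. -/
def eK (Q : Type u) [AddCommGroup Q] [Module R Q] (x : Fin (r + 1) → R) :
    KV r Q →ₗ[R] KV r Q := kz fun l => XU R Q r l - x l • LinearMap.id

/-- the box containing all the cells. -/
def inF (B : ℤ) (I : Finset (Fin r)) (g : Gz r) : Prop :=
  (∀ l, l ∉ I → 0 ≤ g.1 l) ∧ ∀ l, g.1 l ≤ B + g.2

/-- the cells divided out. -/
def inG (a : Fin r → ℤ) (I : Finset (Fin r)) (g : Gz r) : Prop := ∃ l ∈ I, g.1 l ≤ a l + g.2

open Classical in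
/-- the submodule of allowed values at the cell `(I, g)`, Koszul index `J`: everything is allowed
on the cells of `G`, the value on the other cells of the box lies in `c i g`. -/
noncomputable def CV (a : Fin r → ℤ) (B : ℤ) (c : ℤ → Gz r → Submodule R Q) (i p : ℤ)
    (J : Finset (Fin (r + 1))) (I : Finset (Fin r)) (g : Gz r) : Submodule R Q :=
  if (J.card : ℤ) = i ∧ (I.card : ℤ) = p ∧ inF B I g then
    (if inG a I g then ⊤ else c i g) else ⊥

/-- families of submodules of `KV` given cell by cell. -/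
noncomputable def CF (a : Fin r → ℤ) (B : ℤ) (c : ℤ → Gz r → Submodule R Q) (i p : ℤ) :
    Submodule R (KV r Q) where
  carrier := {v | ∀ (J : Finset (Fin (r + 1))) (I : Finset (Fin r)) (g : Gz r),
    v J I g ∈ CV a B c i p J I g}
  add_mem' := fun hv hw J I g => Submodule.add_mem _ (hv J I g) (hw J I g)
  zero_mem' := fun _ _ _ => Submodule.zero_mem _
  smul_mem' := fun c _ hv J I g => Submodule.smul_mem _ c (hv J I g)

/-- the bottom family. -/
noncomputable def GF (R : Type u) [CommRing R] (Q : Type u) [AddCommGroup Q] [Module R Q]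
    (a : Fin r → ℤ) (B : ℤ) : ℤ → ℤ → Submodule R (KV r Q) := CF a B fun _ _ => ⊥

open Classical in
/-- the part `j₀ ≤ j`. -/
noncomputable def KG (R : Type u) [CommRing R] (Q : Type u) [AddCommGroup Q] [Module R Q]
    (a : Fin r → ℤ) (B j₀ : ℤ) : ℤ → ℤ → Submodule R (KV r Q) :=
  CF a B fun _ g => if j₀ ≤ g.2 then ⊤ else ⊥

open Classical in
/-- the strand `i + j = t`. -/
noncomputable def SF (R : Type u) [CommRing R] (Q : Type u) [AddCommGroup Q] [Module R Q]
    (a : Fin r → ℤ) (B t : ℤ) : ℤ → ℤ → Submodule R (KV r Q) :=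
  CF a B fun i g => if i + g.2 = t then ⊤ else ⊥

/-- powers of the ideal generated by `x`, acting on `Q`; negative exponents give everything. -/
def xpw (Q : Type u) [AddCommGroup Q] [Module R Q] (x : Fin (r + 1) → R) (m : ℤ) :
    Submodule R Q := Ideal.span (Set.range x) ^ m.toNat • (⊤ : Submodule R Q)

/-- the family `Y_w`. -/
noncomputable def YF (Q : Type u) [AddCommGroup Q] [Module R Q] (x : Fin (r + 1) → R)
    (a : Fin r → ℤ) (B w : ℤ) : ℤ → ℤ → Submodule R (KV r Q) :=
  CF a B fun i g => xpw Q x (w - i - g.2)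

/-- the family `Z`. -/
noncomputable def ZF (Q : Type u) [AddCommGroup Q] [Module R Q] (x : Fin (r + 1) → R)
    (a : Fin r → ℤ) (B : ℤ) (q : ℕ) (i p : ℤ) : Submodule R (KV r Q) :=
  KG R Q a B ((1 - i) * q) i p ⊓ (KG R Q a B ((2 - i) * q) (i - 1) p).comap (eK Q x)

/-- the family `Z''`. -/
noncomputable def ZZF (Q : Type u) [AddCommGroup Q] [Module R Q] (x : Fin (r + 1) → R)
    (a : Fin r → ℤ) (B : ℤ) (q : ℕ) (i p : ℤ) : Submodule R (KV r Q) :=
  (KG R Q a B (-i * q) (i + 1) p).map (eK Q x) ⊔ KG R Q a B ((1 - i) * q) i p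

/-- number of negative twists in degree `j`. -/
def pj (a : Fin r → ℤ) (j : ℤ) : ℕ := (Finset.univ.filter fun l => a l + j < 0).card

/-- the twists. -/
def tw (r q : ℕ) (m : Fin (r + 1)) (l : Fin r) : ℤ :=
  if (l : ℕ) < m then (l : ℤ) * q else ((l : ℤ) + 1) * q - 1

/-- the valid cells. -/
def valid (a : Fin r → ℤ) (B : ℤ) (I : Finset (Fin r)) (g : Gz r) : Prop :=
  inF B I g ∧ ¬ inG a I g

/-- the valid cells of Čech degree `p` with `j₀ ≤ j < j₁`. -/
def cellset (a : Fin r → ℤ) (B p j₀ j₁ : ℤ) : Set (Finset (Fin r) × Gz r) :=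
  {c | valid a B c.1 c.2 ∧ (c.1.card : ℤ) = p ∧ j₀ ≤ c.2.2 ∧ c.2.2 < j₁}

/-- the number of valid cells. -/
noncomputable def ncell (a : Fin r → ℤ) (B p j₀ j₁ : ℤ) : ℕ := (cellset a B p j₀ j₁).ncard

lemma cellset_finite (a : Fin r → ℤ) (B p j₀ j₁ : ℤ) : (cellset a B p j₀ j₁).Finite := by
  classical
  let E : Finset (Finset (Fin r) × ((Fin r → ℤ) × ℤ)) :=
    Finset.univ ×ˢ ((Fintype.piFinset fun l => Finset.Icc (min 0 (a l + j₀ + 1)) (B + j₁)) ×ˢ
      Finset.Ico j₀ j₁)
  refine E.finite_toSet.subset ?_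
  rintro ⟨I, s, j⟩ ⟨⟨⟨h1, h2⟩, h3⟩, -, h4, h5⟩
  simp only [inG, not_exists, not_and, not_le] at h3
  simp only [E, Finset.coe_product, Set.mem_prod, Finset.mem_coe, Finset.mem_univ, true_and,
    Fintype.mem_piFinset, Finset.mem_Icc, Finset.mem_Ico]
  refine ⟨fun l => ⟨?_, ?_⟩, h4, h5⟩
  · by_cases hl : l ∈ I
    · have := h3 l hl
      simp only at this h4
      have := min_le_right 0 (a l + j₀ + 1)
      omega
    · exact (min_le_left _ _).trans (h1 l hl)
  · have := h2 l
    simp only at this h5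
    omega

noncomputable instance (a : Fin r → ℤ) (B p j₀ j₁ : ℤ) : Fintype ↥(cellset a B p j₀ j₁) :=
  (cellset_finite a B p j₀ j₁).fintype

open Classical in
/-- the representation on the valid cells of Čech degree `p` with `j₀ ≤ j < j₁`. -/
noncomputable def winRep (a : Fin r → ℤ) (B p j₀ j₁ : ℤ) : MRep (r + 1) where
  ι := ↥(cellset a B p j₀ j₁)
  fin := inferInstance
  dec := inferInstance
  X l := Matrix.of fun x y => ∑ L ∈ (Finset.univ : Finset (Fin r)).powersetCard l,
    if x.1.1 = y.1.1 ∧ x.1.2 = y.1.2 + exz L then 1 else 0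

open Classical in
/-- the Čech complex of a window. -/
noncomputable def winCx (a : Fin r → ℤ) (B j₀ j₁ : ℤ) : MCx (r + 1) where
  W p := winRep a B p j₀ j₁
  D p := Matrix.of fun x y => ∑ i ∈ x.1.1,
    if y.1.1 = x.1.1.erase i ∧ y.1.2 = x.1.2 then ksg i x.1.1 else 0

end

end Vale.Agent.P202.Mix
end

section

/-!
P202-MIX, part GEO, task B1c: the cell operators commute.
-/

namespace Vale.Agent.P202.Mix

open Vale.Agent.P202.CharP
open scoped ENNReal

universe u

/-! ### signs -/

private theorem h723_ksg_insert {n : ℕ} {l k : Fin n} {J : Finset (Fin n)} (hl : l ∉ J) :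
    ksg k (insert l J) = (if l < k then -1 else 1) * ksg k J := by
  unfold ksg
  rw [Finset.filter_insert]
  split_ifs with h
  · rw [Finset.card_insert_of_notMem (by simp [hl]), pow_succ, mul_comm]
  · rw [one_mul]

private theorem h723_ksg_erase {n : ℕ} {i k : Fin n} {I : Finset (Fin n)} (hi : i ∈ I) :
    ksg k (I.erase i) = (if i < k then -1 else 1) * ksg k I := by
  have h := h723_ksg_insert (l := i) (k := k) (J := I.erase i) (Finset.notMem_erase i I)
  rw [Finset.insert_erase hi] at h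
  rw [h, ← mul_assoc]
  split_ifs <;> simp

private theorem h723_sgn {n : ℕ} {i k : Fin n} (h : i ≠ k) :
    ((if i < k then -1 else 1) : ℤ) + (if k < i then -1 else 1) = 0 := by
  rcases lt_or_gt_of_ne h with h1 | h1
  · rw [if_pos h1, if_neg (not_lt.2 h1.le)]; norm_num
  · rw [if_neg (not_lt.2 h1.le), if_pos h1]; norm_num

private theorem h723_sum_anti {M : Type*} [AddCommGroup M] {n : ℕ} (s : Finset (Fin n))
    (G : Fin n → Fin n → M) (h : ∀ i ∈ s, ∀ k ∈ s, i ≠ k → G i k + G k i = 0) :
    ∑ i ∈ s, ∑ k ∈ s.erase i, G i k = 0 := by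
  rw [Finset.sum_sigma']
  refine Finset.sum_involution (fun a _ => ⟨a.2, a.1⟩) ?_ ?_ ?_ ?_
  · rintro ⟨i, k⟩ ha
    rw [Finset.mem_sigma, Finset.mem_erase] at ha
    exact h i ha.1 k ha.2.2 (Ne.symm ha.2.1)
  · rintro ⟨i, k⟩ ha _ heq
    rw [Finset.mem_sigma, Finset.mem_erase] at ha
    rw [Sigma.mk.injEq] at heq
    exact ha.2.1 heq.1
  · rintro ⟨i, k⟩ ha
    rw [Finset.mem_sigma, Finset.mem_erase] at ha ⊢
    exact ⟨ha.2.2, Ne.symm ha.2.1, ha.1⟩
  · rintro ⟨i, k⟩ _
    rfl

section

variable {R : Type u} [CommRing R] {V : Type u} [AddCommGroup V] [Module R V] {n : ℕ}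

private theorem h723_kz_sq (T : Fin n → V →ₗ[R] V) (hT : ∀ k l v, T k (T l v) = T l (T k v))
    (v : Finset (Fin n) → V) : kz T (kz T v) = 0 := by
  funext J
  show ∑ l ∈ Jᶜ, ksg l J • T l (∑ k ∈ (insert l J)ᶜ, ksg k (insert l J) •
    T k (v (insert k (insert l J)))) = 0
  have h1 : ∀ l ∈ Jᶜ, ksg l J • T l (∑ k ∈ (insert l J)ᶜ, ksg k (insert l J) •
      T k (v (insert k (insert l J)))) = ∑ k ∈ Jᶜ.erase l,
      (ksg l J * ksg k (insert l J)) • T l (T k (v (insert k (insert l J)))) := by
    intro l _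
    rw [map_sum, Finset.smul_sum, Finset.compl_insert]
    refine Finset.sum_congr rfl fun k _ => ?_
    rw [map_zsmul, mul_smul]
  rw [Finset.sum_congr rfl h1]
  refine h723_sum_anti _ _ ?_
  intro i hi k hk hik
  rw [Finset.mem_compl] at hi hk
  rw [h723_ksg_insert hi, h723_ksg_insert hk, Finset.insert_comm i k J, hT k i, ← add_smul]
  have h2 : ksg i J * ((if i < k then -1 else 1) * ksg k J)
      + ksg k J * ((if k < i then -1 else 1) * ksg i J) = 0 := by
    have h3 := h723_sgn hik
    linear_combination (ksg i J * ksg k J) * h3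
  rw [h2, zero_smul]

private theorem h723_kz_kmap (T : Fin n → V →ₗ[R] V) (f : V →ₗ[R] V)
    (h : ∀ l v, f (T l v) = T l (f v)) (v : Finset (Fin n) → V) :
    kmap n f (kz T v) = kz T (kmap n f v) := by
  funext J
  show f (∑ l ∈ Jᶜ, ksg l J • T l (v (insert l J)))
    = ∑ l ∈ Jᶜ, ksg l J • T l (f (v (insert l J)))
  rw [map_sum]
  refine Finset.sum_congr rfl fun l _ => ?_
  rw [map_zsmul, h]

end

section Ops

variable {R : Type u} [CommRing R] {Q : Type u} [AddCommGroup Q] [Module R Q]
  {r : ℕ}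

theorem dU_sq (f : UV r Q) : dU R Q r (dU R Q r f) = 0 := by
  funext I g
  show ∑ i ∈ I, ksg i I • (∑ k ∈ I.erase i, ksg k (I.erase i) • f ((I.erase i).erase k) g) = 0
  have h1 : ∀ i ∈ I, ksg i I • (∑ k ∈ I.erase i, ksg k (I.erase i) • f ((I.erase i).erase k) g)
      = ∑ k ∈ I.erase i, (ksg i I * ksg k (I.erase i)) • f ((I.erase i).erase k) g := by
    intro i _
    rw [Finset.smul_sum]
    refine Finset.sum_congr rfl fun k _ => ?_
    rw [mul_smul]
  rw [Finset.sum_congr rfl h1]
  refine h723_sum_anti _ _ ?_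
  intro i hi k hk hik
  rw [h723_ksg_erase hi, h723_ksg_erase hk, Finset.erase_right_comm, ← add_smul]
  have h2 : ksg i I * ((if i < k then -1 else 1) * ksg k I)
      + ksg k I * ((if k < i then -1 else 1) * ksg i I) = 0 := by
    have h3 := h723_sgn hik
    linear_combination (ksg i I * ksg k I) * h3
  rw [h2, zero_smul]

theorem XU_comm (k l : Fin (r + 1)) (f : UV r Q) :
    XU R Q r k (XU R Q r l f) = XU R Q r l (XU R Q r k f) := by
  funext I g
  show ∑ L ∈ (Finset.univ : Finset (Fin r)).powersetCard k,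
      ∑ L' ∈ (Finset.univ : Finset (Fin r)).powersetCard l, f I (g - exz L - exz L')
    = ∑ L ∈ (Finset.univ : Finset (Fin r)).powersetCard l,
      ∑ L' ∈ (Finset.univ : Finset (Fin r)).powersetCard k, f I (g - exz L - exz L')
  rw [Finset.sum_comm]
  refine Finset.sum_congr rfl fun L _ => Finset.sum_congr rfl fun L' _ => ?_
  rw [sub_right_comm]

theorem dU_XU (l : Fin (r + 1)) (f : UV r Q) :
    dU R Q r (XU R Q r l f) = XU R Q r l (dU R Q r f) := by
  funext I g
  show ∑ i ∈ I, ksg i I • (∑ L ∈ (Finset.univ : Finset (Fin r)).powersetCard l,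
      f (I.erase i) (g - exz L))
    = ∑ L ∈ (Finset.univ : Finset (Fin r)).powersetCard l,
      ∑ i ∈ I, ksg i I • f (I.erase i) (g - exz L)
  rw [Finset.sum_comm]
  refine Finset.sum_congr rfl fun i _ => ?_
  rw [Finset.smul_sum]

theorem dK_sq (v : KV r Q) : dK R Q r (dK R Q r v) = 0 := by
  funext J
  exact dU_sq (R := R) (v J)

theorem eX_sq (v : KV r Q) : eX R Q r (eX R Q r v) = 0 :=
  h723_kz_sq _ (fun k l v => XU_comm k l v) v

theorem dK_eX (v : KV r Q) : dK R Q r (eX R Q r v) = eX R Q r (dK R Q r v) :=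
  h723_kz_kmap _ _ (fun l v => dU_XU l v) v

theorem eK_sq (x : Fin (r + 1) → R) (v : KV r Q) : eK Q x (eK Q x v) = 0 := by
  refine h723_kz_sq _ (fun k l v => ?_) v
  simp only [LinearMap.sub_apply, LinearMap.smul_apply, LinearMap.id_apply, map_sub, map_smul,
    smul_sub]
  rw [XU_comm k l v, smul_comm (x k) (x l) v]
  abel

theorem dK_eK (x : Fin (r + 1) → R) (v : KV r Q) :
    dK R Q r (eK Q x v) = eK Q x (dK R Q r v) := by
  refine h723_kz_kmap _ _ (fun l v => ?_) v
  simp only [LinearMap.sub_apply, LinearMap.smul_apply, LinearMap.id_apply, map_sub, map_smul]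
  rw [dU_XU]

end Ops

end Vale.Agent.P202.Mix
end

section

/-!
P202-MIX, part GEO, task B2: stability of the cell families.
-/

namespace Vale.Agent.P202.Mix

open Vale.Agent.P202.CharP
open scoped ENNReal

universe u

section Cells

variable {r : ℕ}

private lemma inF_of_erase {B : ℤ} {I : Finset (Fin r)} {l : Fin r} {g : Gz r}
    (h : inF B (I.erase l) g) : inF B I g :=
  ⟨fun k hk => h.1 k fun hk' => hk (Finset.mem_of_mem_erase hk'), h.2⟩

private lemma inG_of_erase {a : Fin r → ℤ} {I : Finset (Fin r)} {l : Fin r} {g : Gz r}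
    (h : inG a (I.erase l) g) : inG a I g := by
  obtain ⟨k, hk, hk'⟩ := h
  exact ⟨k, Finset.mem_of_mem_erase hk, hk'⟩

private lemma sub_exz_fst (g : Gz r) (L : Finset (Fin r)) (l : Fin r) :
    (g - exz L).1 l = g.1 l - if l ∈ L then 1 else 0 := rfl

private lemma sub_exz_snd (g : Gz r) (L : Finset (Fin r)) : (g - exz L).2 = g.2 - 1 := rfl

private lemma inF_of_sub {B : ℤ} {I : Finset (Fin r)} {g : Gz r} {L : Finset (Fin r)}
    (h : inF B I (g - exz L)) : inF B I g := by
  refine ⟨fun k hk => ?_, fun k => ?_⟩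
  · have h1 := h.1 k hk
    rw [sub_exz_fst] at h1
    split_ifs at h1 <;> omega
  · have h1 := h.2 k
    rw [sub_exz_fst, sub_exz_snd] at h1
    split_ifs at h1 <;> omega

private lemma inG_of_sub {a : Fin r → ℤ} {I : Finset (Fin r)} {g : Gz r} {L : Finset (Fin r)}
    (h : inG a I (g - exz L)) : inG a I g := by
  obtain ⟨k, hk, h1⟩ := h
  refine ⟨k, hk, ?_⟩
  rw [sub_exz_fst, sub_exz_snd] at h1
  split_ifs at h1 <;> omega

end Cells

section Ops

variable {R : Type u} [CommRing R] {Q : Type u} [AddCommGroup Q] [Module R Q] {r : ℕ}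
  (a : Fin r → ℤ) (B : ℤ)

private lemma CV_mono' (c c' : ℤ → Gz r → Submodule R Q) {i p i' p' : ℤ}
    {J J' : Finset (Fin (r + 1))} {I I' : Finset (Fin r)} {g g' : Gz r}
    (h1 : (J.card : ℤ) = i → (I.card : ℤ) = p → inF B I g →
      (J'.card : ℤ) = i' ∧ (I'.card : ℤ) = p' ∧ inF B I' g')
    (h2 : inG a I g → inG a I' g') (h3 : (J.card : ℤ) = i → c i g ≤ c' i' g') :
    CV a B c i p J I g ≤ CV a B c' i' p' J' I' g' := by
  classical
  unfold CV
  by_cases h : (J.card : ℤ) = i ∧ (I.card : ℤ) = p ∧ inF B I g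
  · rw [if_pos h, if_pos (h1 h.1 h.2.1 h.2.2)]
    by_cases hG : inG a I g
    · rw [if_pos (h2 hG)]
      exact le_top
    · rw [if_neg hG]
      split_ifs
      · exact le_top
      · exact h3 h.1
  · rw [if_neg h]
    exact bot_le

theorem CF_mono (c c' : ℤ → Gz r → Submodule R Q) (i p : ℤ) (h : ∀ g, c i g ≤ c' i g) :
    CF a B c i p ≤ CF a B c' i p := fun _ hv J I g =>
  CV_mono' a B c c' (fun h1 h2 h3 => ⟨h1, h2, h3⟩) (fun h => h) (fun _ => h g) (hv J I g)

private lemma CF_bot (c : ℤ → Gz r → Submodule R Q) (i p : ℤ)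
    (h : ∀ (J : Finset (Fin (r + 1))) (I : Finset (Fin r)), (J.card : ℤ) = i →
      (I.card : ℤ) = p → False) : CF a B c i p = ⊥ := by
  classical
  rw [eq_bot_iff]
  intro v hv
  rw [Submodule.mem_bot]
  funext J I g
  have h1 := hv J I g
  unfold CV at h1
  rw [if_neg (fun h2 => h J I h2.1 h2.2.1), Submodule.mem_bot] at h1
  exact h1

private lemma card_le_r (I : Finset (Fin r)) : (I.card : ℤ) ≤ r := by
  have := Finset.card_le_univ I
  rw [Fintype.card_fin] at this
  exact_mod_cast this

theorem CF_box (c : ℤ → Gz r → Submodule R Q) : BBox (r + 1) (CF a B c) := by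
  intro i p hi
  refine CF_bot a B c i p fun J I h1 _ => ?_
  have := card_le_r J
  have h0 : (0 : ℤ) ≤ J.card := Int.natCast_nonneg _
  omega

theorem CF_out (c : ℤ → Gz r → Submodule R Q) (i p : ℤ) (hp : p < 0 ∨ (r : ℤ) < p) :
    CF a B c i p = ⊥ := by
  refine CF_bot a B c i p fun J I _ h1 => ?_
  have := card_le_r I
  have h0 : (0 : ℤ) ≤ I.card := Int.natCast_nonneg _
  omega

theorem CF_dK (c : ℤ → Gz r → Submodule R Q) (i p : ℤ) (v : KV r Q) (hv : v ∈ CF a B c i p) :
    dK R Q r v ∈ CF a B c i (p + 1) := by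
  intro J I g
  change ∑ l ∈ I, ksg l I • v J (I.erase l) g ∈ _
  refine Submodule.sum_mem _ fun l hl => ?_
  refine zsmul_mem ?_ _
  refine CV_mono' a B c c (fun h1 h2 h3 => ⟨h1, ?_, inF_of_erase h3⟩) inG_of_erase
    (fun _ => le_rfl) (hv J (I.erase l) g)
  rw [← h2, Finset.card_erase_of_mem hl]
  have : 0 < I.card := Finset.card_pos.2 ⟨l, hl⟩
  omega

private lemma card_ins {n : ℕ} {J : Finset (Fin n)} {l : Fin n} (hl : l ∈ Jᶜ) {i : ℤ}
    (h : ((insert l J).card : ℤ) = i) : (J.card : ℤ) = i - 1 := by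
  rw [Finset.card_insert_of_notMem (Finset.mem_compl.1 hl)] at h
  push_cast at h
  omega

private lemma XU_mem (c c' : ℤ → Gz r → Submodule R Q) (i p : ℤ)
    (h : ∀ g L, c i (g - exz L) ≤ c' (i - 1) g)
    (v : KV r Q) (hv : v ∈ CF a B c i p) (J : Finset (Fin (r + 1))) (l : Fin (r + 1))
    (hl : l ∈ Jᶜ) (k : Fin (r + 1)) (I : Finset (Fin r)) (g : Gz r) :
    XU R Q r k (v (insert l J)) I g ∈ CV a B c' (i - 1) p J I g := by
  change ∑ L ∈ (Finset.univ : Finset (Fin r)).powersetCard k, v (insert l J) I (g - exz L) ∈ _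
  refine Submodule.sum_mem _ fun L _ => ?_
  exact CV_mono' a B c c' (fun h1 h2 h3 => ⟨card_ins hl h1, h2, inF_of_sub h3⟩) inG_of_sub
    (fun _ => h g L) (hv (insert l J) I (g - exz L))

theorem CF_eX (c c' : ℤ → Gz r → Submodule R Q) (i p : ℤ)
    (h : ∀ g L, c i (g - exz L) ≤ c' (i - 1) g)
    (v : KV r Q) (hv : v ∈ CF a B c i p) : eX R Q r v ∈ CF a B c' (i - 1) p := by
  intro J I g
  have e : eX R Q r v J I g =
      ∑ l ∈ Jᶜ, ksg l J • XU R Q r l (v (insert l J)) I g := by
    change (∑ l ∈ Jᶜ, ksg l J • XU R Q r l (v (insert l J))) I g = _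
    rw [Finset.sum_apply, Finset.sum_apply]
    rfl
  rw [e]
  refine Submodule.sum_mem _ fun l hl => ?_
  exact zsmul_mem (XU_mem a B c c' i p h v hv J l hl l I g) _

theorem CF_eK (x : Fin (r + 1) → R) (c c' : ℤ → Gz r → Submodule R Q) (i p : ℤ)
    (h : ∀ g L, c i (g - exz L) ≤ c' (i - 1) g)
    (h' : ∀ g l, (c i g).map (x l • (LinearMap.id : Q →ₗ[R] Q)) ≤ c' (i - 1) g)
    (v : KV r Q) (hv : v ∈ CF a B c i p) : eK Q x v ∈ CF a B c' (i - 1) p := by
  classical
  intro J I g
  have e : eK Q x v J I g =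
      ∑ l ∈ Jᶜ, ksg l J • (XU R Q r l (v (insert l J)) I g - x l • v (insert l J) I g) := by
    change (∑ l ∈ Jᶜ, ksg l J • (XU R Q r l - x l • LinearMap.id : UV r Q →ₗ[R] UV r Q)
      (v (insert l J))) I g = _
    rw [Finset.sum_apply, Finset.sum_apply]
    rfl
  rw [e]
  refine Submodule.sum_mem _ fun l hl => ?_
  refine zsmul_mem (Submodule.sub_mem _ (XU_mem a B c c' i p h v hv J l hl l I g)
    ?_) _
  have h1 := hv (insert l J) I g
  unfold CV at h1 ⊢
  by_cases h2 : (((insert l J).card : ℤ) = i ∧ (I.card : ℤ) = p ∧ inF B I g)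
  · rw [if_pos h2] at h1
    rw [if_pos ⟨card_ins hl h2.1, h2.2⟩]
    by_cases hG : inG a I g
    · rw [if_pos hG]
      exact Submodule.mem_top
    · rw [if_neg hG] at h1 ⊢
      exact h' g l (Submodule.mem_map_of_mem h1)
  · rw [if_neg h2, Submodule.mem_bot] at h1
    rw [h1, smul_zero]
    exact Submodule.zero_mem _

private lemma bstab_CF (x : Fin (r + 1) → R) (c : ℤ → Gz r → Submodule R Q)
    (h : ∀ i g L, c i (g - exz L) ≤ c (i - 1) g)
    (h' : ∀ i g l, (c i g).map (x l • (LinearMap.id : Q →ₗ[R] Q)) ≤ c (i - 1) g) :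
    BStab (dK R Q r) (eK Q x) (CF a B c) where
  hd i p v hv := CF_dK a B c i p v hv
  he i p v hv := CF_eK a B x c c i p (h i) (h' i) v hv

private lemma bstab_CFX (c : ℤ → Gz r → Submodule R Q)
    (h : ∀ i g L, c i (g - exz L) ≤ c (i - 1) g) :
    BStab (dK R Q r) (eX R Q r) (CF a B c) where
  hd i p v hv := CF_dK a B c i p v hv
  he i p v hv := CF_eX a B c c i p (h i) v hv

theorem bstab_KG (x : Fin (r + 1) → R) (j₀ : ℤ) :
    BStab (dK R Q r) (eK Q x) (KG R Q a B j₀) := by
  refine bstab_CF a B x _ (fun _ g L => ?_) fun _ g l => ?_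
  · rw [sub_exz_snd]
    split_ifs
    · exact le_rfl
    · omega
    · exact bot_le
    · exact le_rfl
  · split_ifs
    · exact le_top
    · rw [Submodule.map_bot]

private lemma xp_anti (x : Fin (r + 1) → R) {m m' : ℤ} (h : m ≤ m') : xpw Q x m' ≤ xpw Q x m :=
  Submodule.smul_mono_left (Ideal.pow_le_pow_right (Int.toNat_le_toNat h))

private lemma xp_smul (x : Fin (r + 1) → R) (l : Fin (r + 1)) (m : ℤ) :
    (xpw Q x m).map (x l • (LinearMap.id : Q →ₗ[R] Q)) ≤ xpw Q x (m + 1) := by
  rw [Submodule.map_le_iff_le_comap]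
  intro y hy
  change x l • y ∈ xpw Q x (m + 1)
  have h1 : x l • y ∈ Ideal.span (Set.range x) ^ (m.toNat + 1) • (⊤ : Submodule R Q) := by
    rw [pow_succ', Submodule.mul_smul]
    exact Submodule.smul_mem_smul (Ideal.subset_span ⟨l, rfl⟩) hy
  exact Submodule.smul_mono_left (Ideal.pow_le_pow_right (by omega)) h1

theorem bstab_YF (x : Fin (r + 1) → R) (w : ℤ) :
    BStab (dK R Q r) (eK Q x) (YF Q x a B w) := by
  refine bstab_CF a B x _ (fun i g L => ?_) fun i g l => ?_
  · rw [sub_exz_snd]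
    exact xp_anti x (by omega)
  · refine (xp_smul x l _).trans (xp_anti x (by omega))

private lemma cst_XU_comm (k l : Fin (r + 1)) (f : UV r Q) :
    XU R Q r k (XU R Q r l f) = XU R Q r l (XU R Q r k f) := by
  funext I g
  change ∑ L ∈ (Finset.univ : Finset (Fin r)).powersetCard k,
      ∑ L' ∈ (Finset.univ : Finset (Fin r)).powersetCard l, f I (g - exz L - exz L') =
    ∑ L' ∈ (Finset.univ : Finset (Fin r)).powersetCard l,
      ∑ L ∈ (Finset.univ : Finset (Fin r)).powersetCard k, f I (g - exz L' - exz L)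
  rw [Finset.sum_comm]
  exact Finset.sum_congr rfl fun L' _ => Finset.sum_congr rfl fun L _ => by
    rw [sub_right_comm]

private lemma cst_dU_XU (l : Fin (r + 1)) (f : UV r Q) :
    dU R Q r (XU R Q r l f) = XU R Q r l (dU R Q r f) := by
  funext I g
  change ∑ i ∈ I, ksg i I • ∑ L ∈ (Finset.univ : Finset (Fin r)).powersetCard l,
      f (I.erase i) (g - exz L) =
    ∑ L ∈ (Finset.univ : Finset (Fin r)).powersetCard l,
      ∑ i ∈ I, ksg i I • f (I.erase i) (g - exz L)
  simp_rw [Finset.smul_sum]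
  rw [Finset.sum_comm]

private lemma cst_eK_sq (x : Fin (r + 1) → R) (v : KV r Q) : eK Q x (eK Q x v) = 0 := by
  refine kz_sq _ (fun k l v => ?_) v
  change XU R Q r k (XU R Q r l v - x l • v) - x k • (XU R Q r l v - x l • v) =
    XU R Q r l (XU R Q r k v - x k • v) - x l • (XU R Q r k v - x k • v)
  rw [map_sub, map_sub, map_smul, map_smul, cst_XU_comm, smul_sub, smul_sub,
    smul_comm (x l) (x k)]
  abel

private lemma cst_dK_eK (x : Fin (r + 1) → R) (v : KV r Q) :
    dK R Q r (eK Q x v) = eK Q x (dK R Q r v) := by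
  refine kz_kmap _ _ _ (fun l v => ?_) v
  change dU R Q r (XU R Q r l v - x l • v) = XU R Q r l (dU R Q r v) - x l • dU R Q r v
  rw [map_sub, map_smul, cst_dU_XU]

theorem bstab_ZF (x : Fin (r + 1) → R) (q : ℕ) :
    BStab (dK R Q r) (eK Q x) (ZF Q x a B q) where
  hd i p v hv := by
    obtain ⟨h1, h2⟩ := hv
    refine ⟨(bstab_KG a B x _).hd i p v h1, ?_⟩
    change eK Q x (dK R Q r v) ∈ KG R Q a B ((2 - i) * q) (i - 1) (p + 1)
    rw [← cst_dK_eK]
    exact (bstab_KG a B x _).hd (i - 1) p _ h2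
  he i p v hv := by
    obtain ⟨h1, h2⟩ := hv
    refine ⟨?_, ?_⟩
    · have e : (1 - (i - 1)) * (q : ℤ) = (2 - i) * q := by ring
      rw [e]
      exact h2
    · change eK Q x (eK Q x v) ∈ KG R Q a B ((2 - (i - 1)) * q) (i - 1 - 1) p
      rw [cst_eK_sq]
      exact Submodule.zero_mem _

theorem bstab_ZZF (x : Fin (r + 1) → R) (q : ℕ) :
    BStab (dK R Q r) (eK Q x) (ZZF Q x a B q) where
  hd i p v hv := by
    obtain ⟨y, hy, z, hz, rfl⟩ := Submodule.mem_sup.1 hv
    obtain ⟨u, hu, rfl⟩ := hy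
    rw [map_add, cst_dK_eK]
    exact Submodule.add_mem_sup (Submodule.mem_map_of_mem ((bstab_KG a B x _).hd (i + 1) p u hu))
      ((bstab_KG a B x _).hd i p z hz)
  he i p v hv := by
    obtain ⟨y, hy, z, hz, rfl⟩ := Submodule.mem_sup.1 hv
    obtain ⟨u, hu, rfl⟩ := hy
    rw [map_add, cst_eK_sq, zero_add]
    refine Submodule.mem_sup_left (Submodule.mem_map_of_mem ?_)
    have e : -(i - 1) * (q : ℤ) = (1 - i) * q := by ring
    rw [e, sub_add_cancel]
    exact hz

theorem bstab_SF (t : ℤ) : BStab (dK R Q r) (eX R Q r) (SF R Q a B t) := by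
  refine bstab_CFX a B _ fun i g L => ?_
  rw [sub_exz_snd]
  split_ifs
  · exact le_rfl
  · omega
  · exact bot_le
  · exact le_rfl

theorem YF_anti (x : Fin (r + 1) → R) {w w' : ℤ} (h : w ≤ w') (i p : ℤ) :
    YF Q x a B w' i p ≤ YF Q x a B w i p :=
  CF_mono a B _ _ i p fun g => xp_anti x (by omega)

theorem ZF_le_ZZF (x : Fin (r + 1) → R) (q : ℕ) (i p : ℤ) :
    ZF Q x a B q i p ≤ ZZF Q x a B q i p :=
  inf_le_left.trans le_sup_right

private lemma xp_neg (x : Fin (r + 1) → R) {m : ℤ} (h : m ≤ 0) : xpw Q x m = ⊤ := by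
  unfold xpw
  rw [Int.toNat_of_nonpos h, pow_zero, Ideal.one_eq_top, Submodule.top_smul]

/-- comparison `K ≤ Y`. -/
private lemma KG_le_YF (x : Fin (r + 1) → R) (i p j w : ℤ)
    (h : 0 ≤ i → i ≤ r + 1 → w ≤ i + j) : KG R Q a B j i p ≤ YF Q x a B w i p := by
  by_cases hi : i < 0 ∨ ((r + 1 : ℕ) : ℤ) < i
  · have := CF_box (R := R) (Q := Q) a B (fun _ g => if j ≤ g.2 then ⊤ else ⊥) i p hi
    exact (le_of_eq this).trans bot_le
  · push_cast at hi
    have h1 := h (by omega) (by omega)
    refine CF_mono a B _ _ i p fun g => ?_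
    split_ifs with hg
    · rw [xp_neg x (by omega)]
    · exact bot_le

private lemma YF_le_KG (x : Fin (r + 1) → R) (i p j w : ℤ) (N : ℕ) (hN : xpw Q x N = ⊥)
    (h : 0 ≤ i → i ≤ r + 1 → N + i + j ≤ w + 1) : YF Q x a B w i p ≤ KG R Q a B j i p := by
  by_cases hi : i < 0 ∨ ((r + 1 : ℕ) : ℤ) < i
  · have := CF_box (R := R) (Q := Q) a B (fun i g => xpw Q x (w - i - g.2)) i p hi
    exact (le_of_eq this).trans bot_le
  · push_cast at hi
    have h1 := h (by omega) (by omega)
    refine CF_mono a B _ _ i p fun g => ?_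
    split_ifs with hg
    · exact le_top
    · rw [← hN]
      exact xp_anti x (by omega)

theorem ZZF_le_YF (x : Fin (r + 1) → R) (q : ℕ) (hq : 1 ≤ q) (i p : ℤ) :
    ZZF Q x a B q i p ≤ YF Q x a B (-((r : ℤ) + 1) * q) i p := by
  have hq' : (1 : ℤ) ≤ q := by exact_mod_cast hq
  refine sup_le ?_ ?_
  · rw [Submodule.map_le_iff_le_comap]
    intro v hv
    have h1 : v ∈ YF Q x a B (-((r : ℤ) + 1) * q) (i + 1) p :=
      KG_le_YF a B x (i + 1) p _ _ (fun h0 h1 => by nlinarith) hv
    have h2 := (bstab_YF a B x (-((r : ℤ) + 1) * q)).he (i + 1) p v h1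
    rw [add_sub_cancel_right] at h2
    exact h2
  · exact KG_le_YF a B x i p _ _ fun h0 h1 => by nlinarith

/-- `x` is nilpotent on `Q` of order `N`; `w` large. -/
theorem YF_le_ZF (x : Fin (r + 1) → R) (q : ℕ) (N : ℕ) (hN : xpw Q x N = ⊥) (w : ℤ)
    (hw : 2 * (q : ℤ) + r + 1 + N ≤ w) (i p : ℤ) : YF Q x a B w i p ≤ ZF Q x a B q i p := by
  have hq' : (0 : ℤ) ≤ q := Int.natCast_nonneg _
  refine le_inf ?_ ?_
  · exact YF_le_KG a B x i p _ _ N hN fun h0 h1 => by nlinarith
  · intro v hv
    have h2 := (bstab_YF a B x w).he i p v hv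
    exact YF_le_KG a B x (i - 1) p _ _ N hN (fun h0 h1 => by nlinarith) h2

end Ops

end Vale.Agent.P202.Mix
end

section

/-!
P202-CHARP, REAL: auxiliary lemmas on base change in two steps.
-/

namespace Vale.Agent.P202.CharP

open Submodule TensorProduct IsLocalRing

section Quot

variable {B : Type*} [CommRing B] {Λ : Type*} [AddCommGroup Λ] [Module B Λ]
  (A' : Type*) [CommRing A'] [Algebra B A']

/-- base change of a subquotient along a flat algebra. -/
theorem exists_quot_baseChange [Module.Flat B A'] {N : Type*} [AddCommGroup N] [Module B N]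
    (X Y : Submodule B Λ) (g : ↥Y →ₗ[B] N) (hg : Function.Surjective g)
    (hk : LinearMap.ker g = X.submoduleOf Y) :
    ∃ g' : ↥(Y.baseChange A') →ₗ[A'] A' ⊗[B] N, Function.Surjective g' ∧
      LinearMap.ker g' = (X.baseChange A').submoduleOf (Y.baseChange A') := by
  have hinj : Function.Injective (Y.subtype.baseChange A') :=
    Module.Flat.lTensor_preserves_injective_linearMap Y.subtype Y.injective_subtype
  let e1 : (A' ⊗[B] Y) ≃ₗ[A'] Y.baseChange A' :=
    LinearEquiv.ofInjective (Y.subtype.baseChange A') hinj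
  refine ⟨(g.baseChange A') ∘ₗ e1.symm.toLinearMap, ?_, ?_⟩
  · have h0 : Function.Surjective (g.baseChange A') := LinearMap.lTensor_surjective A' hg
    exact h0.comp e1.symm.surjective
  · ext y
    obtain ⟨t, rfl⟩ := e1.surjective y
    have h1 : ((g.baseChange A') ∘ₗ e1.symm.toLinearMap) (e1 t) = g.baseChange A' t := by
      simp
    rw [LinearMap.mem_ker, h1, ← LinearMap.mem_ker, ker_baseChange, hk]
    have h2 : (X.submoduleOf Y).baseChange A' = (X.baseChange A').comap (Y.subtype.baseChange A') :=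
      baseChange_comap A' Y.subtype X
    rw [h2]
    rfl

variable (A : Type*) [CommRing A] [Algebra A A']

end Quot

section Lattice

variable {B : Type*} [CommRing B] {Λ : Type*} [AddCommGroup Λ] [Module B Λ]
  (A A' : Type*) [CommRing A] [CommRing A'] [Algebra A A'] [Algebra B A']

end Lattice

end Vale.Agent.P202.CharP
end

section

/-!
P202-AK, AK-8: Koszul homology and flat base change.
-/

namespace Vale.Agent.P202.CharP.ArbK

open IsLocalRing TensorProduct Submodule

universe u

namespace KkFlat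

section Gen

variable {S : Type*} [CommRing S] (S₁ : Type*) [CommRing S₁] [Algebra S S₁]

/-- the Koszul matrix under a ring homomorphism. -/
theorem kos_map : ∀ (n : ℕ) (y : Fin n → S),
    kos n (fun j => algebraMap S S₁ (y j)) = (kos n y).map (algebraMap S S₁)
  | 0, _ => by
    ext a b
    exact (map_zero (algebraMap S S₁)).symm
  | n + 1, y => by
    have ih := kos_map n (fun j => y j.succ)
    have h1 : ∀ a b, kos n (fun j => algebraMap S S₁ (y j.succ)) a b =
        algebraMap S S₁ (kos n (fun j => y j.succ) a b) := fun a b => by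
      rw [ih]; rfl
    ext a b
    rcases a with a | a <;> rcases b with b | b
    · exact h1 a b
    · change (algebraMap S S₁ (y 0) • (1 : Matrix (KIdx n) (KIdx n) S₁)) a b =
        algebraMap S S₁ ((y 0 • (1 : Matrix (KIdx n) (KIdx n) S)) a b)
      rw [Matrix.smul_apply, Matrix.smul_apply, Matrix.one_apply, Matrix.one_apply, smul_eq_mul,
        smul_eq_mul, map_mul]
      split_ifs <;> simp
    · exact (map_zero (algebraMap S S₁)).symm
    · change -(kos n (fun j => algebraMap S S₁ (y j.succ)) a b) =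
        algebraMap S S₁ (-(kos n (fun j => y j.succ) a b))
      rw [h1, map_neg]

variable {ι : Type*} [Fintype ι] {M : Type*} [AddCommGroup M] [Module S M]

/-- base change of families of cycles. -/
theorem zz_bc [Module.Flat S S₁] {𝕋 : Type*} [AddCommGroup 𝕋] [Module S 𝕋] (D : 𝕋 →ₗ[S] 𝕋)
    (Y X : ℤ → Submodule S 𝕋) (δ : ℤ) :
    zz (D.baseChange S₁) (bcf S₁ Y) (bcf S₁ X) δ = (zz D Y X δ).baseChange S₁ := by
  rw [zz, zz, bcf, bcf, baseChange_inf, baseChange_comap]

theorem bb_bc {𝕋 : Type*} [AddCommGroup 𝕋] [Module S 𝕋] (D : 𝕋 →ₗ[S] 𝕋)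
    (Y X : ℤ → Submodule S 𝕋) (δ : ℤ) :
    bb (D.baseChange S₁) (bcf S₁ Y) (bcf S₁ X) δ = (bb D Y X δ).baseChange S₁ := by
  rw [bb, bb, bcf, bcf, baseChange_sup', baseChange_map]

variable [DecidableEq ι]

/-- tensor products commute with finite products. -/
noncomputable def eqv (S : Type*) [CommRing S] (S₁ : Type*) [CommRing S₁] [Algebra S S₁]
    (ι : Type*) [Fintype ι] [DecidableEq ι] (M : Type*) [AddCommGroup M]
    [Module S M] : (S₁ ⊗[S] (ι → M)) ≃ₗ[S₁] (ι → S₁ ⊗[S] M) :=
  TensorProduct.piRight S S₁ S₁ (fun _ => M)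

theorem eqv_tmul (s : S₁) (f : ι → M) : eqv S S₁ ι M (s ⊗ₜ f) = fun a => s ⊗ₜ f a := by
  rw [eqv, TensorProduct.piRight_apply, TensorProduct.piRightHom_tmul]

theorem eqv_tot (deg : ι → ℤ) (Q : Matrix ι ι S) (z : S₁ ⊗[S] (ι → M)) :
    tot deg (Q.map (algebraMap S S₁)) (0 : (S₁ ⊗[S] M) →ₗ[S₁] (S₁ ⊗[S] M)) (eqv S S₁ ι M z) =
      eqv S S₁ ι M ((tot deg Q (0 : M →ₗ[S] M)).baseChange S₁ z) := by
  induction z using TensorProduct.induction_on with
  | zero => simp only [map_zero]
  | add x y hx hy => simp only [map_add, hx, hy]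
  | tmul s f =>
    rw [LinearMap.baseChange_tmul, eqv_tmul, eqv_tmul]
    funext a
    rw [tot_zero_apply, tot_zero_apply, TensorProduct.tmul_sum]
    refine Finset.sum_congr rfl fun b _ => ?_
    rw [Matrix.map_apply, algebraMap_smul, TensorProduct.tmul_smul]

theorem eqv_pi (p : ι → Submodule S M) :
    ((Submodule.pi Set.univ p).baseChange S₁).map (eqv S S₁ ι M).toLinearMap =
      Submodule.pi Set.univ fun a => (p a).baseChange S₁ := by
  apply le_antisymm
  · rw [Submodule.map_le_iff_le_comap, Submodule.baseChange_eq_span, span_le]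
    rintro _ ⟨f, hf, rfl⟩
    rw [SetLike.mem_coe, Submodule.mem_comap, Submodule.mem_pi]
    intro a ha
    change eqv S S₁ ι M (1 ⊗ₜ f) a ∈ _
    rw [eqv_tmul]
    exact tmul_mem_baseChange_of_mem _ (Submodule.mem_pi.1 hf a ha)
  · intro g hg
    rw [Submodule.mem_pi] at hg
    rw [← Finset.univ_sum_single g]
    refine Submodule.sum_mem _ fun a _ => ?_
    have h1 : (p a).baseChange S₁ ≤ (((Submodule.pi Set.univ p).baseChange S₁).map
        (eqv S S₁ ι M).toLinearMap).comap (LinearMap.single S₁ (fun _ : ι => S₁ ⊗[S] M) a) := by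
      rw [Submodule.baseChange_eq_span S₁ (p a), span_le]
      rintro _ ⟨m, hm, rfl⟩
      refine ⟨1 ⊗ₜ Pi.single a m, tmul_mem_baseChange_of_mem _ ?_, ?_⟩
      · rw [Submodule.mem_pi]
        intro b _
        by_cases hb : b = a
        · subst hb
          rw [Pi.single_eq_same]
          exact hm
        · rw [Pi.single_eq_of_ne hb]
          exact Submodule.zero_mem _
      · change eqv S S₁ ι M (1 ⊗ₜ Pi.single a m) = Pi.single a (1 ⊗ₜ m)
        rw [eqv_tmul]
        funext b
        by_cases hb : b = a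
        · subst hb
          rw [Pi.single_eq_same, Pi.single_eq_same]
        · rw [Pi.single_eq_of_ne hb, Pi.single_eq_of_ne hb, TensorProduct.tmul_zero]
    exact h1 (hg a (Set.mem_univ a))

omit [Fintype ι] [DecidableEq ι] in
theorem conc_bc (X : Submodule S M) (p : ℤ) :
    (conc X p).baseChange S₁ = conc (X.baseChange S₁) p := by
  unfold conc
  split_ifs
  · rfl
  · exact Submodule.baseChange_bot _

theorem eqv_lift (deg : ι → ℤ) (X : Submodule S M) (δ : ℤ) :
    ((lift deg (conc X) δ).baseChange S₁).map (eqv S S₁ ι M).toLinearMap =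
      lift deg (conc (X.baseChange S₁)) δ := by
  unfold lift
  rw [eqv_pi]
  congr 1
  funext a
  rw [conc_bc]

/-- homology with coefficients in a subquotient after flat base change. -/
theorem kh_bc [Module.Flat S S₁] (deg : ι → ℤ) (Q : Matrix ι ι S) (hQ : IsCx deg Q) (i : ℤ) :
    kh deg (Q.map (algebraMap S S₁)) (S₁ ⊗[S] M) i =
      rl ((bb (tot deg Q (0 : M →ₗ[S] M)) (lift deg (conc ⊤)) (lift deg (conc ⊥)) i).baseChange S₁)
        ((zz (tot deg Q (0 : M →ₗ[S] M)) (lift deg (conc ⊤)) (lift deg (conc ⊥)) i).baseChange S₁)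
        := by
  rw [← zz_bc, ← bb_bc]
  symm
  refine hh_map_eq _ _ (eqv S S₁ ι M).toLinearMap (fun z => eqv_tot S₁ deg Q z) _ _ _ _ ?_ ?_ ?_ ?_ i
  · intro δ
    refine Submodule.baseChange_mono S₁ ?_
    intro f hf
    rw [khc_mem_lift] at hf ⊢
    exact fun a => conc_mono bot_le _ (hf a)
  · intro δ x hx
    have h1 : (lift deg (conc (⊤ : Submodule S M)) δ).map (tot deg Q (0 : M →ₗ[S] M)) ≤
        lift deg (conc (⊤ : Submodule S M)) (δ - 1) := by
      rintro _ ⟨f, hf, rfl⟩
      exact lift_conc_stab deg Q hQ _ _ _ hf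
    have h2 := Submodule.baseChange_mono S₁ h1
    rw [baseChange_map] at h2
    exact h2 (Submodule.mem_map_of_mem hx)
  · intro δ
    rw [bcf, eqv_lift, Submodule.baseChange_top]
  · intro δ x _
    rw [← Submodule.baseChange_bot (R := S) (A := S₁) (M := M), ← eqv_lift]
    constructor
    · rintro ⟨z, hz, hzx⟩
      have : z = x := (eqv S S₁ ι M).injective hzx
      rw [← this]
      exact hz
    · intro h
      exact Submodule.mem_map_of_mem h

end Gen

/-- lengths of subquotients after flat base change. -/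
theorem rl_bc {S S₁ : Type*} [CommRing S] [IsLocalRing S] [CommRing S₁] [IsLocalRing S₁]
    [Algebra S S₁] [Module.Flat S S₁] [IsLocalHom (algebraMap S S₁)] {V : Type*} [AddCommGroup V]
    [Module S V] (X Y : Submodule S V) :
    rl (X.baseChange S₁) (Y.baseChange S₁) =
      Module.length S₁ (S₁ ⧸ (maximalIdeal S).map (algebraMap S S₁)) * rl X Y := by
  obtain ⟨g, hg, hk⟩ := exists_quot_baseChange S₁ X Y (X.submoduleOf Y).mkQ
    (Submodule.mkQ_surjective _) (Submodule.ker_mkQ _)
  rw [rl_eq_length_of_surjective g hg hk, IsLocalRing.length_baseChange S S₁, mul_comm]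
  rfl

end KkFlat

open KkFlat in
/-- TASK AK-8: Koszul homology and flat base change. -/
theorem kk_flat {S S₁ : Type u} [CommRing S] [IsLocalRing S] [IsNoetherianRing S]
    [CommRing S₁] [IsLocalRing S₁] [IsNoetherianRing S₁] [Algebra S S₁] [Module.Flat S S₁]
    [IsLocalHom (algebraMap S S₁)] {n : ℕ} (y : Fin n → S) (M : Type u) [AddCommGroup M]
    [Module S M] (w : ℕ)
    (hw : Module.length S₁ (S₁ ⧸ (maximalIdeal S).map (algebraMap S S₁)) = w) (i : ℤ)
    (hfin : kk y M i ≠ ⊤) :
    kk (fun j => algebraMap S S₁ (y j)) (S₁ ⊗[S] M) i = w * kk y M i := by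
  have _ := hfin
  unfold kk
  rw [KkFlat.kos_map S₁ n y, kh_bc S₁ (kdeg n) (kos n y) (kos_isCx n y) i, rl_bc, hw]
  rfl

end Vale.Agent.P202.CharP.ArbK
end
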