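import Vale.Agent.P202.MathlibUsed
import Vale.Agent.P202.Bdl.B6
import Vale.Agent.P202.Bdl.B7
import Vale.Agent.P202.Bdl.B2
attribute [-instance] DenselyNormedField.toNontriviallyNormedField DenselyNormedField.toNormedField NontriviallyNormedField.toNormedField RCLike.toDenselyNormedField NormedField.toField Field.toSemifield IdemCommSemiring.toCommSemiring Semifield.toCommSemiring NormedField.toNormedDivisionRing Field.toDivisionRing NormedDivisionRing.toDivisionRing KleeneAlgebra.toIdemSemiring DivisionRing.toDivisionSemiring Semifield.toDivisionSemiring DivisionSemiring.toSemiring DivisionRing.toRing NormedField.toNormedCommRing NormedCommRing.toSeminormedCommRing EuclideanDomain.toCommRing Field.toCommRing Field.toEuclideanDomain NormedCommRing.toCommRing SeminormedCommRing.toCommRing NormedCommRing.toNormedRing NormedDivisionRing.toNormedRing NormedRing.toSeminormedRing SeminormedCommRing.toSeminormedRing NormedRing.toRing SeminormedRing.toRing SemiRingCat.instSemiringObjForgetRingHomCarrier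 instCoeT instCoeTOfCoeDep Ring.toNonAssocRing LinearOrderedAddCommGroupWithTop.toAddCommMonoid LinearOrderedAddCommGroupWithTop.instLinearOrderedAddCommMonoidWithTop CommSemiring.toNonAssocCommSemiring NonAssocCommRing.toNonAssocCommSemiring NonAssocCommSemiring.toNonAssocSemiring NonAssocRing.toNonAssocSemiring CommRing.toAddCommGroupWithOne NormedCommRing.toNonUnitalNormedCommRing NonUnitalNormedCommRing.toNonUnitalNormedRing NormedRing.toNonUnitalNormedRing NonUnitalNormedCommRing.toNonUnitalSeminormedCommRing SeminormedCommRing.toNonUnitalSeminormedCommRing NonUnitalNormedRing.toNonUnitalSeminormedRing NonUnitalSeminormedCommRing.toNonUnitalSeminormedRing SeminormedRing.toNonUnitalSeminormedRing NonUnitalNormedCommRing.toNonUnitalCommRing NonUnitalSeminormedCommRing.toNonUnitalCommRing NonAssocCommRing.toNonUnitalNonAssocCommRing NonAssocRing.toNonUnitalNonAssocRing NonUnitalCommRing.toNonUnitalRing NonUnitalNormedRing.toNonUnitalRing NonUnitalRing.toNonUnitalNonAssocRing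 NonUnitalSeminormedRing.toNonUnitalRing Ring.toNonUnitalRing AddCommGroupWithOne.toAddCommMonoidWithOne NonUnitalNonAssocCommRing.toNonUnitalNonAssocCommSemiring NonAssocCommSemiring.toNonUnitalNonAssocCommSemiring NonUnitalNonAssocCommSemiring.toNonUnitalNonAssocSemiring NonUnitalRing.toNonUnitalSemiring Semiring.toNonUnitalSemiring LieRing.toAddCommGroup Pi.addMonoidWithOne SemimoduleCat.isAddCommMonoid TensorProduct.instModule CommSemiRingCat.instCommSemiringObjForgetRingHomCarrier Pi.preorder CompleteAtomicBooleanAlgebra.toCompleteBooleanAlgebra CompleteAtomicBooleanAlgebra.toCompletelyDistribLattice CompleteBooleanAlgebra.toCompleteLattice Pi.nonUnitalNonAssocSemiring IdemSemiring.toSemilatticeSup CompleteBooleanAlgebra.toCompleteDistribLattice CompletelyDistribLattice.toCompleteDistribLattice CompleteDistribLattice.toCoframe CompleteDistribLattice.toFrame CompleteLinearOrder.toCompleteLattice Order.Coframe.toCompleteLattice Order.Frame.toCompleteLattice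 Algebra.TensorProduct.instCommRing ChainCompletePartialOrder.instOfCompleteLattice ChainCompletePartialOrder.instOmegaCompletePartialOrder ChainCompletePartialOrder.toPartialOrder CompletePartialOrder.toOmegaCompletePartialOrder OmegaCompletePartialOrder.toPartialOrder LieAlgebra.toModule NormedSpace.toModule CompleteLinearOrder.toConditionallyCompleteLinearOrderBot ConditionallyCompleteLinearOrderBot.toConditionallyCompleteLinearOrder AddCommGroupWithOne.toAddGroupWithOne Algebra.TensorProduct.instRing Pi.partialOrder Pi.nonAssocSemiring ModuleCat.isModule Invertible.toNeZero NeZero.of_gt' Nat.AtLeastTwo.toNeZero Algebra.TensorProduct.instNonAssocRing Filter.instMembership Pi.instLocallyFiniteOrder Pi.instTopForall LinearOrderedCommGroupWithZero.toLinearOrderedCommMonoidWithZero Algebra.TensorProduct.instAddCommGroupWithOne Pi.commRing Pi.normedCommutativeRing Pi.seminormedCommRing Nat.Prime.one_lt' Algebra.TensorProduct.instCommSemiring CommGroupWithZero.toGroupWithZero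 DivisionSemiring.toGroupWithZero LinearOrderedAddCommGroupWithTop.toSubNegMonoid LinearOrderedCommGroupWithZero.toCommGroupWithZero Semifield.toCommGroupWithZero AbsoluteValue.funLike NonUnitalNormedRing.toNormedAddCommGroup Pi.instSemilatticeSup Pi.commSemiring Pi.instIdemCommSemiringForall MulSemiringAction.toDistribMulAction Submodule.instIdemCommSemiring MonCat.monoidObj NormedAddCommGroup.toNormedAddGroup Pi.normedRing Pi.seminormedRing NonUnitalSeminormedRing.toSeminormedAddCommGroup NormedAddCommGroup.toSeminormedAddCommGroup CommGroupWithZero.toCommMonoidWithZero CommMonoidWithZero.toMonoidWithZero CommSemiring.toCommMonoidWithZero GroupWithZero.toMonoidWithZero LinearOrderedCommMonoidWithZero.toCommMonoidWithZero MonoidWithZero.toMulZeroOneClass AddGrpCat.str MonoidWithZero.toSemigroupWithZero MulZeroOneClass.toMulZeroClass NonUnitalNonAssocSemiring.toMulZeroClass SemigroupWithZero.toMulZeroClass AddCommGroupWithOne.toAddCommGroup NormedAddCommGroup.toAddCommGroup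 SeminormedAddCommGroup.toAddCommGroup Algebra.TensorProduct.instSemiring instDistribSMul NonUnitalNonAssocSemiring.toDistribSMul NormedAddGroup.toAddGroup NormedAddGroup.toSeminormedAddGroup SeminormedAddCommGroup.toSeminormedAddGroup SeminormedAddGroup.toAddGroup instCoeHTC instCoeHTCT instCoeOTCOfCoeTC instCoeTC instCoeTCOfCoe instCoeTCOfCoe_1 ContinuousAddMonoidHom.instCoeOutOfAddMonoidHomClassOfContinuousMapClass ContinuousMonoidHom.instCoeOutOfMonoidHomClassOfContinuousMapClass HomeomorphClass.instCoeOutHomeomorph IsometryClass.instCoeOutIsometryEquiv Pi.instSemilatticeInf RingCat.instRingObjForgetRingHomCarrier Fin.completeLinearOrder instCoeOutOfCoeFun AddOpposite.instAddZero NormedCommGroup.toSeminormedCommGroup Pi.instIdemSemiring Pi.instKleeneAlgebraForall Pi.semiring CompleteBooleanAlgebra.toBooleanAlgebra NormedCommGroup.toNormedGroup NormedCommGroup.toCommGroup NormedGroup.toSeminormedGroup SeminormedCommGroup.toCommGroup SeminormedCommGroup.toSeminormedGroup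 AddSubmonoid.instAddSubmonoidClass BooleanAlgebra.toBiheytingAlgebra CompleteDistribLattice.toBiheytingAlgebra CompleteLinearOrder.toBiheytingAlgebra CompletelyDistribLattice.toBiheytingAlgebra Fin.instBiheytingAlgebra Pi.nonAssocRing CommGroup.toGroup NormedGroup.toGroup SeminormedGroup.toGroup TensorProduct.instDistribMulAction LinOrd.str TopologicalSpace.Compacts.instSetLike CategoryTheory.instFinCategoryOfFintypeOfIsThin SetLike.instFintype Unique.fintype CategoryTheory.FinCategory.fintypeObj Pi.nonUnitalNonAssocRing ENormedAddCommMonoid.toESeminormedAddCommMonoid NormedAddCommGroup.toENormedAddCommMonoid Algebra.TensorProduct.instNonAssocSemiring Pi.addGroupWithOne instRingHomSurjectiveForallEvalRingHom instSubsingleton IsEmpty.instSubsingleton Unique.instSubsingleton MonoidWithZero.toMulActionWithZero MulZeroClass.toSMulWithZero instSMulZeroClass Pi.nonUnitalCommRing Pi.nonUnitalNormedCommRing Pi.nonUnitalNormedRing Pi.nonUnitalRing Pi.nonUnitalSeminormedCommRing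 Pi.nonUnitalSeminormedRing Pi.normedAddCommGroup Pi.normedAddGroup Pi.seminormedAddCommGroup Pi.seminormedAddGroup Torsor.toMulAction GradedMonoid.GradeZero.mulAction BiheytingAlgebra.toCoheytingAlgebra BiheytingAlgebra.toHeytingAlgebra BooleanAlgebra.toGeneralizedBooleanAlgebra Fin.instCoheytingAlgebra Fin.instHeytingAlgebra Order.Coframe.toCoheytingAlgebra Order.Frame.toHeytingAlgebra Pi.semigroup AddHom.addHomClass Pi.smulZeroClass' Pi.instMaxForall_mathlib Set.instAddLeftMono Pi.instMinForall_mathlib CompleteLinearOrder.toLinearOrder ConditionallyCompleteLinearOrder.toLinearOrder LinearOrderedAddCommGroupWithTop.toLinearOrder LinearOrderedAddCommMonoidWithTop.toLinearOrder LinearOrderedCommMonoidWithZero.toLinearOrder instNonUnitalAlgHomClassOfNonUnitalAlgEquivClass AlgHom.instNonUnitalAlgHomClassOfAlgHomClass MulSemiringActionSemiHomClass.toDistribMulActionSemiHomClass NonUnitalAlgSemiHomClass.toDistribMulActionSemiHomClass Set.instAddRightMono Pi.topologicalSpace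 Valued.toUniformSpace Pi.mulZeroOneClass ValuationClass.toMonoidWithZeroHomClass CommMonCat.str ENormedCommMonoid.toESeminormedCommMonoid Fin.instOfNat NormedCommGroup.toENormedCommMonoid AddCancelCommMonoid.toAddCancelMonoid AddCancelCommMonoid.toAddCommMonoid AddCancelMonoid.toAddLeftCancelMonoid AddLeftCancelMonoid.toAddMonoid AddRightCancelMonoid.toAddMonoid CommRing.toCommMonoid ENormedAddCommMonoid.toENormedAddMonoid ENormedAddMonoid.toESeminormedAddMonoid ESeminormedAddCommMonoid.toAddCommMonoid ESeminormedAddCommMonoid.toESeminormedAddMonoid ESeminormedAddMonoid.toAddMonoid LinearOrderedAddCommGroupWithTop.toSubtractionMonoid NormedAddGroup.toENormedAddMonoid LinearOrder.toDecidableEq RCLike.toDecidableEq forall_prop_decidable Array.instDecidableForallForallMemOfDecidablePred Finset.decidableDforallFinset Fintype.decidableForallFintype Multiset.decidableDforallMultiset Option.decidableForallMem Vector.instDecidableForallForallMemOfDecidablePred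 Pi.isOrderedRing Part.ofOptionDecidable CoheytingAlgebra.toGeneralizedCoheytingAlgebra GeneralizedBooleanAlgebra.toGeneralizedCoheytingAlgebra HeytingAlgebra.toGeneralizedHeytingAlgebra instNonemptyOfMonad Pi.instOrderTop AddMonCat.addMonoidObj AbsoluteValue.zeroHomClass MonoidWithZeroHomClass.toZeroHomClass MulEquivClass.toMonoidWithZeroHomClass MulRingSeminormClass.toMonoidWithZeroHomClass OrderAddMonoidHom.instAddMonoidHomClass Pi.instSubtractionCommMonoid ModuleCat.instAddCommGroupCarrierMkOfSMul' bot_nonempty infSet_to_nonempty instInhabitedOfMonad supSet_to_nonempty top_nonempty AddTorsor.nonempty ConnectedSpace.toNonempty IrreducibleSpace.toNonempty Nontrivial.to_nonempty One.instNonempty Torsor.nonempty Unique.instInhabited Zero.instNonempty CategoryTheory.IsConnected.is_nonempty IdemSemiring.toMulLeftMono IsOrderedCancelMonoid.toIsOrderedMonoid IsOrderedMonoid.toIsOrderedCancelMonoid IsOrderedMonoid.toMulLeftMono LinearOrderedCommMonoidWithZero.toIsOrderedMonoid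 Std.LinearOrderPackage.toLinearPreorderPackage Std.LinearPreorderPackage.toPreorderPackage WithTop.instIsBotZeroClass -- iprune

set_option linter.all false

section

/-!
P202: from one universe to two.
-/

namespace Vale.Agent.P202.Mix

open IsLocalRing Filter Topology

universe u v

theorem length_quot_pow_of_ringEquiv {R : Type*} {R' : Type*} [CommRing R] [CommRing R']
    [IsLocalRing R] [IsLocalRing R'] (e : R ≃+* R') (N : ℕ) :
    Module.length R' (R' ⧸ maximalIdeal R' ^ N) = Module.length R (R ⧸ maximalIdeal R ^ N) := by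
  rw [Module.length_quotient, Module.length_quotient]
  have h1 : maximalIdeal R' ^ N = e.idealComapOrderIso.symm (maximalIdeal R ^ N) := by
    rw [RingEquiv.idealComapOrderIso_symm_apply, Ideal.map_pow]
    congr 1
    exact (map_ringEquiv_maximalIdeal e).symm
  rw [h1]
  exact Order.coheight_orderIso e.idealComapOrderIso.symm _

theorem lech_univ
    (H : ∀ {R S : Type (max u v)} [CommRing R] [IsLocalRing R] [IsNoetherianRing R]
      [CommRing S] [IsLocalRing S] [IsNoetherianRing S]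
      [Algebra R S] [IsLocalHom (algebraMap R S)] [Module.Flat R S],
      ∃ d s eR eS : ℕ, ringKrullDim R = d ∧ ringKrullDim S = s ∧
        Tendsto (fun N : ℕ => (d.factorial : ℝ) *
          ((Module.length R (R ⧸ maximalIdeal R ^ N)).toNat : ℝ) / (N : ℝ) ^ d) atTop
          (𝓝 (eR : ℝ)) ∧
        Tendsto (fun N : ℕ => (s.factorial : ℝ) *
          ((Module.length S (S ⧸ maximalIdeal S ^ N)).toNat : ℝ) / (N : ℝ) ^ s) atTop
          (𝓝 (eS : ℝ)) ∧ eR ≤ eS)
    {R : Type u} {S : Type v} [CommRing R] [IsLocalRing R] [IsNoetherianRing R]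
    [CommRing S] [IsLocalRing S] [IsNoetherianRing S]
    [Algebra R S] [IsLocalHom (algebraMap R S)] [Module.Flat R S] :
    ∃ d s eR eS : ℕ, ringKrullDim R = d ∧ ringKrullDim S = s ∧
      Tendsto (fun N : ℕ => (d.factorial : ℝ) *
        ((Module.length R (R ⧸ maximalIdeal R ^ N)).toNat : ℝ) / (N : ℝ) ^ d) atTop
        (𝓝 (eR : ℝ)) ∧
      Tendsto (fun N : ℕ => (s.factorial : ℝ) *
        ((Module.length S (S ⧸ maximalIdeal S ^ N)).toNat : ℝ) / (N : ℝ) ^ s) atTop
        (𝓝 (eS : ℝ)) ∧ eR ≤ eS := by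
  obtain ⟨R', _, ⟨eR⟩⟩ : ∃ (R' : Type (max u v)) (_ : CommRing R'), Nonempty (R ≃+* R') :=
    ⟨ULift.{v} R, inferInstance, ⟨ULift.ringEquiv.symm⟩⟩
  obtain ⟨S', _, ⟨eS⟩⟩ : ∃ (S' : Type (max u v)) (_ : CommRing S'), Nonempty (S ≃+* S') :=
    ⟨ULift.{u} S, inferInstance, ⟨ULift.ringEquiv.symm⟩⟩
  have i1 : IsLocalRing R' := eR.isLocalRing
  have i2 : IsLocalRing S' := eS.isLocalRing
  have i3 : IsNoetherianRing R' := isNoetherianRing_of_ringEquiv R eR
  have i4 : IsNoetherianRing S' := isNoetherianRing_of_ringEquiv S eS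
  let f : R' →+* S' := eS.toRingHom.comp ((algebraMap R S).comp eR.symm.toRingHom)
  let := f.toAlgebra
  have i5 : IsLocalHom (algebraMap R' S') := by
    refine ⟨fun a ha => ?_⟩
    have h1 : IsUnit (eS ((algebraMap R S) (eR.symm a))) := ha
    have h2 : IsUnit ((algebraMap R S) (eR.symm a)) := by
      have := h1.map eS.symm
      rwa [RingEquiv.symm_apply_apply] at this
    have h3 := (isUnit_of_map_unit (algebraMap R S) _ h2).map eR
    rwa [RingEquiv.apply_symm_apply] at h3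
  have i6 : Module.Flat R' S' := by
    rw [← RingHom.flat_algebraMap_iff]
    change RingHom.Flat f
    exact RingHom.Flat.comp (RingHom.Flat.comp (RingHom.Flat.of_bijective eR.symm.bijective)
      ((RingHom.flat_algebraMap_iff).mpr inferInstance)) (RingHom.Flat.of_bijective eS.bijective)
  obtain ⟨d, s, a, b, h1, h2, h3, h4, h5⟩ := H (R := R') (S := S')
  refine ⟨d, s, a, b, ?_, ?_, ?_, ?_, h5⟩
  · rw [← h1]
    exact ringKrullDim_eq_of_ringEquiv eR
  · rw [← h2]
    exact ringKrullDim_eq_of_ringEquiv eS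
  · simpa only [length_quot_pow_of_ringEquiv eR] using h3
  · simpa only [length_quot_pow_of_ringEquiv eS] using h4

end Vale.Agent.P202.Mix
end

section

/-!
P202-MIX, part GEO, task B4a: counting the valid cells.
-/

namespace Vale.Agent.P202.Mix

variable {r : ℕ} (a : Fin r → ℤ) (B : ℤ)

theorem ncell_window (p j₀ j₁ : ℤ) :
    ncell a B p j₀ j₁ = ∑ j ∈ Finset.Ico j₀ j₁, ncell a B p j (j + 1) := by
  classical
  rw [ncell, Set.ncard_eq_toFinset_card _ (cellset_finite a B p j₀ j₁),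
    Finset.card_eq_sum_card_fiberwise (f := fun c => c.2.2) (t := Finset.Ico j₀ j₁)]
  · refine Finset.sum_congr rfl fun j hj => ?_
    rw [ncell, Set.ncard_eq_toFinset_card _ (cellset_finite a B p j (j + 1))]
    congr 1
    ext c
    rw [Finset.mem_Ico] at hj
    simp only [Finset.mem_filter, Set.Finite.mem_toFinset, cellset, Set.mem_ofPred_eq]
    constructor
    · rintro ⟨⟨h1, h2, h3, h4⟩, h5⟩
      exact ⟨h1, h2, by omega, by omega⟩
    · rintro ⟨h1, h2, h3, h4⟩
      exact ⟨⟨h1, h2, by omega, by omega⟩, by omega⟩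
  · intro c hc
    simp only [Finset.mem_coe, Set.Finite.mem_toFinset, cellset, Set.mem_ofPred_eq] at hc
    simp only [Finset.mem_coe, Finset.mem_Ico]
    exact ⟨hc.2.2.1, hc.2.2.2⟩

/-- the number of valid cells in terms of `I`. -/
theorem ncell_eq_sum (p j : ℤ) (h1 : ∀ l, a l ≤ B) (h2 : -1 ≤ B + j) :
    (ncell a B p j (j + 1) : ℤ) =
      ∑ I ∈ (Finset.univ : Finset (Finset (Fin r))) with ((I.card : ℕ) : ℤ) = p,
        ∏ l, (if l ∈ I then B - a l else B + j + 1) := by
  classical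
  rw [ncell, Set.ncard_eq_toFinset_card _ (cellset_finite a B p j (j + 1)),
    Finset.card_eq_sum_card_fiberwise (f := Prod.fst)
      (t := (Finset.univ : Finset (Finset (Fin r))).filter fun I => ((I.card : ℕ) : ℤ) = p)]
  · push_cast
    refine Finset.sum_congr rfl fun I hI => ?_
    rw [Finset.mem_filter] at hI
    have key : (cellset_finite a B p j (j + 1)).toFinset.filter (fun c => c.1 = I) =
        (Fintype.piFinset fun l =>
          if l ∈ I then Finset.Ioc (a l + j) (B + j) else Finset.Icc 0 (B + j)).map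
          ⟨fun s => (I, (s, j)), fun s s' h => by simpa using h⟩ := by
      ext ⟨I', s, j'⟩
      simp only [Finset.mem_filter, Set.Finite.mem_toFinset, cellset, valid, inF, inG,
        Set.mem_ofPred_eq, Finset.mem_map, Fintype.mem_piFinset, not_exists, not_and, not_le]
      constructor
      · rintro ⟨⟨⟨⟨h3, h4⟩, h5⟩, h6, h7, h8⟩, rfl⟩
        have hj : j' = j := by omega
        subst hj
        refine ⟨s, fun l => ?_, rfl⟩
        by_cases hl : l ∈ I'
        · rw [if_pos hl, Finset.mem_Ioc]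
          exact ⟨h5 l hl, h4 l⟩
        · rw [if_neg hl, Finset.mem_Icc]
          exact ⟨h3 l hl, h4 l⟩
      · rintro ⟨s', h3, h⟩
        obtain ⟨h6, h⟩ := Prod.mk.inj h
        obtain ⟨h7, h8⟩ := Prod.mk.inj h
        subst h6 h7 h8
        refine ⟨⟨⟨⟨fun l hl => ?_, fun l => ?_⟩, fun l hl => ?_⟩, hI.2, le_rfl, by omega⟩, rfl⟩
        · have h4 := h3 l
          rw [if_neg hl, Finset.mem_Icc] at h4
          exact h4.1
        · have h4 := h3 l
          split_ifs at h4
          · exact (Finset.mem_Ioc.1 h4).2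
          · exact (Finset.mem_Icc.1 h4).2
        · have h4 := h3 l
          rw [if_pos hl, Finset.mem_Ioc] at h4
          exact h4.1
    rw [key, Finset.card_map, Fintype.card_piFinset]
    push_cast
    refine Finset.prod_congr rfl fun l _ => ?_
    have h3 := h1 l
    split_ifs
    · rw [Int.card_Ioc]
      omega
    · rw [Int.card_Icc]
      omega
  · intro c hc
    simp only [Finset.mem_coe, Set.Finite.mem_toFinset, cellset, Set.mem_ofPred_eq] at hc
    simp only [Finset.mem_coe, Finset.mem_filter, Finset.mem_univ, true_and]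
    exact hc.2.1

theorem ncell_euler (j : ℤ) (h1 : ∀ l, a l ≤ B) (h2 : -1 ≤ B + j) :
    ∑ p ∈ Finset.range (r + 1), (-1 : ℤ) ^ p * (ncell a B p j (j + 1) : ℤ) =
      ∏ l, (a l + j + 1) := by
  classical
  have h3 : ∏ l, (a l + j + 1) = ∏ l, (-(B - a l) + (B + j + 1)) :=
    Finset.prod_congr rfl fun l _ => by ring
  rw [h3, Finset.prod_add, Finset.powerset_univ,
    ← Finset.sum_fiberwise_of_maps_to (s := Finset.univ) (t := Finset.range (r + 1))
      (g := fun I : Finset (Fin r) => I.card)]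
  · refine Finset.sum_congr rfl fun p _ => ?_
    rw [ncell_eq_sum a B p j h1 h2, Finset.mul_sum]
    refine Finset.sum_congr ?_ fun I hI => ?_
    · ext I
      simp
    · rw [Finset.mem_filter] at hI
      have hI2 : I.card = p := by exact_mod_cast hI.2
      rw [Finset.prod_ite, Finset.prod_neg, hI2, mul_assoc]
      congr 2
      · congr 1
        ext l
        simp
      · congr 1
        ext l
        simp
  · intro I _
    rw [Finset.mem_range]
    have := Finset.card_le_univ I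
    rw [Fintype.card_fin] at this
    omega

end Vale.Agent.P202.Mix
end

section

/-!
P202-G3-C3: below the diagonal the truncated window is small, with the normalization factor.
-/

namespace Vale.Agent.P202.CharP.Gen2

open Submodule TensorProduct Gen

variable {P : Type*} [CommRing P] {V : Type*} [AddCommGroup V] [Module P V]
  (S : Type*) [CommRing S] [Algebra P S] [Module.Flat P S] {ι : Type*} [Fintype ι]

/-- TASK G3-C3: below the diagonal the truncated window is small. -/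
theorem tg_low3_c (deg : ι → ℤ) (Q : Matrix ι ι S) (hQ : IsCx deg Q) (d : V →ₗ[P] V)
    (hd : ∀ x, d (d x) = 0) (Y X : ℤ → Submodule P V) (hX : CStab d X) (hY : CStab d Y)
    (hXY : ∀ p, X p ≤ Y p) (c lam : ℕ) (hc : 1 ≤ c) (t : ℤ → ℕ) (ε : ℕ)
    (E : ∀ p, Est S deg Q c lam t ε (X p) (Y p)) (P₀ : ℤ) (ex : ∀ p, p ≠ P₀ → Ex d Y X p)
    (j δ : ℤ) (hδ : δ + P₀ < j + 1) :
    (c : ℕ∞) * hh (tot deg Q (d.baseChange S)) (TG S deg Q j Y X) (lift deg (bcf S X)) δ ≤
      ((3 * ε : ℕ) : ℕ∞) := by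
  refine (mul_le_mul_right (tg_low_conn S deg Q hQ d hd Y X hX hY hXY P₀ ex j δ hδ) _).trans ?_
  have hXc : X (j - δ) ≤ cz d Y X (j - δ) := le_inf (hXY _) (hX _)
  have h := conn_le_c S deg Q hQ c lam hc t ε (X (j - δ)) (Y (j - δ)) (X (j - δ))
    (cz d Y X (j - δ)) (Y (j - δ)) le_rfl hXc inf_le_left le_rfl (E (j - δ)) (j + 1)
  rw [add_sub_cancel_right] at h
  exact h

end Vale.Agent.P202.CharP.Gen2
end

section

/-!
P202-G3-C5: the truncated window, column by column.
-/

namespace Vale.Agent.P202.CharP.Gen2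

open Submodule TensorProduct Gen

section Stupid

variable {P : Type*} [CommRing P] {V : Type*} [AddCommGroup V] [Module P V]

/-- stupid filtration: `Y` in degrees `≥ q`, `X` below. -/
def tcY (Y X : ℤ → Submodule P V) (q p : ℤ) : Submodule P V := if q ≤ p then Y p else X p

theorem tcY_ge {Y X : ℤ → Submodule P V} {q p : ℤ} (h : q ≤ p) : tcY Y X q p = Y p := if_pos h

theorem tcY_lt {Y X : ℤ → Submodule P V} {q p : ℤ} (h : p < q) : tcY Y X q p = X p :=
  if_neg (by omega)

theorem tcY_le {Y X : ℤ → Submodule P V} (hXY : ∀ p, X p ≤ Y p) (q p : ℤ) :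
    X p ≤ tcY Y X q p := by
  by_cases h : q ≤ p
  · rw [tcY_ge h]; exact hXY p
  · rw [tcY_lt (by omega)]

theorem tcY_anti {Y X : ℤ → Submodule P V} (hXY : ∀ p, X p ≤ Y p) (q p : ℤ) :
    tcY Y X (q + 1) p ≤ tcY Y X q p := by
  by_cases h : q + 1 ≤ p
  · rw [tcY_ge h, tcY_ge (by omega)]
  · rw [tcY_lt (by omega)]; exact tcY_le hXY q p

theorem tcY_succ {Y X : ℤ → Submodule P V} {q p : ℤ} (h : p ≠ q) :
    tcY Y X (q + 1) p = tcY Y X q p := by
  by_cases h' : q ≤ p
  · rw [tcY_ge h', tcY_ge (by omega)]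
  · rw [tcY_lt (by omega), tcY_lt (by omega)]

theorem tcY_cstab {d : V →ₗ[P] V} {Y X : ℤ → Submodule P V} (hX : CStab d X) (hY : CStab d Y)
    (hXY : ∀ p, X p ≤ Y p) (q : ℤ) : CStab d (tcY Y X q) := by
  intro p x hx
  by_cases h : q ≤ p
  · rw [tcY_ge h] at hx
    rw [tcY_ge (by omega)]
    exact hY p x hx
  · rw [tcY_lt (by omega)] at hx
    exact tcY_le hXY q _ (hX p x hx)

end Stupid

variable {P : Type*} [CommRing P] {V : Type*} [AddCommGroup V] [Module P V]
  (S : Type*) [CommRing S] [Algebra P S] {ι : Type*} [Fintype ι]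

/-- stability of the truncated family (no hypothesis on the base ring). -/
theorem tc_stab (deg : ι → ℤ) (Q : Matrix ι ι S)
    (hQ : IsCx deg Q) (j : ℤ) (d : V →ₗ[P] V)
    (Y X : ℤ → Submodule P V) (hX : CStab d X) (hY : CStab d Y) :
    Stab (tot deg Q (d.baseChange S)) (TG S deg Q j Y X) := by
  intro δ f hf
  have hdY := bcf_cstab S d hY
  have hdX := bcf_cstab S d hX
  rw [mem_tg] at hf ⊢
  obtain ⟨h1, h2, h3⟩ := hf
  have e : tot deg Q (d.baseChange S) f = act Q (S ⊗[P] V) f +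
      (fun b => ((deg b).negOnePow : ℤ) • (d.baseChange S) (f b)) := by
    ext a; rfl
  refine ⟨fun a => ?_, fun a ha => ?_, fun a ha => ?_⟩
  · rw [tot_eq]
    have e1 : deg a - (δ - 1) = deg a - δ + 1 := by ring
    rw [e1]
    refine Submodule.add_mem _ ?_ (zsmul_mem (hdY _ _ (h1 a)) _)
    refine act_mem_of_deg S deg Q hQ f a _ fun b hb => ?_
    have := h1 b
    rw [hb] at this
    have e2 : deg a + 1 - δ = deg a - δ + 1 := by ring
    rwa [e2] at this
  · rw [tot_eq]
    have e1 : deg a - (δ - 1) = deg a - δ + 1 := by ring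
    rw [e1]
    exact Submodule.add_mem _ (h3 a ha) (zsmul_mem (hdX _ _ (h2 a ha)) _)
  · rw [e, map_add, act_act S deg Q hQ, zero_add, act_sign S deg Q hQ]
    have e1 : deg a - (δ - 1) + 1 = deg a - δ + 1 + 1 := by ring
    rw [e1]
    exact Submodule.neg_mem _ (zsmul_mem (hdX _ _ (h3 a ha)) _)

theorem tc_lift_le (deg : ι → ℤ) (Q : Matrix ι ι S)
    (hQ : IsCx deg Q) (j : ℤ)
    (Y X : ℤ → Submodule P V) (hXY : ∀ p, X p ≤ Y p) (δ : ℤ) :
    lift deg (bcf S X) δ ≤ TG S deg Q j Y X δ := by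
  intro f hf
  rw [mem_lift] at hf
  rw [mem_tg]
  refine ⟨fun a => bcf_mono S hXY _ (hf a), fun a _ => hf a, fun a _ => ?_⟩
  refine act_mem_of_deg S deg Q hQ f a _ fun b hb => ?_
  have := hf b
  rw [hb] at this
  have e2 : deg a + 1 - δ = deg a - δ + 1 := by ring
  rwa [e2] at this

theorem tc_tg_self (deg : ι → ℤ) (Q : Matrix ι ι S) (hQ : IsCx deg Q) (j : ℤ)
    (X : ℤ → Submodule P V) : TG S deg Q j X X = lift deg (bcf S X) := by
  funext δ
  exact le_antisymm inf_le_left (tc_lift_le S deg Q hQ j X X (fun _ => le_rfl) δ)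

/-- the pieces of the truncated window. -/
noncomputable def tcU (deg : ι → ℤ) (Q : Matrix ι ι S) (j : ℤ) (Y X : ℤ → Submodule P V)
    (q : ℤ) : ℤ → Submodule S (ι → S ⊗[P] V) := TG S deg Q j (tcY Y X q) X

theorem tcU_stab (deg : ι → ℤ) (Q : Matrix ι ι S)
    (hQ : IsCx deg Q) (j : ℤ) (d : V →ₗ[P] V)
    (Y X : ℤ → Submodule P V) (hX : CStab d X) (hY : CStab d Y) (hXY : ∀ p, X p ≤ Y p) (q : ℤ) :
    Stab (tot deg Q (d.baseChange S)) (tcU S deg Q j Y X q) :=
  tc_stab S deg Q hQ j d _ _ hX (tcY_cstab hX hY hXY q)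

theorem tcU_anti (deg : ι → ℤ) (Q : Matrix ι ι S) (j : ℤ)
    (Y X : ℤ → Submodule P V) (hXY : ∀ p, X p ≤ Y p) (q δ : ℤ) :
    tcU S deg Q j Y X (q + 1) δ ≤ tcU S deg Q j Y X q δ := by
  intro f hf
  rw [tcU, mem_tg] at hf ⊢
  exact ⟨fun a => bcf_mono S (tcY_anti hXY q) _ (hf.1 a), hf.2⟩

/-- an element of `U_q` whose components in the critical degree are in `X` is in `U_(q+1)`. -/
theorem tcU_succ_of (deg : ι → ℤ) (Q : Matrix ι ι S) (j : ℤ)
    (Y X : ℤ → Submodule P V) (q e : ℤ) (f : ι → S ⊗[P] V) (hf : f ∈ tcU S deg Q j Y X q e)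
    (h : ∀ a, deg a = e + q → f a ∈ bcf S X q) : f ∈ tcU S deg Q j Y X (q + 1) e := by
  rw [tcU, mem_tg] at hf ⊢
  refine ⟨fun a => ?_, hf.2⟩
  by_cases ha : deg a = e + q
  · have e1 : deg a - e = q := by omega
    rw [e1, bcf, tcY_lt (by omega)]
    exact h a ha
  · have := hf.1 a
    rw [bcf] at this ⊢
    rwa [tcY_succ (by omega)]

/-- conversely. -/
theorem tcU_succ_mem (deg : ι → ℤ) (Q : Matrix ι ι S) (j : ℤ)
    (Y X : ℤ → Submodule P V) (q e : ℤ) (f : ι → S ⊗[P] V)
    (hf : f ∈ tcU S deg Q j Y X (q + 1) e) (a : ι) (ha : deg a = e + q) : f a ∈ bcf S X q := by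
  rw [tcU, mem_tg] at hf
  have := hf.1 a
  have e1 : deg a - e = q := by omega
  rw [e1, bcf, tcY_lt (by omega)] at this
  exact this

/-- below the truncation nothing happens. -/
theorem tcU_low (deg : ι → ℤ) (Q : Matrix ι ι S) (j : ℤ)
    (Y X : ℤ → Submodule P V) (q e : ℤ) (he : e + q ≤ j) :
    tcU S deg Q j Y X q e ≤ tcU S deg Q j Y X (q + 1) e := by
  intro f hf
  refine tcU_succ_of S deg Q j Y X q e f hf fun a ha => ?_
  rw [tcU, mem_tg] at hf
  have := hf.2.1 a (by omega)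
  have e1 : deg a - e = q := by omega
  rwa [e1] at this

/-- concentrated elements. -/
theorem tcU_of_conc (deg : ι → ℤ) (Q : Matrix ι ι S) (hQ : IsCx deg Q) (j : ℤ)
    (Y X : ℤ → Submodule P V) (q e : ℤ) (he : j + 1 ≤ e + q) (g : ι → S ⊗[P] V)
    (hg : g ∈ lift deg (conc (bcf S Y q)) (e + q))
    (h : ∀ a, deg a = e + q - 1 → deg a ≤ j → act Q (S ⊗[P] V) g a ∈ bcf S X q) :
    g ∈ tcU S deg Q j Y X q e := by
  rw [TR.mem_lift_conc] at hg
  rw [tcU, mem_tg]
  refine ⟨fun a => ?_, fun a ha => ?_, fun a ha => ?_⟩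
  · by_cases h1 : deg a = e + q
    · have e1 : deg a - e = q := by omega
      rw [e1, bcf, tcY_ge le_rfl]
      exact (hg a).1 h1
    · rw [(hg a).2 h1]
      exact zero_mem _
  · rw [(hg a).2 (by omega)]
    exact zero_mem _
  · by_cases h1 : deg a = e + q - 1
    · have e1 : deg a - e + 1 = q := by omega
      rw [e1]
      exact h a h1 ha
    · refine act_mem_of_deg S deg Q hQ g a _ fun b hb => ?_
      rw [(hg b).2 (by omega)]
      exact zero_mem _

/-- splitting off the concentrated part. -/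
theorem tcU_split (deg : ι → ℤ) (Q : Matrix ι ι S) (hQ : IsCx deg Q) (j : ℤ)
    (Y X : ℤ → Submodule P V) (q e : ℤ) (f : ι → S ⊗[P] V)
    (hf : f ∈ tcU S deg Q j Y X q e) :
    ∃ g ∈ lift deg (conc (bcf S Y q)) (e + q), g ∈ tcU S deg Q j Y X q e ∧
      f - g ∈ tcU S deg Q j Y X (q + 1) e := by
  have hf' := hf
  rw [tcU, mem_tg] at hf
  obtain ⟨h1, h2, h3⟩ := hf
  set g : ι → S ⊗[P] V := fun a => if deg a = e + q then f a else 0 with hg
  have hg1 : ∀ a, deg a = e + q → g a = f a := fun a h => if_pos h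
  have hg2 : ∀ a, deg a ≠ e + q → g a = 0 := fun a h => if_neg h
  have hgU : g ∈ tcU S deg Q j Y X q e := by
    rw [tcU, mem_tg]
    refine ⟨fun a => ?_, fun a ha => ?_, fun a ha => ?_⟩
    · by_cases h : deg a = e + q
      · rw [hg1 a h]; exact h1 a
      · rw [hg2 a h]; exact zero_mem _
    · by_cases h : deg a = e + q
      · rw [hg1 a h]; exact h2 a ha
      · rw [hg2 a h]; exact zero_mem _
    · by_cases h : deg a + 1 = e + q
      · have : act Q (S ⊗[P] V) g a = act Q (S ⊗[P] V) f a := by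
          rw [act_apply, act_apply]
          refine Finset.sum_congr rfl fun b _ => ?_
          by_cases hb : Q a b = 0
          · rw [hb, zero_smul, zero_smul]
          · rw [hg1 b (by rw [hQ.deg_eq a b hb, h])]
        rw [this]
        exact h3 a ha
      · refine act_mem_of_deg S deg Q hQ g a _ fun b hb => ?_
        rw [hg2 b (by omega)]
        exact zero_mem _
  refine ⟨g, ?_, hgU, ?_⟩
  · rw [TR.mem_lift_conc]
    intro a
    refine ⟨fun h => ?_, fun h => hg2 a h⟩
    rw [hg1 a h]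
    have := h1 a
    have e1 : deg a - e = q := by omega
    rwa [e1, bcf, tcY_ge le_rfl] at this
  · refine tcU_succ_of S deg Q j Y X q e _ (sub_mem hf' hgU) fun a ha => ?_
    rw [Pi.sub_apply, hg1 a ha, sub_self]
    exact zero_mem _

theorem tc_hh_low (deg : ι → ℤ) (Q : Matrix ι ι S) (D : (ι → S ⊗[P] V) →ₗ[S] (ι → S ⊗[P] V))
    (j : ℤ) (Y X : ℤ → Submodule P V) (q δ : ℤ) (he : δ + q ≤ j) :
    hh D (tcU S deg Q j Y X q) (tcU S deg Q j Y X (q + 1)) δ = 0 := by
  rw [hh, rl_eq_zero_iff]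
  exact (inf_le_left.trans (tcU_low S deg Q j Y X q δ he)).trans le_sup_right

open TR in
theorem tc_hh_high (deg : ι → ℤ) (Q : Matrix ι ι S) (hQ : IsCx deg Q) (j : ℤ) (d : V →ₗ[P] V)
    (Y X : ℤ → Submodule P V) (hX : CStab d X) (hY : CStab d Y)
    (hXY : ∀ p, X p ≤ Y p) (q δ : ℤ) (he : j + 1 ≤ δ + q) :
    hh (tot deg Q (d.baseChange S)) (tcU S deg Q j Y X q) (tcU S deg Q j Y X (q + 1)) δ =
      khs deg Q ((Y q).baseChange S) ((X q).baseChange S) (δ + q) := by
  classical
  set M := S ⊗[P] V with hM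
  set D := tot deg Q (d.baseChange S) with hD
  set U := tcU S deg Q j Y X q with hU
  set U' := tcU S deg Q j Y X (q + 1) with hU'
  have sU : Stab D U := tcU_stab S deg Q hQ j d Y X hX hY hXY q
  have sU' : Stab D U' := tcU_stab S deg Q hQ j d Y X hX hY hXY (q + 1)
  have hle : ∀ e, U' e ≤ U e := fun e => tcU_anti S deg Q j Y X hXY q e
  set Z := bcf S Y q with hZ
  set C := bcf S X q with hC
  -- the zero-differential and its properties
  have hQsupp : ∀ (i : ℤ) (g : ι → M) (W : Submodule S M), g ∈ lift deg (conc W) i →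
      ∀ a, deg a ≠ i - 1 → tot deg Q (0 : M →ₗ[S] M) g a = 0 := by
    intro i g W hg a ha
    rw [TR.mem_lift_conc] at hg
    rw [TR.tot_zero_apply]
    refine Finset.sum_eq_zero fun b _ => ?_
    by_cases hb : Q a b = 0
    · rw [hb, zero_smul]
    · have := hQ.deg_eq a b hb
      rw [(hg b).2 (by omega), smul_zero]
  have hact : ∀ g : ι → M, tot deg Q (0 : M →ₗ[S] M) g = act Q M g := by
    intro g
    ext a
    rw [TR.tot_zero_apply, act_apply]
  -- elements concentrated in the right degree with values in `C`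
  have hconcC : ∀ (e : ℤ) (g : ι → M), g ∈ lift deg (conc C) (e + q) → g ∈ U' e := by
    intro e g hg
    refine tc_lift_le S deg Q hQ j _ X (fun p => tcY_le hXY _ p) e ?_
    rw [TR.mem_lift_conc] at hg
    rw [mem_lift]
    intro a
    by_cases h : deg a = e + q
    · have e1 : deg a - e = q := by omega
      rw [e1]
      exact (hg a).1 h
    · rw [(hg a).2 h]
      exact zero_mem _
  have hsupp : ∀ (e : ℤ) (g : ι → M), g ∈ U' e →
      (∀ a, deg a ≠ e + q → g a = 0) → g ∈ lift deg (conc C) (e + q) := by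
    intro e g hg hs
    rw [TR.mem_lift_conc]
    exact fun a => ⟨fun h => tcU_succ_mem S deg Q j Y X q e g hg a h, hs a⟩
  -- the difference of the two differentials on concentrated elements
  have hdiff : ∀ (e : ℤ) (g : ι → M), g ∈ lift deg (conc Z) (e + q) →
      D g - tot deg Q (0 : M →ₗ[S] M) g ∈ U (e - 1) →
      D g - tot deg Q (0 : M →ₗ[S] M) g ∈ U' (e - 1) := by
    intro e g hg hgU
    refine tcU_succ_of S deg Q j Y X q (e - 1) _ hgU fun a ha => ?_
    rw [TR.mem_lift_conc] at hg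
    rw [Pi.sub_apply, TR.tot_zero_apply, hD, tr_tot_apply, add_sub_cancel_left,
      (hg a).2 (by omega), map_zero, smul_zero]
    exact zero_mem _
  set L := U' δ with hL
  set zz0 := zz (tot deg Q (0 : M →ₗ[S] M)) (lift deg (conc Z)) (lift deg (conc C)) (δ + q)
    with hzz0
  set bb0 := bb (tot deg Q (0 : M →ₗ[S] M)) (lift deg (conc Z)) (lift deg (conc C)) (δ + q)
    with hbb0
  have hz0U : ∀ g ∈ zz0, g ∈ U δ := by
    intro g hg
    obtain ⟨hg1, hg2⟩ := mem_zz.1 hg
    refine tcU_of_conc S deg Q hQ j Y X q δ he g hg1 fun a ha _ => ?_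
    rw [TR.mem_lift_conc] at hg2
    have := (hg2 a).1 ha
    rwa [hact] at this
  have hz0D : ∀ g ∈ zz0, D g ∈ U' (δ - 1) := by
    intro g hg
    obtain ⟨hg1, hg2⟩ := mem_zz.1 hg
    refine tcU_succ_of S deg Q j Y X q (δ - 1) _ (sU _ _ (hz0U g hg)) fun a ha => ?_
    have h3 := (TR.mem_lift_conc.1 hg2 a).1 (by omega)
    have h4 : D g a = tot deg Q (0 : M →ₗ[S] M) g a := by
      rw [hD, tr_tot_apply, TR.tot_zero_apply, (TR.mem_lift_conc.1 hg1 a).2 (by omega), map_zero,
        smul_zero, add_zero]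
    rw [h4]
    exact h3
  have hwU : ∀ g ∈ lift deg (conc Z) (δ + q + 1), g ∈ U (δ + 1) := by
    intro g hg
    rw [show δ + q + 1 = δ + 1 + q by ring] at hg
    exact tcU_of_conc S deg Q hQ j Y X q (δ + 1) (by omega) g hg fun a ha ha' => by omega
  have hwD : ∀ g ∈ lift deg (conc Z) (δ + q + 1),
      D g - tot deg Q (0 : M →ₗ[S] M) g ∈ L := by
    intro g hg
    have hg' := hg
    rw [show δ + q + 1 = δ + 1 + q by ring] at hg'
    have h1 : D g ∈ U δ := by
      have := sU _ _ (hwU g hg)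
      rwa [add_sub_cancel_right] at this
    have h2 : tot deg Q (0 : M →ₗ[S] M) g ∈ U δ := by
      refine tcU_of_conc S deg Q hQ j Y X q δ he _ ?_ fun a _ _ => ?_
      · rw [TR.mem_lift_conc]
        intro a
        refine ⟨fun _ => ?_, fun h => hQsupp _ g Z hg a (by omega)⟩
        rw [TR.tot_zero_apply]
        refine sum_mem fun b _ => Submodule.smul_mem _ _ ?_
        by_cases hb : deg b = δ + q + 1
        · exact (TR.mem_lift_conc.1 hg b).1 hb
        · rw [(TR.mem_lift_conc.1 hg b).2 hb]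
          exact zero_mem _
      · rw [hact, act_act S deg Q hQ]
        exact zero_mem _
    have := hdiff (δ + 1) g hg' (by
      rw [add_sub_cancel_right]
      exact sub_mem h1 h2)
    rwa [add_sub_cancel_right] at this
  have ezz : zz D U U' δ = L ⊔ zz0 := by
    apply le_antisymm
    · intro f hf
      obtain ⟨hf1, hf2⟩ := mem_zz.1 hf
      obtain ⟨g, hg1, hg2, hg3⟩ := tcU_split S deg Q hQ j Y X q δ f hf1
      refine Submodule.mem_sup.2 ⟨f - g, hg3, g, ?_, by abel⟩
      refine mem_zz.2 ⟨hg1, ?_⟩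
      have h4 : D g ∈ U' (δ - 1) := by
        have h5 := sub_mem hf2 (sU' _ _ hg3)
        rwa [map_sub, sub_sub_cancel] at h5
      rw [TR.mem_lift_conc]
      intro a
      refine ⟨fun h => ?_, fun h => hQsupp _ g Z hg1 a h⟩
      have h6 := tcU_succ_mem S deg Q j Y X q (δ - 1) _ h4 a (by omega)
      have h7 : D g a = tot deg Q (0 : M →ₗ[S] M) g a := by
        rw [hD, tr_tot_apply, TR.tot_zero_apply, (TR.mem_lift_conc.1 hg1 a).2 (by omega),
          map_zero, smul_zero, add_zero]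
      rwa [h7] at h6
    · refine sup_le (fun f hf => ?_) fun g hg => ?_
      · exact mem_zz.2 ⟨hle _ hf, sU' _ _ hf⟩
      · exact mem_zz.2 ⟨hz0U g hg, hz0D g hg⟩
  have ebb : bb D U U' δ = L ⊔ bb0 := by
    apply le_antisymm
    · intro f hf
      obtain ⟨w, hw, hx⟩ := mem_bb.1 hf
      obtain ⟨g, hg1, hg2, hg3⟩ := tcU_split S deg Q hQ j Y X q (δ + 1) w hw
      rw [show δ + 1 + q = δ + q + 1 by ring] at hg1
      have h3 : D (w - g) ∈ L := by
        have := sU' _ _ hg3
        rwa [add_sub_cancel_right] at this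
      have h4 := hwD g hg1
      refine Submodule.mem_sup.2 ⟨f - tot deg Q (0 : M →ₗ[S] M) g, ?_,
        tot deg Q (0 : M →ₗ[S] M) g, ?_, by abel⟩
      · have h5 := add_mem (add_mem hx h3) h4
        rw [map_sub] at h5
        have e5 : f - D w + (D w - D g) + (D g - tot deg Q (0 : M →ₗ[S] M) g) =
            f - tot deg Q (0 : M →ₗ[S] M) g := by abel
        rwa [e5] at h5
      · exact mem_bb.2 ⟨g, hg1, by simp⟩
    · refine sup_le (fun f hf => ?_) fun f hf => ?_
      · exact mem_bb.2 ⟨0, zero_mem _, by simpa using hf⟩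
      · obtain ⟨g, hg, hx⟩ := mem_bb.1 hf
        refine mem_bb.2 ⟨g, hwU g hg, ?_⟩
        have h5 := sub_mem (hconcC _ _ hx) (hwD g hg)
        have e5 : f - tot deg Q (0 : M →ₗ[S] M) g -
          (D g - tot deg Q (0 : M →ₗ[S] M) g) = f - D g := by abel
        rwa [e5] at h5
  have einf : (L ⊔ bb0) ⊓ zz0 = bb0 ⊓ zz0 := by
    apply le_antisymm
    · rintro x ⟨hx1, hx2⟩
      refine ⟨?_, hx2⟩
      obtain ⟨l, hl, b, hb, rfl⟩ := Submodule.mem_sup.1 hx1
      refine add_mem ?_ hb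
      have h3 : l ∈ lift deg (conc C) (δ + q) := by
        refine hsupp _ _ hl fun a ha => ?_
        have h4 := (TR.mem_lift_conc.1 (mem_zz.1 hx2).1 a).2 ha
        obtain ⟨g, hg, hy⟩ := mem_bb.1 hb
        have h5 := (TR.mem_lift_conc.1 hy a).2 ha
        have h6 := hQsupp _ g Z hg a (by omega)
        rw [Pi.sub_apply, h6, sub_zero] at h5
        rw [Pi.add_apply, h5, add_zero] at h4
        exact h4
      exact mem_bb.2 ⟨0, zero_mem _, by simpa using h3⟩
    · exact inf_le_inf_right _ le_sup_right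
  unfold khs
  unfold hh
  rw [ezz, ebb]
  have e7 : L ⊔ bb0 ⊔ (L ⊔ zz0) = L ⊔ bb0 ⊔ zz0 := by
    rw [← sup_assoc, sup_eq_left.2 (le_sup_left : L ≤ L ⊔ bb0)]
  rw [← rl_sup_right (L ⊔ bb0), e7, rl_sup_right, ← rl_inf_left (L ⊔ bb0), einf, rl_inf_left]
  rfl

/-- homology of one column of the truncated window. -/
theorem tc_hh (deg : ι → ℤ) (Q : Matrix ι ι S) (hQ : IsCx deg Q) (j : ℤ) (d : V →ₗ[P] V)
    (Y X : ℤ → Submodule P V) (hX : CStab d X) (hY : CStab d Y)
    (hXY : ∀ p, X p ≤ Y p) (q δ : ℤ) :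
    hh (tot deg Q (d.baseChange S)) (tcU S deg Q j Y X q) (tcU S deg Q j Y X (q + 1)) δ =
      if j + 1 ≤ δ + q then khs deg Q ((Y q).baseChange S) ((X q).baseChange S) (δ + q)
      else 0 := by
  split_ifs with h
  · exact tc_hh_high S deg Q hQ j d Y X hX hY hXY q δ h
  · exact tc_hh_low S deg Q _ j Y X q δ (by omega)

theorem tcU_zero (deg : ι → ℤ) (Q : Matrix ι ι S) (j : ℤ)
    (Y X : ℤ → Submodule P V) (hXY : ∀ p, X p ≤ Y p) (n : ℕ)
    (hout : ∀ p, (p < 0 ∨ (n : ℤ) ≤ p) → Y p ≤ X p) :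
    tcU S deg Q j Y X 0 = TG S deg Q j Y X := by
  have : tcY Y X 0 = Y := by
    funext p
    by_cases h : 0 ≤ p
    · exact tcY_ge h
    · rw [tcY_lt (by omega)]
      exact le_antisymm (hXY p) (hout p (Or.inl (by omega)))
  rw [tcU, this]

theorem tcU_top (deg : ι → ℤ) (Q : Matrix ι ι S) (hQ : IsCx deg Q) (j : ℤ)
    (Y X : ℤ → Submodule P V) (hXY : ∀ p, X p ≤ Y p) (n : ℕ)
    (hout : ∀ p, (p < 0 ∨ (n : ℤ) ≤ p) → Y p ≤ X p) :
    tcU S deg Q j Y X n = lift deg (bcf S X) := by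
  have : tcY Y X n = X := by
    funext p
    by_cases h : (n : ℤ) ≤ p
    · rw [tcY_ge h]
      exact le_antisymm (hout p (Or.inr h)) (hXY p)
    · exact tcY_lt (by omega)
  rw [tcU, this, tc_tg_self S deg Q hQ]

theorem tcU_mono (deg : ι → ℤ) (Q : Matrix ι ι S) (j : ℤ)
    (Y X : ℤ → Submodule P V) (hXY : ∀ p, X p ≤ Y p) (m : ℕ) (δ : ℤ) :
    tcU S deg Q j Y X m δ ≤ tcU S deg Q j Y X 0 δ := by
  induction m with
  | zero => exact le_rfl
  | succ m ih =>
    refine le_trans ?_ ih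
    push_cast
    exact tcU_anti S deg Q j Y X hXY m δ

theorem tc_hh_self {𝕋 : Type*} [AddCommGroup 𝕋] [Module S 𝕋] (D : 𝕋 →ₗ[S] 𝕋)
    (X : ℤ → Submodule S 𝕋) (δ : ℤ) : hh D X X δ = 0 := by
  rw [hh, rl_eq_zero_iff]
  exact inf_le_left.trans le_sup_right

theorem tc_hh_le_sum (deg : ι → ℤ) (Q : Matrix ι ι S) (hQ : IsCx deg Q) (d : V →ₗ[P] V)
    (hd : ∀ x, d (d x) = 0) (Y X : ℤ → Submodule P V) (hX : CStab d X) (hY : CStab d Y)
    (hXY : ∀ p, X p ≤ Y p) (j : ℤ) (m : ℕ) (δ : ℤ) :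
    hh (tot deg Q (d.baseChange S)) (tcU S deg Q j Y X 0) (tcU S deg Q j Y X m) δ ≤
      ∑ p ∈ Finset.range m, if j + 1 ≤ δ + p then
        khs deg Q ((Y p).baseChange S) ((X p).baseChange S) (δ + p) else 0 := by
  have hd' : ∀ x, (d.baseChange S) ((d.baseChange S) x) = 0 := by
    intro x
    have h1 : d ∘ₗ d = 0 := LinearMap.ext hd
    have h2 := congrArg (fun f => (LinearMap.baseChange S f) x) h1
    simpa [LinearMap.baseChange_comp] using h2
  have hD := TR.tot_tot' deg Q hQ (d.baseChange S) hd'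
  induction m with
  | zero => simp [tc_hh_self]
  | succ m ih =>
    rw [Finset.sum_range_succ, ← tc_hh S deg Q hQ j d Y X hX hY hXY m δ]
    refine (hh_le_add _ hD (tcU S deg Q j Y X ((m + 1 : ℕ) : ℤ)) (tcU S deg Q j Y X m)
      (tcU S deg Q j Y X 0) ?_ ?_ ?_ ?_ ?_ δ).trans (add_le_add ih ?_)
    · exact tcU_stab S deg Q hQ j d Y X hX hY hXY _
    · exact tcU_stab S deg Q hQ j d Y X hX hY hXY _
    · exact tcU_stab S deg Q hQ j d Y X hX hY hXY _
    · intro e
      push_cast
      exact tcU_anti S deg Q j Y X hXY m e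
    · intro e
      exact tcU_mono S deg Q j Y X hXY m e
    · push_cast
      exact le_rfl

theorem tc_khs_zero {M : Type*} [AddCommGroup M] [Module S M] (deg : ι → ℤ) (Q : Matrix ι ι S)
    (Y X : Submodule S M) (i : ℤ) (h : ∀ a, deg a ≠ i) : khs deg Q Y X i = 0 := by
  rw [khs, hh, rl_eq_zero_iff]
  refine le_trans ?_ le_sup_right
  intro f hf
  have h1 := TR.mem_lift_conc.1 hf.1
  rw [TR.mem_lift_conc]
  exact fun a => ⟨fun ha => absurd ha (h a), fun _ => (h1 a).2 (h a)⟩

variable [Module.Flat P S]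

/-- TASK G3-C5: the truncated window, column by column. -/
theorem tg_col (deg : ι → ℤ) (Q : Matrix ι ι S) (hQ : IsCx deg Q) (d : V →ₗ[P] V)
    (hd : ∀ x, d (d x) = 0) (Y X : ℤ → Submodule P V) (hX : CStab d X) (hY : CStab d Y)
    (hXY : ∀ p, X p ≤ Y p) (n : ℕ) (hout : ∀ p, (p < 0 ∨ (n : ℤ) ≤ p) → Y p ≤ X p)
    (j δ : ℤ) :
    hh (tot deg Q (d.baseChange S)) (TG S deg Q j Y X) (lift deg (bcf S X)) δ ≤
      ∑ p ∈ Finset.range n, if j + 1 ≤ δ + p then
        khs deg Q ((Y p).baseChange S) ((X p).baseChange S) (δ + p) else 0 := by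
  rw [← tcU_zero S deg Q j Y X hXY n hout, ← tcU_top S deg Q hQ j Y X hXY n hout]
  exact tc_hh_le_sum S deg Q hQ d hd Y X hX hY hXY j n δ

omit [Module.Flat P S] in
theorem tc_xi (deg : ι → ℤ) (Q : Matrix ι ι S) (n c₀ : ℕ)
    (hdeg : ∀ a, 0 ≤ deg a ∧ deg a ≤ c₀) (Y X : ℤ → Submodule P V)
    (j : ℤ) (hj : -1 ≤ j) (q : ℕ) (hq : q < n) :
    xi (n + c₀) (fun δ => if j + 1 ≤ δ + q then
      khs deg Q ((Y q).baseChange S) ((X q).baseChange S) (δ + q) else 0) =
      (-1 : ℤ) ^ q * ∑ i ∈ Finset.Icc (j + 1) c₀, (i.negOnePow : ℤ) *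
        ((khs deg Q ((Y q).baseChange S) ((X q).baseChange S) i).toNat : ℤ) := by
  rw [xi, Finset.mul_sum]
  have h0 : ∀ i : ℤ, (c₀ : ℤ) < i →
      khs deg Q ((Y q).baseChange S) ((X q).baseChange S) i = 0 := by
    intro i hi
    refine tc_khs_zero S deg Q _ _ i fun a ha => ?_
    have := hdeg a
    omega
  symm
  refine Finset.sum_of_injOn (fun i => i - q) ?_ ?_ ?_ ?_
  · intro a _ b _ hab
    simpa using hab
  · intro i hi
    simp only [Finset.coe_Icc, Set.mem_Icc] at hi ⊢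
    push_cast
    omega
  · intro δ hδ hδ'
    split_ifs with h
    · by_cases h1 : δ + q ≤ c₀
      · exact absurd ⟨δ + q, by simp; omega, by simp⟩ hδ'
      · rw [h0 _ (by omega)]
        simp
    · simp
  · intro i hi
    rw [Finset.mem_Icc] at hi
    simp only [sub_add_cancel]
    rw [if_pos hi.1, Int.negOnePow_sub]
    have : ((q : ℤ).negOnePow : ℤ) = (-1 : ℤ) ^ q := by
      rw [Int.negOnePow_def]
      simp
    rw [← this]
    push_cast
    ring

/-- TASK G3-C5: Euler characteristic of the truncated window, column by column. -/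
theorem tg_xi3 (deg : ι → ℤ) (Q : Matrix ι ι S) (hQ : IsCx deg Q) (c₀ : ℕ)
    (hdeg : ∀ a, 0 ≤ deg a ∧ deg a ≤ c₀) (d : V →ₗ[P] V)
    (hd : ∀ x, d (d x) = 0) (Y X : ℤ → Submodule P V) (hX : CStab d X) (hY : CStab d Y)
    (hXY : ∀ p, X p ≤ Y p) (n : ℕ) (hout : ∀ p, (p < 0 ∨ (n : ℤ) ≤ p) → Y p ≤ X p)
    (hfin : ∀ p i, khs deg Q ((Y p).baseChange S) ((X p).baseChange S) i ≠ ⊤)
    (j : ℤ) (hj : -1 ≤ j) :
    xi (n + c₀) (hh (tot deg Q (d.baseChange S)) (TG S deg Q j Y X) (lift deg (bcf S X))) =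
      ∑ p ∈ Finset.range n, (-1 : ℤ) ^ p * ∑ i ∈ Finset.Icc (j + 1) c₀, (i.negOnePow : ℤ) *
        ((khs deg Q ((Y p).baseChange S) ((X p).baseChange S) i).toNat : ℤ) := by
  have hd' : ∀ x, (d.baseChange S) ((d.baseChange S) x) = 0 := by
    intro x
    have h1 : d ∘ₗ d = 0 := LinearMap.ext hd
    have h2 := congrArg (fun f => (LinearMap.baseChange S f) x) h1
    simpa [LinearMap.baseChange_comp] using h2
  have hD := TR.tot_tot' deg Q hQ (d.baseChange S) hd'
  have hk0 : ∀ (p i : ℤ), (i < 0 ∨ (c₀ : ℤ) < i) →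
      khs deg Q ((Y p).baseChange S) ((X p).baseChange S) i = 0 := by
    intro p i hi
    refine tc_khs_zero S deg Q _ _ i fun a ha => ?_
    have := hdeg a
    omega
  have key : ∀ m : ℕ, m ≤ n →
      xi (n + c₀) (hh (tot deg Q (d.baseChange S)) (tcU S deg Q j Y X 0)
        (tcU S deg Q j Y X m)) =
      ∑ p ∈ Finset.range m, (-1 : ℤ) ^ p * ∑ i ∈ Finset.Icc (j + 1) c₀, (i.negOnePow : ℤ) *
        ((khs deg Q ((Y p).baseChange S) ((X p).baseChange S) i).toNat : ℤ) := by
    intro m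
    induction m with
    | zero =>
      intro _
      simp [xi, tc_hh_self]
    | succ m ih =>
      intro hm
      have hcol := tc_hh S deg Q hQ j d Y X hX hY hXY (m : ℤ)
      rw [Finset.sum_range_succ, ← ih (by omega),
        ← tc_xi S deg Q n c₀ hdeg Y X j hj m (by omega)]
      have e1 : (fun δ : ℤ => if j + 1 ≤ δ + m then
          khs deg Q ((Y m).baseChange S) ((X m).baseChange S) (δ + m) else 0) =
          hh (tot deg Q (d.baseChange S)) (tcU S deg Q j Y X m)
            (tcU S deg Q j Y X ((m + 1 : ℕ) : ℤ)) := by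
        funext δ
        push_cast
        exact (hcol δ).symm
      rw [e1]
      refine xi_add (n + c₀) _ hD (tcU S deg Q j Y X ((m + 1 : ℕ) : ℤ)) (tcU S deg Q j Y X m)
        (tcU S deg Q j Y X 0) ?_ ?_ ?_ ?_ ?_ ?_ ?_ ?_
      · exact tcU_stab S deg Q hQ j d Y X hX hY hXY _
      · exact tcU_stab S deg Q hQ j d Y X hX hY hXY _
      · exact tcU_stab S deg Q hQ j d Y X hX hY hXY _
      · intro e
        push_cast
        exact tcU_anti S deg Q j Y X hXY m e
      · intro e
        exact tcU_mono S deg Q j Y X hXY m e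
      · intro δ
        refine ne_top_of_le_ne_top ?_ (tc_hh_le_sum S deg Q hQ d hd Y X hX hY hXY j m δ)
        refine ne_of_lt (ENat.sum_lt_top.2 fun p _ => ?_)
        split_ifs
        · exact lt_top_iff_ne_top.2 (hfin _ _)
        · exact ENat.natCast_lt_top 0
      · intro δ
        rw [← congrFun e1 δ]
        split_ifs
        · exact hfin _ _
        · exact ENat.natCast_ne_top 0
      · intro δ hδ
        push_cast at hδ
        constructor
        · have h1 := tc_hh_le_sum S deg Q hQ d hd Y X hX hY hXY j m δ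
          have h2 : (∑ p ∈ Finset.range m, if j + 1 ≤ δ + p then
              khs deg Q ((Y p).baseChange S) ((X p).baseChange S) (δ + p) else 0) =
              (0 : ℕ∞) := by
            refine Finset.sum_eq_zero fun p hp => ?_
            rw [Finset.mem_range] at hp
            split_ifs
            · exact hk0 _ _ (by omega)
            · rfl
          rw [h2] at h1
          exact le_antisymm h1 bot_le
        · rw [← congrFun e1 δ]
          split_ifs
          · exact hk0 _ _ (by omega)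
          · rfl
  have := key n le_rfl
  rwa [tcU_zero S deg Q j Y X hXY n hout, tcU_top S deg Q hQ j Y X hXY n hout] at this

end Vale.Agent.P202.CharP.Gen2
end

section

/-!
P202-GEN-6: the décalage family.
-/

namespace Vale.Agent.P202.CharP.Gen

open Submodule TensorProduct IsLocalRing

section DecG

variable {A : Type*} [CommRing A] {V : Type*} [AddCommGroup V] [Module A V]
  (S : Type*) [CommRing S] [Algebra A S] {ι : Type*} [Fintype ι]

theorem gg_chain_mono {W : ℕ → ℤ → Submodule A V} (mono : ∀ j p, W j p ≤ W (j + 1) p) {i j : ℕ}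
    (h : i ≤ j) (p : ℤ) : bcf S (W i) p ≤ bcf S (W j) p :=
  baseChange_mono S (monotone_nat_of_le_succ (f := fun j => W j p) (fun j => mono j p) h)

theorem mem_gg (deg : ι → ℤ) (Q : Matrix ι ι S) (W : ℕ → ℤ → Submodule A V) (δ : ℤ)
    (f : ι → S ⊗[A] V) :
    f ∈ GG S deg Q W δ ↔ (∀ a, f a ∈ bcf S (W (deg a).toNat) (deg a - δ)) ∧
      ∀ a, act Q (S ⊗[A] V) f a ∈ bcf S (W (deg a).toNat) (deg a - δ + 1) := by
  simp only [GG, Submodule.mem_inf, Submodule.mem_comap, Submodule.mem_pi, Set.mem_univ,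
    forall_true_left]

theorem mem_tg' (deg : ι → ℤ) (Q : Matrix ι ι S) (j : ℤ) (Y X : ℤ → Submodule A V) (δ : ℤ)
    (f : ι → S ⊗[A] V) :
    f ∈ TG S deg Q j Y X δ ↔ (∀ a, f a ∈ bcf S Y (deg a - δ)) ∧
      (∀ a, deg a ≤ j → f a ∈ bcf S X (deg a - δ)) ∧
      ∀ a, deg a ≤ j → act Q (S ⊗[A] V) f a ∈ bcf S X (deg a - δ + 1) := by
  simp only [TG, Submodule.mem_inf, Submodule.mem_comap, Submodule.mem_pi, Set.mem_univ,
    forall_true_left, mem_lift]
  have h1 : ∀ (a : ι) (x : S ⊗[A] V) (P : Submodule S (S ⊗[A] V)),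
      (x ∈ if deg a ≤ j then P else ⊤) ↔ (deg a ≤ j → x ∈ P) := by
    intro a x P
    split_ifs with h <;> simp [h]
  simp only [h1]

/-- TASK GEN-6: the décalage family. -/
theorem gg_stab (deg : ι → ℤ) (Q : Matrix ι ι S) (hQ : IsCx deg Q)
    (hdeg : ∀ a, 0 ≤ deg a) (d : V →ₗ[A] V) (W : ℕ → ℤ → Submodule A V)
    (hW : ∀ j, CStab d (W j)) : Stab (tot deg Q (d.baseChange S)) (GG S deg Q W) := by
  have hWS : ∀ j p x, x ∈ bcf S (W j) p → d.baseChange S x ∈ bcf S (W j) (p + 1) := by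
    intro j p x hx
    have h1 : W j p ≤ (W j (p + 1)).comap d := fun v hv => hW j p v hv
    have h2 : (W j p).map d ≤ W j (p + 1) := Submodule.map_le_iff_le_comap.2 h1
    have h3 := baseChange_mono S h2
    rw [baseChange_map] at h3
    exact h3 (Submodule.mem_map_of_mem hx)
  intro δ f hf
  rw [mem_gg] at hf ⊢
  obtain ⟨hf1, hf2⟩ := hf
  have hQQ : act Q (S ⊗[A] V) (act Q (S ⊗[A] V) f) = 0 := by
    rw [← act_mul, hQ.sq, act_zero]
  constructor
  · intro a
    rw [tot_eq]
    have e : deg a - (δ - 1) = deg a - δ + 1 := by ring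
    rw [e]
    exact add_mem (hf2 a) (zsmul_mem (hWS _ _ _ (hf1 a)) _)
  · intro a
    have e : deg a - (δ - 1) + 1 = deg a - δ + 1 + 1 := by ring
    rw [e]
    have h1 : act Q (S ⊗[A] V) (tot deg Q (d.baseChange S) f) a =
        -(((deg a).negOnePow : ℤ) • d.baseChange S (act Q (S ⊗[A] V) f a)) := by
      have h2 : tot deg Q (d.baseChange S) f = act Q (S ⊗[A] V) f +
          fun b => ((deg b).negOnePow : ℤ) • d.baseChange S (f b) := by
        ext b
        rfl
      rw [h2, map_add, hQQ, zero_add, act_apply, act_apply, map_sum, Finset.smul_sum,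
        ← Finset.sum_neg_distrib]
      refine Finset.sum_congr rfl fun b _ => ?_
      by_cases hb : Q a b = 0
      · simp [hb]
      · rw [hQ.deg_eq a b hb, negOnePow_succ', neg_smul, smul_neg, smul_comm, map_smul]
    rw [h1]
    exact neg_mem (zsmul_mem (hWS _ _ _ (hf2 a)) _)

/-- TASK GEN-6. -/
theorem lift_le_gg (deg : ι → ℤ) (Q : Matrix ι ι S) (hQ : IsCx deg Q)
    (W : ℕ → ℤ → Submodule A V) (mono : ∀ j p, W j p ≤ W (j + 1) p) (δ : ℤ) :
    lift deg (bcf S (W 0)) δ ≤ GG S deg Q W δ := by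
  intro f hf
  rw [mem_lift] at hf
  rw [mem_gg]
  refine ⟨fun a => gg_chain_mono S mono (Nat.zero_le _) _ (hf a), fun a => ?_⟩
  refine gg_chain_mono S mono (Nat.zero_le _) _ ?_
  rw [act_apply]
  refine Submodule.sum_mem _ fun b _ => ?_
  by_cases hb : Q a b = 0
  · simp [hb]
  · have h := hf b
    rw [hQ.deg_eq a b hb] at h
    have e : deg a + 1 - δ = deg a - δ + 1 := by ring
    rw [e] at h
    exact Submodule.smul_mem _ _ h

/-- TASK GEN-6. -/
theorem gg_le_lift (deg : ι → ℤ) (Q : Matrix ι ι S) (n : ℕ)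
    (hdeg : ∀ a, 0 ≤ deg a ∧ deg a ≤ n)
    (W : ℕ → ℤ → Submodule A V) (mono : ∀ j p, W j p ≤ W (j + 1) p) (δ : ℤ) :
    GG S deg Q W δ ≤ lift deg (bcf S (W n)) δ := by
  intro f hf
  rw [mem_gg] at hf
  rw [mem_lift]
  intro a
  have h1 := hdeg a
  exact gg_chain_mono S mono (by omega) _ (hf.1 a)

/-- TASK GEN-6. -/
theorem gg_tg (deg : ι → ℤ) (Q : Matrix ι ι S) (hQ : IsCx deg Q)
    (hdeg : ∀ a, 0 ≤ deg a)
    (W : ℕ → ℤ → Submodule A V) (mono : ∀ j p, W j p ≤ W (j + 1) p) (j : ℕ) (δ : ℤ) :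
    (GG S deg Q W δ ⊓ lift deg (bcf S (W (j + 1))) δ) ⊔ lift deg (bcf S (W j)) δ =
      TG S deg Q j (W (j + 1)) (W j) δ := by
  apply le_antisymm
  · refine sup_le ?_ ?_
    · rintro f ⟨hf1, hf2⟩
      rw [SetLike.mem_coe, mem_gg] at hf1
      rw [SetLike.mem_coe, mem_lift] at hf2
      rw [mem_tg']
      refine ⟨hf2, fun a ha => ?_, fun a ha => ?_⟩
      · have := hdeg a
        exact gg_chain_mono S mono (by omega) _ (hf1.1 a)
      · have := hdeg a
        exact gg_chain_mono S mono (by omega) _ (hf1.2 a)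
    · intro f hf
      rw [mem_lift] at hf
      rw [mem_tg']
      refine ⟨fun a => gg_chain_mono S mono (Nat.le_succ j) _ (hf a), fun a _ => hf a,
        fun a _ => ?_⟩
      rw [act_apply]
      refine Submodule.sum_mem _ fun b _ => ?_
      by_cases hb : Q a b = 0
      · simp [hb]
      · have h := hf b
        rw [hQ.deg_eq a b hb] at h
        have e : deg a + 1 - δ = deg a - δ + 1 := by ring
        rw [e] at h
        exact Submodule.smul_mem _ _ h
  · intro f hf
    rw [mem_tg'] at hf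
    obtain ⟨hf1, hf2, hf3⟩ := hf
    classical
    set g : ι → S ⊗[A] V := fun a => if (j : ℤ) + 1 ≤ deg a then f a else 0 with hg
    have hg1 : ∀ a, (j : ℤ) + 1 ≤ deg a → g a = f a := fun a ha => if_pos ha
    have hg0 : ∀ a, ¬ (j : ℤ) + 1 ≤ deg a → g a = 0 := fun a ha => if_neg ha
    refine Submodule.mem_sup.2 ⟨g, ⟨?_, ?_⟩, f - g, ?_, by abel⟩
    · rw [SetLike.mem_coe, mem_gg]
      refine ⟨fun a => ?_, fun a => ?_⟩
      · by_cases ha : (j : ℤ) + 1 ≤ deg a
        · rw [hg1 a ha]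
          exact gg_chain_mono S mono (by omega) _ (hf1 a)
        · rw [hg0 a ha]
          exact zero_mem _
      · rcases lt_trichotomy (deg a) j with ha | ha | ha
        · have h0 : act Q (S ⊗[A] V) g a = 0 := by
            rw [act_apply]
            refine Finset.sum_eq_zero fun b _ => ?_
            by_cases hb : Q a b = 0
            · simp [hb]
            · have := hQ.deg_eq a b hb
              rw [hg0 b (by omega), smul_zero]
          rw [h0]
          exact zero_mem _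
        · have h0 : act Q (S ⊗[A] V) g a = act Q (S ⊗[A] V) f a := by
            rw [act_apply, act_apply]
            refine Finset.sum_congr rfl fun b _ => ?_
            by_cases hb : Q a b = 0
            · simp [hb]
            · have := hQ.deg_eq a b hb
              rw [hg1 b (by omega)]
          rw [h0]
          exact gg_chain_mono S mono (by omega) _ (hf3 a ha.le)
        · rw [act_apply]
          refine Submodule.sum_mem _ fun b _ => ?_
          by_cases hb : Q a b = 0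
          · simp [hb]
          · have hd := hQ.deg_eq a b hb
            rw [hg1 b (by omega)]
            have h := hf1 b
            rw [hd] at h
            have e : deg a + 1 - δ = deg a - δ + 1 := by ring
            rw [e] at h
            exact Submodule.smul_mem _ _ (gg_chain_mono S mono (by omega) _ h)
    · rw [SetLike.mem_coe, mem_lift]
      intro a
      by_cases ha : (j : ℤ) + 1 ≤ deg a
      · rw [hg1 a ha]
        exact hf1 a
      · rw [hg0 a ha]
        exact zero_mem _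
    · rw [mem_lift]
      intro a
      rw [Pi.sub_apply]
      by_cases ha : (j : ℤ) + 1 ≤ deg a
      · rw [hg1 a ha, sub_self]
        exact zero_mem _
      · rw [hg0 a ha, sub_zero]
        exact hf2 a (by omega)

end DecG

end Vale.Agent.P202.CharP.Gen
end

section

/-!
P202-GEN, task GEN-5: homology of the truncated window.
-/

namespace Vale.Agent.P202.CharP.Gen

open Submodule TensorProduct IsLocalRing

section

variable {A : Type*} [CommRing A] {V : Type*} [AddCommGroup V] [Module A V]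
  (S : Type*) [CommRing S] [Algebra A S] {ι : Type*} [Fintype ι]

theorem wg_cstab_bcf (d : V →ₗ[A] V) (X : ℤ → Submodule A V) (hX : CStab d X) :
    CStab (d.baseChange S) (bcf S X) := by
  intro p x hx
  have h1 : (X p).map d ≤ X (p + 1) := by
    rintro _ ⟨y, hy, rfl⟩
    exact hX p y hy
  have h2 := baseChange_mono S h1
  rw [baseChange_map] at h2
  exact h2 ⟨x, hx, rfl⟩

theorem wg_bcf_mono {X Y : ℤ → Submodule A V} (h : ∀ p, X p ≤ Y p) (p : ℤ) :
    bcf S X p ≤ bcf S Y p := baseChange_mono S (h p)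

end

section

variable {A : Type*} [CommRing A] [IsLocalRing A] {V : Type*} [AddCommGroup V] [Module A V]
  (S : Type*) [CommRing S] [Algebra A S] [Module.Flat A S] {ι : Type*} [Fintype ι]

end

section W

variable {A : Type*} [CommRing A] {V : Type*} [AddCommGroup V] [Module A V]

variable {d : V →ₗ[A] V} {Y X : ℤ → Submodule A V}

end W

section

variable {A : Type*} [CommRing A] {V : Type*} [AddCommGroup V] [Module A V]
  (S : Type*) [CommRing S] [Algebra A S] {ι : Type*} [Fintype ι]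

end

section

variable {A : Type*} [CommRing A] [IsLocalRing A] {V : Type*} [AddCommGroup V] [Module A V]
  (S : Type*) [CommRing S] [Algebra A S] [Module.Flat A S] {ι : Type*} [Fintype ι]

end

end Vale.Agent.P202.CharP.Gen
end

section

/-!
P202-GEN-7: the core theorem with errors.
-/

namespace Vale.Agent.P202.CharP.Gen

open Submodule TensorProduct IsLocalRing

section CoreG

variable {A : Type*} [CommRing A] [IsLocalRing A] {V : Type*} [AddCommGroup V] [Module A V]
  (S : Type*) [CommRing S] [Algebra A S] [Module.Flat A S] {ι : Type*} [Fintype ι]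

omit [IsLocalRing A] [Module.Flat A S] in
/-- the homology of a lifted pair vanishes outside the range of degrees. -/
lemma cg_hh_out {𝕋 : Type*} [AddCommGroup 𝕋] [Module S 𝕋] (D : 𝕋 →ₗ[S] 𝕋)
    (Y X : ℤ → Submodule S 𝕋) (δ : ℤ) (h : Y δ ≤ X δ) : hh D Y X δ = 0 := by
  rw [hh, rl_eq_zero_iff]
  exact (inf_le_left.trans h).trans le_sup_right

lemma cg_nop (m : ℕ) : (((m : ℤ).negOnePow : ℤˣ) : ℤ) = (-1) ^ m := by
  rw [Int.negOnePow_def, zpow_natCast]
  simp

/-- telescoping. -/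
lemma cg_tele (n : ℕ) (t r : ℤ → ℤ) (hr : ∀ i, t i = r i + r (i + 1))
    (hr' : ∀ i, (n : ℤ) < i → r i = 0) (j : ℕ) (hj : j < n) :
    ∑ i ∈ Finset.Icc ((j : ℤ) + 1) n, ((i.negOnePow : ℤˣ) : ℤ) * t i =
      -((-1) ^ j * r (j + 1)) := by
  obtain ⟨k, rfl⟩ : ∃ k, n = j + 1 + k := ⟨n - (j + 1), by omega⟩
  have key : ∀ k : ℕ, ∑ i ∈ Finset.Icc ((j : ℤ) + 1) ((j + 1 + k : ℕ) : ℤ),
      ((i.negOnePow : ℤˣ) : ℤ) * t i =
      -((-1) ^ j * r (j + 1)) + (-1) ^ (j + 1 + k) * r ((j + 1 + k : ℕ) + 1) := by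
    intro k
    induction k with
    | zero =>
      have : Finset.Icc ((j : ℤ) + 1) ((j + 1 + 0 : ℕ) : ℤ) = {(j : ℤ) + 1} := by
        rw [add_zero]
        push_cast
        exact Finset.Icc_self _
      rw [this, Finset.sum_singleton, hr]
      rw [negOnePow_succ', cg_nop]
      push_cast
      ring_nf
    | succ k ih =>
      have : Finset.Icc ((j : ℤ) + 1) ((j + 1 + (k + 1) : ℕ) : ℤ) =
          insert ((j + 1 + (k + 1) : ℕ) : ℤ) (Finset.Icc ((j : ℤ) + 1) ((j + 1 + k : ℕ) : ℤ)) := by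
        ext x
        simp only [Finset.mem_Icc, Finset.mem_insert]
        omega
      rw [this, Finset.sum_insert (by simp only [Finset.mem_Icc]; omega), ih, hr]
      rw [cg_nop]
      have e2 : (((j + 1 + (k + 1) : ℕ) : ℤ)) = ((j + 1 + k : ℕ) : ℤ) + 1 := by push_cast; ring
      rw [e2]
      ring
  rw [key, hr' (((j + 1 + k : ℕ) : ℤ) + 1) (by omega)]
  ring

omit [IsLocalRing A] [Module.Flat A S] in
lemma cg_cstab (d : V →ₗ[A] V) (X : ℤ → Submodule A V) (hX : CStab d X) :
    CStab (d.baseChange S) (bcf S X) := by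
  intro p x hx
  have h1 : (X p).map d ≤ X (p + 1) := by
    rintro _ ⟨y, hy, rfl⟩
    exact hX p y hy
  have h2 : ((X p).baseChange S).map (d.baseChange S) ≤ (X (p + 1)).baseChange S := by
    rw [← baseChange_map S d (X p)]
    exact Submodule.baseChange_mono S h1
  exact h2 (Submodule.mem_map_of_mem hx)

omit [IsLocalRing A] [Module.Flat A S] in
lemma cg_dd (d : V →ₗ[A] V) (hd : ∀ x, d (d x) = 0) (x : S ⊗[A] V) :
    d.baseChange S (d.baseChange S x) = 0 := by
  have h1 : d.comp d = 0 := LinearMap.ext hd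
  have h2 : (d.baseChange S).comp (d.baseChange S) = 0 := by
    rw [← LinearMap.baseChange_comp, h1, LinearMap.baseChange_zero]
  exact LinearMap.congr_fun h2 x

/-- Euler characteristic estimate. -/
lemma cg_xi_lower (n c : ℕ) (f : ℤ → ℕ∞) (B : ℕ) (h0 : ∀ δ, δ ≤ -(n : ℤ) → f δ = 0)
    (h1 : ∀ δ, δ ≠ 0 → f δ ≤ (B : ℕ∞)) :
    -((2 * n + c) * B : ℤ) ≤ xi (n + c) f := by
  have h2 : ∀ δ ∈ Finset.Icc (-((n + c : ℕ) : ℤ)) ((n + c : ℕ) : ℤ),
      (if δ ∈ Finset.Ioc (-(n : ℤ)) ((n + c : ℕ) : ℤ) then -(B : ℤ) else 0) ≤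
        (δ.negOnePow : ℤ) * ((f δ).toNat : ℤ) := by
    intro δ hδ
    rw [Finset.mem_Icc] at hδ
    by_cases hn : δ ≤ -(n : ℤ)
    · rw [if_neg (by rw [Finset.mem_Ioc]; omega), h0 δ hn]
      simp
    · rw [if_pos (by rw [Finset.mem_Ioc]; omega)]
      by_cases hz : δ = 0
      · subst hz
        simp only [Int.negOnePow_zero, Units.val_one, one_mul]
        have := Int.natCast_nonneg B
        have := Int.natCast_nonneg (f 0).toNat
        omega
      · have h3 : (f δ).toNat ≤ B := ENat.toNat_le_of_le_natCast (h1 δ hz)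
        rcases Int.units_eq_one_or δ.negOnePow with h | h
        · rw [h]
          simp only [Units.val_one, one_mul]
          omega
        · rw [h]
          simp only [Units.val_neg, Units.val_one, neg_mul, one_mul]
          omega
  refine le_trans ?_ (Finset.sum_le_sum h2)
  rw [← Finset.sum_filter]
  have h4 : (Finset.Icc (-((n + c : ℕ) : ℤ)) ((n + c : ℕ) : ℤ)).filter
      (fun δ => δ ∈ Finset.Ioc (-(n : ℤ)) ((n + c : ℕ) : ℤ)) =
      Finset.Ioc (-(n : ℤ)) ((n + c : ℕ) : ℤ) := by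
    ext x
    simp only [Finset.mem_filter, Finset.mem_Icc, Finset.mem_Ioc]
    push_cast
    omega
  rw [h4, Finset.sum_const, Int.card_Ioc]
  have h5 : ((((n + c : ℕ) : ℤ) - -(n : ℤ)).toNat : ℤ) = 2 * n + c := by
    push_cast
    omega
  rw [nsmul_eq_mul]
  have h6 : (((((n + c : ℕ) : ℤ) - -(n : ℤ)).toNat : ℕ) : ℤ) * -(B : ℤ) = -((2 * n + c) * B) := by
    rw [h5]
    ring
  exact h6.ge

/-- the abstract form of the core theorem. -/
theorem cg_abs {𝕋 : Type*} [AddCommGroup 𝕋] [Module S 𝕋] (D : 𝕋 →ₗ[S] 𝕋)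
    (hD : ∀ x, D (D x) = 0) (n c N : ℕ) (L : ℕ → ℤ → Submodule S 𝕋)
    (X G : ℤ → Submodule S 𝕋) (U : ℕ → ℤ → Submodule S 𝕋) (Lst : ∀ j, Stab D (L j))
    (Xst : Stab D X) (Gst : Stab D G) (Lmono : ∀ j δ, L j δ ≤ L (j + 1) δ)
    (XL : ∀ δ, X δ ≤ L 0 δ) (L0G : ∀ δ, L 0 δ ≤ G δ) (GLn : ∀ δ, G δ ≤ L n δ)
    (GU : ∀ j δ, (G δ ⊓ L (j + 1) δ) ⊔ L j δ = U j δ)
    (Lout : ∀ j δ, (δ ≤ -(n : ℤ) ∨ (n : ℤ) + c < δ) → L j δ ≤ X δ) (B : ℕ)
    (b0 : ∀ j, j < n → ∀ δ, hh D (U j) (L j) δ ≠ ⊤)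
    (b1 : ∀ j, j < n → ∀ δ, δ < 0 → hh D (U j) (L j) δ ≤ (B : ℕ∞))
    (b2 : ∀ j, j < n → ∀ δ, 2 ≤ δ → hh D (L (j + 1)) (U j) δ ≤ (B : ℕ∞))
    (b3 : ∀ j, n ≤ j → j < n + N → ∀ δ, 2 ≤ δ → hh D (L (j + 1)) (L j) δ ≤ (B : ℕ∞))
    (χ : ℕ → ℤ) (hχ : ∀ j, j < n → xi (n + c) (hh D (U j) (L j)) = -χ j)
    (low : ∀ δ, δ < 0 → hh D (L 0) X δ = 0) (fin : ∀ δ, hh D (L 0) X δ ≠ ⊤)
    (van : ∀ δ, 1 ≤ δ → zz D (L n) X δ ≤ bb D (L (n + N)) X δ) :
    ∑ j ∈ Finset.range n, χ j - (2 * n + c) * ((n + N) * B : ℕ) ≤ xi (n + c) (hh D (L 0) X) := by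
  classical
  obtain ⟨E, hE⟩ : ∃ E : ℕ → ℤ → Submodule S 𝕋, E = fun j δ => G δ ⊓ L j δ := ⟨_, rfl⟩
  have Lm : ∀ i j, i ≤ j → ∀ δ, L i δ ≤ L j δ := by
    intro i j hij δ
    induction j, hij using Nat.le_induction with
    | base => exact le_rfl
    | succ j _ ih => exact ih.trans (Lmono j δ)
  have Est : ∀ j, Stab D (E j) := by
    intro j δ x hx
    rw [hE] at hx ⊢
    exact ⟨Gst δ x hx.1, Lst j δ x hx.2⟩
  have Emono : ∀ j δ, E j δ ≤ E (j + 1) δ := by
    intro j δ
    rw [hE]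
    exact inf_le_inf_left _ (Lmono j δ)
  have E0 : E 0 = L 0 := by
    rw [hE]
    funext δ
    exact inf_of_le_right (L0G δ)
  have En : E n = G := by
    rw [hE]
    funext δ
    exact inf_of_le_left (GLn δ)
  have XE : ∀ j δ, X δ ≤ E j δ := by
    intro j δ
    induction j with
    | zero => rw [E0]; exact XL δ
    | succ j ih => exact ih.trans (Emono j δ)
  have EL : ∀ j δ, E j δ ≤ L j δ := by
    intro j δ
    rw [hE]
    exact inf_le_right
  have XG : ∀ δ, X δ ≤ G δ := fun δ => (XL δ).trans (L0G δ)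
  have win : ∀ j, ∀ δ, hh D (E (j + 1)) (E j) δ = hh D (U j) (L j) δ := by
    intro j δ
    refine hh_iso D (E j) (E (j + 1)) (L j) (U j) (Est j) (Est (j + 1)) (Lst j) ?_ ?_ δ
    · intro δ
      rw [hE]
      change (G δ ⊓ L (j + 1) δ) ⊓ L j δ = G δ ⊓ L j δ
      rw [inf_assoc, inf_of_le_right (Lmono j δ)]
    · intro δ
      rw [hE]
      exact GU j δ
  -- (a)
  have ha : ∀ j, j ≤ n → ∀ δ, δ < 0 → hh D (E j) X δ ≤ ((j * B : ℕ) : ℕ∞) := by
    intro j hj δ hδ
    induction j with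
    | zero => rw [E0, low δ hδ]; exact zero_le
    | succ j ih =>
      refine (hh_le_add D hD X (E j) (E (j + 1)) Xst (Est j) (Est (j + 1)) (XE j) (Emono j)
        δ).trans ?_
      rw [win j δ]
      have e : (((j + 1) * B : ℕ) : ℕ∞) = (B : ℕ∞) + ((j * B : ℕ) : ℕ∞) := by
        rw [← Nat.cast_add]
        congr 1
        ring
      rw [e]
      exact add_le_add (b1 j (by omega) δ hδ) (ih (by omega))
  have hfinE : ∀ j, j ≤ n → ∀ δ, hh D (E j) X δ ≠ ⊤ := by
    intro j hj δ
    induction j with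
    | zero => rw [E0]; exact fin δ
    | succ j ih =>
      refine ne_top_of_le_ne_top ?_ (hh_le_add D hD X (E j) (E (j + 1)) Xst (Est j)
        (Est (j + 1)) (XE j) (Emono j) δ)
      rw [win j δ]
      exact WithTop.add_ne_top.mpr ⟨b0 j (by omega) δ, ih (by omega)⟩
  have hxi : ∀ j, j ≤ n → xi (n + c) (hh D (E j) X) =
      xi (n + c) (hh D (L 0) X) - ∑ i ∈ Finset.range j, χ i := by
    intro j hj
    induction j with
    | zero => rw [E0]; simp
    | succ j ih =>
      rw [xi_add (n + c) D hD X (E j) (E (j + 1)) Xst (Est j) (Est (j + 1)) (XE j) (Emono j)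
        (fun δ => by rw [win j δ]; exact b0 j (by omega) δ) (hfinE j (by omega)) ?_,
        ih (by omega), Finset.sum_range_succ]
      · have : hh D (E (j + 1)) (E j) = hh D (U j) (L j) := funext (win j)
        rw [this, hχ j (by omega)]
        ring
      · intro δ hδ
        have hδ' : δ ≤ -(n : ℤ) ∨ (n : ℤ) + c < δ := by
          push_cast at hδ
          omega
        constructor
        · exact cg_hh_out S D _ _ δ ((EL _ δ).trans ((Lout _ δ hδ').trans (XE j δ)))
        · exact cg_hh_out S D _ _ δ ((EL _ δ).trans (Lout _ δ hδ'))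
  -- (b)
  obtain ⟨F, hF⟩ : ∃ F : ℕ → ℤ → Submodule S 𝕋, F = fun j δ => G δ ⊔ L j δ := ⟨_, rfl⟩
  have Fst : ∀ j, Stab D (F j) := by
    intro j δ x hx
    rw [hF] at hx ⊢
    obtain ⟨y, hy, z, hz, rfl⟩ := Submodule.mem_sup.mp hx
    rw [map_add]
    exact Submodule.add_mem_sup (Gst δ y hy) (Lst j δ z hz)
  have Fmono : ∀ j δ, F j δ ≤ F (j + 1) δ := by
    intro j δ
    rw [hF]
    exact sup_le_sup_left (Lmono j δ) _
  have F0 : F 0 = G := by
    rw [hF]
    funext δ
    exact sup_of_le_left (L0G δ)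
  have Fn : ∀ j, n ≤ j → F j = L j := by
    intro j hj
    rw [hF]
    funext δ
    exact sup_of_le_right ((GLn δ).trans (Lm n j hj δ))
  have GF : ∀ j δ, G δ ≤ F j δ := by
    intro j δ
    rw [hF]
    exact le_sup_left
  have win2 : ∀ j, ∀ δ, hh D (F (j + 1)) (F j) δ = hh D (L (j + 1)) (U j) δ := by
    intro j δ
    symm
    have hU : Stab D (U j) := by
      intro δ x hx
      rw [← GU j δ] at hx
      rw [← GU j (δ - 1)]
      obtain ⟨y, hy, z, hz, rfl⟩ := Submodule.mem_sup.mp hx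
      rw [map_add]
      exact Submodule.add_mem_sup ⟨Gst δ y hy.1, Lst (j + 1) δ y hy.2⟩ (Lst j δ z hz)
    refine hh_iso D (U j) (L (j + 1)) (F j) (F (j + 1)) hU (Lst (j + 1)) (Fst j) ?_ ?_ δ
    · intro δ
      rw [hF, ← GU j δ]
      change L (j + 1) δ ⊓ (G δ ⊔ L j δ) = _
      rw [inf_comm, sup_comm (G δ), sup_inf_assoc_of_le _ (Lmono j δ), sup_comm]
    · intro δ
      rw [hF]
      change L (j + 1) δ ⊔ (G δ ⊔ L j δ) = G δ ⊔ L (j + 1) δ
      rw [sup_left_comm, sup_of_le_left (Lmono j δ)]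
  have hb : ∀ j, j ≤ n + N → ∀ δ, 2 ≤ δ → hh D (F j) G δ ≤ ((j * B : ℕ) : ℕ∞) := by
    intro j hj δ hδ
    induction j with
    | zero =>
      rw [F0, cg_hh_out S D _ _ δ le_rfl]
      exact zero_le
    | succ j ih =>
      refine (hh_le_add D hD G (F j) (F (j + 1)) Gst (Fst j) (Fst (j + 1)) (GF j) (Fmono j)
        δ).trans ?_
      have e : (((j + 1) * B : ℕ) : ℕ∞) = (B : ℕ∞) + ((j * B : ℕ) : ℕ∞) := by
        rw [← Nat.cast_add]
        congr 1
        ring
      rw [e]
      refine add_le_add ?_ (ih (by omega))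
      by_cases hjn : j < n
      · rw [win2 j δ]
        exact b2 j hjn δ hδ
      · rw [Fn j (by omega), Fn (j + 1) (by omega)]
        exact b3 j (by omega) (by omega) δ hδ
  have hG1 : ∀ δ, 1 ≤ δ → hh D G X δ ≤ (((n + N) * B : ℕ) : ℕ∞) := by
    intro δ hδ
    have h1 : zz D G X δ ≤ bb D (L (n + N)) X δ :=
      (inf_le_inf_right _ (GLn δ)).trans (van δ hδ)
    refine (hh_le_of_zz_le D hD X G (L (n + N)) Xst Gst (Lst _) XG
      (fun δ => (GLn δ).trans (Lm n (n + N) (by omega) δ)) δ h1).trans ?_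
    have h2 := hb (n + N) le_rfl (δ + 1) (by omega)
    rwa [Fn (n + N) (by omega)] at h2
  have hG2 : ∀ δ, δ < 0 → hh D G X δ ≤ (((n + N) * B : ℕ) : ℕ∞) := by
    intro δ hδ
    have h1 := ha n le_rfl δ hδ
    rw [En] at h1
    refine h1.trans ?_
    exact_mod_cast Nat.mul_le_mul_right B (Nat.le_add_right n N)
  have hG3 : ∀ δ, δ ≤ -(n : ℤ) → hh D G X δ = 0 := fun δ hδ =>
    cg_hh_out S D _ _ δ ((GLn δ).trans (Lout n δ (Or.inl hδ)))
  have h1 := cg_xi_lower n c (hh D G X) ((n + N) * B) hG3 (by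
    intro δ hδ
    rcases lt_or_gt_of_ne hδ with h | h
    · exact hG2 δ h
    · exact hG1 δ (by omega))
  have h2 := hxi n le_rfl
  rw [En] at h2
  rw [h2] at h1
  linarith

end CoreG

end Vale.Agent.P202.CharP.Gen
end

section

set_option linter.all false

/-!
P202-G3-C6: the core theorem.
-/

namespace Vale.Agent.P202.CharP.Gen2

open Submodule TensorProduct Gen

section Core3Aux

variable {P : Type*} [CommRing P] {V : Type*} [AddCommGroup V] [Module P V]
  (S : Type*) [CommRing S] [Algebra P S] {ι : Type*} [Fintype ι]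

/-- the truncated family through the décalage family. -/
lemma core3_tg_eq (deg : ι → ℤ) (Q : Matrix ι ι S) (hQ : IsCx deg Q) (hdeg : ∀ a, 0 ≤ deg a)
    (d : V →ₗ[P] V) (Y X : ℤ → Submodule P V) (hX : CStab d X) (hY : CStab d Y)
    (hXY : ∀ p, X p ≤ Y p) (j : ℕ) :
    ∃ G : ℤ → Submodule S (ι → S ⊗[P] V), Stab (tot deg Q (d.baseChange S)) G ∧
      ∀ δ, G δ ⊓ lift deg (bcf S Y) δ ⊔ lift deg (bcf S X) δ = TG S deg Q j Y X δ := by
  obtain ⟨W, hW⟩ : ∃ W : ℕ → ℤ → Submodule P V, W = fun k => if k ≤ j then X else Y := ⟨_, rfl⟩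
  have hWj : W j = X := by rw [hW]; simp
  have hWj1 : W (j + 1) = Y := by rw [hW]; simp
  have hst : ∀ k, CStab d (W k) := by
    intro k
    rw [hW]
    dsimp only
    split_ifs
    · exact hX
    · exact hY
  have mono : ∀ k p, W k p ≤ W (k + 1) p := by
    intro k p
    rw [hW]
    dsimp only
    split_ifs with h1 h2 h2
    · exact le_rfl
    · exact hXY p
    · omega
    · exact le_rfl
  refine ⟨GG S deg Q W, gg_stab S deg Q hQ hdeg d W hst, fun δ => ?_⟩
  have h := gg_tg S deg Q hQ hdeg W mono j δ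
  rw [hWj, hWj1] at h
  exact h

/-- a window in large degrees. -/
lemma core3_toNat_le {c lam : ℕ} {ε l : ℕ} {k : ℕ∞} (hk : k ≠ ⊤)
    (h : |(c : ℤ) * (k.toNat : ℤ) - (lam : ℤ) * (l : ℤ) * ((0 : ℕ) : ℤ)| ≤ (ε : ℤ)) :
    (c : ℕ∞) * k ≤ (ε : ℕ∞) := by
  have h1 : (c : ℤ) * (k.toNat : ℤ) ≤ ε := by
    have := (abs_le.mp h).2
    simpa using this
  have h5 : c * k.toNat ≤ ε := by exact_mod_cast h1
  rw [← ENat.natCast_toNat hk]
  exact_mod_cast h5

/-- division by the factor on the left. -/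
lemma core3_div {c m : ℕ} (hc : 1 ≤ c) {k : ℕ∞} (h : (c : ℕ∞) * k ≤ (m : ℕ∞)) :
    k ≤ ((m / c : ℕ) : ℕ∞) := by
  have hk : k ≠ ⊤ := by
    rintro rfl
    rw [ENat.mul_top (by exact_mod_cast (by omega : c ≠ 0))] at h
    exact absurd h (by simp)
  rw [← ENat.natCast_toNat hk] at h ⊢
  have h1 : c * k.toNat ≤ m := by exact_mod_cast h
  have h2 : k.toNat ≤ m / c := (Nat.le_div_iff_mul_le (by omega)).mpr (by rw [mul_comm]; exact h1)
  exact_mod_cast h2

/-- restriction of the range of a two-sided Euler characteristic. -/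
lemma core3_xi_range (m k : ℕ) (f : ℤ → ℕ∞) (hmk : m ≤ k)
    (h : ∀ δ, (δ < -(m : ℤ) ∨ (m : ℤ) < δ) → f δ = 0) : xi k f = xi m f := by
  rw [xi, xi]
  symm
  refine Finset.sum_subset ?_ ?_
  · intro x hx
    rw [Finset.mem_Icc] at hx ⊢
    omega
  · intro x hx hx'
    rw [Finset.mem_Icc] at hx hx'
    rw [h x (by omega)]
    simp

/-- comparison of the Euler characteristic of a window with its main term. -/
lemma core3_est (n c₀ j : ℕ) (K : ℤ → ℤ → ℕ∞) (c lam : ℕ) (l : ℤ → ℕ) (t : ℤ → ℕ) (ε : ℕ)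
    (E : ∀ p i : ℤ, |(c : ℤ) * ((K p i).toNat : ℤ) - (lam : ℤ) * (l p : ℤ) * (t i : ℤ)| ≤
      (ε : ℤ)) :
    (c : ℤ) * (∑ p ∈ Finset.range n, (-1 : ℤ) ^ p * ∑ i ∈ Finset.Icc ((j : ℤ) + 1) c₀,
        (i.negOnePow : ℤ) * ((K p i).toNat : ℤ)) ≤
      (lam : ℤ) * (∑ p ∈ Finset.range n, (-1 : ℤ) ^ p * (l p : ℤ)) *
        (∑ i ∈ Finset.Icc ((j : ℤ) + 1) c₀, (i.negOnePow : ℤ) * (t i : ℤ)) +
      n * (c₀ + 1) * ε := by
  have hu : ∀ i : ℤ, |((i.negOnePow : ℤˣ) : ℤ)| = 1 := by
    intro i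
    rcases Int.units_eq_one_or i.negOnePow with h | h <;> rw [h] <;> simp
  have e1 : (c : ℤ) * (∑ p ∈ Finset.range n, (-1 : ℤ) ^ p * ∑ i ∈ Finset.Icc ((j : ℤ) + 1) c₀,
        (i.negOnePow : ℤ) * ((K p i).toNat : ℤ)) -
      (lam : ℤ) * (∑ p ∈ Finset.range n, (-1 : ℤ) ^ p * (l p : ℤ)) *
        (∑ i ∈ Finset.Icc ((j : ℤ) + 1) c₀, (i.negOnePow : ℤ) * (t i : ℤ)) =
      ∑ p ∈ Finset.range n, ∑ i ∈ Finset.Icc ((j : ℤ) + 1) c₀, (-1 : ℤ) ^ p *
        ((i.negOnePow : ℤ) * ((c : ℤ) * ((K p i).toNat : ℤ) -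
          (lam : ℤ) * (l p : ℤ) * (t i : ℤ))) := by
    rw [Finset.mul_sum, mul_assoc, Finset.sum_mul_sum, Finset.mul_sum, ← Finset.sum_sub_distrib]
    refine Finset.sum_congr rfl fun p _ => ?_
    rw [Finset.mul_sum, Finset.mul_sum, Finset.mul_sum, ← Finset.sum_sub_distrib]
    refine Finset.sum_congr rfl fun i _ => ?_
    ring
  have e2 : ∑ p ∈ Finset.range n, ∑ i ∈ Finset.Icc ((j : ℤ) + 1) c₀, (-1 : ℤ) ^ p *
        ((i.negOnePow : ℤ) * ((c : ℤ) * ((K p i).toNat : ℤ) -
          (lam : ℤ) * (l p : ℤ) * (t i : ℤ))) ≤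
      ∑ _p ∈ Finset.range n, ∑ _i ∈ Finset.Icc ((j : ℤ) + 1) (c₀ : ℤ), (ε : ℤ) := by
    refine Finset.sum_le_sum fun p _ => Finset.sum_le_sum fun i _ => ?_
    refine (le_abs_self _).trans ?_
    rw [abs_mul, abs_mul, hu i, abs_pow, abs_neg, abs_one, one_pow, one_mul, one_mul]
    exact E p i
  have e3 : ∑ _p ∈ Finset.range n, ∑ _i ∈ Finset.Icc ((j : ℤ) + 1) (c₀ : ℤ), (ε : ℤ) ≤
      n * (c₀ + 1) * ε := by
    rw [Finset.sum_const, Finset.sum_const, Int.card_Icc, Finset.card_range, nsmul_eq_mul,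
      nsmul_eq_mul, ← mul_assoc]
    have h1 : ((((c₀ : ℤ) + 1 - ((j : ℤ) + 1)).toNat : ℕ) : ℤ) ≤ (c₀ : ℤ) + 1 := by omega
    have h2 : (0 : ℤ) ≤ (n : ℤ) := Int.natCast_nonneg _
    have h3 : (0 : ℤ) ≤ (ε : ℤ) := Int.natCast_nonneg _
    exact mul_le_mul_of_nonneg_right (mul_le_mul_of_nonneg_left h1 h2) h3
  linarith

end Core3Aux

variable {P : Type*} [CommRing P] {V : Type*} [AddCommGroup V] [Module P V]
  (S : Type*) [CommRing S] [Algebra P S] [Module.Flat P S] {ι : Type*} [Fintype ι]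

/-- TASK G3-C6: the core theorem. -/
theorem core3_c (deg : ι → ℤ) (Q : Matrix ι ι S) (hQ : IsCx deg Q) (n c₀ : ℕ) (hn : 1 ≤ n)
    (hnc : n ≤ c₀) (hdeg : ∀ a, 0 ≤ deg a ∧ deg a ≤ c₀) (d : V →ₗ[P] V)
    (hd : ∀ x, d (d x) = 0) (N : ℕ)
    (W : ℕ → ℤ → Submodule P V) (hW : ∀ j, CStab d (W j)) (mono : ∀ j p, W j p ≤ W (j + 1) p)
    (Winf : ℤ → Submodule P V) (hWinf : CStab d Winf) (monoinf : ∀ p, Winf p ≤ W 0 p)
    (hout : ∀ j p, (p < 0 ∨ (n : ℤ) ≤ p) → W j p ≤ Winf p)
    (P₀ : ℕ → ℤ) (hP1 : ∀ j : ℕ, j < n → (j : ℤ) - 1 ≤ P₀ j ∧ P₀ j ≤ j)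
    (hP2 : ∀ j : ℕ, n ≤ j → P₀ j = n - 1)
    (ex : ∀ j, j < n + N → ∀ p, p ≠ P₀ j → Ex d (W (j + 1)) (W j) p)
    (c lam : ℕ) (hc : 1 ≤ c) (t : ℤ → ℕ) (ht : ∀ i, (n : ℤ) < i → t i = 0)
    (r : ℤ → ℤ) (hr : ∀ i, (t i : ℤ) = r i + r (i + 1)) (hr' : ∀ i, (n : ℤ) < i → r i = 0)
    (ε : ℕ) (E : ∀ j, j < n + N → ∀ p, Est S deg Q c lam t ε (W j p) (W (j + 1) p))
    (low : ∀ δ, δ < 0 → hh (tot deg Q (d.baseChange S)) (lift deg (bcf S (W 0)))
      (lift deg (bcf S Winf)) δ = 0)
    (fin : ∀ δ, hh (tot deg Q (d.baseChange S)) (lift deg (bcf S (W 0)))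
      (lift deg (bcf S Winf)) δ ≠ ⊤)
    (van : ∀ δ, 1 ≤ δ → zz (tot deg Q (d.baseChange S)) (lift deg (bcf S (W n)))
      (lift deg (bcf S Winf)) δ ≤ bb (tot deg Q (d.baseChange S)) (lift deg (bcf S (W (n + N))))
      (lift deg (bcf S Winf)) δ) :
    ∑ j ∈ Finset.range n, (-1 : ℤ) ^ j * (lam : ℤ) *
        (∑ p ∈ Finset.range n, (-1 : ℤ) ^ p * ((rl (W j p) (W (j + 1) p)).toNat : ℤ)) *
          r (j + 1) -
        ((n + c₀ + 1) * (n + N) * (n + 3) + n * n * (c₀ + 1)) * ε ≤
      c * ∑ i ∈ Finset.range (c₀ + 1), (-1 : ℤ) ^ i *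
        ((hh (tot deg Q (d.baseChange S)) (lift deg (bcf S (W 0)))
          (lift deg (bcf S Winf)) (i : ℤ)).toNat : ℤ) := by
  classical
  obtain ⟨c', rfl⟩ : ∃ c', c₀ = n + c' := ⟨c₀ - n, by omega⟩
  have hdS := cg_dd S d hd
  have hD : ∀ x, (tot deg Q (d.baseChange S)) ((tot deg Q (d.baseChange S)) x) = 0 :=
    fun f => tot_tot deg Q hQ (d.baseChange S) hdS f
  have Lst : ∀ j, Stab (tot deg Q (d.baseChange S)) (lift deg (bcf S (W j))) := fun j =>
    lift_stab deg Q hQ (d.baseChange S) _ (cg_cstab S d _ (hW j))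
  have X0st : Stab (tot deg Q (d.baseChange S)) (lift deg (bcf S Winf)) :=
    lift_stab deg Q hQ (d.baseChange S) _ (cg_cstab S d _ hWinf)
  have Wm : ∀ i j, i ≤ j → ∀ p, W i p ≤ W j p := by
    intro i j hij p
    induction j, hij using Nat.le_induction with
    | base => exact le_rfl
    | succ j _ ih => exact ih.trans (mono j p)
  obtain ⟨W', hW'⟩ : ∃ W' : ℕ → ℤ → Submodule P V, W' = fun k => W (min k n) := ⟨_, rfl⟩
  have mono' : ∀ k p, W' k p ≤ W' (k + 1) p := by
    intro k p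
    rw [hW']
    exact Wm _ _ (by omega) p
  have W'eq : ∀ k, k ≤ n → W' k = W k := by
    intro k hk
    rw [hW']
    dsimp only
    rw [min_eq_left hk]
  have Gst : Stab (tot deg Q (d.baseChange S)) (GG S deg Q W') :=
    gg_stab S deg Q hQ (fun a => (hdeg a).1) d W' (fun k => by rw [hW']; exact hW _)
  have Lmono : ∀ j δ, lift deg (bcf S (W j)) δ ≤ lift deg (bcf S (W (j + 1))) δ := fun j δ =>
    lift_mono deg (fun p => Submodule.baseChange_mono S (mono j p)) δ
  have X0L : ∀ δ, lift deg (bcf S Winf) δ ≤ lift deg (bcf S (W 0)) δ := fun δ =>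
    lift_mono deg (fun p => Submodule.baseChange_mono S (monoinf p)) δ
  have L0G : ∀ δ, lift deg (bcf S (W 0)) δ ≤ GG S deg Q W' δ := by
    intro δ
    have := lift_le_gg S deg Q hQ W' mono' δ
    rwa [W'eq 0 (by omega)] at this
  have GLn : ∀ δ, GG S deg Q W' δ ≤ lift deg (bcf S (W n)) δ := by
    intro δ
    have h1 := gg_le_lift S deg Q (n + c') hdeg W' mono' δ
    have h2 : W' (n + c') = W n := by
      rw [hW']
      dsimp only
      rw [min_eq_right (by omega)]
    rwa [h2] at h1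
  have GTG : ∀ j : ℕ, j < n → ∀ δ, (GG S deg Q W' δ ⊓ lift deg (bcf S (W (j + 1))) δ) ⊔
      lift deg (bcf S (W j)) δ = TG S deg Q j (W (j + 1)) (W j) δ := by
    intro j hj δ
    have := gg_tg S deg Q hQ (fun a => (hdeg a).1) W' mono' j δ
    rwa [W'eq j (by omega), W'eq (j + 1) (by omega)] at this
  have hout1 : ∀ j p, (p < 0 ∨ (n : ℤ) ≤ p) → W (j + 1) p ≤ W j p := fun j p hp =>
    (hout (j + 1) p hp).trans ((monoinf p).trans (Wm 0 j (by omega) p))
  have hout2 : ∀ j δ, (δ ≤ -(n : ℤ) ∨ (n : ℤ) + c' < δ) →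
      lift deg (bcf S (W j)) δ ≤ lift deg (bcf S Winf) δ := by
    intro j δ hδ f hf
    rw [mem_lift] at hf ⊢
    intro a
    have h1 := hdeg a
    push_cast at h1
    exact Submodule.baseChange_mono S (hout j _ (by omega)) (hf a)
  obtain ⟨U, hU⟩ : ∃ U : ℕ → ℤ → Submodule S (ι → S ⊗[P] V), U = fun j δ =>
      (GG S deg Q W' δ ⊓ lift deg (bcf S (W (j + 1))) δ) ⊔ lift deg (bcf S (W j)) δ := ⟨_, rfl⟩
  have hUT : ∀ j : ℕ, j < n → U j = TG S deg Q j (W (j + 1)) (W j) := by
    intro j hj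
    rw [hU]
    funext δ
    exact GTG j hj δ
  have hexp : ∀ j, j < n + N → ∀ p i, khs deg Q ((W (j + 1) p).baseChange S)
      ((W j p).baseChange S) i ≠ ⊤ := fun j hj p i =>
    ((E j hj p).2 (W j p) (W (j + 1) p) le_rfl (mono j p) le_rfl i).1
  have hEst : ∀ j, j < n + N → ∀ p i, |(c : ℤ) * ((khs deg Q ((W (j + 1) p).baseChange S)
      ((W j p).baseChange S) i).toNat : ℤ) -
      (lam : ℤ) * ((rl (W j p) (W (j + 1) p)).toNat : ℤ) * (t i : ℤ)| ≤ (ε : ℤ) :=
    fun j hj p i => ((E j hj p).2 (W j p) (W (j + 1) p) le_rfl (mono j p) le_rfl i).2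
  have h3 : ((3 * ε : ℕ) : ℕ∞) ≤ (((n + 3) * ε : ℕ) : ℕ∞) := by
    exact_mod_cast Nat.mul_le_mul_right ε (by omega)
  have main := cg_abs S (tot deg Q (d.baseChange S)) hD n c' N
    (fun j => lift deg (bcf S (W j))) (lift deg (bcf S Winf)) (GG S deg Q W')
    U Lst X0st Gst Lmono X0L L0G GLn (fun j δ => by rw [hU])
    (fun j δ hδ => hout2 j δ hδ) ((n + 3) * ε / c)
    (fun j hj δ => by
      rw [hUT j hj]
      refine ne_top_of_le_ne_top ?_ (tg_col S deg Q hQ d hd _ _ (hW j) (hW (j + 1)) (mono j) n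
        (hout1 j) j δ)
      refine (WithTop.sum_ne_top).mpr fun p _ => ?_
      split_ifs
      · exact hexp j (by omega) _ _
      · exact ENat.zero_ne_top)
    (fun j hj δ hδ => by
      rw [hUT j hj]
      refine core3_div hc ?_
      refine (tg_low3_c S deg Q hQ d hd _ _ (hW j) (hW (j + 1)) (mono j) c lam hc t ε
        (E j (by omega)) (P₀ j) (ex j (by omega)) j δ ?_).trans h3
      have := hP1 j hj
      omega)
    (fun j hj δ hδ => by
      rw [hUT j hj]
      refine core3_div hc ?_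
      refine (tg_up3_c S deg Q hQ d hd _ _ (hW j) (hW (j + 1)) (mono j) c lam hc t ε
        (E j (by omega)) (P₀ j) (ex j (by omega)) j δ ?_).trans h3
      have := hP1 j hj
      omega)
    (fun j hj1 hj2 δ hδ => by
      obtain ⟨G, hG, hGT⟩ := core3_tg_eq S deg Q hQ (fun a => (hdeg a).1) d (W (j + 1)) (W j)
        (hW j) (hW (j + 1)) (mono j) n
      have hTst : Stab (tot deg Q (d.baseChange S)) (TG S deg Q n (W (j + 1)) (W j)) := by
        intro δ x hx
        rw [← hGT δ] at hx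
        rw [← hGT (δ - 1)]
        obtain ⟨y, hy, z, hz, rfl⟩ := Submodule.mem_sup.mp hx
        rw [map_add]
        exact Submodule.add_mem_sup ⟨hG δ y hy.1, Lst (j + 1) δ y hy.2⟩ (Lst j δ z hz)
      have hXT : ∀ δ, lift deg (bcf S (W j)) δ ≤ TG S deg Q n (W (j + 1)) (W j) δ := by
        intro δ
        rw [← hGT δ]
        exact le_sup_right
      have hTY : ∀ δ, TG S deg Q n (W (j + 1)) (W j) δ ≤ lift deg (bcf S (W (j + 1))) δ := by
        intro δ
        rw [← hGT δ]
        exact sup_le inf_le_right (Lmono j δ)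
      refine core3_div hc ?_
      refine (mul_le_mul_right (hh_le_add _ hD _ _ _ (Lst j) hTst (Lst (j + 1)) hXT hTY δ)
        (c : ℕ∞)).trans ?_
      have e1 := tg_up3_c S deg Q hQ d hd _ _ (hW j) (hW (j + 1)) (mono j) c lam hc t ε
        (E j hj2) (P₀ j) (ex j hj2) n δ (by rw [hP2 j hj1]; omega)
      have e2 := tg_col S deg Q hQ d hd _ _ (hW j) (hW (j + 1)) (mono j) n
        (hout1 j) n δ
      have e3 : (c : ℕ∞) * (∑ p ∈ Finset.range n, if (n : ℤ) + 1 ≤ δ + p then
          khs deg Q ((W (j + 1) p).baseChange S) ((W j p).baseChange S) (δ + p) else 0) ≤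
          ((n * ε : ℕ) : ℕ∞) := by
        have e4 : ∀ p ∈ Finset.range n, (c : ℕ∞) * (if (n : ℤ) + 1 ≤ δ + p then
          khs deg Q ((W (j + 1) p).baseChange S) ((W j p).baseChange S) (δ + p) else 0) ≤
            (ε : ℕ∞) := by
          intro p _
          split_ifs with hq
          · have e5 := hEst j hj2 p (δ + p)
            rw [ht (δ + p) (by omega)] at e5
            exact core3_toNat_le (hexp j hj2 _ _) e5
          · rw [mul_zero]
            exact zero_le
        rw [Finset.mul_sum]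
        refine (Finset.sum_le_sum e4).trans ?_
        rw [Finset.sum_const, Finset.card_range, nsmul_eq_mul]
        exact_mod_cast le_rfl
      rw [mul_add]
      refine (add_le_add e1 ((mul_le_mul_right e2 (c : ℕ∞)).trans e3)).trans ?_
      rw [← Nat.cast_add]
      exact_mod_cast (by ring_nf; exact le_rfl : 3 * ε + n * ε ≤ (n + 3) * ε))
    (fun j => - xi (n + c') (hh (tot deg Q (d.baseChange S)) (U j) (lift deg (bcf S (W j)))))
    (fun j _ => by ring)
    low fin van
  have hxi : xi (n + c') (hh (tot deg Q (d.baseChange S)) (lift deg (bcf S (W 0)))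
      (lift deg (bcf S Winf))) = ∑ i ∈ Finset.range (n + c' + 1), (-1 : ℤ) ^ i *
        ((hh (tot deg Q (d.baseChange S)) (lift deg (bcf S (W 0)))
          (lift deg (bcf S Winf)) (i : ℤ)).toNat : ℤ) := by
    rw [xi]
    symm
    refine Finset.sum_of_injOn (fun i : ℕ => (i : ℤ)) ?_ ?_ ?_ ?_
    · intro i _ j _ hij
      simpa using hij
    · intro i hi
      simp only [Finset.coe_range, Set.mem_Iio] at hi
      simp only [Finset.coe_Icc, Set.mem_Icc]
      push_cast
      omega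
    · intro δ hδ hδ'
      have : δ < 0 := by
        by_contra hc
        apply hδ'
        rw [Finset.mem_Icc] at hδ
        refine ⟨δ.toNat, ?_, ?_⟩
        · simp only [Finset.coe_range, Set.mem_Iio]
          push_cast at hδ
          omega
        · simp only
          omega
      rw [low δ this]
      simp
    · intro i _
      rw [cg_nop]
  have hwin : ∀ j, j < n → (c : ℤ) * xi (n + c') (hh (tot deg Q (d.baseChange S)) (U j)
      (lift deg (bcf S (W j)))) ≤
      -((-1 : ℤ) ^ j * (lam : ℤ) * (∑ p ∈ Finset.range n, (-1 : ℤ) ^ p *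
        ((rl (W j p) (W (j + 1) p)).toNat : ℤ)) * r (j + 1)) +
        n * ((n + c' : ℕ) + 1) * ε := by
    intro j hj
    have x1 : xi (n + (n + c')) (hh (tot deg Q (d.baseChange S)) (U j)
        (lift deg (bcf S (W j)))) = xi (n + c') (hh (tot deg Q (d.baseChange S)) (U j)
        (lift deg (bcf S (W j)))) := by
      apply core3_xi_range
      · omega
      · intro δ hδ
        push_cast at hδ
        apply cg_hh_out
        have h1 : lift deg (bcf S (W (j + 1))) δ ≤ lift deg (bcf S (W j)) δ := by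
          intro f hf
          rw [mem_lift] at hf ⊢
          intro a
          have h1 := hdeg a
          push_cast at h1
          exact Submodule.baseChange_mono S (hout1 j _ (by omega)) (hf a)
        rw [hU]
        exact sup_le (inf_le_right.trans h1) le_rfl
    rw [← x1, hUT j hj, tg_xi3 S deg Q hQ (n + c') hdeg d hd _ _ (hW j) (hW (j + 1)) (mono j) n
      (hout1 j) (hexp j (by omega)) j (by omega)]
    refine (core3_est n (n + c') j (fun p i => khs deg Q ((W (j + 1) p).baseChange S)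
      ((W j p).baseChange S) i) c lam (fun p => (rl (W j p) (W (j + 1) p)).toNat) t ε
      (hEst j (by omega))).trans ?_
    rw [cg_tele (n + c') (fun i => (t i : ℤ)) r hr (fun i hi => hr' i (by push_cast at hi; omega))
      j (by omega)]
    apply le_of_eq
    ring
  have hsum : (c : ℤ) * ∑ j ∈ Finset.range n, - xi (n + c') (hh (tot deg Q (d.baseChange S)) (U j)
      (lift deg (bcf S (W j)))) ≥
      ∑ j ∈ Finset.range n, (-1 : ℤ) ^ j * (lam : ℤ) *
        (∑ p ∈ Finset.range n, (-1 : ℤ) ^ p * ((rl (W j p) (W (j + 1) p)).toNat : ℤ)) *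
          r (j + 1) - n * (n * ((n + c' : ℕ) + 1) * ε) := by
    rw [Finset.mul_sum, ge_iff_le, sub_le_iff_le_add]
    have h1 : (n : ℤ) * (n * ((n + c' : ℕ) + 1) * ε) =
        ∑ _j ∈ Finset.range n, (n : ℤ) * ((n + c' : ℕ) + 1) * ε := by
      rw [Finset.sum_const, Finset.card_range, nsmul_eq_mul]
    rw [h1, ← Finset.sum_add_distrib]
    refine Finset.sum_le_sum fun j hj => ?_
    have := hwin j (Finset.mem_range.mp hj)
    linarith
  rw [← hxi]
  have hc0 : (0 : ℤ) ≤ (c : ℤ) := Int.natCast_nonneg _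
  have h4 := mul_le_mul_of_nonneg_left main hc0
  rw [mul_sub] at h4
  have h5 : (c : ℤ) * ((2 * n + c') * (((n + N) * ((n + 3) * ε / c) : ℕ) : ℤ)) ≤
      (n + (n + c' : ℕ) + 1) * (n + N) * (n + 3) * ε := by
    have h6 : c * ((n + N) * ((n + 3) * ε / c)) ≤ (n + N) * ((n + 3) * ε) := by
      rw [mul_left_comm]
      exact Nat.mul_le_mul_left _ (Nat.mul_div_le _ _)
    have h6' : (c : ℤ) * (((n + N) * ((n + 3) * ε / c) : ℕ) : ℤ) ≤ (n + N) * ((n + 3) * ε) := by
      exact_mod_cast h6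
    have h8 : (0 : ℤ) ≤ (n + N) * ((n + 3) * ε) := by positivity
    have h9 : (c : ℤ) * ((2 * n + c') * (((n + N) * ((n + 3) * ε / c) : ℕ) : ℤ)) ≤
        (2 * n + c') * ((n + N) * ((n + 3) * ε)) := by
      rw [mul_left_comm]
      exact mul_le_mul_of_nonneg_left h6' (by positivity)
    refine h9.trans ?_
    push_cast
    nlinarith
  have h7 : (((n + c' : ℕ) : ℤ)) = (n : ℤ) + c' := by push_cast; ring
  nlinarith [h4, h5, hsum]

end Vale.Agent.P202.CharP.Gen2
end

section

/-!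
P202-G3-H4: the Künneth formula with errors.
-/

namespace Vale.Agent.P202.CharP.Gen2

open Submodule TensorProduct IsLocalRing Gen

section Kun

variable {A : Type*} [CommRing A] [IsLocalRing A] {V : Type*} [AddCommGroup V] [Module A V]

/-- finite length modules over a local ring are killed by a power of the maximal ideal. -/
lemma kun_exists_pow (X Y : Submodule A V) (hfin : rl X Y ≠ ⊤) :
    ∃ p : ℕ, maximalIdeal A ^ p • Y ≤ X := by
  have hJ : Module.length A (↥Y ⧸ X.submoduleOf Y) ≠ ⊤ := hfin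
  set J := X.submoduleOf Y with hJd
  obtain ⟨hNo, hAr⟩ := isFiniteLength_iff_isNoetherian_isArtinian.mp
    (Module.length_ne_top_iff.mp hJ)
  obtain ⟨k, hk⟩ : ∃ k : ℕ, maximalIdeal A ^ k • (⊤ : Submodule A (↥Y ⧸ J)) = ⊥ := by
    let f : ℕ →o (Submodule A (↥Y ⧸ J))ᵒᵈ :=
      ⟨fun k => OrderDual.toDual (maximalIdeal A ^ k • ⊤), fun a b hab =>
        Submodule.smul_mono_left (Ideal.pow_le_pow_right hab)⟩
    obtain ⟨k, hk⟩ := IsArtinian.monotone_stabilizes f
    refine ⟨k, ?_⟩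
    have h1 : maximalIdeal A ^ k • (⊤ : Submodule A (↥Y ⧸ J))
        = maximalIdeal A ^ (k + 1) • ⊤ := hk (k + 1) (Nat.le_succ k)
    refine Submodule.eq_bot_of_le_smul_of_le_jacobson_bot (maximalIdeal A) _
      (IsNoetherian.noetherian _) ?_ (IsLocalRing.maximalIdeal_le_jacobson _)
    rw [← mul_smul, ← pow_succ']
    exact h1.le
  refine ⟨k, ?_⟩
  have h2 : (maximalIdeal A ^ k • (⊤ : Submodule A Y)).map J.mkQ = ⊥ := by
    rw [Submodule.map_smul'', Submodule.map_top, Submodule.range_mkQ, hk]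
  have h3 : maximalIdeal A ^ k • (⊤ : Submodule A Y) ≤ J := by
    intro v hv
    have h3 : J.mkQ v ∈ (maximalIdeal A ^ k • (⊤ : Submodule A Y)).map J.mkQ := ⟨v, hv, rfl⟩
    rw [h2, Submodule.mem_bot, Submodule.mkQ_apply, Submodule.Quotient.mk_eq_zero] at h3
    exact h3
  have h4 := Submodule.map_mono (f := Y.subtype) h3
  rw [Submodule.map_smul'', Submodule.map_top, Submodule.range_subtype] at h4
  refine h4.trans ?_
  rintro _ ⟨x, hx, rfl⟩
  exact hx

variable (S : Type*) [CommRing S] [Algebra A S] {ι : Type*} [Fintype ι]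

omit [IsLocalRing A] in
lemma kun_khs_self (deg : ι → ℤ) (Q : Matrix ι ι S) {M : Type*} [AddCommGroup M] [Module S M]
    (Y : Submodule S M) (i : ℤ) : khs deg Q Y Y i = 0 := by
  rw [khs, hh, rl_eq_zero_iff]
  exact inf_le_left.trans le_sup_right

omit [IsLocalRing A] in
lemma kun_khs_le_add (deg : ι → ℤ) (Q : Matrix ι ι S) (hQ : IsCx deg Q) {M : Type*}
    [AddCommGroup M] [Module S M] (X Y Z : Submodule S M) (hXY : X ≤ Y) (hYZ : Y ≤ Z) (i : ℤ) :
    khs deg Q Z X i ≤ khs deg Q Z Y i + khs deg Q Y X i :=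
  hh_le_add (tot deg Q (0 : M →ₗ[S] M)) (TR.tot_tot' deg Q hQ 0 (fun x => by simp))
    (lift deg (conc X)) (lift deg (conc Y)) (lift deg (conc Z))
    (TR.lift_stab' deg Q hQ 0 _ (conn_cstab _)) (TR.lift_stab' deg Q hQ 0 _ (conn_cstab _))
    (TR.lift_stab' deg Q hQ 0 _ (conn_cstab _)) (conn_lift_mono deg (conn_conc_mono hXY))
    (conn_lift_mono deg (conn_conc_mono hYZ)) i

variable [Module.Flat A S]

/-- TASK G3-H4: a module of finite length. -/
theorem khs_le (deg : ι → ℤ) (Q : Matrix ι ι S) (hQ : IsCx deg Q) (X Y : Submodule A V)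
    (hXY : X ≤ Y) (hfin : rl X Y ≠ ⊤) (i : ℤ) :
    khs deg Q (Y.baseChange S) (X.baseChange S) i ≤
      rl X Y * kh deg Q (S ⧸ (maximalIdeal A).map (algebraMap A S)) i := by
  obtain ⟨p, hp⟩ := kun_exists_pow X Y hfin
  have hle : ∀ j, X ⊔ maximalIdeal A ^ j • Y ≤ Y := fun j => sup_le hXY Submodule.smul_le_right
  have key : ∀ j, khs deg Q (Y.baseChange S) ((X ⊔ maximalIdeal A ^ j • Y).baseChange S) i ≤
      rl (X ⊔ maximalIdeal A ^ j • Y) Y *
        kh deg Q (S ⧸ (maximalIdeal A).map (algebraMap A S)) i := by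
    intro j
    induction j with
    | zero =>
      have h1 : X ⊔ maximalIdeal A ^ 0 • Y = Y := by
        rw [pow_zero, Ideal.one_eq_top, Submodule.top_smul]
        exact sup_eq_right.2 hXY
      rw [h1, kun_khs_self]
      exact zero_le
    | succ j ih =>
      set Z := X ⊔ maximalIdeal A ^ j • Y with hZ
      set Z' := X ⊔ maximalIdeal A ^ (j + 1) • Y with hZ'
      have h1 : Z' ≤ Z := sup_le_sup_left
        (Submodule.smul_mono_left (Ideal.pow_le_pow_right (Nat.le_succ j))) X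
      have h2 : maximalIdeal A • Z ≤ Z' := by
        rw [hZ, Submodule.smul_sup]
        refine sup_le (Submodule.smul_le_right.trans le_sup_left) ?_
        rw [← mul_smul, ← pow_succ']
        exact le_sup_right
      have h3 : rl Z' Z ≠ ⊤ := by
        refine ne_top_of_le_ne_top hfin ?_
        exact (rl_anti_left le_sup_left).trans (rl_mono_right (hle j))
      have h4 := khs_baseChange S deg Q hQ Z' Z h1 h2 (rl Z' Z).toNat
        (ENat.natCast_toNat h3).symm i
      rw [ENat.natCast_toNat h3] at h4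
      refine (kun_khs_le_add S deg Q hQ _ _ _ (baseChange_mono S h1)
        (baseChange_mono S (hle j)) i).trans ?_
      rw [h4, rl_add h1 (hle j), add_mul, add_comm]
      exact add_le_add le_rfl ih
  have h1 : X ⊔ maximalIdeal A ^ p • Y = X := sup_eq_left.2 hp
  have h2 := key p
  rwa [h1] at h2

end Kun

section Rows

variable {S : Type*} [CommRing S] {ι : Type*} [Fintype ι] {M : Type*} [AddCommGroup M]
  [Module S M]

/-- canonical truncation, boundaries in degree `p`. -/
def kunB (d : M →ₗ[S] M) (Y X : ℤ → Submodule S M) (p : ℤ) : ℤ → Submodule S M :=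
  TR.mix Y X (cb d Y X p) p

/-- canonical truncation, cycles in degree `p`. -/
def kunZ (d : M →ₗ[S] M) (Y X : ℤ → Submodule S M) (p : ℤ) : ℤ → Submodule S M :=
  TR.mix Y X (cz d Y X p) p

variable {d : M →ₗ[S] M} {Y X : ℤ → Submodule S M}

lemma kun_dcb (p : ℤ) : ∀ x ∈ Y (p - 1), d x ∈ cb d Y X p := fun x hx =>
  le_sup_left (b := X p) ⟨x, hx, rfl⟩

lemma kunB_stab (hd : ∀ x, d (d x) = 0) (hX : CStab d X) (hY : CStab d Y)
    (hXY : ∀ p, X p ≤ Y p) (p : ℤ) : CStab d (kunB d Y X p) :=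
  TR.mix_cstab hX hY (kun_dcb p) fun _ hx => (TR.cb_le_cz hd hX hY hXY p hx).2

lemma kunZ_stab (hd : ∀ x, d (d x) = 0) (hX : CStab d X) (hY : CStab d Y)
    (hXY : ∀ p, X p ≤ Y p) (p : ℤ) : CStab d (kunZ d Y X p) :=
  TR.mix_cstab hX hY (fun x hx => TR.cb_le_cz hd hX hY hXY p (kun_dcb p x hx)) fun _ hx => hx.2

lemma kunB_le_kunZ (hd : ∀ x, d (d x) = 0) (hX : CStab d X) (hY : CStab d Y)
    (hXY : ∀ p, X p ≤ Y p) (p q : ℤ) : kunB d Y X p q ≤ kunZ d Y X p q := by
  unfold kunB kunZ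
  rcases lt_trichotomy q p with h | h | h
  · rw [TR.mix_lt h, TR.mix_lt h]
  · subst h
    rw [TR.mix_eq, TR.mix_eq]
    exact TR.cb_le_cz hd hX hY hXY q
  · rw [TR.mix_gt h, TR.mix_gt h]

lemma kunZ_le_kunB (p q : ℤ) : kunZ d Y X p q ≤ kunB d Y X (p + 1) q := by
  unfold kunB kunZ
  rcases lt_trichotomy q p with h | h | h
  · rw [TR.mix_lt h, TR.mix_lt (by omega)]
  · subst h
    rw [TR.mix_eq, TR.mix_lt (by omega)]
    exact inf_le_left
  · rw [TR.mix_gt h]
    rcases eq_or_ne q (p + 1) with h' | h'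
    · subst h'
      rw [TR.mix_eq]
      exact le_sup_right
    · rw [TR.mix_gt (by omega)]

lemma kun_X_le (hXY : ∀ p, X p ≤ Y p) (p q : ℤ) : X q ≤ kunB d Y X p q := by
  unfold kunB
  rcases lt_trichotomy q p with h | h | h
  · rw [TR.mix_lt h]
    exact hXY q
  · subst h
    rw [TR.mix_eq]
    exact le_sup_right
  · rw [TR.mix_gt h]

lemma kun_ex (p q : ℤ) : Ex d (kunB d Y X (p + 1)) (kunZ d Y X p) q := by
  rintro x ⟨hx1, hx2⟩
  have hx2' : d x ∈ kunZ d Y X p (q + 1) := hx2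
  rcases lt_trichotomy q p with h | h | h
  · refine le_sup_right (a := (kunB d Y X (p + 1) (q - 1)).map d) ?_
    unfold kunB at hx1
    unfold kunZ
    rw [TR.mix_lt (by omega)] at hx1
    rw [TR.mix_lt h]
    exact hx1
  · subst h
    refine le_sup_right (a := (kunB d Y X (q + 1) (q - 1)).map d) ?_
    unfold kunB at hx1
    unfold kunZ at hx2' ⊢
    rw [TR.mix_lt (by omega)] at hx1
    rw [TR.mix_gt (by omega)] at hx2'
    rw [TR.mix_eq]
    exact ⟨hx1, hx2'⟩
  · rcases eq_or_ne q (p + 1) with h' | h'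
    · subst h'
      unfold kunB at hx1
      rw [TR.mix_eq] at hx1
      have e1 : kunB d Y X (p + 1) (p + 1 - 1) = Y (p + 1 - 1) := by
        unfold kunB
        rw [TR.mix_lt (by omega)]
      have e2 : kunZ d Y X p (p + 1) = X (p + 1) := by
        unfold kunZ
        rw [TR.mix_gt (by omega)]
      change x ∈ (kunB d Y X (p + 1) (p + 1 - 1)).map d ⊔ kunZ d Y X p (p + 1)
      rw [e1, e2]
      exact hx1
    · refine le_sup_right (a := (kunB d Y X (p + 1) (q - 1)).map d) ?_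
      unfold kunB at hx1
      unfold kunZ
      rw [TR.mix_gt (by omega)] at hx1
      rw [TR.mix_gt h]
      exact hx1

lemma kun_bot (hX : CStab d X) (hXY : ∀ p, X p ≤ Y p) {p : ℤ} (h : ∀ q, q < p → Y q ≤ X q) :
    kunB d Y X p = X := by
  funext q
  refine le_antisymm ?_ (kun_X_le hXY p q)
  unfold kunB
  rcases lt_trichotomy q p with h' | h' | h'
  · rw [TR.mix_lt h']
    exact h q h'
  · subst h'
    rw [TR.mix_eq]
    refine sup_le ?_ le_rfl
    rintro _ ⟨y, hy, rfl⟩
    have := hX _ _ (h _ (by omega) hy)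
    rwa [sub_add_cancel] at this
  · rw [TR.mix_gt h']

lemma kun_top (hY : CStab d Y) (hXY : ∀ p, X p ≤ Y p) {p : ℤ} (h : ∀ q, p ≤ q → Y q ≤ X q) :
    kunB d Y X p = Y := by
  have _ := hY
  funext q
  unfold kunB
  rcases lt_trichotomy q p with h' | h' | h'
  · rw [TR.mix_lt h']
  · subst h'
    rw [TR.mix_eq]
    refine le_antisymm (sup_le ?_ (hXY q)) ((h q le_rfl).trans le_sup_right)
    rintro _ ⟨y, hy, rfl⟩
    have := hY _ _ hy
    rwa [sub_add_cancel] at this
  · rw [TR.mix_gt h']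
    exact le_antisymm (hXY q) (h q h'.le)

/-- the homology of one step. -/
lemma kun_step (deg : ι → ℤ) (Q : Matrix ι ι S) (hQ : IsCx deg Q) (hd : ∀ x, d (d x) = 0)
    (hX : CStab d X) (hY : CStab d Y) (hXY : ∀ p, X p ≤ Y p) (p δ : ℤ) :
    hh (tot deg Q d) (lift deg (kunB d Y X (p + 1))) (lift deg (kunB d Y X p)) δ =
      khs deg Q (cz d Y X p) (cb d Y X p) (δ + p) := by
  have hD := TR.tot_tot' deg Q hQ d hd
  have h0 : ∀ δ, hh (tot deg Q d) (lift deg (kunB d Y X (p + 1))) (lift deg (kunZ d Y X p)) δ = 0 :=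
    fun δ => hh_lift_eq_zero deg Q hQ d hd (kunZ d Y X p) (kunB d Y X (p + 1))
      (kunZ_stab hd hX hY hXY p) (kunB_stab hd hX hY hXY (p + 1)) (kunZ_le_kunB p) δ
      fun a => kun_ex p _
  rw [TR.hh_upper hD (conn_lift_mono deg (kunB_le_kunZ hd hX hY hXY p))
    (conn_lift_mono deg (kunZ_le_kunB p)) (h0 δ) (h0 (δ + 1))]
  exact TR.hh_mix deg Q hQ d Y X _ _ p hX hY (TR.cb_le_cz hd hX hY hXY p) (kun_dcb p)
    (fun x hx => hx.2) δ

/-- the sum of the small steps. -/
lemma kun_small (deg : ι → ℤ) (Q : Matrix ι ι S) (hQ : IsCx deg Q) (hd : ∀ x, d (d x) = 0)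
    (hX : CStab d X) (hY : CStab d Y) (hXY : ∀ p, X p ≤ Y p) (p₀ : ℤ)
    (h : ∀ q, q < p₀ → Y q ≤ X q) (c : ℕ) (k : ℕ)
    (hc : ∀ p, p₀ ≤ p → p < p₀ + k → ∀ i, khs deg Q (cz d Y X p) (cb d Y X p) i ≤ c) (δ : ℤ) :
    hh (tot deg Q d) (lift deg (kunB d Y X (p₀ + k))) (lift deg X) δ ≤ ((k * c : ℕ) : ℕ∞) := by
  have hD := TR.tot_tot' deg Q hQ d hd
  induction k with
  | zero =>
    have e : kunB d Y X (p₀ + ((0 : ℕ) : ℤ)) = X := by
      rw [Nat.cast_zero, add_zero]
      exact kun_bot hX hXY h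
    have e0 : hh (tot deg Q d) (lift deg X) (lift deg X) δ = 0 := by
      rw [hh, rl_eq_zero_iff]
      exact inf_le_left.trans le_sup_right
    rw [e, e0]
    exact zero_le
  | succ k ih =>
    have h1 := ih fun p hp1 hp2 => hc p hp1 (by push_cast; omega)
    have e : p₀ + ((k + 1 : ℕ) : ℤ) = p₀ + k + 1 := by push_cast; ring
    rw [e]
    refine (hh_le_add (tot deg Q d) hD (lift deg X) (lift deg (kunB d Y X (p₀ + k)))
      (lift deg (kunB d Y X (p₀ + k + 1))) (TR.lift_stab' deg Q hQ d X hX)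
      (TR.lift_stab' deg Q hQ d _ (kunB_stab hd hX hY hXY _))
      (TR.lift_stab' deg Q hQ d _ (kunB_stab hd hX hY hXY _))
      (conn_lift_mono deg (kun_X_le hXY _))
      (conn_lift_mono deg fun q => (kunB_le_kunZ hd hX hY hXY _ q).trans (kunZ_le_kunB _ q))
      δ).trans ?_
    rw [kun_step deg Q hQ hd hX hY hXY]
    have h2 := hc (p₀ + k) (by omega) (by push_cast; omega) (δ + (p₀ + k))
    refine (add_le_add h2 h1).trans (le_of_eq ?_)
    push_cast
    ring

end Rows

section Kun2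

variable {A : Type*} [CommRing A] [IsLocalRing A] {V : Type*} [AddCommGroup V] [Module A V]
  (S : Type*) [CommRing S] [Algebra A S] [Module.Flat A S] {ι : Type*} [Fintype ι]

/-- TASK G3-H4: the Künneth formula with errors. -/
theorem kun_err (deg : ι → ℤ) (Q : Matrix ι ι S) (hQ : IsCx deg Q) (n : ℕ)
    (d : V →ₗ[A] V) (hd : ∀ x, d (d x) = 0)
    (Y X : ℤ → Submodule A V) (hX : CStab d X) (hY : CStab d Y) (hXY : ∀ p, X p ≤ Y p)
    (hout : ∀ p, (p < -(n : ℤ) ∨ 1 ≤ p) → Y p ≤ X p)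
    (hm : maximalIdeal A • cz d Y X 0 ≤ cb d Y X 0)
    (η : ℕ) (hη : ∀ p, p ≠ 0 → hc d Y X p ≤ η) (h0 : hc d Y X 0 ≠ ⊤)
    (t : ℤ → ℕ) (ht : ∀ i, kh deg Q (S ⧸ (maximalIdeal A).map (algebraMap A S)) i = t i)
    (τ : ℕ) (hτ : ∀ i, t i ≤ τ) (i : ℤ) :
    hh (tot deg Q (d.baseChange S)) (lift deg (bcf S Y)) (lift deg (bcf S X)) i ≠ ⊤ ∧
    |((hh (tot deg Q (d.baseChange S)) (lift deg (bcf S Y)) (lift deg (bcf S X)) i).toNat : ℤ) -
      ((hc d Y X 0).toNat : ℤ) * t i| ≤ 2 * n * τ * η := by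
  have hd' : ∀ x, (d.baseChange S) ((d.baseChange S) x) = 0 := by
    have h1 : (d.baseChange S) ∘ₗ (d.baseChange S) = 0 := by
      rw [← LinearMap.baseChange_comp]
      have h2 : d ∘ₗ d = 0 := LinearMap.ext hd
      rw [h2, LinearMap.baseChange_zero]
    intro x
    exact LinearMap.congr_fun h1 x
  have hX' := wg_cstab_bcf S d X hX
  have hY' := wg_cstab_bcf S d Y hY
  have hXY' := wg_bcf_mono S hXY
  have hD := TR.tot_tot' deg Q hQ (d.baseChange S) hd'
  have hcc : ∀ p, cb d Y X p ≤ cz d Y X p := TR.cb_le_cz hd hX hY hXY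
  -- the small steps
  have hs : ∀ p, -(n : ℤ) ≤ p → p < -(n : ℤ) + n → ∀ i,
      khs deg Q (cz (d.baseChange S) (bcf S Y) (bcf S X) p)
        (cb (d.baseChange S) (bcf S Y) (bcf S X) p) i ≤ ((η * τ : ℕ) : ℕ∞) := by
    intro p _ hp i
    have h1 := hη p (by omega)
    rw [cz_bcf, cb_bcf]
    refine (khs_le S deg Q hQ _ _ (hcc p) (ne_top_of_le_ne_top (ENat.natCast_ne_top _) h1)
      i).trans ?_
    rw [ht]
    have h2 : (t i : ℕ∞) ≤ τ := by exact_mod_cast hτ i
    push_cast
    exact mul_le_mul' h1 h2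
  have hL : ∀ δ, hh (tot deg Q (d.baseChange S))
      (lift deg (kunB (d.baseChange S) (bcf S Y) (bcf S X) 0)) (lift deg (bcf S X)) δ ≤
      ((n * (η * τ) : ℕ) : ℕ∞) := fun δ => by
    have h := kun_small deg Q hQ hd' hX' hY' hXY' (-(n : ℤ))
      (fun q hq => baseChange_mono S (hout q (Or.inl hq))) (η * τ) n hs δ
    rwa [neg_add_cancel] at h
  -- the main step
  have hK : hh (tot deg Q (d.baseChange S)) (lift deg (bcf S Y))
      (lift deg (kunB (d.baseChange S) (bcf S Y) (bcf S X) 0)) i =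
      (((hc d Y X 0).toNat * t i : ℕ) : ℕ∞) := by
    have h := kun_step deg Q hQ hd' hX' hY' hXY' 0 i
    rw [zero_add, kun_top hY' hXY' (p := 1)
      (fun q hq => baseChange_mono S (hout q (Or.inr hq)))] at h
    rw [h, cz_bcf, cb_bcf, khs_baseChange S deg Q hQ _ _ (hcc 0) hm (hc d Y X 0).toNat
      (ENat.natCast_toNat h0).symm, ht, add_zero]
    push_cast
    rfl
  have hle1 := conn_lift_mono deg (kun_X_le (d := d.baseChange S) hXY' 0)
  have hle2 : ∀ δ, lift deg (kunB (d.baseChange S) (bcf S Y) (bcf S X) 0) δ ≤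
      lift deg (bcf S Y) δ := by
    refine conn_lift_mono deg fun q => ?_
    refine (kunB_le_kunZ hd' hX' hY' hXY' 0 q).trans ?_
    refine (kunZ_le_kunB 0 q).trans ?_
    rw [zero_add, kun_top hY' hXY' (p := 1)
      (fun q hq => baseChange_mono S (hout q (Or.inr hq)))]
  have sX := TR.lift_stab' deg Q hQ (d.baseChange S) _ hX'
  have sY := TR.lift_stab' deg Q hQ (d.baseChange S) _ hY'
  have sB := TR.lift_stab' deg Q hQ (d.baseChange S) _ (kunB_stab hd' hX' hY' hXY' 0)
  have e1 := hh_le_add (tot deg Q (d.baseChange S)) hD _ _ _ sX sB sY hle1 hle2 i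
  have e2 := hh_quot_le (tot deg Q (d.baseChange S)) hD _ _ _ sX sB sY hle1 hle2 i
  rw [hK] at e1 e2
  have e3 := hL i
  have e4 := hL (i - 1)
  set H := hh (tot deg Q (d.baseChange S)) (lift deg (bcf S Y)) (lift deg (bcf S X)) i with hH
  have e5 : H ≤ (((hc d Y X 0).toNat * t i + n * (η * τ) : ℕ) : ℕ∞) := by
    refine e1.trans ?_
    rw [Nat.cast_add]
    exact add_le_add le_rfl e3
  have hfin : H ≠ ⊤ := ne_top_of_le_ne_top (ENat.natCast_ne_top _) e5
  have e6 : (((hc d Y X 0).toNat * t i : ℕ) : ℕ∞) ≤ H + ((n * (η * τ) : ℕ) : ℕ∞) :=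
    e2.trans (add_le_add le_rfl e4)
  refine ⟨hfin, ?_⟩
  lift H to ℕ using hfin with H'
  rw [ENat.toNat_natCast]
  have e7 : H' ≤ (hc d Y X 0).toNat * t i + n * (η * τ) := by exact_mod_cast e5
  have e8 : (hc d Y X 0).toNat * t i ≤ H' + n * (η * τ) := by exact_mod_cast e6
  have e9 : (H' : ℤ) ≤ ((hc d Y X 0).toNat : ℤ) * t i + n * (η * τ) := by exact_mod_cast e7
  have e10 : ((hc d Y X 0).toNat : ℤ) * t i ≤ H' + n * (η * τ) := by exact_mod_cast e8
  have e11 : (0 : ℤ) ≤ n * (η * τ) := by positivity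
  rw [abs_le]
  constructor <;> nlinarith

end Kun2

end Vale.Agent.P202.CharP.Gen2
end
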