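import Vale.Agent.P202.MathlibUsed
import Vale.Agent.P202.Bdl.B6
import Vale.Agent.P202.Bdl.B13
import Vale.Agent.P202.Bdl.B3
import Vale.Agent.P202.Bdl.B2
import Vale.Agent.P202.Bdl.B9

set_option linter.all false

section

/-!
P202-MIX: the rings `(S ⊗_A E)/K`.
-/

namespace Vale.Agent.P202.Mix

open TensorProduct

universe u

section

variable (A : Type u) [CommRing A] (S : Type u) [CommRing S] [Algebra A S]
  (E : Type u) [CommRing E] [Algebra A E] (K : Ideal E)

/-- the ring `(S ⊗_A E)/K`. -/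
abbrev XS : Type u :=
  (S ⊗[A] E) ⧸ K.map (Algebra.TensorProduct.includeRight : E →ₐ[A] S ⊗[A] E)

variable {A S E}

/-- the class of `s ⊗ 1`. -/
noncomputable def sX (s : S) : XS A S E K := Ideal.Quotient.mk _ (s ⊗ₜ 1)

/-- the class of `1 ⊗ b`. -/
noncomputable def bX (b : E) : XS A S E K := Ideal.Quotient.mk _ (1 ⊗ₜ b)

end

end Vale.Agent.P202.Mix
end

section

/-!
P202-MIX, bridge from the packages `APkg` to `HonData`, BR-2: lifting of Koszul cycles over
`(S ⊗_A E)/K` modulo the relations of a representation.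
-/

namespace Vale.Agent.P202.Mix

open Vale.Agent.P202.CharP IsLocalRing TensorProduct
open scoped ENNReal Topology

universe u

/-- surjections of modules killed by the maximal ideal split. -/
theorem lft_section {A : Type u} [CommRing A] [IsLocalRing A] {N N' : Type u} [AddCommGroup N]
    [Module A N] [AddCommGroup N'] [Module A N'] (hN : ∀ a ∈ maximalIdeal A, ∀ x : N, a • x = 0)
    (hN' : ∀ a ∈ maximalIdeal A, ∀ x : N', a • x = 0) (ψ : N →ₗ[A] N')
    (hψ : Function.Surjective ψ) : ∃ τ : N' →ₗ[A] N, ∀ x, ψ (τ x) = x := by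
  have h1 : Module.IsTorsionBySet A N (maximalIdeal A) := fun x a => hN a.1 a.2 x
  have h2 : Module.IsTorsionBySet A N' (maximalIdeal A) := fun x a => hN' a.1 a.2 x
  let _ : Module (A ⧸ maximalIdeal A) N := h1.module
  let _ : Module (A ⧸ maximalIdeal A) N' := h2.module
  let _ : Field (A ⧸ maximalIdeal A) := Ideal.Quotient.field _
  let ψ' : N →ₗ[A ⧸ maximalIdeal A] N' :=
    { toFun := ψ
      map_add' := map_add ψ
      map_smul' := by
        intro c x
        obtain ⟨a, rfl⟩ := Ideal.Quotient.mk_surjective c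
        exact map_smul ψ a x }
  obtain ⟨τ, hτ⟩ := ψ'.exists_rightInverse_of_surjective (LinearMap.range_eq_top.2 hψ)
  refine ⟨{ toFun := τ, map_add' := map_add τ, map_smul' := ?_ }, fun x => ?_⟩
  · intro a x
    exact map_smul τ (Ideal.Quotient.mk (maximalIdeal A) a) x
  · exact LinearMap.congr_fun hτ x

section

variable {A : Type u} [CommRing A] [IsLocalRing A] (S : Type u) [CommRing S] [Algebra A S]
  (E : Type u) [CommRing E] [Algebra A E] (K : Ideal E)

theorem lft_killed {n : ℕ} (z : Fin n → E) (w : ℕ)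
    (hz : (maximalIdeal A).map (algebraMap A E) ≤ Ideal.span (Set.range z) ^ w ⊔ K)
    (W : MRep n) (hW : W.IsNil w) (a : A) (ha : a ∈ maximalIdeal A)
    (q : (W.ι → E ⧸ K) ⧸ trg (W.T (E ⧸ K) z)) : a • q = 0 := by
  obtain ⟨x, rfl⟩ := Submodule.Quotient.mk_surjective _ q
  rw [← algebraMap_smul E a, ← Submodule.Quotient.mk_smul, Submodule.Quotient.mk_eq_zero]
  refine pk_of_le z _ w (fun v => ?_) W hW x
  obtain ⟨b, rfl⟩ := Ideal.Quotient.mk_surjective v
  obtain ⟨t, ht, k, hk, htk⟩ := Submodule.mem_sup.1 (hz (Ideal.mem_map_of_mem _ ha))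
  have h1 : (algebraMap A E a) • (Ideal.Quotient.mk K b) = t • Ideal.Quotient.mk K b := by
    rw [← htk, add_smul]
    have : k • Ideal.Quotient.mk K b = 0 := by
      show Ideal.Quotient.mk K (k * b) = 0
      exact Ideal.Quotient.eq_zero_iff_mem.2 (K.mul_mem_right _ hk)
    rw [this, add_zero]
  rw [h1]
  exact Submodule.smul_mem_smul ht trivial

end

section Gen

variable {A R R' M M' : Type u} [CommRing A] [CommRing R] [Algebra A R] [CommRing R']
  [Algebra A R'] [AddCommGroup M] [Module A M] [Module R M] [IsScalarTower A R M]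
  [AddCommGroup M'] [Module A M'] [Module R' M'] [IsScalarTower A R' M']

theorem lft_lift (P : Submodule R M) (f : M →ₗ[A] M') (h : ∀ x ∈ P, f x = 0) :
    ∃ g : (M ⧸ P) →ₗ[A] M', ∀ x, g (Submodule.Quotient.mk x) = f x :=
  ⟨(Submodule.liftQ (P.restrictScalars A) f fun x hx => h x hx) ∘ₗ
    (Submodule.Quotient.restrictScalarsEquiv A P).symm.toLinearMap, fun _ => rfl⟩

theorem lft_desc (P : Submodule R M) (P' : Submodule R' M') (f : M →ₗ[A] M')
    (h : ∀ x ∈ P, f x ∈ P') :
    ∃ g : (M ⧸ P) →ₗ[A] (M' ⧸ P'), ∀ x, g (Submodule.Quotient.mk x) = Submodule.Quotient.mk (f x) :=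
  lft_lift P ((P'.mkQ.restrictScalars A) ∘ₗ f) fun x hx => by
    show Submodule.Quotient.mk (f x) = 0
    exact (Submodule.Quotient.mk_eq_zero _).2 (h x hx)

theorem lft_trg {n : ℕ} (T : Fin n → M →ₗ[R] M) (T' : Fin n → M' →ₗ[R'] M') (g : M →+ M')
    (h : ∀ l v, g (T l v) = T' l (g v)) (x : M) (hx : x ∈ trg T) : g x ∈ trg T' := by
  unfold trg at hx
  refine Submodule.iSup_induction (fun l => LinearMap.range (T l))
    (motive := fun x => g x ∈ trg T') hx ?_ ?_ ?_
  · rintro l _ ⟨v, rfl⟩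
    rw [h]
    exact (le_iSup (fun l => LinearMap.range (T' l)) l) ⟨_, rfl⟩
  · rw [map_zero]
    exact Submodule.zero_mem _
  · intro x y hx hy
    rw [map_add]
    exact Submodule.add_mem _ hx hy

end Gen

section

variable {A : Type u} [CommRing A] (S : Type u) [CommRing S] [Algebra A S]
  (E : Type u) [CommRing E] [Algebra A E] (K : Ideal E)

/-- the map `E/K → (S ⊗ E)/K`. -/
noncomputable def lft_j : (E ⧸ K) →ₐ[A] XS A S E K :=
  Ideal.quotientMapₐ _ (Algebra.TensorProduct.includeRight : E →ₐ[A] S ⊗[A] E) Ideal.le_comap_map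

theorem lft_j_mk (b : E) :
    lft_j (A := A) S E K (Ideal.Quotient.mk K b) = bX (A := A) (S := S) K b := rfl

theorem lft_j_smul (b : E) (q : E ⧸ K) :
    lft_j (A := A) S E K (b • q) = bX (A := A) (S := S) K b • lft_j S E K q := by
  obtain ⟨c, rfl⟩ := Ideal.Quotient.mk_surjective q
  show lft_j (A := A) S E K (Ideal.Quotient.mk K b * Ideal.Quotient.mk K c) = _
  rw [map_mul]
  rfl

/-- the map on functions. -/
noncomputable def lft_jf (ι : Type) : (ι → E ⧸ K) →ₗ[A] (ι → XS A S E K) :=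
  (lft_j S E K).toLinearMap.compLeft ι

theorem lft_jf_apply (ι : Type) (v : ι → E ⧸ K) (a : ι) :
    lft_jf (A := A) S E K ι v a = lft_j S E K (v a) := rfl

theorem lft_jf_za {α β : Type} [Fintype β] (P : Matrix α β ℤ) (v : β → E ⧸ K) :
    lft_jf (A := A) S E K α (za P E (E ⧸ K) v) =
      za P (XS A S E K) (XS A S E K) (lft_jf S E K β v) := by
  funext a
  rw [lft_jf_apply]
  show lft_j S E K (∑ b, P a b • v b) = ∑ b, P a b • lft_j S E K (v b)
  rw [map_sum]
  exact Finset.sum_congr rfl fun b _ => map_zsmul _ _ _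

theorem lft_jf_T {n : ℕ} (W : MRep n) (z : Fin n → E) (l : Fin n) (v : W.ι → E ⧸ K) :
    lft_jf (A := A) S E K W.ι (W.T (E ⧸ K) z l v) =
      W.T (XS A S E K) (fun l => bX (A := A) (S := S) K (z l)) l (lft_jf S E K W.ι v) := by
  show lft_jf (A := A) S E K W.ι (za (W.X l) E (E ⧸ K) v - z l • v) =
    za (W.X l) (XS A S E K) (XS A S E K) (lft_jf (A := A) S E K W.ι v) -
      bX (A := A) (S := S) K (z l) • lft_jf (A := A) S E K W.ι v
  rw [map_sub, lft_jf_za]
  congr 1
  funext a
  exact lft_j_smul (A := A) S E K (z l) (v a)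

theorem lft_ext {ι : Type} [Fintype ι] [DecidableEq ι] {Q : Type u} [AddCommGroup Q] [Module S Q]
    (F G : (ι → XS A S E K) →ₗ[S] Q)
    (h : ∀ v : ι → E ⧸ K, F (lft_jf S E K ι v) = G (lft_jf S E K ι v)) (v : ι → XS A S E K) :
    F v = G v := by
  rw [← sub_eq_zero, ← LinearMap.sub_apply]
  have h' : ∀ v : ι → E ⧸ K, (F - G) (lft_jf S E K ι v) = 0 := fun v => by
    rw [LinearMap.sub_apply, h, sub_self]
  generalize F - G = H at h' ⊢
  rw [← Finset.univ_sum_single v, map_sum]
  refine Finset.sum_eq_zero fun a _ => ?_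
  obtain ⟨t, ht⟩ := Ideal.Quotient.mk_surjective (v a)
  rw [← ht]
  clear ht v
  induction t using TensorProduct.induction_on with
  | zero =>
    rw [map_zero, Pi.single_zero, map_zero]
  | add x y hx hy =>
    rw [map_add, Pi.single_add, map_add, hx, hy, add_zero]
  | tmul s b =>
    have h1 : (Pi.single a (Ideal.Quotient.mk (K.map
        (Algebra.TensorProduct.includeRight : E →ₐ[A] S ⊗[A] E)) (s ⊗ₜ[A] b)) :
        ι → XS A S E K) = s • lft_jf S E K ι (Pi.single a (Ideal.Quotient.mk K b)) := by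
      funext c
      rw [Pi.smul_apply, lft_jf_apply]
      by_cases hc : c = a
      · subst hc
        rw [Pi.single_eq_same, Pi.single_eq_same, lft_j_mk]
        show Ideal.Quotient.mk _ (s ⊗ₜ[A] b) = Ideal.Quotient.mk _ (s • ((1 : S) ⊗ₜ[A] b))
        rw [TensorProduct.smul_tmul', smul_eq_mul, mul_one]
      · rw [Pi.single_eq_of_ne hc, Pi.single_eq_of_ne hc, map_zero, smul_zero]
    rw [h1, map_smul, h', smul_zero]

/-- extension of an `A`-linear map on functions to an `S`-linear map. -/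
theorem lft_extend {ι : Type} [Fintype ι] [DecidableEq ι] {Q : Type u} [AddCommGroup Q]
    [Module A Q] [Module S Q] [IsScalarTower A S Q] (F : (ι → E ⧸ K) →ₗ[A] Q) :
    ∃ G : (ι → XS A S E K) →ₗ[S] Q, ∀ v, G (lft_jf S E K ι v) = F v := by
  let r : ι → E →ₗ[A] Q := fun a =>
    F ∘ₗ (LinearMap.single A (fun _ => E ⧸ K) a) ∘ₗ (Ideal.Quotient.mkₐ A K).toLinearMap
  let ρ : ι → (S ⊗[A] E) →ₗ[S] Q := fun a => LinearMap.liftBaseChange S (r a)
  have hρ : ∀ a, ∀ x ∈ K.map (Algebra.TensorProduct.includeRight : E →ₐ[A] S ⊗[A] E),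
      ρ a x = 0 := by
    intro a x hx
    have h1 : ∀ t : S ⊗[A] E, ρ a (t * x) = 0 := by
      refine Submodule.span_induction (p := fun x _ => ∀ t : S ⊗[A] E, ρ a (t * x) = 0)
        ?_ ?_ ?_ ?_ hx
      · rintro _ ⟨k, hk, rfl⟩ t
        induction t using TensorProduct.induction_on with
        | zero => rw [zero_mul, map_zero]
        | add x y hx hy => rw [add_mul, map_add, hx, hy, add_zero]
        | tmul s b =>
          show ρ a ((s ⊗ₜ[A] b) * ((1 : S) ⊗ₜ[A] k)) = 0
          rw [Algebra.TensorProduct.tmul_mul_tmul, mul_one]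
          show LinearMap.liftBaseChange S (r a) _ = 0
          rw [LinearMap.liftBaseChange_tmul]
          have h2 : r a (b * k) = 0 := by
            show F (LinearMap.single A (fun _ => E ⧸ K) a (Ideal.Quotient.mk K (b * k))) = 0
            rw [Ideal.Quotient.eq_zero_iff_mem.2 (K.mul_mem_left _ hk), map_zero, map_zero]
          rw [h2, smul_zero]
      · intro t
        rw [mul_zero, map_zero]
      · intro x y _ _ hx hy t
        rw [mul_add, map_add, hx, hy, add_zero]
      · intro c x _ hx t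
        rw [smul_eq_mul, ← mul_assoc]
        exact hx _
    have h2 := h1 1
    rwa [one_mul] at h2
  have hex : ∀ a, ∃ g : XS A S E K →ₗ[S] Q, ∀ x, g (Submodule.Quotient.mk x) = ρ a x :=
    fun a => lft_lift _ (ρ a) (hρ a)
  choose g hg using hex
  refine ⟨∑ a, g a ∘ₗ LinearMap.proj a, fun v => ?_⟩
  rw [LinearMap.sum_apply]
  have h3 : ∀ a, (g a ∘ₗ LinearMap.proj a) (lft_jf S E K ι v) = F (Pi.single a (v a)) := by
    intro a
    rw [LinearMap.comp_apply, LinearMap.proj_apply, lft_jf_apply]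
    obtain ⟨b, hb⟩ := Ideal.Quotient.mk_surjective (v a)
    rw [← hb, lft_j_mk]
    show g a (Submodule.Quotient.mk ((1 : S) ⊗ₜ[A] b)) = _
    rw [hg]
    show LinearMap.liftBaseChange S (r a) _ = _
    rw [LinearMap.liftBaseChange_tmul, one_smul]
    rfl
  rw [Finset.sum_congr rfl fun a _ => h3 a, ← map_sum, Finset.univ_sum_single]

end

section

variable {A : Type u} [CommRing A] [IsLocalRing A] (S : Type u) [CommRing S] [Algebra A S]
  (E : Type u) [CommRing E] [Algebra A E] (K : Ideal E)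

theorem lft_main {n : ℕ} (z : Fin n → E) (w : ℕ)
    (hz : (maximalIdeal A).map (algebraMap A E) ≤ Ideal.span (Set.range z) ^ w ⊔ K)
    (W W' : MRep n) (hW : W.IsNil w) (hW' : W'.IsNil w) (f : W.Surj W') :
    ∃ σ : (W'.ι → XS A S E K) →ₗ[S]
        ((W.ι → XS A S E K) ⧸ trg (W.T (XS A S E K) fun l => bX (A := A) (S := S) K (z l))),
      (∀ v ∈ trg (W'.T (XS A S E K) fun l => bX (A := A) (S := S) K (z l)), σ v = 0) ∧
      ∀ v x, Submodule.Quotient.mk x = σ v →
        za f.P (XS A S E K) (XS A S E K) x - v ∈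
          trg (W'.T (XS A S E K) fun l => bX (A := A) (S := S) K (z l)) := by
  classical
  -- the maps
  obtain ⟨ψ, hψ⟩ := lft_desc (A := A) (trg (W.T (E ⧸ K) z)) (trg (W'.T (E ⧸ K) z))
    ((za f.P E (E ⧸ K)).restrictScalars A)
    (lft_trg _ _ (za f.P E (E ⧸ K)).toAddMonoidHom
      fun l v => repcyc_za_T _ _ f.P l (f.comm l) v)
  obtain ⟨j, hj⟩ := lft_desc (A := A) (trg (W.T (E ⧸ K) z))
    (trg (W.T (XS A S E K) fun l => bX (A := A) (S := S) K (z l))) (lft_jf S E K W.ι)
    (lft_trg _ _ (lft_jf S E K W.ι).toAddMonoidHom fun l v => lft_jf_T S E K W z l v)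
  obtain ⟨φ, hφ⟩ := lft_desc (A := S)
    (trg (W.T (XS A S E K) fun l => bX (A := A) (S := S) K (z l)))
    (trg (W'.T (XS A S E K) fun l => bX (A := A) (S := S) K (z l)))
    ((za f.P (XS A S E K) (XS A S E K)).restrictScalars S)
    (lft_trg _ _ (za f.P (XS A S E K) (XS A S E K)).toAddMonoidHom
      fun l v => repcyc_za_T _ _ f.P l (f.comm l) v)
  have hψs : Function.Surjective ψ := by
    intro q
    obtain ⟨x, rfl⟩ := Submodule.Quotient.mk_surjective _ q
    refine ⟨Submodule.Quotient.mk (za f.σ E (E ⧸ K) x), ?_⟩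
    rw [hψ]
    show Submodule.Quotient.mk (za f.P E (E ⧸ K) (za f.σ E (E ⧸ K) x)) = _
    rw [← repcyc_za_mul, f.split, repcyc_za_one]
  obtain ⟨τ, hτ⟩ := lft_section (lft_killed E K z w hz W hW) (lft_killed E K z w hz W' hW') ψ hψs
  obtain ⟨σ, hσ⟩ := lft_extend (A := A) S E K (ι := W'.ι) (j ∘ₗ τ ∘ₗ
    ((trg (W'.T (E ⧸ K) z)).mkQ.restrictScalars A))
  have hσ' : ∀ v, σ (lft_jf S E K W'.ι v) = j (τ (Submodule.Quotient.mk v)) := hσ
  have h1 : ∀ v ∈ trg (W'.T (XS A S E K) fun l => bX (A := A) (S := S) K (z l)), σ v = 0 := by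
    intro v hv
    unfold trg at hv
    refine Submodule.iSup_induction (fun l => LinearMap.range
      (W'.T (XS A S E K) (fun l => bX (A := A) (S := S) K (z l)) l))
      (motive := fun x => σ x = 0) hv ?_ ?_ ?_
    · rintro l _ ⟨v, rfl⟩
      refine lft_ext S E K (σ ∘ₗ ((W'.T (XS A S E K)
        (fun l => bX (A := A) (S := S) K (z l)) l).restrictScalars S)) 0 (fun v => ?_) v
      show σ (W'.T (XS A S E K) (fun l => bX (A := A) (S := S) K (z l)) l
        (lft_jf S E K W'.ι v)) = 0
      rw [← lft_jf_T, hσ', (Submodule.Quotient.mk_eq_zero _).2, map_zero, map_zero]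
      exact (le_iSup (fun l => LinearMap.range (W'.T (E ⧸ K) z l)) l) ⟨_, rfl⟩
    · exact map_zero σ
    · intro x y hx hy
      rw [map_add, hx, hy, add_zero]
  have h2 : ∀ v, φ (σ v) = Submodule.Quotient.mk v := by
    refine lft_ext S E K (φ ∘ₗ σ) ((trg (W'.T (XS A S E K)
      fun l => bX (A := A) (S := S) K (z l))).mkQ.restrictScalars S) fun v => ?_
    show φ (σ (lft_jf S E K W'.ι v)) = Submodule.Quotient.mk (lft_jf S E K W'.ι v)
    rw [hσ']
    obtain ⟨x, hx⟩ := Submodule.Quotient.mk_surjective _ (τ (Submodule.Quotient.mk v))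
    rw [← hx, hj, hφ]
    have h3 : ψ (Submodule.Quotient.mk x) = Submodule.Quotient.mk v := by
      rw [hx, hτ]
    rw [hψ] at h3
    have h4 := (Submodule.Quotient.eq _).1 h3
    rw [Submodule.Quotient.eq]
    show za f.P (XS A S E K) (XS A S E K) (lft_jf S E K W.ι x) - lft_jf S E K W'.ι v ∈ _
    rw [← lft_jf_za, ← map_sub]
    exact lft_trg _ _ (lft_jf S E K W'.ι).toAddMonoidHom (fun l v => lft_jf_T S E K W' z l v) _ h4
  refine ⟨σ, h1, fun v x hx => ?_⟩
  rw [← Submodule.Quotient.eq, ← h2 v, ← hx, hφ]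
  rfl

theorem lf_tensor {n : ℕ} (z : Fin n → E) (w : ℕ)
    (hz : (maximalIdeal A).map (algebraMap A E) ≤ Ideal.span (Set.range z) ^ w ⊔ K)
    (y : Fin n → S) (W W' : MRep n) (hW : W.IsNil w) (hW' : W'.IsNil w) (f : W.Surj W') :
    LiftMod (sop (W.ι → XS A S E K) fun l => sX K (y l))
      (trg (W.T (XS A S E K) fun l => bX K (z l)))
      (sop (W'.ι → XS A S E K) fun l => sX K (y l))
      (trg (W'.T (XS A S E K) fun l => bX K (z l)))
      (za f.P (XS A S E K) (XS A S E K)) := by
  classical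
  obtain ⟨σ, h1, h2⟩ := lft_main S E K z w hz W W' hW hW' f
  intro i c' hc' hk
  have hrep : ∀ J, ∃ x : W.ι → XS A S E K, Submodule.Quotient.mk x = σ (c' J) ∧
      (c' J = 0 → x = 0) := by
    intro J
    by_cases h0 : c' J = 0
    · exact ⟨0, by rw [h0, map_zero, Submodule.Quotient.mk_zero], fun _ => rfl⟩
    · obtain ⟨x, hx⟩ := Submodule.Quotient.mk_surjective _ (σ (c' J))
      exact ⟨x, hx, fun h => absurd h h0⟩
  choose c hc hc0 using hrep
  refine ⟨c, fun J hJ => hc' J fun h => hJ (hc0 J h), fun J => ?_, fun J => h2 _ _ (hc J)⟩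
  rw [← Submodule.Quotient.mk_eq_zero, ← h1 _ (hk J)]
  show (trg (W.T (XS A S E K) fun l => bX (A := A) (S := S) K (z l))).mkQ
    (∑ l ∈ Jᶜ, ksg l J • (sX (A := A) (E := E) K (y l) • c (insert l J))) =
    σ (∑ l ∈ Jᶜ, ksg l J • (sX (A := A) (E := E) K (y l) • c' (insert l J)))
  rw [map_sum, map_sum]
  refine Finset.sum_congr rfl fun l _ => ?_
  rw [map_zsmul, map_zsmul]
  congr 1
  have h3 : sX (A := A) (E := E) K (y l) • c' (insert l J) = y l • c' (insert l J) :=
    algebraMap_smul (XS A S E K) (y l) _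
  have h4 : sX (A := A) (E := E) K (y l) • c (insert l J) = y l • c (insert l J) :=
    algebraMap_smul (XS A S E K) (y l) _
  rw [h3, h4, σ.map_smul, ← hc]
  rfl

end

end Vale.Agent.P202.Mix
end

section

/-!
P202-MIX, part HON: depth sensitivity of the Koszul complex.
-/

namespace Vale.Agent.P202.Mix

open Vale.Agent.P202.CharP
open scoped ENNReal

universe u

section HonDepth

variable {R : Type u} [CommRing R] {V : Type u} [AddCommGroup V] [Module R V] {n : ℕ}

/-- exterior multiplication with the basis vector `l`. -/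
private noncomputable def hdw (l : Fin n) (c : Finset (Fin n) → V) : Finset (Fin n) → V :=
  fun J => if l ∈ J then ksg l (J.erase l) • c (J.erase l) else 0

private theorem hdw_in {l : Fin n} {c : Finset (Fin n) → V} {J : Finset (Fin n)} (h : l ∈ J) :
    hdw l c J = ksg l (J.erase l) • c (J.erase l) := if_pos h

private theorem hdw_out {l : Fin n} {c : Finset (Fin n) → V} {J : Finset (Fin n)} (h : l ∉ J) :
    hdw l c J = 0 := if_neg h

private theorem hdw_kgr (l : Fin n) {c : Finset (Fin n) → V} {i : ℤ} (hc : c ∈ kgr R V n i) :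
    hdw l c ∈ kgr R V n (i + 1) := by
  intro J hJ
  by_cases h : l ∈ J
  · have h2 : c (J.erase l) ≠ 0 := by
      intro h0
      apply hJ
      rw [hdw_in h, h0, smul_zero]
    have h3 := hc _ h2
    rw [Finset.card_erase_of_mem h] at h3
    have h4 : 1 ≤ J.card := Finset.card_pos.mpr ⟨l, h⟩
    omega
  · exact absurd (hdw_out h) hJ

/-- the homotopy formula. -/
private theorem hdw_kz (y : Fin n → R) (l : Fin n) (c : Finset (Fin n) → V)
    (J : Finset (Fin n)) :
    kz (sop V y) (hdw l c) J = y l • c J - hdw l (kz (sop V y) c) J := by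
  rw [kzb_apply]
  by_cases h : l ∈ J
  · set J' := J.erase l with hJ'
    have hJ'l : l ∉ J' := Finset.notMem_erase l J
    have hJ : insert l J' = J := Finset.insert_erase h
    have hc : J'ᶜ = insert l Jᶜ := by
      ext k
      simp only [Finset.mem_compl, Finset.mem_insert, hJ', Finset.mem_erase]
      tauto
    have hlc : l ∉ Jᶜ := by simpa using h
    have h2 : kz (sop V y) c J' = ksg l J' • (y l • c J) +
        ∑ k ∈ Jᶜ, ksg k J' • (y k • c (insert k J')) := by
      rw [kzb_apply, hc, Finset.sum_insert hlc, hJ]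
      rfl
    have h1 : ∀ k ∈ Jᶜ, ksg k J • (sop V y k) (hdw l c (insert k J)) =
        -(ksg l J' • (ksg k J' • (y k • c (insert k J')))) := by
      intro k hk
      have hk' : k ∉ J := by simpa using hk
      have hkl : l ≠ k := fun h0 => hk' (h0 ▸ h)
      have hkJ' : k ∉ J' := fun h0 => hk' (Finset.mem_of_mem_erase h0)
      have e2 : (insert k J).erase l = insert k J' := by
        rw [hJ', Finset.erase_insert_of_ne (Ne.symm hkl)]
      rw [hdw_in (Finset.mem_insert_of_mem h), e2, map_zsmul, smul_smul, smul_smul, ← neg_smul]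
      show (ksg k J * ksg l (insert k J')) • (y k • c (insert k J')) = _
      congr 1
      rw [← hJ]
      exact kzb_ksg_anti' hJ'l hkJ' hkl
    rw [Finset.sum_congr rfl h1, Finset.sum_neg_distrib, ← Finset.smul_sum, hdw_in h, ← hJ', h2,
      smul_add, smul_smul, kzb_ksg_mul_self, one_smul]
    abel
  · rw [hdw_out h, sub_zero, Finset.sum_eq_single l]
    · rw [hdw_in (Finset.mem_insert_self l J), Finset.erase_insert h, map_zsmul, smul_smul,
        kzb_ksg_mul_self, one_smul]
      rfl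
    · intro k hk hkl
      have : l ∉ insert k J := by
        simp only [Finset.mem_insert, not_or]
        exact ⟨Ne.symm hkl, h⟩
      rw [hdw_out this, map_zero, smul_zero]
    · intro h0
      exact absurd (by simpa using h) h0

private theorem hd_kz_mem (U : Submodule R V) (y : Fin n → R) (c : Finset (Fin n) → V)
    (hc : ∀ J, c J ∈ U) (J : Finset (Fin n)) : kz (sop V y) c J ∈ U := by
  rw [kzb_apply]
  refine Submodule.sum_mem _ fun l _ => ?_
  exact U.toAddSubgroup.zsmul_mem (U.smul_mem (y l) (hc _)) _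

/-- being a boundary modulo `U`. -/
private def HBd (U : Submodule R V) (y : Fin n → R) (i : ℤ) (c : Finset (Fin n) → V) : Prop :=
  ∃ b ∈ kgr R V n (i + 1), ∀ J, c J - kz (sop V y) b J ∈ U

private theorem HBd.smul {U : Submodule R V} {y : Fin n → R} {i : ℤ} {c : Finset (Fin n) → V}
    (a : R) (h : HBd U y i c) : HBd U y i (a • c) := by
  obtain ⟨b, hb, h⟩ := h
  refine ⟨a • b, Submodule.smul_mem _ a hb, fun J => ?_⟩
  rw [map_smul, Pi.smul_apply, Pi.smul_apply, ← smul_sub]
  exact U.smul_mem a (h J)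

private theorem HBd.add {U : Submodule R V} {y : Fin n → R} {i : ℤ} {c c' : Finset (Fin n) → V}
    (h : HBd U y i c) (h' : HBd U y i c') : HBd U y i (c + c') := by
  obtain ⟨b, hb, h⟩ := h
  obtain ⟨b', hb', h'⟩ := h'
  refine ⟨b + b', Submodule.add_mem _ hb hb', fun J => ?_⟩
  rw [map_add, Pi.add_apply, Pi.add_apply]
  have := U.add_mem (h J) (h' J)
  convert this using 1
  abel

/-- elements of `(y)` kill the homology modulo `U`. -/
private theorem hd_kill (U : Submodule R V) (y : Fin n → R) (i : ℤ) (c : Finset (Fin n) → V)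
    (hc : c ∈ kgr R V n i) (hz : ∀ J, kz (sop V y) c J ∈ U) (a : R)
    (ha : a ∈ Ideal.span (Set.range y)) : HBd U y i (a • c) := by
  induction ha using Submodule.span_induction with
  | mem a ha =>
    obtain ⟨l, rfl⟩ := ha
    refine ⟨hdw l c, hdw_kgr l hc, fun J => ?_⟩
    rw [hdw_kz, Pi.smul_apply, sub_sub_cancel]
    by_cases h : l ∈ J
    · rw [hdw_in h]
      exact U.toAddSubgroup.zsmul_mem (hz _) _
    · rw [hdw_out h]
      exact U.zero_mem
  | zero =>
    rw [zero_smul]
    exact ⟨0, Submodule.zero_mem _, fun J => by simp⟩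
  | add a b _ _ ha hb =>
    rw [add_smul]
    exact ha.add hb
  | smul r a _ ha =>
    rw [smul_eq_mul, mul_smul]
    exact ha.smul r

/-- the submodules generated by the first elements of the sequence. -/
private def hdU (V : Type u) [AddCommGroup V] [Module R V] (v : Fin n → R) (k : ℕ) :
    Submodule R V :=
  Ideal.span (v '' {i | i.val < k}) • (⊤ : Submodule R V)

private theorem hdU_succ (v : Fin n → R) (k : Fin n) (x : V)
    (hx : x ∈ hdU V v (k.val + 1)) : ∃ s : V, x - v k • s ∈ hdU V v k.val := by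
  have h1 : (v '' {i : Fin n | i.val < k.val + 1}) = insert (v k) (v '' {i | i.val < k.val}) := by
    rw [← Set.image_insert_eq]
    congr 1
    ext i
    simp only [Set.mem_ofPred_eq, Set.mem_insert_iff, Fin.ext_iff]
    omega
  unfold hdU at hx ⊢
  rw [h1, Ideal.span_insert, Submodule.sup_smul] at hx
  obtain ⟨a, ha, b, hb, hab⟩ := Submodule.mem_sup.mp hx
  rw [Submodule.ideal_span_singleton_smul, Submodule.mem_smul_pointwise_iff_exists] at ha
  obtain ⟨s, _, hs⟩ := ha
  refine ⟨s, ?_⟩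
  rw [hs, ← hab, add_sub_cancel_left]
  exact hb

/-- depth sensitivity, elementwise. -/
private theorem hd_main (v y : Fin n → R) (hv : WReg V v) (L : ℕ)
    (hL : ∀ k, v k ^ L ∈ Ideal.span (Set.range y)) (j k : ℕ) (hjk : j + k = n) (i : ℤ)
    (hi : (k : ℤ) < i) (c : Finset (Fin n) → V) (hc : c ∈ kgr R V n i)
    (hz : ∀ J, kz (sop V y) c J ∈ hdU V v k) : HBd (hdU V v k) y i c := by
  induction j generalizing k i c with
  | zero =>
    have h0 : c = 0 := by
      funext J
      by_contra h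
      have h1 := hc J h
      have h2 : J.card ≤ n := by simpa using Finset.card_le_univ J
      omega
    subst h0
    exact ⟨0, Submodule.zero_mem _, fun J => by simp⟩
  | succ j ih =>
    have hkn : k < n := by omega
    set kk : Fin n := ⟨k, hkn⟩ with hkk
    have hW : ∀ s : V, v kk • s ∈ hdU V v k → s ∈ hdU V v k := by
      intro s hs
      have e1 : ({i : Fin n | i.val < k} : Set (Fin n)) = Set.Iio kk := by
        ext i
        simp [Fin.lt_def, hkk]
      unfold hdU at hs ⊢
      rw [e1] at hs ⊢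
      exact hv kk s hs
    -- injectivity on homology
    have hinj : ∀ c : Finset (Fin n) → V, c ∈ kgr R V n i →
        HBd (hdU V v k) y i (v kk • c) → HBd (hdU V v k) y i c := by
      rintro c hc ⟨b, hb, hb2⟩
      have hle : hdU V v k ≤ hdU V v (k + 1) := by
        unfold hdU
        refine Submodule.smul_mono_left (Ideal.span_mono (Set.image_mono ?_))
        intro x hx
        simp only [Set.mem_ofPred_eq] at hx ⊢
        omega
      have hb3 : ∀ J, kz (sop V y) b J ∈ hdU V v (k + 1) := by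
        intro J
        have h1 : kz (sop V y) b J = v kk • c J - ((v kk • c) J - kz (sop V y) b J) := by
          rw [Pi.smul_apply]
          abel
        rw [h1]
        refine Submodule.sub_mem _ ?_ (hle (hb2 J))
        unfold hdU
        refine Submodule.smul_mem_smul (Ideal.subset_span ⟨kk, ?_, rfl⟩) Submodule.mem_top
        simp [hkk]
      obtain ⟨b', hb', hb4⟩ := ih (k + 1) (by omega) (i + 1) (by push_cast; omega) b hb hb3
      have hs : ∀ J, ∃ s : V, ((b J - kz (sop V y) b' J) - v kk • s ∈ hdU V v k) ∧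
          (s ≠ 0 → (J.card : ℤ) = i + 1) := by
        intro J
        by_cases hJ : (J.card : ℤ) = i + 1
        · obtain ⟨s, hs⟩ := hdU_succ v kk _ (hb4 J)
          exact ⟨s, hs, fun _ => hJ⟩
        · refine ⟨0, ?_, fun h => absurd rfl h⟩
          have h1 : b J = 0 := by
            by_contra h
            exact hJ (hb J h)
          have h2 : kz (sop V y) b' J = 0 := by
            by_contra h
            exact hJ (kz_kgr (sop V y) (i + 1) b' hb' J h)
          rw [h1, h2]
          simp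
      choose s hs1 hs2 using hs
      refine ⟨s, fun J hJ => hs2 J hJ, fun J => hW _ ?_⟩
      have h1 : kz (sop V y) (fun J => (b J - kz (sop V y) b' J) - v kk • s J) J ∈ hdU V v k :=
        hd_kz_mem _ y _ hs1 J
      have h2 : kz (sop V y) (fun J => (b J - kz (sop V y) b' J) - v kk • s J) =
          kz (sop V y) b - kz (sop V y) (kz (sop V y) b') - v kk • kz (sop V y) s := by
        rw [← map_sub, ← map_smul, ← map_sub]
        rfl
      rw [h2, kz_sq (sop V y) (fun k l v => smul_comm (y k) (y l) v), sub_zero] at h1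
      have h3 := Submodule.add_mem _ (hb2 J) h1
      have h4 : v kk • (c J - kz (sop V y) s J) = ((v kk • c) J - kz (sop V y) b J) +
          (kz (sop V y) b - v kk • kz (sop V y) s) J := by
        rw [smul_sub, Pi.smul_apply, Pi.sub_apply, Pi.smul_apply]
        abel
      rw [h4]
      exact h3
    have hpow : ∀ m : ℕ, HBd (hdU V v k) y i (v kk ^ m • c) → HBd (hdU V v k) y i c := by
      intro m
      induction m with
      | zero => intro h; simpa using h
      | succ m ihm =>
        intro h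
        apply ihm
        apply hinj _ (Submodule.smul_mem _ _ hc)
        rw [smul_smul, ← pow_succ']
        exact h
    exact hpow L (hd_kill _ y i c hc hz _ (hL kk))

/-- powers of `v` lie in `(y)`; `v` weakly regular ⟹ the Koszul complex of `y` (same number of
elements) is acyclic in positive degrees. -/
theorem acyc_of_wreg (v y : Fin n → R) (hv : WReg V v) (L : ℕ)
    (hL : ∀ k, v k ^ L ∈ Ideal.span (Set.range y)) : Acyc (sop V y) := by
  intro i hi c hc
  obtain ⟨hc1, hc2⟩ := hc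
  have hU : hdU V v 0 = ⊥ := by
    unfold hdU
    have : ({i : Fin n | i.val < 0} : Set (Fin n)) = ∅ := by
      ext i
      simp
    rw [this, Set.image_empty, Ideal.span_empty, Submodule.bot_smul]
  have hc0 : kz (sop V y) c = 0 := hc2
  obtain ⟨b, hb, hb2⟩ := hd_main v y hv L hL n 0 (by omega) i (by push_cast; omega) c hc1
    (fun J => by rw [hc0]; exact Submodule.zero_mem _)
  refine ⟨b, hb, ?_⟩
  funext J
  have := hb2 J
  rw [hU, Submodule.mem_bot, sub_eq_zero] at this
  exact this.symm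

end HonDepth

end Vale.Agent.P202.Mix
end

section

/-!
P202-MIX, part HON, task HON-4: weak regularity on the honest module.
-/

namespace Vale.Agent.P202.Mix

open Vale.Agent.P202.CharP
open scoped ENNReal

universe u

section Aux

variable {A : Type*} [CommRing A] {M : Type*} [AddCommGroup M] [Module A M]

/-- Elements of `(v_i, i < k) M`. -/
private theorem honReg_mem {n : ℕ} (v : Fin n → A) (k : Fin n) (x : M) :
    x ∈ Ideal.span (v '' Set.Iio k) • (⊤ : Submodule A M) ↔
      ∃ w : Fin n → M, x = ∑ i ∈ Finset.Iio k, v i • w i := by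
  classical
  constructor
  · intro hx
    let T : Submodule A M := LinearMap.range
      (∑ i ∈ Finset.Iio k, v i • (LinearMap.proj i : (Fin n → M) →ₗ[A] M))
    have hT : ∀ z, z ∈ T ↔ ∃ w : Fin n → M, z = ∑ i ∈ Finset.Iio k, v i • w i := by
      intro z
      simp only [T, LinearMap.mem_range, LinearMap.sum_apply, LinearMap.smul_apply,
        LinearMap.proj_apply]
      exact ⟨fun ⟨w, hw⟩ => ⟨w, hw.symm⟩, fun ⟨w, hw⟩ => ⟨w, hw.symm⟩⟩
    rw [← hT]
    have hle : Ideal.span (v '' Set.Iio k) • (⊤ : Submodule A M) ≤ T := by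
      rw [Submodule.smul_le]
      intro r hr m _
      have h1 : Ideal.span (v '' Set.Iio k) ≤ T.comap (LinearMap.toSpanSingleton A M m) := by
        rw [Ideal.span_le]
        rintro _ ⟨i, hi, rfl⟩
        show v i • m ∈ T
        rw [hT]
        refine ⟨fun j => if j = i then m else 0, ?_⟩
        rw [Finset.sum_eq_single i]
        · simp only [if_true]
        · intro j _ hj
          simp only [if_neg hj, smul_zero]
        · intro h2
          exact absurd (Finset.mem_Iio.2 hi) h2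
      exact h1 hr
    exact hle hx
  · rintro ⟨w, rfl⟩
    refine Submodule.sum_mem _ fun i hi => Submodule.smul_mem_smul (Ideal.subset_span ?_)
      Submodule.mem_top
    exact ⟨i, Finset.mem_Iio.1 hi, rfl⟩

/-- Membership of a fraction in `K • ⊤`. -/
private theorem honReg_loc (S : Submonoid A) (K : Ideal A) (m : M) (s : S) :
    LocalizedModule.mk m s ∈ K • (⊤ : Submodule A (LocalizedModule S M)) ↔
      ∃ u : S, (u : A) • m ∈ K • (⊤ : Submodule A M) := by
  constructor
  · intro h
    have key : ∀ t ∈ K • (⊤ : Submodule A (LocalizedModule S M)),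
        ∃ m' ∈ K • (⊤ : Submodule A M), ∃ s' : S, t = LocalizedModule.mk m' s' := by
      intro t ht
      refine Submodule.smul_induction_on ht ?_ ?_
      · intro r hr n _
        induction n using LocalizedModule.induction_on with
        | h m s =>
          exact ⟨r • m, Submodule.smul_mem_smul hr Submodule.mem_top, s,
            LocalizedModule.smul'_mk r m s⟩
      · rintro _ _ ⟨m1, h1, s1, rfl⟩ ⟨m2, h2, s2, rfl⟩
        exact ⟨s2 • m1 + s1 • m2, add_mem (Submodule.smul_mem _ _ h1) (Submodule.smul_mem _ _ h2),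
          s1 * s2, LocalizedModule.mk_add_mk⟩
    obtain ⟨m', hm', s', he⟩ := key _ h
    obtain ⟨u, hu⟩ := LocalizedModule.mk_eq.1 he
    refine ⟨u * s', ?_⟩
    have h3 : ((u * s' : S) : A) • m = u • s' • m := by
      rw [Submonoid.coe_mul, mul_smul]
      rfl
    rw [h3, hu]
    exact Submodule.smul_mem _ _ (Submodule.smul_mem _ _ hm')
  · rintro ⟨u, hu⟩
    have h1 : (LocalizedModule.mk m s : LocalizedModule S M) =
        LocalizedModule.mk ((u : A) • m) (u * s) :=
      (LocalizedModule.mk_cancel_common_left u s m).symm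
    rw [h1]
    generalize (u : A) • m = m' at hu
    generalize u * s = s'
    refine Submodule.smul_induction_on hu ?_ ?_
    · intro r hr n _
      rw [← LocalizedModule.smul'_mk]
      exact Submodule.smul_mem_smul hr Submodule.mem_top
    · intro m1 m2 h1 h2
      have h3 : (LocalizedModule.mk (m1 + m2) s' : LocalizedModule S M) =
          LocalizedModule.mk m1 s' + LocalizedModule.mk m2 s' := by
        rw [LocalizedModule.mk_add_mk, ← smul_add, LocalizedModule.mk_cancel_common_left]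
      rw [h3]
      exact add_mem h1 h2

end Aux

section Limit

variable (R : ℕ → Type u) [∀ e, CommRing (R e)] (X : ℕ → Type u) [∀ e, AddCommGroup (X e)]
  [∀ e, Module (R e) (X e)] (p : ℕ) {r : ℕ} (h : ∀ e, R e)
  (v : ∀ e, Fin (r + 1) → R e)

/-- Before inverting `h`. -/
private theorem honReg_XX (hv0 : ∀ e, v e 0 = (p : R e)) (N : ℕ → ℕ)
    (hN : Filter.Tendsto N Filter.atTop Filter.atTop)
    (H1a : ∀ e (x : X e), (p : R e) • x = 0 → ∃ x', h e • x = (p : R e) ^ (N e) • x')
    (H1b : ∀ e (k : Fin (r + 1)), k ≠ 0 → ∀ x : X e,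
      v e k • x ∈ Ideal.span (v e '' Set.Iio k) • (⊤ : Submodule (R e) (X e)) →
      h e • x ∈ Ideal.span (v e '' Set.Iio k) • (⊤ : Submodule (R e) (X e)))
    (k : Fin (r + 1)) (x : XX R X p)
    (hx : (fun e => v e k : ∀ e, R e) • x ∈
      Ideal.span ((fun (k : Fin (r + 1)) (e : ℕ) => v e k) '' Set.Iio k) •
        (⊤ : Submodule (∀ e, R e) (XX R X p))) :
    h • x ∈ Ideal.span ((fun (k : Fin (r + 1)) (e : ℕ) => v e k) '' Set.Iio k) •
        (⊤ : Submodule (∀ e, R e) (XX R X p)) := by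
  obtain ⟨x, rfl⟩ := (Jinf R X p).mkQ_surjective x
  rw [honReg_mem] at hx ⊢
  obtain ⟨w, hw⟩ := hx
  have hsurj : ∀ i, ∃ w' : ∀ e, X e, (Jinf R X p).mkQ w' = w i := fun i =>
    (Jinf R X p).mkQ_surjective (w i)
  choose w' hw' using hsurj
  have h1 : (fun e => v e k : ∀ e, R e) • x -
      ∑ i ∈ Finset.Iio k, (fun e => v e i : ∀ e, R e) • w' i ∈ Jinf R X p := by
    rw [← Submodule.Quotient.mk_eq_zero, ← Submodule.mkQ_apply, map_sub, map_sum, map_smul, hw,
      sub_eq_zero]
    exact Finset.sum_congr rfl fun i _ => by rw [map_smul, hw']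
  have happ : ∀ e (u : Fin (r + 1) → ∀ e, X e),
      (∑ i ∈ Finset.Iio k, (fun e => v e i : ∀ e, R e) • u i) e =
        ∑ i ∈ Finset.Iio k, v e i • u i e := by
    intro e u
    rw [Finset.sum_apply]
    rfl
  by_cases hk : k = 0
  · -- divisibility by `p`
    subst hk
    have hempty : Finset.Iio (0 : Fin (r + 1)) = ∅ := by
      ext i
      simp
    rw [hempty, Finset.sum_empty, sub_zero] at h1
    refine ⟨0, ?_⟩
    rw [hempty, Finset.sum_empty, ← map_smul, Submodule.mkQ_apply, Submodule.Quotient.mk_eq_zero]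
    intro j
    obtain ⟨e₁, he₁⟩ := h1 (j + 1)
    obtain ⟨e₂, he₂⟩ := Filter.eventually_atTop.1 (hN.eventually_ge_atTop j)
    refine ⟨max e₁ e₂, fun e he => ?_⟩
    obtain ⟨x', hx'⟩ := he₁ e (le_trans (le_max_left _ _) he)
    have hNe := he₂ e (le_trans (le_max_right _ _) he)
    have h2 : (p : R e) • x e = (p : R e) ^ (j + 1) • x' := by
      rw [← hx', ← hv0 e]
      rfl
    have h3 : (p : R e) • (x e - (p : R e) ^ j • x') = 0 := by
      rw [smul_sub, h2, smul_smul, ← pow_succ', sub_self]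
    obtain ⟨x'', hx''⟩ := H1a e _ h3
    refine ⟨h e • x' + (p : R e) ^ (N e - j) • x'', ?_⟩
    rw [smul_add, smul_smul ((p : R e) ^ j) ((p : R e) ^ (N e - j)), ← pow_add,
      Nat.add_sub_cancel' hNe, ← hx'', smul_sub, smul_comm ((p : R e) ^ j) (h e) x']
    rw [Pi.smul_apply']
    abel
  · obtain ⟨e₀, he₀⟩ := h1 1
    have h2 : ∀ e, e₀ ≤ e → ∃ u : Fin (r + 1) → X e,
        h e • x e = ∑ i ∈ Finset.Iio k, v e i • u i := by
      intro e he
      rw [← honReg_mem]
      apply H1b e k hk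
      obtain ⟨x', hx'⟩ := he₀ e he
      rw [Pi.sub_apply, happ, pow_one] at hx'
      have h3 : v e k • x e = v e 0 • x' + ∑ i ∈ Finset.Iio k, v e i • w' i e := by
        rw [hv0, ← hx']
        rw [sub_add_cancel]
        rfl
      rw [h3]
      refine add_mem (Submodule.smul_mem_smul (Ideal.subset_span ?_) Submodule.mem_top)
        ((honReg_mem _ _ _).2 ⟨fun i => w' i e, rfl⟩)
      exact ⟨0, Fin.pos_iff_ne_zero.2 hk, rfl⟩
    have h3 : ∀ e, ∃ u : Fin (r + 1) → X e, e₀ ≤ e →
        h e • x e = ∑ i ∈ Finset.Iio k, v e i • u i := by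
      intro e
      by_cases he : e₀ ≤ e
      · obtain ⟨u, hu⟩ := h2 e he
        exact ⟨u, fun _ => hu⟩
      · exact ⟨0, fun h => absurd h he⟩
    choose u hu using h3
    refine ⟨fun i => (Jinf R X p).mkQ fun e => u e i, ?_⟩
    have h4 : h • x - ∑ i ∈ Finset.Iio k, (fun e => v e i : ∀ e, R e) • (fun e => u e i) ∈
        Jinf R X p := by
      intro j
      refine ⟨e₀, fun e he => ⟨0, ?_⟩⟩
      rw [Pi.sub_apply, happ, smul_zero, Pi.smul_apply', hu e he, sub_self]
    rw [← Submodule.Quotient.mk_eq_zero, ← Submodule.mkQ_apply, map_sub, map_sum, map_smul,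
      sub_eq_zero] at h4
    rw [h4]
    exact Finset.sum_congr rfl fun i _ => by rw [map_smul]

theorem wreg_SS (hv0 : ∀ e, v e 0 = (p : R e)) (N : ℕ → ℕ)
    (hN : Filter.Tendsto N Filter.atTop Filter.atTop)
    (H1a : ∀ e (x : X e), (p : R e) • x = 0 → ∃ x', h e • x = (p : R e) ^ (N e) • x')
    (H1b : ∀ e (k : Fin (r + 1)), k ≠ 0 → ∀ x : X e,
      v e k • x ∈ Ideal.span (v e '' Set.Iio k) • (⊤ : Submodule (R e) (X e)) →
      h e • x ∈ Ideal.span (v e '' Set.Iio k) • (⊤ : Submodule (R e) (X e))) :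
    WReg (SS R X p h) (fun k e => v e k) := by
  intro k s hs
  induction s using LocalizedModule.induction_on with
  | h x s =>
    rw [LocalizedModule.smul'_mk, honReg_loc] at hs
    rw [honReg_loc]
    obtain ⟨u, hu⟩ := hs
    rw [smul_comm] at hu
    have h1 := honReg_XX R X p h v hv0 N hN H1a H1b k _ hu
    rw [smul_smul] at h1
    exact ⟨⟨h, Submonoid.mem_powers h⟩ * u, h1⟩

end Limit

end Vale.Agent.P202.Mix
end

section

/-!
P202-MIX, part HON, task HON-6: extraction of a uniform exponent.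
-/

namespace Vale.Agent.P202.Mix

open Vale.Agent.P202.CharP
open scoped ENNReal

universe u

section

variable {R : Type u} [CommRing R] {n : ℕ}

theorem he_mem_ys {V : Type u} [AddCommGroup V] [Module R V] (y : Fin n → R) (x : V) :
    x ∈ ys V y ↔ ∃ t : Fin n → V, x = ∑ l, y l • t l := by
  constructor
  · intro hx
    refine Submodule.smul_induction_on hx ?_ ?_
    · intro a ha m _
      obtain ⟨c, hc⟩ := (Ideal.mem_span_range_iff_exists_fun).mp ha
      refine ⟨fun l => c l • m, ?_⟩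
      rw [← hc, Finset.sum_smul]
      exact Finset.sum_congr rfl fun l _ => by rw [mul_comm, mul_smul]
    · rintro x1 x2 ⟨t1, h1⟩ ⟨t2, h2⟩
      refine ⟨fun l => t1 l + t2 l, ?_⟩
      rw [h1, h2, ← Finset.sum_add_distrib]
      exact Finset.sum_congr rfl fun l _ => (smul_add _ _ _).symm
  · rintro ⟨t, rfl⟩
    exact sum_mem fun l _ => Submodule.smul_mem_smul (Ideal.subset_span ⟨l, rfl⟩) trivial

variable {M M' : Type u} [AddCommGroup M] [Module R M] [AddCommGroup M'] [Module R M']

theorem he_za {α β : Type} [Fintype β] (A : Matrix α β ℤ) (φ : M →ₗ[R] M') (f : β → M) (a : α) :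
    φ (za A R M f a) = za A R M' (fun b => φ (f b)) a := by
  simp [za]

theorem he_T (W : MRep n) (z : Fin n → R) (φ : M →ₗ[R] M') (l : Fin n) (f : W.ι → M) (b : W.ι) :
    φ (W.T M z l f b) = W.T M' z l (fun b => φ (f b)) b := by
  simp [MRep.T, he_za]

theorem he_kz (W : MRep n) (z : Fin n → R) (φ : M →ₗ[R] M') (ζ : Finset (Fin n) → W.ι → M)
    (J : Finset (Fin n)) (b : W.ι) :
    φ (kz (W.T M z) ζ J b) = kz (W.T M' z) (fun J b => φ (ζ J b)) J b := by
  simp only [kz, LinearMap.coe_mk, AddHom.coe_mk, Finset.sum_apply, Pi.smul_apply, map_sum,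
    map_zsmul, he_T]

end

section Limit

variable (R : ℕ → Type u) [∀ e, CommRing (R e)] (X : ℕ → Type u) [∀ e, AddCommGroup (X e)]
  [∀ e, Module (R e) (X e)] (p : ℕ) {r : ℕ} (h : ∀ e, R e)
  (v y z : ∀ e, Fin (r + 1) → R e)

variable {R X} in
theorem he_za_eval {α β : Type} [Fintype β] (A : Matrix α β ℤ) (f : β → ∀ e, X e) (a : α) (e : ℕ) :
    za A (∀ e, R e) (∀ e, X e) f a e = za A (R e) (X e) (fun b => f b e) a := by
  simp [za]

variable {R X} in
theorem he_kz_eval (W : MRep (r + 1)) (z : ∀ e, Fin (r + 1) → R e)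
    (ζ : Finset (Fin (r + 1)) → W.ι → ∀ e, X e) (J : Finset (Fin (r + 1))) (b : W.ι) (e : ℕ) :
    kz (W.T (∀ e, X e) (fun l e => z e l)) ζ J b e =
      kz (W.T (X e) (z e)) (fun J b => ζ J b e) J b := by
  simp [kz, MRep.T, he_za_eval]

/-- the map to the honest module. -/
noncomputable def heSS : (∀ e, X e) →ₗ[∀ e, R e] SS R X p h :=
  (LocalizedModule.mkLinearMap (Submonoid.powers h) (XX R X p)) ∘ₗ (Jinf R X p).mkQ

theorem he_zero {x : ∀ e, X e} (hx : heSS R X p h x = 0) : ∃ b : ℕ, h ^ b • x ∈ Jinf R X p := by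
  have h1 := (IsLocalizedModule.eq_zero_iff (Submonoid.powers h)
    (LocalizedModule.mkLinearMap (Submonoid.powers h) (XX R X p))).mp hx
  obtain ⟨⟨_, b, rfl⟩, hb⟩ := h1
  refine ⟨b, ?_⟩
  rw [← Submodule.Quotient.mk_eq_zero, Submodule.Quotient.mk_smul]
  exact hb

theorem he_surj (s : SS R X p h) : ∃ (a : ℕ) (x : ∀ e, X e), h ^ a • s = heSS R X p h x := by
  obtain ⟨⟨m, ⟨_, a, rfl⟩⟩, hm⟩ := IsLocalizedModule.surj (Submonoid.powers h)
    (LocalizedModule.mkLinearMap (Submonoid.powers h) (XX R X p)) s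
  obtain ⟨x, rfl⟩ := Submodule.mkQ_surjective _ m
  exact ⟨a, x, hm⟩

theorem he_common {κ : Type*} [Fintype κ] (s : κ → SS R X p h) :
    ∃ (a : ℕ) (x : κ → ∀ e, X e), ∀ k, h ^ a • s k = heSS R X p h (x k) := by
  choose a x hx using fun k => he_surj R X p h (s k)
  refine ⟨∑ k, a k, fun k => h ^ (∑ k, a k - a k) • x k, fun k => ?_⟩
  have h1 : a k ≤ ∑ k, a k := Finset.single_le_sum (f := a) (fun _ _ => Nat.zero_le _)
    (Finset.mem_univ k)
  rw [map_smul, ← hx, smul_smul, ← pow_add, Nat.sub_add_cancel h1]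

theorem he_mem (L : ℕ) (hy : ∀ e, (p : R e) ^ L ∈ Ideal.span (Set.range (y e))) {ι : Type}
    [Fintype ι] (u : ι → ∀ e, X e)
    (hu : (fun b => heSS R X p h (u b)) ∈ ys (ι → SS R X p h) (fun l e => y e l)) :
    ∃ b e₁ : ℕ, ∀ e, e₁ ≤ e → (fun i => h e ^ b • u i e) ∈ ys (ι → X e) (y e) := by
  classical
  obtain ⟨t, ht⟩ := (he_mem_ys _ _).mp hu
  obtain ⟨a, t', ht'⟩ := he_common R X p h (fun k : Fin (r + 1) × ι => t k.1 k.2)
  have h0 : ∀ i, heSS R X p h (h ^ a • u i - ∑ l, (fun e => y e l) • t' (l, i)) = 0 := by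
    intro i
    have h1 := congrFun ht i
    simp only [Finset.sum_apply, Pi.smul_apply] at h1
    rw [map_sub, map_smul, map_sum, h1, Finset.smul_sum, ← Finset.sum_sub_distrib]
    refine Finset.sum_eq_zero fun l _ => ?_
    rw [map_smul, ← ht' (l, i), smul_comm, sub_self]
  choose b hb using fun i => he_zero R X p h (h0 i)
  choose e₁ he₁ using fun i => hb i L
  refine ⟨(∑ i, b i) + a, ∑ i, e₁ i, fun e he => ?_⟩
  have h2 : ∀ i, ∃ x' : X e, h e ^ b i • (h e ^ a • u i e - ∑ l, y e l • t' (l, i) e) =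
      (p : R e) ^ L • x' := by
    intro i
    have h3 : e₁ i ≤ ∑ i, e₁ i := Finset.single_le_sum (f := e₁) (fun _ _ => Nat.zero_le _)
      (Finset.mem_univ i)
    obtain ⟨x', hx'⟩ := he₁ i e (h3.trans he)
    refine ⟨x', ?_⟩
    rw [← hx']
    simp only [Pi.smul_apply', Pi.sub_apply, Finset.sum_apply, Pi.pow_apply]
  choose x' hx' using h2
  have h4 : (fun i => h e ^ (∑ i, b i + a) • u i e) =
      (fun i => (p : R e) ^ L • (h e ^ (∑ i, b i - b i) • x' i)) +
        ∑ l, y e l • (fun i => h e ^ (∑ i, b i) • t' (l, i) e) := by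
    funext i
    have h5 : b i ≤ ∑ i, b i := Finset.single_le_sum (f := b) (fun _ _ => Nat.zero_le _)
      (Finset.mem_univ i)
    simp only [Pi.add_apply, Finset.sum_apply, Pi.smul_apply]
    rw [smul_comm ((p : R e) ^ L), ← hx' i, smul_smul, ← pow_add, Nat.sub_add_cancel h5,
      smul_sub, smul_smul, ← pow_add, Finset.smul_sum, sub_add_eq_add_sub, add_sub_assoc,
      ← Finset.sum_sub_distrib]
    simp only [smul_comm (h e ^ (∑ i, b i)), sub_self, Finset.sum_const_zero, add_zero]
  rw [h4]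
  refine add_mem ?_ ?_
  · exact Submodule.smul_mem_smul (r := (p : R e) ^ L)
      (n := fun i => h e ^ (∑ i, b i - b i) • x' i) (hy e) trivial
  · exact (he_mem_ys _ _).mpr ⟨_, rfl⟩

theorem he_mem_fin (L : ℕ) (hy : ∀ e, (p : R e) ^ L ∈ Ideal.span (Set.range (y e))) {ι : Type}
    [Fintype ι] {κ : Type} [Fintype κ] (u : κ → ι → ∀ e, X e)
    (hu : ∀ k, (fun b => heSS R X p h (u k b)) ∈ ys (ι → SS R X p h) (fun l e => y e l)) :
    ∃ b e₁ : ℕ, ∀ k e c, e₁ ≤ e → b ≤ c → (fun i => h e ^ c • u k i e) ∈ ys (ι → X e) (y e) := by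
  classical
  choose b e₁ hb using fun k => he_mem R X p h y L hy (u k) (hu k)
  refine ⟨∑ k, b k, ∑ k, e₁ k, fun k e c he hc => ?_⟩
  have h1 : b k ≤ ∑ k, b k := Finset.single_le_sum (f := b) (fun _ _ => Nat.zero_le _)
    (Finset.mem_univ k)
  have h2 : e₁ k ≤ ∑ k, e₁ k := Finset.single_le_sum (f := e₁) (fun _ _ => Nat.zero_le _)
    (Finset.mem_univ k)
  have h3 := (ys (ι → X e) (y e)).smul_mem (h e ^ (c - b k)) (hb k e (h2.trans he))
  have h4 : h e ^ (c - b k) • (fun i => h e ^ b k • u k i e) = fun i => h e ^ c • u k i e := by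
    funext i
    rw [Pi.smul_apply, smul_smul, ← pow_add, Nat.sub_add_cancel (h1.trans hc)]
  rwa [h4] at h3

theorem extract (L : ℕ) (hy : ∀ e, (p : R e) ^ L ∈ Ideal.span (Set.range (y e)))
    (W W' : MRep (r + 1)) (f : W.Surj W')
    (HL : LiftMod (W.T (SS R X p h) (fun l e => z e l)) (ys _ (fun l e => y e l))
      (W'.T (SS R X p h) (fun l e => z e l)) (ys _ (fun l e => y e l))
      (za f.P (∀ e, R e) (SS R X p h))) (i : ℤ) :
    ∃ c e₀ : ℕ, ∀ e, e₀ ≤ e → ∀ ζ' ∈ kgr (R e) (W'.ι → X e) (r + 1) i,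
      (∀ J, kz (W'.T (X e) (z e)) ζ' J ∈ ys (W'.ι → X e) (y e)) →
      ∃ ζ ∈ kgr (R e) (W.ι → X e) (r + 1) i,
        (∀ J, kz (W.T (X e) (z e)) ζ J ∈ ys (W.ι → X e) (y e)) ∧
        ∀ J, za f.P (R e) (X e) (ζ J) - h e ^ c • ζ' J ∈ ys (W'.ι → X e) (y e) := by
  classical
  by_contra hcon
  push Not at hcon
  obtain ⟨s, hs, hbad⟩ := Filter.extraction_forall_of_frequently
    (P := fun c e => ∃ ζ' ∈ kgr (R e) (W'.ι → X e) (r + 1) i,
      (∀ J, kz (W'.T (X e) (z e)) ζ' J ∈ ys (W'.ι → X e) (y e)) ∧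
      ∀ ζ ∈ kgr (R e) (W.ι → X e) (r + 1) i,
        (∀ J, kz (W.T (X e) (z e)) ζ J ∈ ys (W.ι → X e) (y e)) →
        ∃ J, za f.P (R e) (X e) (ζ J) - h e ^ c • ζ' J ∉ ys (W'.ι → X e) (y e))
    (fun c => Filter.frequently_atTop.mpr fun e₀ => hcon c e₀)
  have hfam : ∀ e, ∃ ζ' ∈ kgr (R e) (W'.ι → X e) (r + 1) i,
      (∀ J, kz (W'.T (X e) (z e)) ζ' J ∈ ys (W'.ι → X e) (y e)) ∧
      ∀ c, s c = e → ∀ ζ ∈ kgr (R e) (W.ι → X e) (r + 1) i,
        (∀ J, kz (W.T (X e) (z e)) ζ J ∈ ys (W.ι → X e) (y e)) →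
        ∃ J, za f.P (R e) (X e) (ζ J) - h e ^ c • ζ' J ∉ ys (W'.ι → X e) (y e) := by
    intro e
    by_cases h1 : ∃ c, s c = e
    · obtain ⟨c, rfl⟩ := h1
      obtain ⟨ζ', a1, a2, a3⟩ := hbad c
      refine ⟨ζ', a1, a2, fun c' hc' => ?_⟩
      have : c' = c := hs.injective hc'
      rw [this]
      exact a3
    · refine ⟨0, zero_mem _, fun J => ?_, fun c hc => absurd ⟨c, hc⟩ h1⟩
      rw [map_zero]
      exact zero_mem _
  choose ζ' hk hz hb using hfam
  -- the lift over the honest module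
  obtain ⟨Z, hZ⟩ : ∃ Z : Finset (Fin (r + 1)) → W'.ι → ∀ e, X e, Z = fun J b e => ζ' e J b :=
    ⟨_, rfl⟩
  have hkgr : (fun J b => heSS R X p h (Z J b)) ∈ kgr (∀ e, R e) (W'.ι → SS R X p h) (r + 1) i := by
    intro J hJ
    by_contra hJi
    apply hJ
    funext b
    have h1 : Z J b = 0 := by
      rw [hZ]
      funext e
      by_contra h2
      exact hJi (hk e J fun h3 => h2 (by
        change ζ' e J b = 0
        rw [h3]
        rfl))
    change heSS R X p h (Z J b) = 0
    rw [h1, map_zero]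
  have hkzZ : ∀ J, kz (W'.T (SS R X p h) (fun l e => z e l)) (fun J b => heSS R X p h (Z J b)) J ∈
      ys (W'.ι → SS R X p h) (fun l e => y e l) := by
    intro J
    choose t ht using fun e => (he_mem_ys _ _).mp (hz e J)
    refine (he_mem_ys _ _).mpr ⟨fun l b => heSS R X p h (fun e => t e l b), ?_⟩
    funext b
    rw [← he_kz]
    have h1 : kz (W'.T (∀ e, X e) (fun l e => z e l)) Z J b =
        ∑ l, (fun e => y e l) • (fun e => t e l b) := by
      funext e
      rw [he_kz_eval]
      have h2 := congrFun (ht e) b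
      rw [hZ]
      simp only [Finset.sum_apply, Pi.smul_apply, Pi.smul_apply'] at h2 ⊢
      exact h2
    rw [h1, map_sum]
    simp only [Finset.sum_apply, Pi.smul_apply, map_smul]
  obtain ⟨ζb, hζk, hζz, hζd⟩ := HL i _ hkgr hkzZ
  obtain ⟨a, x, hx⟩ := he_common R X p h (fun k : Finset (Fin (r + 1)) × W.ι => ζb k.1 k.2)
  obtain ⟨ξ, hξ⟩ : ∃ ξ : Finset (Fin (r + 1)) → W.ι → ∀ e, X e,
      ξ = fun J b => if (J.card : ℤ) = i then x (J, b) else 0 := ⟨_, rfl⟩
  have hξs : ∀ J b, heSS R X p h (ξ J b) = h ^ a • ζb J b := by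
    intro J b
    rw [hξ]
    dsimp only
    split_ifs with h1
    · exact (hx (J, b)).symm
    · have h2 : ζb J = 0 := by
        by_contra h3
        exact h1 (hζk J h3)
      rw [h2, map_zero]
      simp
  have hξs' : (fun J b => heSS R X p h (ξ J b)) = h ^ a • ζb := by
    funext J b
    exact hξs J b
  obtain ⟨b1, e1, hb1⟩ := he_mem_fin R X p h y L hy
    (fun J => kz (W.T (∀ e, X e) (fun l e => z e l)) ξ J) (by
      intro J
      have h1 : (fun b => heSS R X p h (kz (W.T (∀ e, X e) (fun l e => z e l)) ξ J b)) =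
          h ^ a • kz (W.T (SS R X p h) (fun l e => z e l)) ζb J := by
        funext b
        rw [he_kz, hξs', map_smul]
        rfl
      rw [h1]
      exact Submodule.smul_mem _ _ (hζz J))
  obtain ⟨b2, e2, hb2⟩ := he_mem_fin R X p h y L hy
    (fun J b => za f.P (∀ e, R e) (∀ e, X e) (ξ J) b - h ^ a • Z J b) (by
      intro J
      have h1 : (fun b => heSS R X p h (za f.P (∀ e, R e) (∀ e, X e) (ξ J) b - h ^ a • Z J b)) =
          h ^ a • (za f.P (∀ e, R e) (SS R X p h) (ζb J) - fun b => heSS R X p h (Z J b)) := by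
        funext b
        rw [map_sub, he_za, map_smul]
        have h2 : (fun b => heSS R X p h (ξ J b)) = h ^ a • ζb J := by
          funext b
          exact hξs J b
        rw [h2, map_smul, smul_sub]
        rfl
      rw [h1]
      exact Submodule.smul_mem _ _ (hζd J))
  -- the contradiction
  obtain ⟨c, hc⟩ : ∃ c : ℕ, c = (b1 + b2 + e1 + e2) + a := ⟨_, rfl⟩
  have hsc : c ≤ s c := hs.le_apply
  obtain ⟨J, hJ⟩ := hb (s c) c rfl (fun J b => h (s c) ^ (b1 + b2 + e1 + e2) • ξ J b (s c)) (by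
    intro J hJ
    by_contra h1
    apply hJ
    funext b
    rw [hξ]
    simp [h1]) (by
    intro J
    have h1 : kz (W.T (X (s c)) (z (s c)))
        (fun J b => h (s c) ^ (b1 + b2 + e1 + e2) • ξ J b (s c)) J =
        fun b => h (s c) ^ (b1 + b2 + e1 + e2) •
          kz (W.T (∀ e, X e) (fun l e => z e l)) ξ J b (s c) := by
      funext b
      rw [he_kz_eval]
      have h2 : (fun J b => h (s c) ^ (b1 + b2 + e1 + e2) • ξ J b (s c)) =
          h (s c) ^ (b1 + b2 + e1 + e2) • (fun J b => ξ J b (s c)) := rfl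
      rw [h2, map_smul]
      rfl
    rw [h1]
    exact hb1 J (s c) _ (by omega) (by omega))
  apply hJ
  have h1 : za f.P (R (s c)) (X (s c)) (fun b => h (s c) ^ (b1 + b2 + e1 + e2) • ξ J b (s c)) -
      h (s c) ^ c • ζ' (s c) J = fun b => h (s c) ^ (b1 + b2 + e1 + e2) •
        (za f.P (∀ e, R e) (∀ e, X e) (ξ J) b - h ^ a • Z J b) (s c) := by
    funext b
    have h2 : (fun b => h (s c) ^ (b1 + b2 + e1 + e2) • ξ J b (s c)) =
        h (s c) ^ (b1 + b2 + e1 + e2) • (fun b => ξ J b (s c)) := rfl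
    rw [h2, map_smul, Pi.sub_apply, Pi.smul_apply, Pi.smul_apply, Pi.sub_apply, he_za_eval,
      smul_sub, Pi.smul_apply', Pi.pow_apply, smul_smul, ← pow_add, ← hc, hZ]
  rw [h1]
  exact hb2 J (s c) _ (by omega) (by omega)

end Limit

end Vale.Agent.P202.Mix
end

section

/-!
P202-MIX, part HON: cycles lift up to a uniform power of `h` (assembly).
-/

namespace Vale.Agent.P202.Mix

open Vale.Agent.P202.CharP
open scoped ENNReal

universe u

section Aux

variable {R : Type u} [CommRing R] {M : Type u} [AddCommGroup M] [Module R M]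

/-- `I • ⊤` in a finite power of a module. -/
theorem hon7_mem_pi {ι : Type} [Fintype ι] (I : Ideal R) (x : ι → M) :
    x ∈ I • (⊤ : Submodule R (ι → M)) ↔ ∀ a, x a ∈ I • (⊤ : Submodule R M) := by
  classical
  constructor
  · intro hx a
    have h1 : (I • (⊤ : Submodule R (ι → M))).map (LinearMap.proj (R := R) (φ := fun _ => M) a) ≤
        I • ⊤ := by
      rw [Submodule.map_smul'']
      exact Submodule.smul_mono le_rfl le_top
    exact h1 ⟨x, hx, rfl⟩
  · intro hx
    rw [← Finset.univ_sum_single x]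
    refine Submodule.sum_mem _ fun a _ => ?_
    have h1 : (I • (⊤ : Submodule R M)).map (LinearMap.single R (fun _ => M) a) ≤ I • ⊤ := by
      rw [Submodule.map_smul'']
      exact Submodule.smul_mono le_rfl le_top
    exact h1 ⟨x a, hx a, rfl⟩

theorem hon7_T_comm {n q : ℕ} {W : MRep n} (hW : W.IsNil q) (z : Fin n → R) (k l : Fin n)
    (v : W.ι → M) : W.T M z k (W.T M z l v) = W.T M z l (W.T M z k v) := by
  show za (W.X k) R M (W.T M z l v) - z k • W.T M z l v = _
  rw [repcyc_za_T M z (W := W) (W' := W) (W.X k) l (hW.comm k l), ← map_smul, ← map_sub]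
  rfl

theorem hon7_surj {n : ℕ} {W W' : MRep n} (f : W.Surj W') : Function.Surjective (za f.P R M) :=
  fun v => ⟨za f.σ R M v, by rw [← repcyc_za_mul, f.split, repcyc_za_one]⟩

/-- reduction of functions modulo a submodule. -/
def hon7_red (ι : Type) (N : Submodule R M) : (ι → M) →ₗ[R] (ι → M ⧸ N) :=
  LinearMap.pi fun a => N.mkQ ∘ₗ LinearMap.proj a

theorem hon7_red_za {α β : Type} [Fintype β] (A : Matrix α β ℤ) (N : Submodule R M) (v : β → M) :
    hon7_red α N (za A R M v) = za A R (M ⧸ N) (hon7_red β N v) := by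
  ext a
  show N.mkQ (∑ b, A a b • v b) = ∑ b, A a b • N.mkQ (v b)
  rw [map_sum]
  exact Finset.sum_congr rfl fun b _ => map_zsmul _ _ _

theorem hon7_red_T {n : ℕ} (W : MRep n) (z : Fin n → R) (N : Submodule R M) (l : Fin n)
    (v : W.ι → M) : hon7_red W.ι N (W.T M z l v) = W.T (M ⧸ N) z l (hon7_red W.ι N v) := by
  show hon7_red W.ι N (za (W.X l) R M v - z l • v) =
    za (W.X l) R (M ⧸ N) (hon7_red W.ι N v) - z l • hon7_red W.ι N v
  rw [map_sub, map_smul, hon7_red_za]

theorem hon7_red_eq_zero {n : ℕ} {ι : Type} [Fintype ι] (y : Fin n → R) (v : ι → M) :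
    hon7_red ι (ys M y) v = 0 ↔ v ∈ ys (ι → M) y := by
  unfold ys
  rw [hon7_mem_pi, funext_iff]
  refine forall_congr' fun a => ?_
  exact Submodule.Quotient.mk_eq_zero _

end Aux

section Limit

variable (R : ℕ → Type u) [∀ e, CommRing (R e)] (X : ℕ → Type u) [∀ e, AddCommGroup (X e)]
  [∀ e, Module (R e) (X e)] (p : ℕ) {r : ℕ} (h : ∀ e, R e)
  (v y z : ∀ e, Fin (r + 1) → R e)

theorem hon7_span {n : ℕ} (z : ∀ e, Fin n → R e) (s : ∀ e, R e)
    (hs : ∀ e, s e ∈ Ideal.span (Set.range (z e))) :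
    s ∈ Ideal.span (Set.range fun (l : Fin n) (e : ℕ) => z e l) := by
  have h1 : ∀ e, ∃ c : Fin n → R e, ∑ l, c l * z e l = s e := fun e =>
    Ideal.mem_span_range_iff_exists_fun.1 (hs e)
  choose c hc using h1
  rw [Ideal.mem_span_range_iff_exists_fun]
  refine ⟨fun l e => c e l, ?_⟩
  funext e
  rw [Finset.sum_apply]
  exact hc e

/-- all hypotheses on the levelwise data (`w` = order of nilpotency of the representations). -/
structure HonData (w : ℕ) : Prop where
  hv0 : ∀ e, v e 0 = (p : R e)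
  tr : ∃ N : ℕ → ℕ, Filter.Tendsto N Filter.atTop Filter.atTop ∧
    ∀ e (x : X e), (p : R e) • x = 0 → ∃ x', h e • x = (p : R e) ^ (N e) • x'
  reg : ∀ e (k : Fin (r + 1)), k ≠ 0 → ∀ x : X e,
      v e k • x ∈ Ideal.span (v e '' Set.Iio k) • (⊤ : Submodule (R e) (X e)) →
      h e • x ∈ Ideal.span (v e '' Set.Iio k) • (⊤ : Submodule (R e) (X e))
  vz : ∀ e k, v e k ∈ Ideal.span (Set.range (z e))
  vy : ∃ L : ℕ, ∀ e k, v e k ^ L ∈ Ideal.span (Set.range (y e))
  pk : ∀ (W : MRep (r + 1)), W.IsNil w → ∀ e (x : W.ι → X e),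
    (p : R e) • x ∈ trg (W.T (X e) (z e))
  lf : ∀ (W W' : MRep (r + 1)), W.IsNil w → W'.IsNil w → ∀ (f : W.Surj W') (e : ℕ),
    LiftMod (sop (W.ι → X e) (y e)) (trg (W.T (X e) (z e)))
      (sop (W'.ι → X e) (y e)) (trg (W'.T (X e) (z e))) (za f.P (R e) (X e))

/-- `Q_e = X_e / (y) X_e`. -/
abbrev QQ (e : ℕ) : Type u := X e ⧸ ys (X e) (y e)

theorem hon (w : ℕ) (H : HonData R X p h v y z w) (W W' : MRep (r + 1)) (hW : W.IsNil w)
    (hW' : W'.IsNil w) (f : W.Surj W') (i : ℤ) :
    ∃ c e₀ : ℕ, ∀ e, e₀ ≤ e → ∀ ζ ∈ kcyc (W'.T (QQ R X y e) (z e)) i,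
      h e ^ c • ζ ∈ (kcyc (W.T (QQ R X y e) (z e)) i).map
        (kmap (r + 1) (za f.P (R e) (QQ R X y e))) := by
  classical
  obtain ⟨N, hN, H1a⟩ := H.tr
  obtain ⟨L, hL⟩ := H.vy
  have hreg := wreg_SS R X p h v H.hv0 N hN H1a H.reg
  have hz : Acyc (sop (SS R X p h) (fun l e => z e l)) :=
    acyc_of_wreg (fun k e => v e k) (fun l e => z e l) hreg 1 fun k =>
      hon7_span R z _ fun e => by
        rw [pow_one]
        exact H.vz e k
  have hy : Acyc (sop (SS R X p h) (fun l e => y e l)) :=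
    acyc_of_wreg (fun k e => v e k) (fun l e => y e l) hreg L fun k =>
      hon7_span R y _ fun e => hL e k
  have hlift := lift_SS R X p h y z W W' f (H.pk W hW) (H.pk W' hW') (H.lf W W' hW hW' f)
  have hswap := lift_swap (za f.P (∀ e, R e) (SS R X p h)) (hon7_surj f)
    (W.T (SS R X p h) (fun l e => z e l)) (W'.T (SS R X p h) (fun l e => z e l))
    (hon7_T_comm hW _) (hon7_T_comm hW' _)
    (fun l v => repcyc_za_T _ _ f.P l (f.comm l) v) (fun l e => y e l)
    (acyc_rep w W hW _ hz) (acyc_rep w W' hW' _ hz)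
    (acyc_pi W.ι _ hy) (acyc_pi W'.ι _ hy) hlift
  obtain ⟨c, e₀, hc⟩ := extract R X p h y z L
    (fun e => by rw [← H.hv0 e]; exact hL e 0) W W' f hswap i
  refine ⟨c, e₀, fun e he ζ hζ => ?_⟩
  -- lift `ζ` to `X e`
  have hl : ∀ q : QQ R X y e, ∃ x : X e, (ys (X e) (y e)).mkQ x = q ∧ (q = 0 → x = 0) := by
    intro q
    by_cases hq : q = 0
    · exact ⟨0, by rw [hq, map_zero], fun _ => rfl⟩
    · obtain ⟨x, hx⟩ := Submodule.mkQ_surjective _ q
      exact ⟨x, hx, fun h0 => absurd h0 hq⟩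
  choose s hs hs0 using hl
  set red := hon7_red (R := R e) W'.ι (ys (X e) (y e)) with hred
  let ζ' : Finset (Fin (r + 1)) → (W'.ι → X e) := fun J a => s (ζ J a)
  have hζ' : kmap (r + 1) red ζ' = ζ := by
    funext J a
    exact hs (ζ J a)
  have hζ'gr : ζ' ∈ kgr (R e) (W'.ι → X e) (r + 1) i := by
    intro J hJ
    refine hζ.1 J fun h0 => hJ ?_
    funext a
    exact hs0 _ (by rw [h0]; rfl)
  have hζ'c : ∀ J, kz (W'.T (X e) (z e)) ζ' J ∈ ys (W'.ι → X e) (y e) := by
    intro J
    rw [← hon7_red_eq_zero]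
    have h1 := repcyc_kz_kmap (W'.T (X e) (z e)) (W'.T (QQ R X y e) (z e)) red
      (fun l v => hon7_red_T W' (z e) _ l v) ζ'
    rw [hζ'] at h1
    have h2 : kz (W'.T (QQ R X y e) (z e)) ζ = 0 := hζ.2
    rw [h2] at h1
    exact congrFun h1 J
  obtain ⟨η, hη, hη1, hη2⟩ := hc e he ζ' hζ'gr hζ'c
  refine ⟨kmap (r + 1) (hon7_red (R := R e) W.ι (ys (X e) (y e))) η, ⟨?_, ?_⟩, ?_⟩
  · intro J hJ
    refine hη J fun h0 => hJ ?_
    show hon7_red (R := R e) W.ι (ys (X e) (y e)) (η J) = 0
    rw [h0, map_zero]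
  · show kz _ _ = 0
    rw [← repcyc_kz_kmap (W.T (X e) (z e)) (W.T (QQ R X y e) (z e)) _
      (fun l v => hon7_red_T W (z e) _ l v) η]
    funext J
    exact (hon7_red_eq_zero (y e) _).2 (hη1 J)
  · funext J
    show za f.P (R e) (QQ R X y e) (hon7_red (R := R e) W.ι (ys (X e) (y e)) (η J)) =
      h e ^ c • ζ J
    rw [← hon7_red_za]
    have h1 := (hon7_red_eq_zero (y e) _).2 (hη2 J)
    rw [map_sub, sub_eq_zero, map_smul] at h1
    rw [h1]
    congr 1
    exact congrFun hζ' J

end Limit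

end Vale.Agent.P202.Mix
end

section

/-!
P202-MIX, bridge from the packages `APkg` to `HonData` (assembly).
-/

namespace Vale.Agent.P202.Mix

open Vale.Agent.P202.CharP IsLocalRing TensorProduct
open scoped ENNReal Topology

universe u

section Colon

variable {A : Type u} [CommRing A] {S : Type u} [CommRing S] [Algebra A S]
  {E : Type u} [CommRing E] [Algebra A E]

/-- colon ideals and flat base change. -/
theorem br3_colon [Module.Flat A S] (K K' : Ideal E) (a h : E) (H : ∀ x, a * x ∈ K → h * x ∈ K')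
    (X : S ⊗[A] E)
    (hX : (1 ⊗ₜ a) * X ∈ K.map (Algebra.TensorProduct.includeRight : E →ₐ[A] S ⊗[A] E)) :
    (1 ⊗ₜ h) * X ∈ K'.map (Algebra.TensorProduct.includeRight : E →ₐ[A] S ⊗[A] E) := by
  set g : E →ₗ[A] E ⧸ K := (Ideal.Quotient.mkₐ A K).toLinearMap ∘ₗ LinearMap.mulLeft A a with hg
  have hex : Function.Exact (LinearMap.ker g).subtype g := by
    intro y
    constructor
    · intro hy
      exact ⟨⟨y, hy⟩, rfl⟩
    · rintro ⟨y', rfl⟩
      exact y'.2
  have hex2 := Module.Flat.lTensor_exact S hex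
  have h0 : LinearMap.lTensor S g X = 0 := by
    have h1 : ∀ Y : S ⊗[A] E, Y ∈ K.map (Algebra.TensorProduct.includeRight : E →ₐ[A] S ⊗[A] E) →
        Algebra.TensorProduct.map (AlgHom.id A S) (Ideal.Quotient.mkₐ A K) Y = 0 := by
      intro Y hY
      rw [← RingHom.mem_ker]
      revert Y
      change K.map (Algebra.TensorProduct.includeRight : E →ₐ[A] S ⊗[A] E) ≤
        RingHom.ker (Algebra.TensorProduct.map (AlgHom.id A S) (Ideal.Quotient.mkₐ A K))
      rw [Ideal.map_le_iff_le_comap]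
      intro y hy
      rw [Ideal.mem_comap, RingHom.mem_ker]
      change (1 : S) ⊗ₜ[A] (Ideal.Quotient.mk K y) = 0
      rw [Ideal.Quotient.eq_zero_iff_mem.2 hy, TensorProduct.tmul_zero]
    have h2 : ∀ Y : S ⊗[A] E, LinearMap.lTensor S g Y =
        Algebra.TensorProduct.map (AlgHom.id A S) (Ideal.Quotient.mkₐ A K) ((1 ⊗ₜ a) * Y) := by
      intro Y
      induction Y with
      | zero => simp
      | add Y Z hY hZ => rw [map_add, hY, hZ, mul_add, map_add]
      | tmul s b =>
        rw [Algebra.TensorProduct.tmul_mul_tmul, one_mul]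
        rfl
    rw [h2, h1 _ hX]
  obtain ⟨Y, rfl⟩ := (hex2 X).1 h0
  clear h0 hX
  induction Y with
  | zero => simp
  | add Y Z hY hZ =>
    rw [map_add, mul_add]
    exact Ideal.add_mem _ hY hZ
  | tmul s b =>
    rw [LinearMap.lTensor_tmul, Algebra.TensorProduct.tmul_mul_tmul, one_mul]
    have h3 : h * (b : E) ∈ K' := by
      apply H
      have h4 : g b = 0 := b.2
      exact Ideal.Quotient.eq_zero_iff_mem.1 h4
    have h5 : s ⊗ₜ[A] (h * (b : E)) = (s ⊗ₜ[A] 1) * (Algebra.TensorProduct.includeRight :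
        E →ₐ[A] S ⊗[A] E) (h * (b : E)) := by
      rw [Algebra.TensorProduct.includeRight_apply, Algebra.TensorProduct.tmul_mul_tmul, one_mul,
        mul_one]
    change s ⊗ₜ[A] (h * (b : E)) ∈ _
    rw [h5]
    exact Ideal.mul_mem_left _ _ (Ideal.mem_map_of_mem _ h3)

/-- the class map `E → (S ⊗ E)/K` as a ring homomorphism. -/
noncomputable def br3_b (K : Ideal E) : E →+* XS A S E K :=
  (Ideal.Quotient.mk _).comp
    (Algebra.TensorProduct.includeRight : E →ₐ[A] S ⊗[A] E).toRingHom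

/-- the class map `S → (S ⊗ E)/K` as a ring homomorphism. -/
noncomputable def br3_s (K : Ideal E) : S →+* XS A S E K :=
  (Ideal.Quotient.mk _).comp
    (Algebra.TensorProduct.includeLeftRingHom : S →+* S ⊗[A] E)

theorem br3_b_apply (K : Ideal E) (b : E) : br3_b (A := A) (S := S) K b = bX K b := rfl

theorem br3_sa (K : Ideal E) (a : A) :
    sX (A := A) (S := S) K (algebraMap A S a) = bX K (algebraMap A E a) := by
  unfold sX bX
  rw [Algebra.algebraMap_eq_smul_one, TensorProduct.smul_tmul, Algebra.algebraMap_eq_smul_one]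

theorem br3_K (K : Ideal E) : K.map (br3_b (A := A) (S := S) K) = ⊥ := by
  rw [eq_bot_iff, Ideal.map_le_iff_le_comap]
  intro y hy
  rw [Ideal.mem_comap]
  change (Ideal.Quotient.mk _ _ : XS A S E K) = 0
  exact Ideal.Quotient.eq_zero_iff_mem.2 (Ideal.mem_map_of_mem _ hy)

/-- colon ideals in the quotient. -/
theorem br3_colonX [Module.Flat A S] (K J J' : Ideal E) (a h : E)
    (H : ∀ x, a * x ∈ J ⊔ K → h * x ∈ J' ⊔ K) (X : XS A S E K)
    (hX : bX K a * X ∈ J.map (br3_b (A := A) (S := S) K)) :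
    bX K h * X ∈ J'.map (br3_b (A := A) (S := S) K) := by
  obtain ⟨X, rfl⟩ := Ideal.Quotient.mk_surjective X
  have h1 : ∀ I : Ideal E, I.map (br3_b (A := A) (S := S) K) =
      (I.map (Algebra.TensorProduct.includeRight : E →ₐ[A] S ⊗[A] E)).map
        (Ideal.Quotient.mk (K.map (Algebra.TensorProduct.includeRight : E →ₐ[A] S ⊗[A] E))) := by
    intro I
    rw [br3_b, ← Ideal.map_map]
    rfl
  rw [h1] at hX ⊢
  have h2 : ∀ c : E, bX (A := A) (S := S) K c * Ideal.Quotient.mk _ X =
      Ideal.Quotient.mk _ ((1 ⊗ₜ c) * X) := fun c => by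
    rw [map_mul]
    rfl
  rw [h2, Ideal.mem_quotient_iff_mem_sup, ← Ideal.map_sup] at hX ⊢
  exact br3_colon _ _ a h H X hX

end Colon

/-- the powers of the ideal generated by `z`. -/
theorem br3_pow_le {R : Type u} [CommRing R] {n : ℕ} (z : Fin n → R) (I : Ideal R) (c : ℕ)
    (h : ∀ l, z l ^ c ∈ I) : Ideal.span (Set.range z) ^ (n * c + 1) ≤ I := by
  classical
  have key : ∀ s : Finset (Fin n),
      Ideal.span (z '' (s : Set (Fin n))) ^ (s.card * c + 1) ≤ I := by
    intro s
    induction s using Finset.induction_on with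
    | empty => simp
    | insert a s ha ih =>
      have e1 : (insert a s).card * c + 1 = c + (s.card * c + 1) := by
        rw [Finset.card_insert_of_notMem ha]
        ring
      rw [e1, Finset.coe_insert, Set.image_insert_eq, Set.insert_eq, Ideal.span_union]
      refine le_trans Ideal.sup_pow_add_le_pow_sup_pow (sup_le ?_ ih)
      rw [Ideal.span_singleton_pow, Ideal.span_singleton_le_iff_mem]
      exact h a
  have h1 := key Finset.univ
  rw [Finset.coe_univ, Set.image_univ, Finset.card_univ, Fintype.card_fin] at h1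
  exact h1

section Bridge

variable {A : Type u} [CommRing A] {S : Type u} [CommRing S] [Algebra A S]
  {E : Type u} [CommRing E] [Algebra A E] (K : Ideal E)

theorem br3_map_range {n : ℕ} (z : Fin n → E) :
    (Ideal.span (Set.range z)).map (br3_b (A := A) (S := S) K) =
      Ideal.span (Set.range fun l => bX (A := A) (S := S) K (z l)) := by
  rw [Ideal.map_span, ← Set.range_comp]
  rfl

theorem br3_sup (J : Ideal E) :
    (J ⊔ K).map (br3_b (A := A) (S := S) K) = J.map (br3_b (A := A) (S := S) K) := by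
  rw [Ideal.map_sup, br3_K, sup_bot_eq]

/-- `x ∈ m` lies in `(z)^w`. -/
theorem br3_mz [IsLocalRing A] {n : ℕ} (z : Fin n → E) (w : ℕ)
    (hz : (maximalIdeal A).map (algebraMap A E) ≤ Ideal.span (Set.range z) ^ w ⊔ K) (x : A)
    (hx : x ∈ maximalIdeal A) :
    bX (A := A) (S := S) K (algebraMap A E x) ∈
      Ideal.span (Set.range fun l => bX (A := A) (S := S) K (z l)) ^ w := by
  have h1 := Ideal.mem_map_of_mem (br3_b (A := A) (S := S) K) (hz (Ideal.mem_map_of_mem _ hx))
  rw [br3_sup, Ideal.map_pow, br3_map_range] at h1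
  exact h1

theorem br3_smul_top {R : Type u} [CommRing R] (I : Ideal R) : I • (⊤ : Submodule R R) = I := by
  rw [smul_eq_mul]
  exact Ideal.mul_top I

end Bridge

theorem honData_of_apkg {A : Type u} [CommRing A] [IsLocalRing A] (S : Type u) [CommRing S]
    [Algebra A S] [Module.Flat A S] (p : ℕ) {r : ℕ} (x : Fin (r + 1) → A) (hx0 : x 0 = (p : A))
    (hx : ∀ k, x k ∈ maximalIdeal A) (P : Type) [Fintype P] (g0 g1 : A) (w w' : ℕ) (hw : 1 ≤ w)
    (N : ℕ → ℕ) (hN : Filter.Tendsto N Filter.atTop Filter.atTop) (E : ℕ → Type u)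
    [∀ e, CommRing (E e)] [∀ e, Algebra A (E e)]
    (Pk : ∀ e, APkg p (maximalIdeal A) x P g0 g1 w w' (N e) (E e)) (π : P)
    (y : Fin (r + 1) → S)
    (hy : ∃ L : ℕ, ∀ k, algebraMap A S (x k) ^ L ∈ Ideal.span (Set.range y)) :
    HonData (fun e => XS A S (E e) ((Pk e).K π)) (fun e => XS A S (E e) ((Pk e).K π)) p
      (fun e => bX ((Pk e).K π) ((Pk e).h π))
      (fun e k => sX ((Pk e).K π) (algebraMap A S (x k)))
      (fun e l => sX ((Pk e).K π) (y l))
      (fun e l => bX ((Pk e).K π) ((Pk e).z π l)) w := by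
  have hp : ∀ e, (p : XS A S (E e) ((Pk e).K π)) =
      bX (A := A) (S := S) ((Pk e).K π) (algebraMap A (E e) (p : A)) := by
    intro e
    rw [map_natCast, ← br3_b_apply, map_natCast]
  have hpm : (p : A) ∈ maximalIdeal A := hx0 ▸ hx 0
  have hsb : ∀ e k, sX (A := A) (S := S) ((Pk e).K π) (algebraMap A S (x k)) =
      bX ((Pk e).K π) (algebraMap A (E e) (x k)) := fun e k => br3_sa _ _
  refine ⟨?_, ?_, ?_, ?_, ?_, ?_, ?_⟩
  · intro e
    rw [hsb, hx0, hp]
  · refine ⟨fun e => N e - 1, (Filter.tendsto_sub_atTop_nat 1).comp hN, fun e X hX => ?_⟩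
    have h1 := br3_colonX (A := A) (S := S) ((Pk e).K π) ⊥
      (Ideal.span {algebraMap A (E e) (p : A) ^ (N e - 1)}) (algebraMap A (E e) (p : A))
      ((Pk e).h π) (fun y hy => (Pk e).regp π y (by rwa [bot_sup_eq] at hy)) X (by
        rw [← hp, Ideal.map_bot, Ideal.mem_bot]
        exact hX)
    rw [Ideal.map_span, Set.image_singleton, Ideal.mem_span_singleton] at h1
    obtain ⟨c, hc⟩ := h1
    refine ⟨c, ?_⟩
    rw [map_pow, br3_b_apply, ← hp] at hc
    exact hc
  · intro e k hk X hX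
    have h1 : Ideal.span ((fun k => sX (A := A) (S := S) ((Pk e).K π) (algebraMap A S (x k))) ''
        Set.Iio k) = (Ideal.span ((fun l => algebraMap A (E e) (x l)) '' {l | l < k})).map
          (br3_b (A := A) (S := S) ((Pk e).K π)) := by
      rw [Ideal.map_span, ← Set.image_comp]
      congr 1
      refine Set.image_congr fun l _ => ?_
      rw [hsb]
      rfl
    rw [br3_smul_top, h1] at hX ⊢
    rw [smul_eq_mul, hsb] at hX
    exact br3_colonX (A := A) (S := S) ((Pk e).K π) _ _ _ _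
      (fun y hy => (Pk e).regu π k (Nat.pos_of_ne_zero fun h => hk (Fin.ext h)) y hy) X hX
  · intro e k
    rw [hsb]
    exact Ideal.pow_le_self (by omega) (br3_mz _ _ w ((Pk e).hz π) (x k) (hx k))
  · obtain ⟨L, hL⟩ := hy
    refine ⟨L, fun e k => ?_⟩
    have h1 := Ideal.mem_map_of_mem (br3_s (A := A) (E := E e) ((Pk e).K π)) (hL k)
    rw [Ideal.map_span, ← Set.range_comp, map_pow] at h1
    exact h1
  · intro W hW e X
    refine pk_of_le _ _ w (fun V => ?_) W hW X
    rw [br3_smul_top, smul_eq_mul, hp]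
    exact Ideal.mul_mem_right _ _ (br3_mz _ _ w ((Pk e).hz π) _ hpm)
  · intro W W' hW hW' f e
    exact lf_tensor S (E e) ((Pk e).K π) ((Pk e).z π) w ((Pk e).hz π) y W W' hW hW' f

theorem hnil_of_apkg {A : Type u} [CommRing A] [IsLocalRing A] (S : Type u) [CommRing S]
    [Algebra A S] (p : ℕ) {r : ℕ} (x : Fin (r + 1) → A)
    (P : Type) [Fintype P] (g0 g1 : A) (w w' : ℕ)
    (N : ℕ → ℕ) (E : ℕ → Type u)
    [∀ e, CommRing (E e)] [∀ e, Algebra A (E e)]
    (Pk : ∀ e, APkg p (maximalIdeal A) x P g0 g1 w w' (N e) (E e)) (π : P)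
    (y : Fin (r + 1) → S)
    (hy : ∃ L : ℕ, (maximalIdeal A ^ L).map (algebraMap A S) ≤ Ideal.span (Set.range y)) :
    ∃ M : ℕ, ∀ e, Ideal.span (Set.range fun l =>
        bX (A := A) (S := S) ((Pk e).K π) ((Pk e).z π l)) ^ M •
        (⊤ : Submodule (XS A S (E e) ((Pk e).K π)) (XS A S (E e) ((Pk e).K π))) ≤
      ys (XS A S (E e) ((Pk e).K π)) (fun l => sX ((Pk e).K π) (y l)) := by
  obtain ⟨L, hL⟩ := hy
  refine ⟨((r + 1) * w' + 1) * L, fun e => ?_⟩
  unfold ys
  rw [br3_smul_top, br3_smul_top]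
  have h1 : ((maximalIdeal A).map (algebraMap A (E e))).map
      (br3_b (A := A) (S := S) ((Pk e).K π)) = ((maximalIdeal A).map (algebraMap A S)).map
      (br3_s (A := A) (E := E e) ((Pk e).K π)) := by
    rw [Ideal.map_map, Ideal.map_map]
    congr 1
    ext a
    exact (br3_sa ((Pk e).K π) a).symm
  have h2 : Ideal.span (Set.range fun l =>
      bX (A := A) (S := S) ((Pk e).K π) ((Pk e).z π l)) ^ ((r + 1) * w' + 1) ≤
      ((maximalIdeal A).map (algebraMap A (E e))).map
        (br3_b (A := A) (S := S) ((Pk e).K π)) := by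
    refine br3_pow_le _ _ w' fun l => ?_
    have h3 := Ideal.mem_map_of_mem (br3_b (A := A) (S := S) ((Pk e).K π)) ((Pk e).hz' π l)
    rw [br3_sup, map_pow] at h3
    exact h3
  have h0 : ∀ (I : Ideal (XS A S (E e) ((Pk e).K π))) (a b : ℕ), I ^ (a * b) = (I ^ a) ^ b :=
    fun I a b => pow_mul I a b
  refine le_trans (le_of_eq (h0 _ _ _)) (le_trans (Ideal.pow_right_mono h2 L) ?_)
  rw [h1, ← Ideal.map_pow, ← Ideal.map_pow]
  refine le_trans (Ideal.map_mono hL) ?_
  rw [Ideal.map_span, ← Set.range_comp]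
  exact le_rfl

end Vale.Agent.P202.Mix
end

section

/-!
P202-MIX, part HON, task HON-10: the `y`-adic filtration.
-/

namespace Vale.Agent.P202.Mix

open Vale.Agent.P202.CharP
open scoped ENNReal Topology

universe u

namespace HonPow

/-- monomials of degree `< j` in `n` variables. -/
abbrev MM (n j : ℕ) : Type := Σ i : Fin j, Sym (Fin n) (i : ℕ)

/-- the underlying multiset. -/
def mu {n j : ℕ} (s : MM n j) : Multiset (Fin n) := s.2.1

theorem mu_card {n j : ℕ} (s : MM n j) : Multiset.card (mu s) = (s.1 : ℕ) := s.2.2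

theorem mu_lt {n j : ℕ} (s : MM n j) : Multiset.card (mu s) < j := by
  rw [mu_card]
  exact s.1.2

/-- the monomial with given multiset. -/
def mk {n j : ℕ} (m : Multiset (Fin n)) (h : Multiset.card m < j) : MM n j :=
  ⟨⟨Multiset.card m, h⟩, ⟨m, rfl⟩⟩

theorem mu_mk {n j : ℕ} (m : Multiset (Fin n)) (h : Multiset.card m < j) : mu (mk m h) = m := rfl

theorem mu_inj {n j : ℕ} {s t : MM n j} (h : mu s = mu t) : s = t := by
  obtain ⟨⟨a, ha⟩, ⟨s, hs⟩⟩ := s
  obtain ⟨⟨b, hb⟩, ⟨t, ht⟩⟩ := t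
  change s = t at h
  subst h
  change Multiset.card s = a at hs
  change Multiset.card s = b at ht
  subst hs
  subst ht
  rfl

/-- multiplication by a variable. -/
def sh {n : ℕ} (j : ℕ) (l : Fin n) : Matrix (MM n j) (MM n j) ℤ :=
  Matrix.of fun s' s => if mu s' = l ::ₘ mu s then 1 else 0

/-- the truncated polynomial ring `ℤ[Y] / (Y)^j`. -/
abbrev U (n j : ℕ) : MRep n where
  ι := MM n j
  X := sh j

theorem U_sum {n j : ℕ} {V : Type u} [AddCommGroup V] (l : Fin n) (s' : MM n j)
    (F : Multiset (Fin n) → V) :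
    ∑ t : MM n j, (if mu s' = l ::ₘ mu t then (1 : ℤ) else 0) • F (mu t) =
      if l ∈ mu s' then F ((mu s').erase l) else 0 := by
  by_cases h : l ∈ mu s'
  · rw [if_pos h]
    have h1 : Multiset.card ((mu s').erase l) < j :=
      lt_of_le_of_lt (Multiset.card_le_card (Multiset.erase_le l (mu s'))) (mu_lt s')
    rw [Finset.sum_eq_single (mk ((mu s').erase l) h1)]
    · rw [mu_mk, Multiset.cons_erase h, if_pos rfl, one_smul]
    · intro t _ ht
      rw [if_neg, zero_smul]
      intro h2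
      apply ht
      apply mu_inj
      rw [mu_mk, h2, Multiset.erase_cons_head]
    · intro h2
      exact absurd (Finset.mem_univ _) h2
  · rw [if_neg h]
    refine Finset.sum_eq_zero fun t _ => ?_
    rw [if_neg, zero_smul]
    intro h2
    apply h
    rw [h2]
    exact Multiset.mem_cons_self _ _

theorem U_deg {n j : ℕ} (q : ℕ) (f : Fin q → Fin n) (s' s : MM n j)
    (h : (List.ofFn fun i => sh j (f i)).prod s' s ≠ 0) :
    Multiset.card (mu s') = q + Multiset.card (mu s) := by
  induction q generalizing s' with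
  | zero =>
    rw [List.ofFn_zero, List.prod_nil] at h
    by_cases h1 : s' = s
    · rw [h1, zero_add]
    · exact absurd (Matrix.one_apply_ne h1) h
  | succ q ih =>
    rw [List.ofFn_succ, List.prod_cons] at h
    have h1 : ∃ t : MM n j, sh j (f 0) s' t *
        (List.ofFn fun i => sh j (f (Fin.succ i))).prod t s ≠ 0 := by
      by_contra hc
      push Not at hc
      apply h
      rw [Matrix.mul_apply]
      exact Finset.sum_eq_zero fun t _ => hc t
    obtain ⟨t, ht⟩ := h1
    have h2 := ih (fun i => f i.succ) t (right_ne_zero_of_mul ht)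
    have h3 : sh j (f 0) s' t ≠ 0 := left_ne_zero_of_mul ht
    have h4 : mu s' = f 0 ::ₘ mu t := by
      by_contra hc
      exact h3 (if_neg hc)
    rw [h4, Multiset.card_cons, h2]
    ring

theorem U_nil (n j : ℕ) : (U n j).IsNil j where
  comm k l := by
    have key : ∀ (k l : Fin n) (s' s : MM n j), (sh j k * sh j l) s' s =
        if mu s' = k ::ₘ l ::ₘ mu s then 1 else 0 := by
      intro k l s' s
      rw [Matrix.mul_apply]
      have h1 := U_sum k s' (fun m => if m = l ::ₘ mu s then (1 : ℤ) else 0)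
      have h2 : ∑ t : MM n j, sh j k s' t * sh j l t s =
          if k ∈ mu s' then (if (mu s').erase k = l ::ₘ mu s then (1 : ℤ) else 0) else 0 := h1
      refine h2.trans ?_
      by_cases h3 : mu s' = k ::ₘ l ::ₘ mu s
      · rw [if_pos h3, if_pos (by rw [h3]; exact Multiset.mem_cons_self _ _), if_pos]
        rw [h3, Multiset.erase_cons_head]
      · rw [if_neg h3]
        by_cases h4 : k ∈ mu s'
        · rw [if_pos h4, if_neg]
          intro h5
          apply h3
          rw [← h5, Multiset.cons_erase h4]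
        · rw [if_neg h4]
    refine Matrix.ext fun s' s => ?_
    refine (key k l s' s).trans ?_
    rw [Multiset.cons_swap]
    exact (key l k s' s).symm
  nil f := by
    refine Matrix.ext fun s' s => ?_
    by_contra h
    have h1 := U_deg j f s' s h
    have h2 := mu_lt s'
    omega

section Mod

variable {R : Type u} [CommRing R] {V : Type u} [AddCommGroup V] [Module R V] {n : ℕ}

theorem U_T {j : ℕ} (y : Fin n → R) (l : Fin n) (F : Multiset (Fin n) → V) (s' : MM n j) :
    (U n j).T V y l (fun t => F (mu t)) s' =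
      (if l ∈ mu s' then F ((mu s').erase l) else 0) - y l • F (mu s') := by
  have h1 := U_sum l s' F
  change (∑ t : MM n j, (if mu s' = l ::ₘ mu t then (1 : ℤ) else 0) • F (mu t)) -
    y l • F (mu s') = _
  rw [h1]

/-- extension of a function on the monomials of degree `< j` by zero. -/
noncomputable def ex {j : ℕ} (u : MM n j → V) (m : Multiset (Fin n)) : V :=
  if h : Multiset.card m < j then u (mk m h) else 0

theorem ex_mu {j : ℕ} (u : MM n j → V) (s : MM n j) : ex u (mu s) = u s := by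
  unfold ex
  rw [dif_pos (mu_lt s)]
  exact congrArg u (mu_inj rfl)

theorem ex_eq {j : ℕ} (u : MM n j → V) : (fun s => ex u (mu s)) = u := funext (ex_mu u)

/-- value of a monomial. -/
def mv (y : Fin n → R) (m : Multiset (Fin n)) : R := (m.map y).prod

/-- elementary tensor. -/
noncomputable def el (j : ℕ) (m : Multiset (Fin n)) (v : V) : MM n j → V :=
  fun s => if mu s = m then v else 0

theorem el_T (j : ℕ) (y : Fin n → R) (l : Fin n) (m : Multiset (Fin n)) (v : V) :
    (U n j).T V y l (el j m v) = el j (l ::ₘ m) v - el j m (y l • v) := by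
  funext s
  have h1 := U_T (j := j) y l (fun m' => if m' = m then v else 0) s
  refine h1.trans ?_
  change _ = el j (l ::ₘ m) v s - el j m (y l • v) s
  unfold el
  congr 1
  · by_cases h2 : mu s = l ::ₘ m
    · rw [if_pos h2, if_pos (by rw [h2]; exact Multiset.mem_cons_self _ _), if_pos]
      rw [h2, Multiset.erase_cons_head]
    · rw [if_neg h2]
      by_cases h3 : l ∈ mu s
      · rw [if_pos h3, if_neg]
        intro h4
        apply h2
        rw [← h4, Multiset.cons_erase h3]
      · rw [if_neg h3]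
  · by_cases h2 : mu s = m
    · rw [if_pos h2, if_pos h2]
    · rw [if_neg h2, if_neg h2, smul_zero]

theorem mem_trg_T {j : ℕ} (y : Fin n → R) (l : Fin n) (w : MM n j → V) :
    (U n j).T V y l w ∈ trg ((U n j).T V y) :=
  (le_iSup (fun l => LinearMap.range ((U n j).T V y l)) l) ⟨w, rfl⟩

theorem el_red (j : ℕ) (y : Fin n → R) (m : Multiset (Fin n)) (v : V) :
    el j m v - el j 0 (mv y m • v) ∈ trg ((U n j).T V y) := by
  induction m using Multiset.induction_on generalizing v with
  | empty =>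
    unfold mv
    rw [Multiset.map_zero, Multiset.prod_zero, one_smul, sub_self]
    exact Submodule.zero_mem _
  | cons l m ih =>
    have h1 := mem_trg_T y l (el j m v)
    rw [el_T] at h1
    have h2 := ih (y l • v)
    have h3 : mv y (l ::ₘ m) • v = mv y m • (y l • v) := by
      unfold mv
      rw [Multiset.map_cons, Multiset.prod_cons, mul_comm, mul_smul]
    rw [h3]
    have h4 := Submodule.add_mem _ h1 h2
    rwa [sub_add_sub_cancel] at h4

theorem el_big (j : ℕ) (m : Multiset (Fin n)) (hm : j ≤ Multiset.card m) (v : V) :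
    el j m v = 0 := by
  funext s
  unfold el
  rw [if_neg]
  · rfl
  · intro h
    have := mu_lt s
    rw [h] at this
    omega

/-- elementary tensors as a linear map. -/
noncomputable def elL (j : ℕ) (m : Multiset (Fin n)) : V →ₗ[R] (MM n j → V) where
  toFun := el j m
  map_add' v w := by
    funext s
    rw [Pi.add_apply]
    unfold el
    by_cases h : mu s = m
    · rw [if_pos h, if_pos h, if_pos h]
    · rw [if_neg h, if_neg h, if_neg h, add_zero]
  map_smul' c v := by
    funext s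
    rw [Pi.smul_apply, RingHom.id_apply]
    unfold el
    by_cases h : mu s = m
    · rw [if_pos h, if_pos h]
    · rw [if_neg h, if_neg h, smul_zero]

/-- powers of an ideal generated by a finite family. -/
theorem span_pow_le {y : Fin n → R} (j : ℕ) (I : Ideal R)
    (h : ∀ m : Multiset (Fin n), Multiset.card m = j → mv y m ∈ I) :
    Ideal.span (Set.range y) ^ j ≤ I := by
  induction j generalizing I with
  | zero =>
    rw [pow_zero, Ideal.one_eq_top]
    have h1 := h 0 (Multiset.card_zero)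
    unfold mv at h1
    rw [Multiset.map_zero, Multiset.prod_zero] at h1
    exact le_of_eq ((Ideal.eq_top_iff_one I).2 h1).symm
  | succ j ih =>
    rw [pow_succ, mul_comm, Ideal.mul_le]
    intro a ha b hb
    -- fix the first factor
    have h1 : Ideal.span (Set.range y) ≤ I.colon ((Ideal.span (Set.range y) ^ j : Ideal R) : Set R) := by
      rw [Ideal.span_le]
      rintro _ ⟨l, rfl⟩
      have h2 := ih (Submodule.comap (LinearMap.mulLeft R (y l)) I) (by
        intro m hm
        show y l * mv y m ∈ I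
        have h3 := h (l ::ₘ m) (by rw [Multiset.card_cons, hm])
        unfold mv at h3 ⊢
        rwa [Multiset.map_cons, Multiset.prod_cons] at h3)
      rw [SetLike.mem_coe, Submodule.mem_colon]
      intro b hb
      exact h2 hb
    have h4 := h1 ha
    rw [Submodule.mem_colon] at h4
    exact h4 b hb

theorem el_zero_mem (j : ℕ) (y : Fin n → R) (v : V)
    (hv : v ∈ Ideal.span (Set.range y) ^ j • (⊤ : Submodule R V)) :
    el j 0 v ∈ trg ((U n j).T V y) := by
  have h1 : Ideal.span (Set.range y) ^ j • (⊤ : Submodule R V) ≤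
      (trg ((U n j).T V y)).comap (elL j 0) := by
    rw [Submodule.smul_le]
    intro a ha w _
    have h2 : Ideal.span (Set.range y) ^ j ≤
        ((trg ((U n j).T V y)).comap (elL j 0)).comap (LinearMap.toSpanSingleton R V w) := by
      refine span_pow_le j _ fun m hm => ?_
      have h3 := el_red j y m w
      rw [el_big j m hm.ge, zero_sub] at h3
      have h4 := (Submodule.neg_mem_iff _).1 h3
      exact h4
    exact h2 ha
  exact h1 hv

theorem sum_el {j : ℕ} (u : MM n j → V) : ∑ s, el j (mu s) (u s) = u := by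
  funext t
  rw [Finset.sum_apply, Finset.sum_eq_single t]
  · exact if_pos rfl
  · intro s _ hs
    exact if_neg fun h => hs (mu_inj h).symm
  · intro h
    exact absurd (Finset.mem_univ _) h

theorem mem_trg_of (j : ℕ) (y : Fin n → R) (u : MM n j → V)
    (hu : ∑ s, mv y (mu s) • u s ∈ Ideal.span (Set.range y) ^ j • (⊤ : Submodule R V)) :
    u ∈ trg ((U n j).T V y) := by
  have h1 : ∑ s, (el j (mu s) (u s) - el j 0 (mv y (mu s) • u s)) ∈ trg ((U n j).T V y) :=
    Submodule.sum_mem _ fun s _ => el_red j y (mu s) (u s)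
  rw [Finset.sum_sub_distrib, sum_el] at h1
  have h2 : ∑ s : MM n j, el j 0 (mv y (mu s) • u s) = el j 0 (∑ s, mv y (mu s) • u s) :=
    (map_sum (elL (R := R) (V := V) (n := n) j 0) _ _).symm
  rw [h2] at h1
  exact (Submodule.sub_mem_iff_left _ (el_zero_mem j y _ hu)).1 h1

theorem exists_of_mem_trg {W : Type u} [AddCommGroup W] [Module R W] (T : Fin n → W →ₗ[R] W)
    (u : W) (hu : u ∈ trg T) : ∃ w : Fin n → W, ∑ l, T l (w l) = u := by
  let S : Submodule R W := LinearMap.range (∑ l, T l ∘ₗ (LinearMap.proj l : (Fin n → W) →ₗ[R] W))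
  have hS : ∀ w, w ∈ S ↔ ∃ w' : Fin n → W, ∑ l, T l (w' l) = w := by
    intro w
    simp only [S, LinearMap.mem_range, LinearMap.sum_apply, LinearMap.comp_apply,
      LinearMap.proj_apply]
  rw [← hS]
  refine (iSup_le fun l => ?_ : trg T ≤ S) hu
  rintro _ ⟨w, rfl⟩
  rw [hS]
  refine ⟨Pi.single l w, ?_⟩
  rw [Finset.sum_eq_single l]
  · rw [Pi.single_eq_same]
  · intro k _ hk
    rw [Pi.single_eq_of_ne hk, map_zero]
  · intro h
    exact absurd (Finset.mem_univ _) h

theorem kz_empty {W : Type u} [AddCommGroup W] [Module R W] (T : Fin n → W →ₗ[R] W)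
    (c : Finset (Fin n) → W) : kz T c ∅ = ∑ l, T l (c {l}) := by
  rw [kzb_apply, Finset.compl_empty]
  refine Finset.sum_congr rfl fun l _ => ?_
  unfold ksg
  rw [Finset.filter_empty, Finset.card_empty, pow_zero, one_smul, insert_empty_eq]

/-- the chain of degree one. -/
def ch1 {W : Type u} [AddCommGroup W] (w : Fin n → W) (J : Finset (Fin n)) : W :=
  ∑ l, if J = {l} then w l else 0

theorem ch1_single {W : Type u} [AddCommGroup W] (w : Fin n → W) (l : Fin n) :
    ch1 w {l} = w l := by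
  unfold ch1
  rw [Finset.sum_eq_single l]
  · exact if_pos rfl
  · intro k _ hk
    exact if_neg fun h => hk (Finset.singleton_inj.1 h).symm
  · intro h
    exact absurd (Finset.mem_univ _) h

theorem ch1_kgr {W : Type u} [AddCommGroup W] [Module R W] (w : Fin n → W) :
    ch1 w ∈ kgr R W n 1 := by
  intro J hJ
  by_contra h
  apply hJ
  refine Finset.sum_eq_zero fun l _ => if_neg fun h1 => h ?_
  rw [h1, Finset.card_singleton]
  rfl

/-- inclusion of the monomials of degree `< i`. -/
def inc {i : ℕ} (s : MM n i) : MM n (i + 1) := mk (mu s) ((mu_lt s).trans (Nat.lt_succ_self i))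

theorem funLeft_T {i : ℕ} (y : Fin n → R) (l : Fin n) (u : MM n (i + 1) → V) :
    LinearMap.funLeft R V inc ((U n (i + 1)).T V y l u) =
      (U n i).T V y l (LinearMap.funLeft R V inc u) := by
  rw [← ex_eq u]
  funext s
  have h1 := U_T y l (ex u) (inc s)
  have h2 := U_T y l (ex u) s
  exact h1.trans h2.symm

/-- the quasi-regularity. -/
theorem quasi {y : Fin n → R} (hy : Acyc (sop V y)) (i : ℕ) (m : Multiset (Fin n) → V)
    (hm : ∑ s : Sym (Fin n) i, mv y s.1 • m s.1 ∈
      Ideal.span (Set.range y) ^ (i + 1) • (⊤ : Submodule R V)) (s : Multiset (Fin n))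
    (hs : Multiset.card s = i) : m s ∈ ys V y := by
  -- the element of the truncated polynomial ring
  let u : MM n (i + 1) → V := fun t => if Multiset.card (mu t) = i then m (mu t) else 0
  have hu : u ∈ trg ((U n (i + 1)).T V y) := by
    refine mem_trg_of (i + 1) y u ?_
    have h1 : ∑ t : MM n (i + 1), mv y (mu t) • u t =
        ∑ s : Sym (Fin n) i, mv y s.1 • m s.1 := by
      rw [Fintype.sum_sigma, Fin.sum_univ_castSucc, Finset.sum_eq_zero, zero_add]
      · refine Finset.sum_congr rfl fun s _ => ?_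
        congr 1
        exact if_pos s.2
      · intro d _
        refine Finset.sum_eq_zero fun s _ => ?_
        have h2 : u ⟨d.castSucc, s⟩ = 0 := by
          refine if_neg fun h3 => ?_
          have h4 := mu_card (⟨d.castSucc, s⟩ : MM n (i + 1))
          rw [h3] at h4
          have h5 : i = (d : ℕ) := h4
          have := d.2
          omega
        rw [h2, smul_zero]
    rw [h1]
    exact hm
  obtain ⟨w, hw⟩ := exists_of_mem_trg _ u hu
  -- notation
  let ρ : (MM n (i + 1) → V) →ₗ[R] (MM n i → V) := LinearMap.funLeft R V inc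
  have hρT : ∀ l v, ρ ((U n (i + 1)).T V y l v) = (U n i).T V y l (ρ v) := fun l v =>
    funLeft_T y l v
  have hρu : ρ u = 0 := by
    funext s
    refine if_neg fun h => ?_
    have h1 := mu_lt s
    have h2 : Multiset.card (mu s) = i := h
    omega
  have hW0 : kz ((U n (i + 1)).T V y) (ch1 w) ∅ = u := by
    rw [kz_empty, ← hw]
    exact Finset.sum_congr rfl fun l _ => by rw [ch1_single]
  have hW1 := kz_kgr ((U n (i + 1)).T V y) 0 (ch1 w) (ch1_kgr w)
  have hcyc : kmap n ρ (ch1 w) ∈ kcyc ((U n i).T V y) 1 := by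
    refine ⟨hr_kmap_kgr ρ 1 _ (ch1_kgr w), ?_⟩
    show kz ((U n i).T V y) (kmap n ρ (ch1 w)) = 0
    rw [← kz_kmap _ _ ρ hρT]
    funext J
    show ρ (kz ((U n (i + 1)).T V y) (ch1 w) J) = 0
    by_cases hJ : J = ∅
    · rw [hJ, hW0, hρu]
    · have h1 : kz ((U n (i + 1)).T V y) (ch1 w) J = 0 := by
        by_contra h2
        have h3 := hW1 J h2
        apply hJ
        rw [← Finset.card_eq_zero]
        exact_mod_cast h3
      rw [h1, map_zero]
  obtain ⟨b', hb1, hb2⟩ := acyc_rep i (U n i) (U_nil n i) y hy 1 le_rfl hcyc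
  let b : Finset (Fin n) → (MM n (i + 1) → V) := fun J t => ex (b' J) (mu t)
  have hρb : kmap n ρ b = b' := by
    funext J s
    exact ex_mu (b' J) s
  let D := ch1 w - kz ((U n (i + 1)).T V y) b
  have hD : ∀ J, ρ (D J) = 0 := by
    intro J
    have h1 := kz_kmap ((U n (i + 1)).T V y) ((U n i).T V y) ρ hρT b
    rw [hρb, hb2] at h1
    have h2 := congrFun h1 J
    show ρ (ch1 w J - kz ((U n (i + 1)).T V y) b J) = 0
    rw [map_sub]
    exact sub_eq_zero.2 h2.symm
  have hDu : ∑ l, (U n (i + 1)).T V y l (D {l}) = u := by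
    rw [← kz_empty]
    show kz ((U n (i + 1)).T V y) (ch1 w - kz ((U n (i + 1)).T V y) b) ∅ = u
    rw [map_sub, kz_sq _ (hr_comm (U n (i + 1)) (U_nil n (i + 1)) y), sub_zero, hW0]
  have hlt : Multiset.card s < i + 1 := by omega
  have h1 := congrFun hDu (mk s hlt)
  have h2 : u (mk s hlt) = m s := if_pos hs
  rw [h2, Finset.sum_apply] at h1
  rw [← h1]
  refine Submodule.sum_mem _ fun l _ => ?_
  have h3 := U_T y l (ex (D {l})) (mk s hlt)
  rw [ex_eq] at h3
  rw [h3]
  have h4 : (if l ∈ mu (mk s hlt) then ex (D {l}) ((mu (mk s hlt)).erase l) else 0) = 0 := by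
    rw [mu_mk]
    by_cases h5 : l ∈ s
    · rw [if_pos h5]
      have h6 : Multiset.card (s.erase l) < i := by
        rw [Multiset.card_erase_of_mem h5, ← hs]
        exact Nat.pred_lt (Multiset.card_pos.2 (by rintro rfl; exact absurd h5 (Multiset.notMem_zero l))).ne'
      have h7 := congrFun (hD {l}) (mk (s.erase l) h6)
      refine Eq.trans ?_ h7
      unfold ex
      rw [dif_pos (h6.trans (Nat.lt_succ_self i))]
      rfl
    · rw [if_neg h5]
  rw [h4, zero_sub]
  refine (Submodule.neg_mem_iff _).2 ?_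
  exact Submodule.smul_mem_smul (Ideal.subset_span ⟨l, rfl⟩) Submodule.mem_top

end Mod

section Pow

variable {R : Type u} [CommRing R] {V : Type u} [AddCommGroup V] [Module R V] {n : ℕ}

theorem mv_mem (y : Fin n → R) (m : Multiset (Fin n)) :
    mv y m ∈ Ideal.span (Set.range y) ^ Multiset.card m := by
  induction m using Multiset.induction_on with
  | empty =>
    rw [Multiset.card_zero, pow_zero, Ideal.one_eq_top]
    exact Submodule.mem_top
  | cons l m ih =>
    unfold mv at ih ⊢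
    rw [Multiset.map_cons, Multiset.prod_cons, Multiset.card_cons, pow_succ']
    exact Ideal.mul_mem_mul (Ideal.subset_span ⟨l, rfl⟩) ih

/-- the map `m ↦ ∑ y^s m_s`. -/
noncomputable def Phi (V : Type u) [AddCommGroup V] [Module R V] (y : Fin n → R) (k : ℕ) :
    (Sym (Fin n) k → V) →ₗ[R] V :=
  ∑ s : Sym (Fin n) k, mv y s.1 • LinearMap.proj s

theorem Phi_apply (y : Fin n → R) (k : ℕ) (m : Sym (Fin n) k → V) :
    Phi V y k m = ∑ s : Sym (Fin n) k, mv y s.1 • m s := by
  unfold Phi
  rw [LinearMap.sum_apply]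
  rfl

theorem range_Phi (y : Fin n → R) (k : ℕ) :
    LinearMap.range (Phi V y k) = Ideal.span (Set.range y) ^ k • (⊤ : Submodule R V) := by
  classical
  refine le_antisymm ?_ ?_
  · rintro _ ⟨m, rfl⟩
    rw [Phi_apply]
    refine Submodule.sum_mem _ fun s _ => Submodule.smul_mem_smul ?_ Submodule.mem_top
    have h1 := mv_mem y s.1
    have h2 : Multiset.card s.1 = k := s.2
    rwa [h2] at h1
  · rw [Submodule.smul_le]
    intro a ha w _
    have h2 : Ideal.span (Set.range y) ^ k ≤
        (LinearMap.range (Phi V y k)).comap (LinearMap.toSpanSingleton R V w) := by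
      refine span_pow_le k _ fun m hm => ?_
      obtain ⟨s₀, hs₀⟩ : ∃ s₀ : Sym (Fin n) k, s₀.1 = m := ⟨⟨m, hm⟩, rfl⟩
      refine ⟨Pi.single s₀ w, ?_⟩
      rw [Phi_apply, Finset.sum_eq_single s₀, ← hs₀]
      · rw [Pi.single_eq_same]
        rfl
      · intro s _ hs
        rw [Pi.single_eq_of_ne hs, smul_zero]
      · intro h
        exact absurd (Finset.mem_univ _) h
    exact h2 ha

theorem mem_span_smul (y : Fin n → R) (x : V)
    (hx : x ∈ Ideal.span (Set.range y) • (⊤ : Submodule R V)) :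
    ∃ w : Fin n → V, ∑ l, y l • w l = x := by
  refine exists_of_mem_trg (sop V y) x ?_
  have h1 : Ideal.span (Set.range y) • (⊤ : Submodule R V) ≤ trg (sop V y) := by
    rw [Submodule.smul_le]
    intro a ha w _
    have h2 : Ideal.span (Set.range y) ≤
        (trg (sop V y)).comap (LinearMap.toSpanSingleton R V w) := by
      rw [Ideal.span_le]
      rintro _ ⟨l, rfl⟩
      exact (le_iSup (fun l => LinearMap.range (sop V y l)) l) ⟨w, rfl⟩
    exact h2 ha
  exact h1 hx

/-- Membership of a fraction in `K • ⊤`. -/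
theorem loc_mem (S : Submonoid R) (K : Ideal R) (m : V) (s : S)
    (h : LocalizedModule.mk m s ∈ K • (⊤ : Submodule R (LocalizedModule S V))) :
    ∃ u : S, (u : R) • m ∈ K • (⊤ : Submodule R V) := by
  have key : ∀ t ∈ K • (⊤ : Submodule R (LocalizedModule S V)),
      ∃ m' ∈ K • (⊤ : Submodule R V), ∃ s' : S, t = LocalizedModule.mk m' s' := by
    intro t ht
    refine Submodule.smul_induction_on ht ?_ ?_
    · intro r hr n _
      induction n using LocalizedModule.induction_on with
      | h m s =>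
        exact ⟨r • m, Submodule.smul_mem_smul hr Submodule.mem_top, s,
          LocalizedModule.smul'_mk r m s⟩
    · rintro _ _ ⟨m1, h1, s1, rfl⟩ ⟨m2, h2, s2, rfl⟩
      exact ⟨s2 • m1 + s1 • m2, add_mem (Submodule.smul_mem _ _ h1) (Submodule.smul_mem _ _ h2),
        s1 * s2, LocalizedModule.mk_add_mk⟩
  obtain ⟨m', hm', s', he⟩ := key _ h
  obtain ⟨u, hu⟩ := LocalizedModule.mk_eq.1 he
  refine ⟨u * s', ?_⟩
  have h3 : ((u * s' : S) : R) • m = u • s' • m := by
    rw [Submonoid.coe_mul, mul_smul]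
    rfl
  rw [h3, hu]
  exact Submodule.smul_mem _ _ (Submodule.smul_mem _ _ hm')

end Pow

section Ext

variable (R : ℕ → Type u) [∀ e, CommRing (R e)] (X : ℕ → Type u) [∀ e, AddCommGroup (X e)]
  [∀ e, Module (R e) (X e)] (p : ℕ) {n : ℕ} (h : ∀ e, R e) (y : ∀ e, Fin n → R e)

theorem mv_pi (m : Multiset (Fin n)) (e : ℕ) : mv (fun l e => y e l) m e = mv (y e) m := by
  unfold mv
  have h1 := map_multiset_prod (Pi.evalRingHom R e) (m.map fun l e => y e l)
  rw [Multiset.map_map] at h1
  exact h1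

theorem pow_pi (k : ℕ) (x : ∀ e, X e)
    (hx : ∀ e, x e ∈ Ideal.span (Set.range (y e)) ^ k • (⊤ : Submodule (R e) (X e))) :
    x ∈ Ideal.span (Set.range fun (l : Fin n) (e : ℕ) => y e l) ^ k •
      (⊤ : Submodule (∀ e, R e) (∀ e, X e)) := by
  have h1 : ∀ e, ∃ w : Sym (Fin n) k → X e, Phi (X e) (y e) k w = x e := by
    intro e
    have h2 := hx e
    rw [← range_Phi] at h2
    exact h2
  choose w hw using h1
  rw [← range_Phi]
  refine ⟨fun s e => w e s, ?_⟩
  rw [Phi_apply]
  funext e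
  rw [Finset.sum_apply, ← hw e, Phi_apply]
  refine Finset.sum_congr rfl fun s _ => ?_
  rw [Pi.smul_apply', mv_pi]

theorem extract_pow (L : ℕ) (hL : ∀ e, (p : R e) ^ L ∈ Ideal.span (Set.range (y e)))
    (hy : Acyc (sop (SS R X p h) (fun l e => y e l))) (i : ℕ) :
    ∃ c e₀ : ℕ, ∀ e, e₀ ≤ e → ∀ m : Multiset (Fin n) → X e,
      ∑ s : Sym (Fin n) i, mv (y e) s.1 • m s.1 ∈
        Ideal.span (Set.range (y e)) ^ (i + 1) • (⊤ : Submodule (R e) (X e)) →
      ∀ s, Multiset.card s = i → h e ^ c • m s ∈ ys (X e) (y e) := by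
  classical
  by_contra hcon
  push Not at hcon
  -- the level `e` is bad for the exponent `c`
  let P : ℕ → ℕ → Prop := fun e c => ∃ m : Multiset (Fin n) → X e,
      ∑ s : Sym (Fin n) i, mv (y e) s.1 • m s.1 ∈
        Ideal.span (Set.range (y e)) ^ (i + 1) • (⊤ : Submodule (R e) (X e)) ∧
      ∃ s, Multiset.card s = i ∧ h e ^ c • m s ∉ ys (X e) (y e)
  have hmono : ∀ e (x : X e) (k c : ℕ), k ≤ c → h e ^ k • x ∈ ys (X e) (y e) →
      h e ^ c • x ∈ ys (X e) (y e) := by
    intro e x k c hkc hx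
    have h1 := Submodule.smul_mem _ (h e ^ (c - k)) hx
    rwa [smul_smul, ← pow_add, Nat.sub_add_cancel hkc] at h1
  have hch : ∀ e, ∃ m : Multiset (Fin n) → X e,
      ∑ s : Sym (Fin n) i, mv (y e) s.1 • m s.1 ∈
        Ideal.span (Set.range (y e)) ^ (i + 1) • (⊤ : Submodule (R e) (X e)) ∧
      ∀ k, k ≤ e → P e k → ∃ s, Multiset.card s = i ∧ h e ^ k • m s ∉ ys (X e) (y e) := by
    intro e
    by_cases hex : ∃ c ≤ e, P e c
    · obtain ⟨c₀, hc₀, hP₀⟩ := hex
      obtain ⟨m, hm1, s, hs, hm2⟩ := Nat.findGreatest_spec (P := P e) hc₀ hP₀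
      refine ⟨m, hm1, fun k hk hPk => ⟨s, hs, fun h1 => hm2 ?_⟩⟩
      exact hmono e _ k _ (Nat.le_findGreatest hk hPk) h1
    · refine ⟨fun _ => 0, ?_, fun k hk hPk => absurd ⟨k, hk, hPk⟩ hex⟩
      simp only [smul_zero, Finset.sum_const_zero]
      exact Submodule.zero_mem _
  choose m hm1 hm2 using hch
  -- the family in the honest module
  let φ : (∀ e, X e) →ₗ[∀ e, R e] SS R X p h :=
    LocalizedModule.mkLinearMap (Submonoid.powers h) (XX R X p) ∘ₗ (Jinf R X p).mkQ
  have hsum : ∑ s : Sym (Fin n) i, mv (fun l e => y e l) s.1 • φ (fun e => m e s.1) ∈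
      Ideal.span (Set.range fun (l : Fin n) (e : ℕ) => y e l) ^ (i + 1) •
        (⊤ : Submodule (∀ e, R e) (SS R X p h)) := by
    have h1 : (∑ s : Sym (Fin n) i, mv (fun l e => y e l) s.1 • (fun e => m e s.1) :
        ∀ e, X e) ∈ Ideal.span (Set.range fun (l : Fin n) (e : ℕ) => y e l) ^ (i + 1) •
        (⊤ : Submodule (∀ e, R e) (∀ e, X e)) := by
      refine pow_pi R X y (i + 1) _ fun e => ?_
      have h2 := hm1 e
      rw [Finset.sum_apply]
      refine (congrArg (· ∈ _) (Finset.sum_congr rfl fun s _ => ?_)).mpr h2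
      rw [Pi.smul_apply', mv_pi]
    have h2 := Submodule.mem_map_of_mem (f := φ) h1
    rw [Submodule.map_smul'', map_sum] at h2
    simp only [map_smul] at h2
    exact Submodule.smul_mono le_rfl le_top h2
  have hq := fun s hs => quasi hy i (fun s => φ (fun e => m e s)) hsum s hs
  have hfin : ∀ s : Sym (Fin n) i, ∃ k e₁ : ℕ, ∀ e, e₁ ≤ e → h e ^ k • m e s.1 ∈ ys (X e) (y e) := by
    intro s
    have h1 := hq s.1 s.2
    obtain ⟨⟨u, k, hk⟩, hu⟩ := loc_mem (Submonoid.powers h)
      (Ideal.span (Set.range fun (l : Fin n) (e : ℕ) => y e l))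
      ((Jinf R X p).mkQ fun e => m e s.1) 1 h1
    obtain ⟨w, hw⟩ : ∃ w : Fin n → XX R X p,
        ∑ l, (fun e => y e l : ∀ e, R e) • w l = u • (Jinf R X p).mkQ fun e => m e s.1 :=
      mem_span_smul (fun l e => y e l) _ hu
    choose w' hw' using fun l => (Jinf R X p).mkQ_surjective (w l)
    have h2 : (h ^ k • (fun e => m e s.1) - ∑ l, (fun e => y e l : ∀ e, R e) • w' l :
        ∀ e, X e) ∈ Jinf R X p := by
      rw [← Submodule.Quotient.mk_eq_zero, ← Submodule.mkQ_apply, map_sub, map_sum, map_smul,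
        sub_eq_zero]
      have h3 : h ^ k = u := hk
      rw [h3, ← hw]
      exact Finset.sum_congr rfl fun l _ => by rw [map_smul, hw']
    obtain ⟨e₁, he₁⟩ := h2 L
    refine ⟨k, e₁, fun e he => ?_⟩
    obtain ⟨x', hx'⟩ := he₁ e he
    rw [Pi.sub_apply, Finset.sum_apply, sub_eq_iff_eq_add] at hx'
    have h3 : h e ^ k • m e s.1 = (p : R e) ^ L • x' + ∑ l, y e l • w' l e := hx'
    rw [h3]
    refine Submodule.add_mem _ (Submodule.smul_mem_smul (hL e) Submodule.mem_top)
      (Submodule.sum_mem _ fun l _ =>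
        Submodule.smul_mem_smul (Ideal.subset_span ⟨l, rfl⟩) Submodule.mem_top)
  choose k e₁ hke using hfin
  let K := Finset.univ.sup k
  let E := Finset.univ.sup e₁
  obtain ⟨e, he, m', hm'1, s', hs', hm'2⟩ := hcon K (max E K)
  obtain ⟨s, hs, hns⟩ := hm2 e K (le_trans (le_max_right _ _) he) ⟨m', hm'1, s', hs', hm'2⟩
  apply hns
  refine hmono e _ (k ⟨s, hs⟩) K (Finset.le_sup (f := k) (Finset.mem_univ _)) ?_
  exact hke ⟨s, hs⟩ e (le_trans (Finset.le_sup (f := e₁) (Finset.mem_univ _))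
    (le_trans (le_max_left _ _) he))

end Ext

section Len

variable {R : Type u} [CommRing R] (L : AddLen R) {V : Type u} [AddCommGroup V] [Module R V]
  {n : ℕ}

/-- one step of the filtration. -/
theorem len_step (y : Fin n → R) (t : R) (i : ℕ) (hfin : L.len (V ⧸ ys V y) ≠ ⊤)
    (ht : ∀ m : Multiset (Fin n) → V, ∑ s : Sym (Fin n) i, mv y s.1 • m s.1 ∈
        Ideal.span (Set.range y) ^ (i + 1) • (⊤ : Submodule R V) →
      ∀ s, Multiset.card s = i → t • m s ∈ ys V y) :
    (Fintype.card (Sym (Fin n) i) : ℝ≥0∞) * L.len (V ⧸ ys V y) ≤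
      L.rl (Ideal.span (Set.range y) ^ (i + 1) • (⊤ : Submodule R V))
        (Ideal.span (Set.range y) ^ i • (⊤ : Submodule R V)) +
      (Fintype.card (Sym (Fin n) i) : ℝ≥0∞) * L.len ((V ⧸ ys V y) ⧸
        LinearMap.range (t • (LinearMap.id : (V ⧸ ys V y) →ₗ[R] (V ⧸ ys V y)))) := by
  classical
  let Q := V ⧸ ys V y
  let τ : Q →ₗ[R] Q := t • LinearMap.id
  -- the kernel of `t` on `Q`
  have hker : L.len (LinearMap.ker τ) = L.len (Q ⧸ LinearMap.range τ) := by
    have h1 := len_sub_quot L (LinearMap.ker τ)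
    have h2 := len_sub_quot L (LinearMap.range τ)
    rw [len_congr L τ.quotKerEquivRange] at h1
    have h3 : L.len (LinearMap.range τ) ≠ ⊤ := by
      intro h4
      rw [h4, top_add] at h2
      exact hfin h2
    rw [h1, add_comm] at h2
    exact (ENNReal.add_right_inj h3).1 h2
  have hrl : L.rl (ys V y) ((LinearMap.ker τ).comap (ys V y).mkQ) = L.len (LinearMap.ker τ) := by
    have h1 := rl_comap L (ys V y).mkQ ⊥ (LinearMap.ker τ)
    rw [Submodule.range_mkQ, inf_top_eq, rl_bot] at h1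
    rw [← h1]
    congr 1
    rw [← LinearMap.ker, Submodule.ker_mkQ]
  -- the map `Φ`
  have h1 : L.rl ((Ideal.span (Set.range y) ^ (i + 1) • (⊤ : Submodule R V)).comap
      (Phi V y i)) ⊤ = L.rl (Ideal.span (Set.range y) ^ (i + 1) • (⊤ : Submodule R V))
        (Ideal.span (Set.range y) ^ i • (⊤ : Submodule R V)) := by
    have h2 := rl_comap L (Phi V y i)
      (Ideal.span (Set.range y) ^ (i + 1) • (⊤ : Submodule R V)) ⊤
    rw [top_inf_eq, range_Phi, Submodule.comap_top] at h2
    exact h2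
  have hle1 : Submodule.pi Set.univ (fun _ : Sym (Fin n) i => ys V y) ≤
      (Ideal.span (Set.range y) ^ (i + 1) • (⊤ : Submodule R V)).comap (Phi V y i) := by
    intro m hm
    rw [Submodule.mem_comap, Phi_apply]
    refine Submodule.sum_mem _ fun s _ => ?_
    have h2 : mv y s.1 ∈ Ideal.span (Set.range y) ^ i := by
      have h3 := mv_mem y s.1
      have h4 : Multiset.card s.1 = i := s.2
      rwa [h4] at h3
    have h5 : m s ∈ ys V y := hm s trivial
    rw [pow_succ, ← smul_eq_mul, Submodule.smul_assoc]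
    exact Submodule.smul_mem_smul h2 h5
  have hle2 : (Ideal.span (Set.range y) ^ (i + 1) • (⊤ : Submodule R V)).comap (Phi V y i) ≤
      Submodule.pi Set.univ
        (fun _ : Sym (Fin n) i => (LinearMap.ker τ).comap (ys V y).mkQ) := by
    intro m hm s _
    rw [Submodule.mem_comap, Phi_apply] at hm
    let m' : Multiset (Fin n) → V := fun a => if ha : Multiset.card a = i then m ⟨a, ha⟩ else 0
    have hm' : ∀ s : Sym (Fin n) i, m' s.1 = m s := by
      intro s
      show (if ha : Multiset.card s.1 = i then m ⟨s.1, ha⟩ else 0) = m s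
      rw [dif_pos s.2]
      rfl
    have h2 := ht m' (by
      rw [Finset.sum_congr rfl fun s _ => by rw [hm' s]]
      exact hm) s.1 s.2
    rw [hm' s] at h2
    show (ys V y).mkQ (m s) ∈ LinearMap.ker τ
    rw [LinearMap.mem_ker]
    show t • (ys V y).mkQ (m s) = 0
    rw [← map_smul, Submodule.mkQ_apply, Submodule.Quotient.mk_eq_zero]
    exact h2
  have h3 : L.rl (Submodule.pi Set.univ (fun _ : Sym (Fin n) i => ys V y)) ⊤ =
      Fintype.card (Sym (Fin n) i) * L.len (V ⧸ ys V y) := by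
    have h4 := rl_pi L (fun _ : Sym (Fin n) i => ys V y) (fun _ => ⊤)
    rw [Submodule.pi_top] at h4
    rw [h4, Finset.sum_const, rl_top, nsmul_eq_mul]
    rfl
  have h5 : L.rl (Submodule.pi Set.univ (fun _ : Sym (Fin n) i => ys V y))
      (Submodule.pi Set.univ
        (fun _ : Sym (Fin n) i => (LinearMap.ker τ).comap (ys V y).mkQ)) =
      Fintype.card (Sym (Fin n) i) * L.len (Q ⧸ LinearMap.range τ) := by
    rw [rl_pi L, Finset.sum_const, hrl, hker, nsmul_eq_mul]
    rfl
  rw [← h3, ← h1]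
  calc L.rl (Submodule.pi Set.univ (fun _ : Sym (Fin n) i => ys V y)) ⊤ =
      L.rl (Submodule.pi Set.univ (fun _ : Sym (Fin n) i => ys V y))
        ((Ideal.span (Set.range y) ^ (i + 1) • (⊤ : Submodule R V)).comap (Phi V y i)) +
      L.rl ((Ideal.span (Set.range y) ^ (i + 1) • (⊤ : Submodule R V)).comap (Phi V y i)) ⊤ :=
        rl_add L hle1 le_top
    _ ≤ _ := by
        rw [add_comm]
        refine add_le_add le_rfl ?_
        exact (rl_mono_right L hle2).trans h5.le

/-- the filtration. -/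
theorem len_filt (y : Fin n → R) (j : ℕ) :
    L.len (V ⧸ (Ideal.span (Set.range y) ^ j • (⊤ : Submodule R V))) =
      ∑ i ∈ Finset.range j, L.rl (Ideal.span (Set.range y) ^ (i + 1) • (⊤ : Submodule R V))
        (Ideal.span (Set.range y) ^ i • (⊤ : Submodule R V)) := by
  rw [← rl_top]
  induction j with
  | zero =>
    rw [Finset.sum_range_zero, pow_zero, one_smul]
    exact rl_eq_zero_of_le L le_rfl
  | succ j ih =>
    rw [Finset.sum_range_succ, ← ih]
    have h1 : Ideal.span (Set.range y) ^ (j + 1) • (⊤ : Submodule R V) ≤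
        Ideal.span (Set.range y) ^ j • (⊤ : Submodule R V) :=
      Submodule.smul_mono_left (Ideal.pow_le_pow_right (Nat.le_succ j))
    exact (rl_add L h1 le_top).trans (add_comm _ _)

theorem card_sum (r j : ℕ) :
    ∑ i ∈ Finset.range j, Fintype.card (Sym (Fin (r + 1)) i) = (r + j).choose (r + 1) := by
  induction j with
  | zero =>
    rw [Finset.sum_range_zero, add_zero, Nat.choose_succ_self]
  | succ j ih =>
    rw [Finset.sum_range_succ, ih, Sym.card_sym_eq_choose, Fintype.card_fin]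
    have h1 : r + 1 + j - 1 = r + j := by omega
    have h2 : r + (j + 1) = (r + j) + 1 := by ring
    rw [h1, h2, Nat.choose_succ_succ, add_comm]
    congr 1
    exact Nat.choose_symm_add.symm

end Len

end HonPow

open HonPow in
theorem hon_pow (R : ℕ → Type u) [∀ e, CommRing (R e)] (X : ℕ → Type u) [∀ e, AddCommGroup (X e)]
    [∀ e, Module (R e) (X e)] (p : ℕ) {r : ℕ} (h : ∀ e, R e) (v y z : ∀ e, Fin (r + 1) → R e)
    (w : ℕ) (hw : 1 ≤ w) (H : HonData R X p h v y z w)
    (L : ∀ e, AddLen (R e)) (ρ : ℕ → ℝ≥0∞) (hρ0 : ∀ e, ρ e ≠ 0) (hρ : ∀ e, ρ e ≠ ⊤)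
    (hfin : ∃ C : ℝ≥0∞, C ≠ ⊤ ∧ ∀ e, (L e).len (QQ R X y e) ≤ C * ρ e)
    (hsmall : ∀ c : ℕ, Filter.Tendsto (fun e => (L e).len
      (QQ R X y e ⧸ LinearMap.range (h e ^ c • (LinearMap.id : QQ R X y e →ₗ[R e] QQ R X y e))) /
        ρ e) Filter.atTop (𝓝 0))
    (j : ℕ) (hj : 1 ≤ j) (ε : ℝ≥0∞) (hε : ε ≠ 0) :
    ∀ᶠ e in Filter.atTop, ((r + j).choose (r + 1) : ℝ≥0∞) * (L e).len (QQ R X y e) ≤
      (L e).len (X e ⧸ (Ideal.span (Set.range (y e)) ^ j • (⊤ : Submodule (R e) (X e)))) +
        ε * ρ e := by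
  obtain ⟨N, hN, H1a⟩ := H.tr
  obtain ⟨l, hl⟩ := H.vy
  have hreg := wreg_SS R X p h v H.hv0 N hN H1a H.reg
  have hy : Acyc (sop (SS R X p h) (fun l e => y e l)) :=
    acyc_of_wreg (fun k e => v e k) (fun l e => y e l) hreg l fun k =>
      hon7_span R y _ fun e => hl e k
  have hL : ∀ e, (p : R e) ^ l ∈ Ideal.span (Set.range (y e)) := fun e => by
    rw [← H.hv0 e]
    exact hl e 0
  choose c e₀ hc using extract_pow R X p h y l hL hy
  obtain ⟨C, hC, hC'⟩ := hfin
  have hT : Filter.Tendsto (fun e => ∑ i ∈ Finset.range j,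
      (Fintype.card (Sym (Fin (r + 1)) i) : ℝ≥0∞) * ((L e).len (QQ R X y e ⧸
        LinearMap.range (h e ^ c i • (LinearMap.id : QQ R X y e →ₗ[R e] QQ R X y e))) / ρ e))
      Filter.atTop (𝓝 0) := by
    have h1 : (0 : ℝ≥0∞) = ∑ i ∈ Finset.range j,
        (Fintype.card (Sym (Fin (r + 1)) i) : ℝ≥0∞) * 0 := by simp
    rw [h1]
    refine tendsto_finsetSum _ fun i _ => ?_
    exact ENNReal.Tendsto.const_mul (hsmall (c i)) (Or.inr (ENNReal.natCast_ne_top _))
  have hlt := hT.eventually (gt_mem_nhds (pos_iff_ne_zero.2 hε))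
  filter_upwards [hlt, Filter.eventually_ge_atTop ((Finset.range j).sup e₀)] with e he he'
  have hQ : (L e).len (X e ⧸ ys (X e) (y e)) ≠ ⊤ :=
    ne_top_of_le_ne_top (ENNReal.mul_ne_top hC (hρ e)) (hC' e)
  have hstep : ∀ i ∈ Finset.range j, (Fintype.card (Sym (Fin (r + 1)) i) : ℝ≥0∞) *
      (L e).len (QQ R X y e) ≤
      (L e).rl (Ideal.span (Set.range (y e)) ^ (i + 1) • (⊤ : Submodule (R e) (X e)))
        (Ideal.span (Set.range (y e)) ^ i • (⊤ : Submodule (R e) (X e))) +
      (Fintype.card (Sym (Fin (r + 1)) i) : ℝ≥0∞) * (L e).len (QQ R X y e ⧸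
        LinearMap.range (h e ^ c i • (LinearMap.id : QQ R X y e →ₗ[R e] QQ R X y e))) :=
    fun i hi => len_step (L e) (y e) (h e ^ c i) i hQ
      (hc i e (le_trans (Finset.le_sup hi) he'))
  rw [← card_sum, Nat.cast_sum, Finset.sum_mul, len_filt]
  refine (Finset.sum_le_sum hstep).trans ?_
  rw [Finset.sum_add_distrib]
  refine add_le_add le_rfl ?_
  have h2 : ∑ i ∈ Finset.range j,
      (Fintype.card (Sym (Fin (r + 1)) i) : ℝ≥0∞) * ((L e).len (QQ R X y e ⧸
        LinearMap.range (h e ^ c i • (LinearMap.id : QQ R X y e →ₗ[R e] QQ R X y e))) / ρ e) =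
      (∑ i ∈ Finset.range j, (Fintype.card (Sym (Fin (r + 1)) i) : ℝ≥0∞) *
        (L e).len (QQ R X y e ⧸
          LinearMap.range (h e ^ c i • (LinearMap.id : QQ R X y e →ₗ[R e] QQ R X y e)))) /
        ρ e := by
    rw [ENNReal.div_eq_inv_mul, Finset.mul_sum]
    refine Finset.sum_congr rfl fun i _ => ?_
    rw [ENNReal.div_eq_inv_mul]
    ring
  rw [h2] at he
  exact (ENNReal.div_le_iff (hρ0 e) (hρ e)).1 he.le

end Vale.Agent.P202.Mix
end

section

/-!
P202-AK-10: locality of `S₁ ⊗[A] RA ρ`.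
-/

set_option linter.unusedSectionVars false

namespace Vale.Agent.P202.CharP.ArbK

open IsLocalRing TensorProduct

universe u

section RelF

variable (p : ℕ) [Fact p.Prime] {e : ℕ} {R A : Type u} [CommRing R] [IsLocalRing R]
  [IsNoetherianRing R] [CharP R p] [CommRing A] [IsLocalRing A] [IsNoetherianRing A]
  [CharP A p] [Algebra R A] {ρ : A →+* R} (H : RelFrob p e R A ρ)

include H

variable {S₁ : Type u} [CommRing S₁] [IsLocalRing S₁] [IsNoetherianRing S₁] [Algebra A S₁]
  [Algebra R S₁] [IsScalarTower R A S₁] [IsLocalHom (algebraMap A S₁)] [Module.Flat A S₁]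

/-- `q`-th powers of elements of `S₁ ⊗ RA ρ` come from `S₁`. -/
lemma pow_mem_range_RA [CharP S₁ p] [CharP (S₁ ⊗[A] (RA ρ)) p] (b : S₁ ⊗[A] (RA ρ)) :
    ∃ s : S₁, b ^ p ^ e = algebraMap S₁ (S₁ ⊗[A] (RA ρ)) s := by
  induction b using TensorProduct.induction_on with
  | zero => exact ⟨0, by rw [map_zero, zero_pow (pow_ne_zero e (Fact.out : p.Prime).ne_zero)]⟩
  | tmul s r =>
    refine ⟨s ^ p ^ e * algebraMap A S₁ (algebraMap R A (show R from r)), ?_⟩
    rw [Algebra.TensorProduct.tmul_pow]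
    have h1 : r ^ p ^ e = algebraMap A (RA ρ) (algebraMap R A (show R from r)) :=
      (H.rf (show R from r)).symm
    rw [h1, Algebra.TensorProduct.algebraMap_apply, Algebra.algebraMap_self, RingHom.id_apply,
      Algebra.algebraMap_eq_smul_one (R := A) (A := RA ρ), TensorProduct.tmul_smul,
      TensorProduct.smul_tmul', Algebra.smul_def, mul_comm]
  | add b c hb hc =>
    obtain ⟨s, hs⟩ := hb
    obtain ⟨s', hs'⟩ := hc
    exact ⟨s + s', by rw [add_pow_char_pow, hs, hs', map_add]⟩

/-- TASK AK-10: locality of the tensor product. -/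
theorem isLocalRing_tensor_RA : IsLocalRing (S₁ ⊗[A] (RA ρ)) := by
  have hfin : Module.Finite A (RA ρ) := H.fin
  have hff : Module.FaithfullyFlat A S₁ :=
    Module.FaithfullyFlat.of_flat_of_isLocalHom (A := A) (B := S₁)
  have hSp : CharP S₁ p :=
    charP_of_injective_algebraMap (FaithfulSMul.algebraMap_injective A S₁) p
  have hnt : Nontrivial (RA ρ) := inferInstanceAs (Nontrivial R)
  have hnt' : Nontrivial (S₁ ⊗[A] (RA ρ)) := Module.FaithfullyFlat.lTensor_nontrivial A S₁ _
  have hTp : CharP (S₁ ⊗[A] (RA ρ)) p := by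
    rw [CharP.charP_iff_prime_eq_zero (Fact.out : p.Prime)]
    rw [← map_natCast (algebraMap S₁ (S₁ ⊗[A] (RA ρ))), CharP.cast_eq_zero, map_zero]
  have hq : p ^ e ≠ 0 := pow_ne_zero e (Fact.out : p.Prime).ne_zero
  have key : ∀ s : S₁, IsUnit (algebraMap S₁ (S₁ ⊗[A] (RA ρ)) s) → IsUnit s := by
    intro s hs
    by_contra h
    have hm : s ∈ maximalIdeal S₁ := (mem_maximalIdeal _).mpr h
    have h1 : (⊤ : Submodule S₁ (S₁ ⊗[A] (RA ρ))) ≤ maximalIdeal S₁ • ⊤ := by
      intro b _
      obtain ⟨u, hu⟩ := hs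
      have h2 : b = s • ((↑u⁻¹ : S₁ ⊗[A] (RA ρ)) * b) := by
        rw [Algebra.smul_def, ← hu, ← mul_assoc, Units.mul_inv, one_mul]
      rw [h2]
      exact Submodule.smul_mem_smul hm Submodule.mem_top
    have h3 : (⊤ : Submodule S₁ (S₁ ⊗[A] (RA ρ))) = ⊥ :=
      Submodule.eq_bot_of_le_smul_of_le_jacobson_bot (maximalIdeal S₁) _
        (Module.Finite.fg_top) h1 (maximalIdeal_le_jacobson _)
    exact not_subsingleton (S₁ ⊗[A] (RA ρ)) ((Submodule.subsingleton_iff S₁).mp
      (subsingleton_of_bot_eq_top h3.symm))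
  refine IsLocalRing.of_nonunits_add fun b c hb hc => ?_
  obtain ⟨s, hs⟩ := pow_mem_range_RA p H b
  obtain ⟨s', hs'⟩ := pow_mem_range_RA p H c
  rw [mem_nonunits_iff] at hb hc ⊢
  have hs1 : s ∈ nonunits S₁ := by
    rw [mem_nonunits_iff]
    intro h
    have := h.map (algebraMap S₁ (S₁ ⊗[A] (RA ρ)))
    rw [← hs, isUnit_pow_iff hq] at this
    exact hb this
  have hs2 : s' ∈ nonunits S₁ := by
    rw [mem_nonunits_iff]
    intro h
    have := h.map (algebraMap S₁ (S₁ ⊗[A] (RA ρ)))
    rw [← hs', isUnit_pow_iff hq] at this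
    exact hc this
  intro h
  have h1 : (b + c) ^ p ^ e = algebraMap S₁ (S₁ ⊗[A] (RA ρ)) (s + s') := by
    rw [add_pow_char_pow, hs, hs', map_add]
  have h2 := h.pow (p ^ e)
  rw [h1] at h2
  exact IsLocalRing.nonunits_add hs1 hs2 (key _ h2)

end RelF

end Vale.Agent.P202.CharP.ArbK
end
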