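import Vale.Agent.P202.MathlibUsed
import Vale.Agent.P202.Bdl.B2
import Vale.Agent.P202.Bdl.B1
import Vale.Agent.P202.Bdl.B4
attribute [-instance] DenselyNormedField.toNontriviallyNormedField DenselyNormedField.toNormedField NontriviallyNormedField.toNormedField RCLike.toDenselyNormedField KleeneAlgebra.toIdemSemiring SemiRingCat.instSemiringObjForgetRingHomCarrier NormedField.toNormedDivisionRing NormedDivisionRing.toDivisionRing SemimoduleCat.isAddCommMonoid NormedField.toNormedCommRing NormedCommRing.toSeminormedCommRing NormedCommRing.toNormedRing NormedDivisionRing.toNormedRing EuclideanDomain.toCommRing NormedCommRing.toCommRing SeminormedCommRing.toCommRing NormedRing.toSeminormedRing SeminormedCommRing.toSeminormedRing NormedRing.toRing SeminormedRing.toRing CommSemiRingCat.instCommSemiringObjForgetRingHomCarrier LinearOrderedAddCommGroupWithTop.instLinearOrderedAddCommMonoidWithTop Ring.toNonAssocRing LinearOrderedAddCommGroupWithTop.toAddCommMonoid NonAssocCommRing.toNonAssocCommSemiring CommSemiring.toNonAssocCommSemiring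 NonAssocCommSemiring.toNonAssocSemiring NonAssocRing.toNonAssocSemiring TopologicalSpace.Compacts.instSetLike NormedCommRing.toNonUnitalNormedCommRing NonUnitalNormedCommRing.toNonUnitalNormedRing NormedRing.toNonUnitalNormedRing NonUnitalNormedCommRing.toNonUnitalSeminormedCommRing SeminormedCommRing.toNonUnitalSeminormedCommRing NonUnitalNormedRing.toNonUnitalSeminormedRing NonUnitalSeminormedCommRing.toNonUnitalSeminormedRing SeminormedRing.toNonUnitalSeminormedRing NonUnitalNormedCommRing.toNonUnitalCommRing NonUnitalSeminormedCommRing.toNonUnitalCommRing NonUnitalNormedRing.toNonUnitalRing NonUnitalSeminormedRing.toNonUnitalRing Ring.toNonUnitalRing NonUnitalRing.toNonUnitalSemiring CommRing.toAddCommGroupWithOne NonAssocCommRing.toNonUnitalNonAssocCommRing NonAssocRing.toNonUnitalNonAssocRing NonUnitalRing.toNonUnitalNonAssocRing AddCommGroupWithOne.toAddCommMonoidWithOne NonAssocCommSemiring.toNonUnitalNonAssocCommSemiring NonUnitalNonAssocCommSemiring.toNonUnitalNonAssocSemiring NonUnitalSemiring.toNonUnitalNonAssocSemiring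 AddCommMonoidWithOne.toAddCommMonoid Pi.nonUnitalNonAssocSemiring AddMonCat.addMonoidObj AbsoluteValue.funLike Pi.preorder MulSemiringAction.toDistribMulAction LieAlgebra.toModule NormedSpace.toModule instCoeT ModuleCat.isModule Pi.nonAssocSemiring Pi.instTopForall LieRing.toAddCommGroup NormedCommGroup.toNormedGroup NormedCommGroup.toSeminormedCommGroup NormedGroup.toSeminormedGroup SeminormedCommGroup.toSeminormedGroup AddOpposite.instAddZero CommGroup.toGroup NormedCommGroup.toCommGroup NormedGroup.toGroup SeminormedCommGroup.toCommGroup SeminormedGroup.toGroup instCoeTOfCoeDep Pi.seminormedAddCommGroup Algebra.TensorProduct.instCommRing Algebra.TensorProduct.instCommSemiring Torsor.toMulAction GradedMonoid.GradeZero.mulAction Algebra.TensorProduct.instRing Algebra.TensorProduct.instSemiring CompleteAtomicBooleanAlgebra.toCompleteBooleanAlgebra Pi.instSemilatticeSup RingCat.instRingObjForgetRingHomCarrier CompleteAtomicBooleanAlgebra.toCompletelyDistribLattice MonCat.monoidObj AddCommGroupWithOne.toAddGroupWithOne CompleteLinearOrder.toConditionallyCompleteLinearOrderBot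 CompleteBooleanAlgebra.toCompleteLattice ConditionallyCompleteLinearOrderBot.toConditionallyCompleteLinearOrder LinearOrderedAddCommGroupWithTop.toSubNegMonoid instRingHomSurjectiveForallEvalRingHom CompleteBooleanAlgebra.toCompleteDistribLattice CompletelyDistribLattice.toCompleteDistribLattice NonUnitalNormedRing.toNormedAddCommGroup CompleteDistribLattice.toCoframe CompleteDistribLattice.toFrame NormedAlgebra.toAlgebra CompleteLinearOrder.toCompleteLattice Order.Coframe.toCompleteLattice Order.Frame.toCompleteLattice Filter.instMembership Algebra.TensorProduct.instNonAssocRing Algebra.TensorProduct.instNonAssocSemiring ChainCompletePartialOrder.instOfCompleteLattice ChainCompletePartialOrder.instOmegaCompletePartialOrder ChainCompletePartialOrder.toPartialOrder CompletePartialOrder.toOmegaCompletePartialOrder OmegaCompletePartialOrder.toPartialOrder Pi.instMaxForall_mathlib AddHom.addHomClass Pi.addZeroClass NonUnitalSeminormedRing.toSeminormedAddCommGroup NormedAddCommGroup.toSeminormedAddCommGroup Pi.addMonoidWithOne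 instDistribSMul NormedAddCommGroup.toNormedAddGroup SubfieldClass.toNormedField SubringClass.toNormedCommRing SubringClass.toSeminormedCommRing instSMulZeroClass instCoeHTC instCoeHTCT LinearOrderedCommGroupWithZero.toLinearOrderedCommMonoidWithZero SubringClass.toCommRing SetLike.GradeZero.instCommRing LinearOrderedCommMonoidWithZero.toIsBotZeroClass instCoeTC Algebra.TensorProduct.instNonUnitalRing Invertible.toNeZero NeZero.of_gt' Nat.AtLeastTwo.toNeZero Algebra.TensorProduct.instNonUnitalSemiring Submodule.instIdemCommSemiring NormedAlgebra.id instCoeTCOfCoe NormedAddGroup.toSeminormedAddGroup SeminormedAddCommGroup.toSeminormedAddGroup Pi.nonUnitalSemiring instNonUnitalAlgHomClassOfNonUnitalAlgEquivClass AlgHom.instNonUnitalAlgHomClassOfAlgHomClass SubalgebraClass.normedRing SubalgebraClass.seminormedRing SubringClass.toNormedRing SubringClass.toSeminormedRing SubfieldClass.toDivisionRing SetLike.GradeZero.instRing MulSemiringActionSemiHomClass.toDistribMulActionSemiHomClass NonUnitalAlgSemiHomClass.toDistribMulActionSemiHomClass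 SubringClass.toRing Group.instTorsor ValuationClass.toMonoidWithZeroHomClass SetLike.GradeZero.instCommSemiring MulEquivClass.toMonoidWithZeroHomClass MulRingSeminormClass.toMonoidWithZeroHomClass MonoidWithZeroHomClass.toZeroHomClass CompleteBooleanAlgebra.toBooleanAlgebra ContinuousAddMonoidHom.instCoeOutOfAddMonoidHomClassOfContinuousMapClass ContinuousMonoidHom.instCoeOutOfMonoidHomClassOfContinuousMapClass HomeomorphClass.instCoeOutHomeomorph IsometryClass.instCoeOutIsometryEquiv EMetricSpace.toPseudoEMetricSpace MetricSpace.toEMetricSpace MetricSpace.toPseudoMetricSpace NonUnitalNormedRing.toMetricSpace NonUnitalSeminormedRing.toPseudoMetricSpace NormedAddCommGroup.toMetricSpace NormedAddGroup.toMetricSpace NormedCommGroup.toMetricSpace NormedDivisionRing.toMetricSpace NormedField.toMetricSpace NormedGroup.toMetricSpace NormedRing.toMetricSpace PseudoEMetricSpace.toUniformSpace PseudoMetricSpace.toPseudoEMetricSpace PseudoMetricSpace.toUniformSpace SeminormedAddCommGroup.toPseudoMetricSpace SeminormedAddGroup.toPseudoMetricSpace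 SeminormedCommGroup.toPseudoMetricSpace SeminormedGroup.toPseudoMetricSpace SeminormedRing.toPseudoMetricSpace UniformSpace.toTopologicalSpace Valued.toUniformSpace WithIdeal.instTopologicalSpace WithIdeal.instUniformSpace boolToProp Algebra.TensorProduct.instNonUnitalNonAssocRing Nat.instNontrivial Nat.instOne Nat.Prime.one_lt' CommGroupWithZero.toGroupWithZero LinearOrderedCommGroupWithZero.toCommGroupWithZero Algebra.TensorProduct.instNonUnitalNonAssocSemiring Ideal.Quotient.normedCommRing Ideal.Quotient.semiNormedCommRing Pi.instSemilatticeInf BooleanAlgebra.toBiheytingAlgebra CompleteDistribLattice.toBiheytingAlgebra CompleteLinearOrder.toBiheytingAlgebra CompletelyDistribLattice.toBiheytingAlgebra AddCommGroupWithOne.toAddCommGroup NormedAddCommGroup.toAddCommGroup SeminormedAddCommGroup.toAddCommGroup ModuleCat.instAddCommGroupCarrierMkOfSMul' instSubsingleton CommGroupWithZero.toCommMonoidWithZero CommMonoidWithZero.toMonoidWithZero CommSemiring.toCommMonoidWithZero LinearOrderedCommMonoidWithZero.toCommMonoidWithZero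 TensorProduct.isScalarTower TensorProduct.isScalarTower_right Algebra.TensorProduct.right_isScalarTower SetLike.GradeZero.instSemiring IsEmpty.instSubsingleton SubsemiringClass.toSemiring Fin.completeLinearOrder OrderDual.instDivisionRing Pi.partialOrder NormedAddGroup.toAddGroup SeminormedAddGroup.toAddGroup Std.DTreeMap.Raw.instSingletonSigma BooleanAlgebra.toGeneralizedBooleanAlgebra OrderDual.instDivisionSemiring CompleteLinearOrder.toLinearOrder ConditionallyCompleteLinearOrder.toLinearOrder LinearOrderedAddCommGroupWithTop.toLinearOrder LinearOrderedCommMonoidWithZero.toLinearOrder BiheytingAlgebra.toCoheytingAlgebra BiheytingAlgebra.toHeytingAlgebra Order.Coframe.toCoheytingAlgebra Order.Frame.toHeytingAlgebra CoheytingAlgebra.toGeneralizedCoheytingAlgebra GeneralizedBooleanAlgebra.toGeneralizedCoheytingAlgebra HeytingAlgebra.toGeneralizedHeytingAlgebra AddCancelCommMonoid.toAddCommMonoid AddCommGroup.toAddCancelCommMonoid ENormedAddCommMonoid.toESeminormedAddCommMonoid ESeminormedAddCommMonoid.toAddCommMonoid NormedAddCommGroup.toENormedAddCommMonoid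 SubtractionCommMonoid.toAddCommMonoid Pi.mulOneClass AbsoluteValue.zeroHomClass Fin.instBiheytingAlgebra SubringClass.toNonAssocCommRing SubringClass.toNonAssocRing Pi.instOrderTop instConditionallyCompletePartialOrderSup CompleteLattice.toCompleteSemilatticeInf CompleteLattice.toCompleteSemilatticeSup ConditionallyCompletePartialOrder.toConditionallyCompletePartialOrderInf MonoidWithZero.toSemigroupWithZero NonUnitalNonAssocSemiring.toMulZeroClass SemigroupWithZero.toMulZeroClass AlgHom.instRingHomCompTripleComp AddCancelCommMonoid.toAddCancelMonoid AddCancelCommMonoid.toAddLeftCancelMonoid AddCancelMonoid.toAddLeftCancelMonoid AddLeftCancelMonoid.toAddMonoid AddRightCancelMonoid.toAddMonoid ENormedAddCommMonoid.toENormedAddMonoid ENormedAddMonoid.toESeminormedAddMonoid ESeminormedAddCommMonoid.toESeminormedAddMonoid ESeminormedAddMonoid.toAddMonoid LinearOrderedAddCommGroupWithTop.toSubtractionMonoid NormedAddGroup.toENormedAddMonoid instMulActionSemiHomClassMulActionHom MonoidWithZero.toMulActionWithZero AlgHomClass.linearMapClass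 ContinuousSemilinearEquivClass.continuousSemilinearMapClass ContinuousSemilinearMapClass.toSemilinearMapClass NonUnitalAlgHomClass.instLinearMapClass NonUnitalAlgHomClass.instSemilinearMapClassOfNonUnitalAlgSemiHomClassToMonoidHomRingHom RingHomClass.toLinearMapClassNNRat RingHomClass.toLinearMapClassRat SemilinearIsometryClass.toContinuousSemilinearMapClass SemilinearIsometryClass.toSemilinearMapClass Pi.commMagma SubsemiringClass.toNonAssocCommSemiring SubsemiringClass.toNonAssocSemiring LinOrd.str CategoryTheory.instFinCategoryOfFintypeOfIsThin SetLike.instFintype Unique.fintype CategoryTheory.FinCategory.fintypeObj Pi.semigroup BooleanAlgebra.toDistribLattice CompleteLattice.toLattice CompleteLattice.toPartialOrder' CompleteSemilatticeInf.toPartialOrder CompleteSemilatticeSup.toPartialOrder ConditionallyCompletePartialOrderInf.toPartialOrder GeneralizedBooleanAlgebra.toDistribLattice GeneralizedCoheytingAlgebra.toDistribLattice GeneralizedCoheytingAlgebra.toLattice GeneralizedHeytingAlgebra.toDistribLattice GeneralizedHeytingAlgebra.toLattice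 LinearOrder.toLattice Order.Coframe.toDistribLattice Order.Frame.toDistribLattice TensorProduct.instDistribMulAction Pi.instMinForall_mathlib Pi.distribMulAction' instIsDedekindDomainOfIsDomainOfIsDedekindRing IsDedekindDomainDvr.isDedekindDomain Polynomial.distribMulAction Polynomial.instMulSemiringAction MulOpposite.instMulOne Pi.mulZeroOneClass MulZeroClass.toSMulWithZero Algebra.IsFiniteSplit.instFree CommRing.Pic.instFreeOfSubsingleton Std.LinearOrderPackage.toLinearPreorderPackage Std.LinearPreorderPackage.toPreorderPackage Fin.instCoheytingAlgebra Fin.instHeytingAlgebra Module.Finite.tensorProduct IsLocalRing.ResidueField.instMulSemiringAction LinearOrder.toDecidableEq Algebra.Extension.commRing Submodule.instOrderBot ENormedCommMonoid.toESeminormedCommMonoid NormedCommGroup.toENormedCommMonoid instFiniteProp instIsNoetherianRingOfIsArtinianRing IsDedekindDomainDvr.toIsNoetherian IsDedekindRing.toIsNoetherian IsRegularLocalRing.toIsNoetherian IsSimpleModule.instIsNoetherian NumberField.instFiniteDimensional Ring.HasFiniteQuotients.instIsNoetherianRing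 String.Slice.Pos.instLinearOrderPackage IsAffineAddMonoid.toIsCancelAdd IsOrderedCancelAddMonoid.toIsCancelAdd MonomialOrder.orderBot instFiniteOfFinitePresentation instFinitePresentation isNoetherian_of_finite isNoetherian_of_subsingleton Algebra.instFiniteOfIsQuadraticExtension FiniteDimensional.finiteDimensional_self IsSemisimpleModule.instIsNoetherianOfFinite Module.instFiniteDimensionalOfIsReflexive PrincipalIdealRing.isNoetherianRing Algebra.IsFiniteSplit.instFinitePresentation Module.Finite.of_finite Module.Finite.self Module.FinitePresentation.of_subsingleton RingHom.Finite.instFinite OrderRingHom.instRingHomClass Pi.addCommMagma RCLike.toDecidableEq Finite.of_subsingleton LieAlgebra.ofAssociativeAlgebra MulActionWithZero.toMulAction MulDistribMulAction.toMulAction MulSemiringAction.toMulDistribMulAction SetLike.instFinite instDecidableAnd AddGrpCat.str decidableEq_of_subsingleton CommRing.toGrindCommRing CommSemiring.toGrindCommSemiring Field.toGrindField Ring.toGrindRing Semiring.toGrindSemiring Field.henselian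 Field.instIsLocalRing HenselianLocalRing.toIsLocalRing IsDiscreteValuationRing.toIsLocalRing IsRegularLocalRing.instOfIsLocalRingOfIsDomainOfIsPrincipalIdealRing IsRegularLocalRing.toIsLocalRing ValuationRing.isLocalRing Algebra.Smooth.flat Algebra.WeaklyEtale.flat instInfiniteOfUncountable instIsDomain instNontrivialOfCharZero CharZero.infinite Denumerable.instInfinite DivisionRing.isDomain DivisionRing.toNontrivial EuclideanDomain.instIsDomain Field.isDomain GroupWithZero.toNontrivial Infinite.instNontrivial IsAlgClosed.instInfinite IsDedekindDomain.toIsDomain IsDomain.toNontrivial IsLocalRing.toNontrivial IsOrderedRing.toIsStrictOrderedRing IsSimpleAddGroup.toNontrivial IsSimpleGroup.toNontrivial IsSimpleOrder.toNontrivial IsSimpleRing.instNontrivial IsStrictOrderedRing.isDomain IsStrictOrderedRing.toNontrivial LinearOrderedAddCommGroupWithTop.toNontrivial NoMaxOrder.infinite NoMinOrder.infinite NonUnitalSubalgebraClass.nonUnitalNormedRing NonUnitalSubalgebraClass.nonUnitalSeminormedRing NontriviallyNormedField.infinite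 instInhabitedOfMonad instNonemptyOfInhabited instNonemptyOfMonad Unique.instInhabited SemilinearIsometryEquivClass.toSemilinearIsometryClass IsDedekindDomain.isDedekindDomainDvr IsDedekindDomain.toIsDedekindRing Submodule.Quotient.distribMulAction' OrderAddMonoidHom.instAddMonoidHomClass CancelCommMonoid.toCancelMonoid CancelCommMonoid.toCommMonoid CancelCommMonoid.toLeftCancelMonoid CancelMonoid.toLeftCancelMonoid CancelMonoid.toRightCancelMonoid CommGroup.toCancelCommMonoid CommGroup.toCommMonoid CommGroup.toDivisionCommMonoid CommMonoidWithZero.toCommMonoid DivInvMonoid.toMonoid DivInvOneMonoid.toDivInvMonoid DivisionCommMonoid.toCommMonoid DivisionMonoid.toDivInvMonoid DivisionRing.toDivInvMonoid ENormedCommMonoid.toENormedMonoid ENormedMonoid.toESeminormedMonoid ESeminormedCommMonoid.toCommMonoid ESeminormedCommMonoid.toESeminormedMonoid ESeminormedMonoid.toMonoid Group.toCancelMonoid Group.toDivInvMonoid Group.toDivisionMonoid GroupWithZero.toDivisionMonoid InvOneClass.toOne LeftCancelMonoid.toMonoid MonoidWithZero.toMonoid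 NormedGroup.toENormedMonoid One.ofOfNat1 RightCancelMonoid.toMonoid GradedMonoid.GradeZero.commMonoid GradedMonoid.GradeZero.monoid Algebra.IsQuadraticExtension.toFree Module.Free.self Prod.instCommRing Prod.instCommSemiring Prod.instIdemCommSemiring Prod.normedCommRing Prod.seminormedCommRing AddCommGroup.toGrindIntModule AddCommMonoid.toGrindNatModule MulZeroClass.negZeroClass Zero.ofOfNat0 bot_nonempty infSet_to_nonempty supSet_to_nonempty top_nonempty AddTorsor.nonempty BooleanAlgebra.toBot ConnectedSpace.toNonempty GeneralizedBooleanAlgebra.toBot IrreducibleSpace.toNonempty One.instNonempty Torsor.nonempty Zero.instNonempty CategoryTheory.IsConnected.is_nonempty AddSubgroupClass.normedAddCommGroup AddSubgroupClass.seminormedAddCommGroup Submodule.normedAddCommGroup Submodule.seminormedAddCommGroup instIsSimpleModule instDecidableRelLe LinearOrder.toDecidableLE Std.instDecidableLE Submodule.instUniqueOfSubsingleton Submodule.unique' Ordinal.leftDistribClass Set.instAddLeftMono Pi.distribSMul' AddGroup.fg_of_finite AddMonoid.fg_of_addGroup_fg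 IsAffineAddMonoid.mk IsAffineAddMonoid.toFG IsSemisimpleRing.isSemisimpleModule instFreeMvPolynomialKaehlerDifferential isPurelyInseparable_self Algebra.isSeparable_self IsAlgClosed.instIsAlgClosure IsAlgClosure.isAlgebraic IsAlgClosure.separable IsGalois.to_isSeparable IsPurelyInseparable.isIntegral IsSepClosure.isAlgClosure_of_perfectField IsSepClosure.isAlgClosure_of_perfectField_top IsSepClosure.isSeparable Normal.toIsAlgebraic Algebra.IsAlgebraic.isPurelyInseparable_of_isSepClosed Algebra.IsAlgebraic.isSeparable_of_perfectField Algebra.IsSeparable.isAlgebraic Algebra.IsSeparable.of_integral Pi.commSemigroup Pi.mulZeroClass exists_prop_decidable Array.instDecidableExistsAndMemOfDecidablePred Finset.decidableDExistsFinset Finset.decidableExistsAndFinset Finset.decidableExistsAndFinsetCoe Fintype.decidableExistsFintype List.decidableBEx Multiset.decidableDexistsMultiset Option.decidableExistsMem Vector.instDecidableExistsAndMemOfDecidablePred instTopologicalSpaceFin AddGroup.instAddTorsor BooleanAlgebra.toBoundedOrder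 BooleanAlgebra.toTop BoundedOrder.toOrderBot BoundedOrder.toOrderTop CategoryTheory.isConnected_of_nonempty_and_subsingleton CoheytingAlgebra.toBoundedOrder CoheytingAlgebra.toOrderTop CompleteLattice.toBoundedOrder CompleteSemilatticeInf.toInfSet CompleteSemilatticeSup.toSupSet ConditionallyCompleteLattice.toInfSet ConditionallyCompleteLattice.toSupSet ConditionallyCompleteLinearOrderBot.toOrderBot ConditionallyCompletePartialOrderInf.toInfSet ConditionallyCompletePartialOrderSup.toSupSet Fin.addCommGroup Fin.addCommMonoid Fin.instBoundedOrder Fin.instCommMonoid Fin.instInhabited Fin.instNonUnitalCommRing Fin.instNontrivial GeneralizedBooleanAlgebra.toOrderBot GeneralizedCoheytingAlgebra.toOrderBot GeneralizedHeytingAlgebra.toOrderTop HeytingAlgebra.toBoundedOrder HeytingAlgebra.toOrderBot IdemSemiring.toOrderBot IrreducibleSpace.connectedSpace LinearOrderedAddCommGroupWithTop.toOrderTop LinearOrderedCommMonoidWithZero.toOrderBot NonUnitalSubringClass.toNonUnitalRing NonUnitalSubsemiringClass.toNonUnitalCommSemiring NonUnitalSubsemiringClass.toNonUnitalSemiring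 NormedSpace.instPathConnectedSpace PathConnectedSpace.connectedSpace Preorder.smallCategory CategoryTheory.Groupoid.toCategory CategoryTheory.StrictBicategory.category Ideal.Quotient.normedAlgebra Submodule.Quotient.distribSMul Submodule.Quotient.distribSMul' Submodule.Quotient.smulZeroClass Submodule.Quotient.smulZeroClass' -- iprune

set_option linter.all false

section

/-!
Chains of submodules and the two layer lemmas.
-/

namespace Vale.Agent.P202

open Submodule

section chain
variable {A : Type*} [CommRing A] {V : Type*} [AddCommGroup V] [Module A V]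
variable {M₁ M₂ E : Type*} [AddCommGroup M₁] [Module A M₁] [AddCommGroup M₂] [Module A M₂]
  [AddCommGroup E] [Module A E]

/-- comparison of relative lengths through a correspondence. -/
lemma rl_eq_of_corr (f : E →ₗ[A] M₁) (g : E →ₗ[A] M₂) {K₁ N₁ : Submodule A M₁}
    {K₂ N₂ : Submodule A M₂} (h : K₁.comap f = K₂.comap g)
    (h1 : K₁ ⊔ N₁ = K₁ ⊔ LinearMap.range f) (h2 : K₂ ⊔ N₂ = K₂ ⊔ LinearMap.range g) :
    rl K₁ N₁ = rl K₂ N₂ := by
  have e1 := rl_comap f K₁ ⊤
  have e2 := rl_comap g K₂ ⊤
  rw [Submodule.comap_top, top_inf_eq] at e1 e2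
  rw [← rl_sup_right K₁ N₁, h1, rl_sup_right, ← rl_sup_right K₂ N₂, h2, rl_sup_right, ← e1, ← e2,
    h]

/-- a simple step. -/
lemma rl_sup_span_eq_one (m : Ideal A) [m.IsMaximal] {W : Submodule A V} {u : V} (hu : u ∉ W)
    (hm : ∀ r ∈ m, r • u ∈ W) : rl W (W ⊔ span A {u}) = 1 := by
  have hcomap : W.comap (LinearMap.toSpanSingleton A V u) = m := by
    refine (Ideal.IsMaximal.eq_of_le (inferInstance : m.IsMaximal) ?_ ?_).symm
    · intro h
      apply hu
      have : (1 : A) ∈ W.comap (LinearMap.toSpanSingleton A V u) := by rw [h]; trivial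
      simpa using this
    · intro r hr
      simpa using hm r hr
  have h1 := rl_eq_of_corr (E := A) (LinearMap.toSpanSingleton A V u) LinearMap.id
    (K₁ := W) (N₁ := W ⊔ span A {u}) (K₂ := m) (N₂ := ⊤) (by rw [hcomap, Submodule.comap_id])
    (by rw [← sup_assoc, sup_idem, LinearMap.range_toSpanSingleton])
    (by rw [LinearMap.range_id])
  rw [h1, rl_top]
  have : IsSimpleModule A (A ⧸ m) := by
    rw [isSimpleModule_iff_isCoatom]
    exact Ideal.isMaximal_def.mp inferInstance
  exact Module.length_eq_one A _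

end chain

section layers
variable {A : Type*} [CommRing A] {V : Type*} [AddCommGroup V] [Module A V]
variable (m : Ideal A) [m.IsMaximal]

end layers

end Vale.Agent.P202
end

section

/-!
The core inequality.
-/

namespace Vale.Agent.P202

open Submodule IsLocalRing

section
variable {A : Type*} [CommRing A] {V : Type*} [AddCommGroup V] [Module A V]

lemma smul_span_singleton_eq (I : Ideal A) (u : V) :
    I • span A {u} = Submodule.map (LinearMap.toSpanSingleton A V u) I := by
  rw [← LinearMap.range_toSpanSingleton, LinearMap.range_eq_map, ← Submodule.map_smul'']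
  congr 1
  simp

lemma mem_smul_top_prod {I : Ideal A} {a b : V} (ha : a ∈ I • (⊤ : Submodule A V))
    (hb : b ∈ I • (⊤ : Submodule A V)) : (a, b) ∈ I • (⊤ : Submodule A (V × V)) := by
  have h1 : LinearMap.inl A V V a ∈ I • (⊤ : Submodule A (V × V)) := by
    have : LinearMap.inl A V V a ∈ Submodule.map (LinearMap.inl A V V) (I • ⊤) :=
      Submodule.mem_map_of_mem ha
    rw [Submodule.map_smul''] at this
    exact Submodule.smul_mono le_rfl le_top this
  have h2 : LinearMap.inr A V V b ∈ I • (⊤ : Submodule A (V × V)) := by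
    have : LinearMap.inr A V V b ∈ Submodule.map (LinearMap.inr A V V) (I • ⊤) :=
      Submodule.mem_map_of_mem hb
    rw [Submodule.map_smul''] at this
    exact Submodule.smul_mono le_rfl le_top this
  have h3 := Submodule.add_mem _ h1 h2
  simpa using h3

lemma fst_mem_smul_top {I : Ideal A} {z : V × V} (h : z ∈ I • (⊤ : Submodule A (V × V))) :
    z.1 ∈ I • (⊤ : Submodule A V) := by
  have : LinearMap.fst A V V z ∈ Submodule.map (LinearMap.fst A V V) (I • ⊤) :=
    Submodule.mem_map_of_mem h
  rw [Submodule.map_smul''] at this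
  exact Submodule.smul_mono le_rfl le_top this

lemma snd_mem_smul_top {I : Ideal A} {z : V × V} (h : z ∈ I • (⊤ : Submodule A (V × V))) :
    z.2 ∈ I • (⊤ : Submodule A V) := by
  have : LinearMap.snd A V V z ∈ Submodule.map (LinearMap.snd A V V) (I • ⊤) :=
    Submodule.mem_map_of_mem h
  rw [Submodule.map_smul''] at this
  exact Submodule.smul_mono le_rfl le_top this

/-- the preimage of the annihilator of `y1, y2` in `V / m V`. -/
def annPart (m : Ideal A) (y1 y2 : V →ₗ[A] V) : Submodule A V :=
  Submodule.comap y1 (m • ⊤) ⊓ Submodule.comap y2 (m • ⊤)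

lemma smul_top_le_annPart (m : Ideal A) (y1 y2 : V →ₗ[A] V) :
    m • (⊤ : Submodule A V) ≤ annPart m y1 y2 := by
  refine le_inf ?_ ?_
  · rw [← Submodule.map_le_iff_le_comap, Submodule.map_smul'']
    exact Submodule.smul_mono le_rfl le_top
  · rw [← Submodule.map_le_iff_le_comap, Submodule.map_smul'']
    exact Submodule.smul_mono le_rfl le_top

lemma flat_prod [Module.Flat A V] : Module.Flat A (V × V) :=
  Module.Flat.of_linearEquiv
    ((LinearEquiv.finTwoArrow A V).symm.trans
      (DirectSum.linearEquivFunOnFintype A (Fin 2) (fun _ => V)).symm)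

/-- telescoping. -/
lemma rl_telescope (U : ℕ → Submodule A V) (hU : ∀ i, U (i + 1) ≤ U i) (s : ℕ) :
    rl (U s) (U 0) = ∑ i ∈ Finset.range s, rl (U (i + 1)) (U i) := by
  induction s with
  | zero => simp
  | succ s ih =>
    have hanti : Antitone U := antitone_nat_of_succ_le hU
    rw [Finset.sum_range_succ, ← ih]
    exact (rl_add (hU s) (hanti (Nat.zero_le s))).trans (add_comm _ _)

end

/-- final arithmetic. -/
lemma core_arith {c a e ch l A1 A2 Θ XA XB s : ℤ} (he : 0 ≤ e)
    (hA1 : 0 ≤ A1) (hA2 : 0 ≤ A2) (h1 : l * e ≤ ch) (h2 : ch ≤ (l + 1) * e)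
    (hslope : c * e + A1 = a * e + A2)
    (hXA : c * ch + (l + 1) * A1 ≤ XA) (hXB : XB ≤ a * ch + a * e * (s - 1) + (l + s - 1) * A2)
    (hΘ : XA + (c * e + A1) * s = Θ + XB) : c * e ≤ Θ := by
  have key : (c - a) * (ch - (l - 1) * e) + a * e + 2 * A1 ≤ Θ := by
    have hA2' : A2 = c * e + A1 - a * e := by linarith
    have h3 : c * ch + (l + 1) * A1 + (c * e + A1) * s -
        (a * ch + a * e * (s - 1) + (l + s - 1) * A2) =
        (c - a) * (ch - (l - 1) * e) + a * e + 2 * A1 := by rw [hA2']; ring
    linarith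
  rcases le_total a c with hac | hac
  · have h3 : 0 ≤ (c - a) * (ch - (l - 1) * e - e) :=
      mul_nonneg (by linarith) (by linarith)
    linarith
  · have h3 : 0 ≤ (a - c) * (2 * e - (ch - (l - 1) * e)) :=
      mul_nonneg (by linarith) (by linarith)
    have h5 : 0 ≤ (a - c) * e := mul_nonneg (by linarith) he
    linarith

end Vale.Agent.P202
end

section

/-!
Proof of the core inequality (TASK C).
-/

namespace Vale.Agent.P202

open Submodule IsLocalRing Filter

section
variable {A : Type*} [CommRing A] {V : Type*} [AddCommGroup V] [Module A V]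

end

end Vale.Agent.P202
end

section

/-!
Chains of submodules and the two layer lemmas, with lengths over the larger ring.
-/

namespace Vale.Agent.P202

open Submodule IsLocalRing

section chain
variable {B : Type*} [CommRing B] [IsLocalRing B] {V : Type*} [AddCommGroup V] [Module B V]

/-- induction along chains of submodules with simple steps. -/
theorem chain_inductionB {W : Submodule B V} {P : ℕ → Submodule B V → Prop} (h0 : P 0 W)
    (hs : ∀ (n : ℕ) (V'' : Submodule B V) (u : V), W ≤ V'' → u ∉ V'' →
      (∀ r ∈ maximalIdeal B, r • u ∈ V'') → P n V'' → P (n + 1) (V'' ⊔ span B {u})) :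
    ∀ (n : ℕ) (V' : Submodule B V), W ≤ V' → rl W V' = (n : ℕ∞) → P n V' := by
  intro n
  induction n with
  | zero =>
    intro V' hV' hn
    have : V' ≤ W := rl_eq_zero_iff.mp (by simpa using hn)
    rw [le_antisymm this hV']
    exact h0
  | succ n ih =>
    intro V' hV' hn
    have hfinite : ∀ (k : ℕ) (V'' : Submodule B V), W ≤ V'' → V'' ≤ V' → rl W V'' = (k : ℕ∞) →
        V'' ≠ V' → k ≤ n := by
      intro k V'' h1 h2 h3 h4
      have h5 := rl_add h1 h2
      rw [hn, h3] at h5
      have h6 : rl V'' V' ≠ 0 := fun h => h4 (le_antisymm h2 (rl_eq_zero_iff.mp h))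
      have h7 : 1 ≤ rl V'' V' := Order.one_le_iff_ne_zero.mpr h6
      have h8 : (k : ℕ∞) + 1 ≤ ((n + 1 : ℕ) : ℕ∞) := by
        rw [h5]; gcongr
      have h9 : k + 1 ≤ n + 1 := by exact_mod_cast h8
      omega
    have hne : W ≠ V' := by
      rintro rfl
      rw [rl_self] at hn
      have : (0 : ℕ) = n + 1 := by exact_mod_cast hn
      omega
    classical
    obtain ⟨V'', h1, h2, h3, h4⟩ := Nat.findGreatest_spec (P := fun k => ∃ V'' : Submodule B V,
      W ≤ V'' ∧ V'' ≤ V' ∧ rl W V'' = (k : ℕ∞) ∧ V'' ≠ V') (m := 0) (n := n) (Nat.zero_le _)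
      ⟨W, le_rfl, hV', by simp, hne⟩
    set k := Nat.findGreatest (fun k => ∃ V'' : Submodule B V,
      W ≤ V'' ∧ V'' ≤ V' ∧ rl W V'' = (k : ℕ∞) ∧ V'' ≠ V') n with hk
    -- maximality
    have hmax : ∀ u ∈ V', u ∉ V'' → V'' ⊔ span B {u} = V' := by
      intro u hu1 hu2
      by_contra hcon
      have hle : V'' ⊔ span B {u} ≤ V' := sup_le h2 (by rwa [span_singleton_le_iff_mem])
      have hle2 : rl W (V'' ⊔ span B {u}) ≤ ((n + 1 : ℕ) : ℕ∞) := by
        rw [← hn]; exact rl_mono_right hle
      obtain ⟨k', hk'⟩ := ENat.ne_top_iff_exists.mp (ne_top_of_le_ne_top (ENat.natCast_ne_top _) hle2)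
      have h5 := hfinite k' _ (h1.trans le_sup_left) hle hk'.symm hcon
      have h6 := Nat.le_findGreatest (P := fun k => ∃ V'' : Submodule B V,
        W ≤ V'' ∧ V'' ≤ V' ∧ rl W V'' = (k : ℕ∞) ∧ V'' ≠ V') h5
        ⟨_, h1.trans le_sup_left, hle, hk'.symm, hcon⟩
      have h7 := rl_add h1 (le_sup_left : V'' ≤ V'' ⊔ span B {u})
      rw [h3, ← hk'] at h7
      have h8 : rl V'' (V'' ⊔ span B {u}) ≠ 0 := by
        intro h
        exact hu2 (rl_eq_zero_iff.mp h (Submodule.mem_sup_right (mem_span_singleton_self u)))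
      have h9 : 1 ≤ rl V'' (V'' ⊔ span B {u}) := Order.one_le_iff_ne_zero.mpr h8
      have h10 : ((k + 1 : ℕ) : ℕ∞) ≤ (k' : ℕ∞) := by
        rw [h7]; push_cast; gcongr
      have h11 : k + 1 ≤ k' := by exact_mod_cast h10
      omega
    obtain ⟨u, hu1, hu2⟩ : ∃ u ∈ V', u ∉ V'' := by
      by_contra hcon
      push Not at hcon
      exact h4 (le_antisymm h2 hcon)
    have hnu : ∀ r ∈ maximalIdeal B, r • u ∈ V'' := by
      intro r hr
      by_contra hcon
      have h5 := hmax (r • u) (V'.smul_mem r hu1) hcon
      have h6 : u ∈ V'' ⊔ span B {r • u} := by rw [h5]; exact hu1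
      obtain ⟨v, hv, z, hz, hvz⟩ := Submodule.mem_sup.mp h6
      obtain ⟨b, rfl⟩ := Submodule.mem_span_singleton.mp hz
      have h7 : (1 - b * r) • u ∈ V'' := by
        have : (1 - b * r) • u = v := by
          rw [sub_smul, one_smul, mul_smul]
          nth_rewrite 1 [← hvz]
          abel
        rw [this]; exact hv
      have h8 : IsUnit (1 - b * r) := by
        by_contra h9
        have h10 : (1 - b * r) ∈ maximalIdeal B := h9
        have h11 : (1 : B) ∈ maximalIdeal B := by
          have h12 := Ideal.add_mem _ h10 (Ideal.mul_mem_left _ b hr)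
          rwa [sub_add_cancel] at h12
        exact (Ideal.ne_top_iff_one _).mp (IsLocalRing.maximalIdeal.isMaximal B).ne_top h11
      obtain ⟨c, hc⟩ := h8
      apply hu2
      have h9 : u = (↑c⁻¹ : B) • ((1 - b * r) • u) := by
        rw [← hc, smul_smul, Units.inv_mul, one_smul]
      rw [h9]
      exact V''.smul_mem _ h7
    have heq := hmax u hu1 hu2
    have hkn : k = n := by
      have h5 := rl_add h1 h2
      have h6 : rl V'' V' = 1 := by
        rw [← heq]
        exact rl_sup_span_eq_one (maximalIdeal B) hu2 hnu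
      rw [hn, h3, h6] at h5
      have : n + 1 = k + 1 := by exact_mod_cast h5
      omega
    rw [← heq]
    apply hs n V'' u h1 hu2 hnu
    exact ih V'' h1 (by rw [h3, hkn])

end chain

section defs
variable {B : Type*} [CommRing B] {V : Type*} [AddCommGroup V] [Module B V]

/-- consequence of flatness used for the pair `I ≤ I'`. -/
def FlatLike (m n : Ideal B) (V : Type*) [AddCommGroup V] [Module B V] (I I' : Ideal B) : Prop :=
  ∀ (W : Submodule B V) (u : V), m • (⊤ : Submodule B V) ≤ W → u ∉ W →
    (∀ r ∈ n, r • u ∈ W) → ∀ w ∈ I', w • u ∈ I' • W ⊔ I • (⊤ : Submodule B V) →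
      w ∈ I ⊔ n * I'

/-- subfiltrations. -/
structure SubFilB (m n : Ideal B) (H P : ℕ → Ideal B) : Prop where
  le : ∀ j, P j ≤ H j
  ge : ∀ j, H (j + 1) ⊔ n * H j ≤ P j
  smul : ∀ j, m * P j ≤ P (j + 1)

/-- slope bounds. -/
def PrB (m n : Ideal B) (H : ℕ → Ideal B) (lo hi : ℤ) : Prop :=
  ∀ P : ℕ → Ideal B, SubFilB m n H P → ∃ a x b y : ℤ,
    EvLin (fun j => rl (P j) (H j)) a x ∧ EvLin (fun j => rl (H (j + 1) ⊔ n * H j) (P j)) b y ∧
    lo * a ≤ x ∧ y ≤ hi * b

end defs

section layers
variable {B : Type*} [CommRing B] [IsLocalRing B] {V : Type*} [AddCommGroup V] [Module B V]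

/-- quotient layer lemma. -/
theorem quot_layerB (m : Ideal B) {H : ℕ → Ideal B} (hanti : ∀ j, H (j + 1) ≤ H j)
    (hmH : ∀ j, m * H j ≤ H (j + 1)) {l hi : ℤ} (hPr : PrB m (maximalIdeal B) H l hi)
    {W : Submodule B V} (K : ℕ → Submodule B V)
    (hK : ∀ j, m • K j ≤ K (j + 1))
    (hGW : ∀ j, H j • W ≤ H (j + 1) • (⊤ : Submodule B V) ⊔ K j) :
    ∀ (n : ℕ) (V' : Submodule B V), W ≤ V' → rl W V' = (n : ℕ∞) →
      ∃ a x : ℤ, EvLin (fun j => rl (H (j + 1) • (⊤ : Submodule B V) ⊔ K j)
        (H j • V' ⊔ (H (j + 1) • (⊤ : Submodule B V) ⊔ K j))) a x ∧ l * a ≤ x := by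
  refine chain_inductionB (P := fun _ V' => ∃ a x : ℤ,
    EvLin (fun j => rl (H (j + 1) • (⊤ : Submodule B V) ⊔ K j)
        (H j • V' ⊔ (H (j + 1) • (⊤ : Submodule B V) ⊔ K j))) a x ∧ l * a ≤ x) ?_ ?_
  · refine ⟨0, 0, evLin_zero.congr (Filter.Eventually.of_forall fun j => ?_), by simp⟩
    rw [eq_comm, rl_eq_zero_iff]
    exact sup_le (hGW j) le_rfl
  · intro n V'' u hWV'' hu hnu ⟨a, x, hax, hlax⟩
    set R : ℕ → Submodule B V := fun j => H j • V'' ⊔ (H (j + 1) • (⊤ : Submodule B V) ⊔ K j)
      with hR
    -- the subfiltration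
    let P : ℕ → Ideal B := fun j => H j ⊓ (R j).comap (LinearMap.toSpanSingleton B V u)
    have hP : SubFilB m (maximalIdeal B) H P := by
      refine ⟨fun j => inf_le_left, fun j => ?_, fun j => ?_⟩
      · refine sup_le ?_ ?_
        · intro w hw
          refine ⟨hanti j hw, ?_⟩
          rw [SetLike.mem_coe, Submodule.mem_comap, LinearMap.toSpanSingleton_apply]
          exact Submodule.mem_sup_right (Submodule.mem_sup_left
            (Submodule.smul_mem_smul hw Submodule.mem_top))
        · refine le_inf Ideal.mul_le_right ?_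
          rw [Ideal.mul_le]
          intro r hr s hs
          rw [Submodule.mem_comap, LinearMap.toSpanSingleton_apply, mul_comm, mul_smul]
          exact Submodule.mem_sup_left (Submodule.smul_mem_smul hs (hnu r hr))
      · rw [Ideal.mul_le]
        intro r hr w hw
        refine ⟨hmH j (Ideal.mul_mem_mul hr hw.1), ?_⟩
        have h2 := hw.2
        rw [SetLike.mem_coe, Submodule.mem_comap, LinearMap.toSpanSingleton_apply] at h2 ⊢
        rw [mul_smul]
        have h3 : r • (w • u) ∈ m • R j := Submodule.smul_mem_smul hr h2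
        refine (?_ : m • R j ≤ R (j + 1)) h3
        simp only [hR, Submodule.smul_sup]
        refine sup_le_sup ?_ (sup_le_sup ?_ (hK j))
        · rw [← Submodule.mul_smul]
          exact Submodule.smul_mono_left (hmH j)
        · rw [← Submodule.mul_smul]
          exact Submodule.smul_mono_left (hmH (j + 1))
    obtain ⟨a', x', -, -, h1, -, h2, -⟩ := hPr P hP
    have key : ∀ j, rl (H (j + 1) • (⊤ : Submodule B V) ⊔ K j)
        (H j • (V'' ⊔ span B {u}) ⊔ (H (j + 1) • (⊤ : Submodule B V) ⊔ K j)) =
        rl (H (j + 1) • (⊤ : Submodule B V) ⊔ K j) (R j) + rl (P j) (H j) := by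
      intro j
      have hle1 : H (j + 1) • (⊤ : Submodule B V) ⊔ K j ≤ R j := le_sup_right
      have hle2 : R j ≤ H j • (V'' ⊔ span B {u}) ⊔ (H (j + 1) • (⊤ : Submodule B V) ⊔ K j) :=
        sup_le_sup_right (Submodule.smul_mono le_rfl le_sup_left) _
      rw [rl_add hle1 hle2]
      congr 1
      have e := rl_eq_of_corr (E := ↥(H j))
        ((LinearMap.toSpanSingleton B V u).comp (H j).subtype) (H j).subtype
        (K₁ := R j) (N₁ := H j • (V'' ⊔ span B {u}) ⊔ (H (j + 1) • (⊤ : Submodule B V) ⊔ K j))
        (K₂ := P j) (N₂ := H j) ?_ ?_ ?_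
      · exact e
      · ext z
        simp only [Submodule.mem_comap, LinearMap.comp_apply, Submodule.subtype_apply]
        constructor
        · intro h; exact ⟨z.2, h⟩
        · intro h; exact h.2
      · rw [Submodule.smul_sup, LinearMap.range_comp, Submodule.range_subtype,
          ← smul_span_singleton_eq]
        apply le_antisymm
        · refine sup_le le_sup_left (sup_le (sup_le ?_ le_sup_right) (le_sup_of_le_left hle1))
          exact le_sup_of_le_left le_sup_left
        · refine sup_le le_sup_left ?_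
          exact le_sup_of_le_right (le_sup_of_le_left le_sup_right)
      · rw [Submodule.range_subtype]
    refine ⟨a + a', x + x', (hax.add h1).congr (Filter.Eventually.of_forall fun j => ?_), ?_⟩
    · exact (key j).symm
    · rw [mul_add]; exact add_le_add hlax h2

/-- sub layer lemma. -/
theorem sub_layerB (m : Ideal B) {H : ℕ → Ideal B} (hanti : ∀ j, H (j + 1) ≤ H j)
    (hmH : ∀ j, m * H j ≤ H (j + 1)) (hfl : ∀ j, FlatLike m (maximalIdeal B) V (H (j + 1)) (H j))
    {lo h : ℤ} (hPr : PrB m (maximalIdeal B) H lo h) (Y : ℕ → Submodule B V)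
    (hY : ∀ j, m • Y j ≤ Y (j + 1)) (hGY : ∀ j, H (j + 1) • (⊤ : Submodule B V) ≤ Y j) :
    ∀ (n : ℕ) (V' : Submodule B V), m • (⊤ : Submodule B V) ≤ V' →
      rl (m • (⊤ : Submodule B V)) V' = (n : ℕ∞) →
      ∃ b y : ℤ, EvLin (fun j => rl (H (j + 1) • (⊤ : Submodule B V))
        (Y j ⊓ (H j • V' ⊔ H (j + 1) • (⊤ : Submodule B V)))) b y ∧ y ≤ h * b := by
  refine chain_inductionB (P := fun _ V' => ∃ b y : ℤ,
    EvLin (fun j => rl (H (j + 1) • (⊤ : Submodule B V))
        (Y j ⊓ (H j • V' ⊔ H (j + 1) • (⊤ : Submodule B V)))) b y ∧ y ≤ h * b) ?_ ?_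
  · refine ⟨0, 0, evLin_zero.congr (Filter.Eventually.of_forall fun j => ?_), by simp⟩
    rw [eq_comm, rl_eq_zero_iff]
    refine inf_le_right.trans (sup_le ?_ le_rfl)
    rw [← Submodule.mul_smul, mul_comm]
    exact Submodule.smul_mono_left (hmH j)
  · intro n V'' u hWV'' hu hnu ⟨b, y, hby, hlby⟩
    set IV : ℕ → Submodule B V := fun j => H (j + 1) • (⊤ : Submodule B V) with hIV
    -- the subfiltration
    let N : ℕ → Ideal B := fun j =>
      H j ⊓ (Y j ⊔ (H j • V'' ⊔ IV j)).comap (LinearMap.toSpanSingleton B V u)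
    have hN : SubFilB m (maximalIdeal B) H N := by
      refine ⟨fun j => inf_le_left, fun j => ?_, fun j => ?_⟩
      · refine sup_le ?_ ?_
        · intro w hw
          refine ⟨hanti j hw, ?_⟩
          rw [SetLike.mem_coe, Submodule.mem_comap, LinearMap.toSpanSingleton_apply]
          exact Submodule.mem_sup_left (hGY j (Submodule.smul_mem_smul hw Submodule.mem_top))
        · refine le_inf Ideal.mul_le_right ?_
          rw [Ideal.mul_le]
          intro r hr s hs
          rw [Submodule.mem_comap, LinearMap.toSpanSingleton_apply, mul_comm, mul_smul]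
          exact Submodule.mem_sup_right (Submodule.mem_sup_left
            (Submodule.smul_mem_smul hs (hnu r hr)))
      · rw [Ideal.mul_le]
        intro r hr w hw
        refine ⟨hmH j (Ideal.mul_mem_mul hr hw.1), ?_⟩
        have h2 := hw.2
        rw [SetLike.mem_coe, Submodule.mem_comap, LinearMap.toSpanSingleton_apply] at h2 ⊢
        rw [mul_smul]
        have h3 : r • (w • u) ∈ m • (Y j ⊔ (H j • V'' ⊔ IV j)) := Submodule.smul_mem_smul hr h2
        refine (?_ : m • (Y j ⊔ (H j • V'' ⊔ IV j)) ≤ _) h3
        simp only [Submodule.smul_sup]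
        refine sup_le_sup (hY j) (sup_le_sup ?_ ?_)
        · rw [← Submodule.mul_smul]
          exact Submodule.smul_mono_left (hmH j)
        · rw [hIV]
          simp only
          rw [← Submodule.mul_smul]
          exact Submodule.smul_mono_left (hmH (j + 1))
    obtain ⟨-, -, b', y', -, h1, -, h2⟩ := hPr N hN
    have key : ∀ j, rl (IV j) (Y j ⊓ (H j • (V'' ⊔ span B {u}) ⊔ IV j)) =
        rl (IV j) (Y j ⊓ (H j • V'' ⊔ IV j)) + rl (H (j + 1) ⊔ maximalIdeal B * H j) (N j) := by
      intro j
      have hle1 : IV j ≤ Y j ⊓ (H j • V'' ⊔ IV j) := le_inf (hGY j) le_sup_right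
      have hle2 : Y j ⊓ (H j • V'' ⊔ IV j) ≤ Y j ⊓ (H j • (V'' ⊔ span B {u}) ⊔ IV j) :=
        inf_le_inf_left _ (sup_le_sup_right (Submodule.smul_mono le_rfl le_sup_left) _)
      rw [rl_add hle1 hle2]
      congr 1
      -- correspondence module
      let T : Submodule B (B × V) :=
        (Submodule.prod (H j) (H j • V'' ⊔ IV j)) ⊓
          (Y j).comap ((LinearMap.toSpanSingleton B V u).coprod LinearMap.id)
      have hT : ∀ z : B × V, z ∈ T ↔ (z.1 ∈ H j ∧ z.2 ∈ H j • V'' ⊔ IV j) ∧
          z.1 • u + z.2 ∈ Y j := by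
        intro z
        simp only [T, Submodule.mem_inf, Submodule.mem_prod, Submodule.mem_comap,
          LinearMap.coprod_apply, LinearMap.toSpanSingleton_apply, LinearMap.id_apply]
      have e := rl_eq_of_corr (E := ↥T)
        (((LinearMap.toSpanSingleton B V u).coprod LinearMap.id).comp T.subtype)
        ((LinearMap.fst B B V).comp T.subtype)
        (K₁ := Y j ⊓ (H j • V'' ⊔ IV j))
        (N₁ := Y j ⊓ (H j • (V'' ⊔ span B {u}) ⊔ IV j))
        (K₂ := H (j + 1) ⊔ maximalIdeal B * H j) (N₂ := N j) ?_ ?_ ?_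
      · exact e
      · ext z
        obtain ⟨⟨hz1, hz2⟩, hz3⟩ := (hT z.1).mp z.2
        simp only [Submodule.mem_comap, LinearMap.comp_apply, Submodule.subtype_apply,
          LinearMap.coprod_apply, LinearMap.toSpanSingleton_apply, LinearMap.id_apply,
          LinearMap.fst_apply, Submodule.mem_inf]
        constructor
        · rintro ⟨-, h4⟩
          have h5 : z.1.1 • u ∈ H j • V'' ⊔ IV j := by
            have := Submodule.sub_mem _ h4 hz2
            simpa using this
          exact hfl j V'' u hWV'' hu hnu _ hz1 h5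
        · intro h4
          refine ⟨hz3, Submodule.add_mem _ ?_ hz2⟩
          have h5 : H (j + 1) ⊔ maximalIdeal B * H j ≤
              (H j • V'' ⊔ IV j).comap (LinearMap.toSpanSingleton B V u) := by
            refine sup_le ?_ ?_
            · intro w hw
              rw [Submodule.mem_comap, LinearMap.toSpanSingleton_apply]
              exact Submodule.mem_sup_right (Submodule.smul_mem_smul hw Submodule.mem_top)
            · rw [Ideal.mul_le]
              intro r hr s hs
              rw [Submodule.mem_comap, LinearMap.toSpanSingleton_apply, mul_comm, mul_smul]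
              exact Submodule.mem_sup_left (Submodule.smul_mem_smul hs (hnu r hr))
          exact h5 h4
      · have hrange : LinearMap.range
            (((LinearMap.toSpanSingleton B V u).coprod LinearMap.id).comp T.subtype) =
            Y j ⊓ (H j • (V'' ⊔ span B {u}) ⊔ IV j) := by
          ext v
          rw [LinearMap.mem_range]
          constructor
          · rintro ⟨z, rfl⟩
            obtain ⟨⟨hz1, hz2⟩, hz3⟩ := (hT z.1).mp z.2
            simp only [LinearMap.comp_apply, Submodule.subtype_apply, LinearMap.coprod_apply,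
              LinearMap.toSpanSingleton_apply, LinearMap.id_apply]
            refine ⟨hz3, ?_⟩
            refine Submodule.add_mem _ (Submodule.mem_sup_left ?_) ?_
            · exact Submodule.smul_mem_smul hz1 (Submodule.mem_sup_right (mem_span_singleton_self u))
            · have h8 : H j • V'' ⊔ IV j ≤ H j • (V'' ⊔ span B {u}) ⊔ IV j :=
                sup_le_sup_right (Submodule.smul_mono le_rfl le_sup_left) _
              exact h8 hz2
          · rintro ⟨hv1, hv2⟩
            rw [SetLike.mem_coe, Submodule.smul_sup, smul_span_singleton_eq, sup_right_comm] at hv2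
            obtain ⟨p, hp, q, hq, hpq⟩ := Submodule.mem_sup.mp hv2
            obtain ⟨w, hw, hwq⟩ := hq
            rw [LinearMap.toSpanSingleton_apply] at hwq
            have hzT : (w, p) ∈ T := by
              rw [hT]
              refine ⟨⟨hw, hp⟩, ?_⟩
              simp only
              rw [hwq, add_comm, hpq]
              exact hv1
            refine ⟨⟨(w, p), hzT⟩, ?_⟩
            simp only [LinearMap.comp_apply, Submodule.subtype_apply, LinearMap.coprod_apply,
              LinearMap.toSpanSingleton_apply, LinearMap.id_apply]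
            rw [hwq, add_comm, hpq]
        rw [hrange]
      · have hrange : LinearMap.range ((LinearMap.fst B B V).comp T.subtype) = N j := by
          ext w
          rw [LinearMap.mem_range]
          constructor
          · rintro ⟨z, rfl⟩
            obtain ⟨⟨hz1, hz2⟩, hz3⟩ := (hT z.1).mp z.2
            refine ⟨hz1, ?_⟩
            rw [SetLike.mem_coe, Submodule.mem_comap, LinearMap.toSpanSingleton_apply]
            have h7 : ((LinearMap.fst B B V).comp T.subtype) z • u =
                (z.1.1 • u + z.1.2) - z.1.2 := by simp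
            rw [h7]
            exact Submodule.sub_mem _ (Submodule.mem_sup_left hz3) (Submodule.mem_sup_right hz2)
          · rintro ⟨hw1, hw2⟩
            rw [SetLike.mem_coe, Submodule.mem_comap, LinearMap.toSpanSingleton_apply] at hw2
            obtain ⟨p, hp, q, hq, hpq⟩ := Submodule.mem_sup.mp hw2
            have hzT : (w, -q) ∈ T := by
              rw [hT]
              refine ⟨⟨hw1, Submodule.neg_mem _ hq⟩, ?_⟩
              simp only
              rw [← hpq, add_neg_cancel_right]
              exact hp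
            exact ⟨⟨(w, -q), hzT⟩, rfl⟩
        rw [hrange]
    refine ⟨b + b', y + y', (hby.add h1).congr (Filter.Eventually.of_forall fun j => ?_), ?_⟩
    · exact (key j).symm
    · rw [mul_add]; exact add_le_add hlby h2

/-- exact count. -/
theorem rl_smul_chainB (m : Ideal B) {I I' : Ideal B}
    (hfl : FlatLike m (maximalIdeal B) V I I') {W : Submodule B V}
    (hW : m • (⊤ : Submodule B V) ≤ W) :
    ∀ (n : ℕ) (V' : Submodule B V), W ≤ V' → rl W V' = (n : ℕ∞) →
      rl (I' • W ⊔ I • (⊤ : Submodule B V)) (I' • V' ⊔ I • (⊤ : Submodule B V)) =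
        (n : ℕ∞) * rl (I ⊔ maximalIdeal B * I') I' := by
  refine chain_inductionB (P := fun n V' =>
    rl (I' • W ⊔ I • (⊤ : Submodule B V)) (I' • V' ⊔ I • (⊤ : Submodule B V)) =
        (n : ℕ∞) * rl (I ⊔ maximalIdeal B * I') I') ?_ ?_
  · simp
  · intro n V'' u hWV'' hu hnu ih
    have hle1 : I' • W ⊔ I • (⊤ : Submodule B V) ≤ I' • V'' ⊔ I • (⊤ : Submodule B V) :=
      sup_le_sup_right (Submodule.smul_mono le_rfl hWV'') _
    have hle2 : I' • V'' ⊔ I • (⊤ : Submodule B V) ≤
        I' • (V'' ⊔ span B {u}) ⊔ I • (⊤ : Submodule B V) :=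
      sup_le_sup_right (Submodule.smul_mono le_rfl le_sup_left) _
    rw [rl_add hle1 hle2, ih]
    push_cast
    rw [add_mul, one_mul]
    congr 1
    have e := rl_eq_of_corr (E := ↥I')
      ((LinearMap.toSpanSingleton B V u).comp I'.subtype) I'.subtype
      (K₁ := I' • V'' ⊔ I • (⊤ : Submodule B V))
      (N₁ := I' • (V'' ⊔ span B {u}) ⊔ I • (⊤ : Submodule B V))
      (K₂ := I ⊔ maximalIdeal B * I') (N₂ := I') ?_ ?_ ?_
    · exact e
    · ext z
      simp only [Submodule.mem_comap, LinearMap.comp_apply, Submodule.subtype_apply,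
        LinearMap.toSpanSingleton_apply]
      constructor
      · intro h
        exact hfl V'' u (hW.trans hWV'') hu hnu _ z.2 h
      · intro h
        have h5 : I ⊔ maximalIdeal B * I' ≤
            (I' • V'' ⊔ I • (⊤ : Submodule B V)).comap (LinearMap.toSpanSingleton B V u) := by
          refine sup_le ?_ ?_
          · intro w hw
            rw [Submodule.mem_comap, LinearMap.toSpanSingleton_apply]
            exact Submodule.mem_sup_right (Submodule.smul_mem_smul hw Submodule.mem_top)
          · rw [Ideal.mul_le]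
            intro r hr s hs
            rw [Submodule.mem_comap, LinearMap.toSpanSingleton_apply, mul_comm, mul_smul]
            exact Submodule.mem_sup_left (Submodule.smul_mem_smul hs (hnu r hr))
        exact h5 h
    · rw [LinearMap.range_comp, Submodule.range_subtype, ← smul_span_singleton_eq,
        Submodule.smul_sup]
      apply le_antisymm
      · refine sup_le le_sup_left (sup_le (sup_le ?_ le_sup_right) ?_)
        · exact le_sup_of_le_left le_sup_left
        · exact le_sup_of_le_left le_sup_right
      · refine sup_le le_sup_left ?_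
        exact le_sup_of_le_right (le_sup_of_le_left le_sup_right)
    · rw [Submodule.range_subtype]

/-- kernels of `y1, y2` on `I' V / I V`. -/
theorem ker_layerB (m : Ideal B) {I I' : Ideal B}
    (hfl : FlatLike m (maximalIdeal B) (V × V) I I') (y1 y2 : V →ₗ[B] V)
    (hfin : rl (annPart m y1 y2) ⊤ ≠ ⊤) {v : V} (hv : v ∈ I' • (⊤ : Submodule B V))
    (h1 : y1 v ∈ I • (⊤ : Submodule B V)) (h2 : y2 v ∈ I • (⊤ : Submodule B V)) :
    v ∈ I' • annPart m y1 y2 ⊔ I • (⊤ : Submodule B V) := by
  obtain ⟨n, hn⟩ := ENat.ne_top_iff_exists.mp hfin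
  have key := chain_inductionB (W := annPart m y1 y2) (P := fun _ V' =>
    ∀ v ∈ I' • V' ⊔ I • (⊤ : Submodule B V), y1 v ∈ I • (⊤ : Submodule B V) →
      y2 v ∈ I • (⊤ : Submodule B V) → v ∈ I' • annPart m y1 y2 ⊔ I • (⊤ : Submodule B V))
    (fun v hv _ _ => hv) ?_ n ⊤ le_top hn.symm
  · exact key v (Submodule.mem_sup_left hv) h1 h2
  · intro n V'' u hWV'' hu hnu ih v hv h1 h2
    rw [Submodule.smul_sup, sup_right_comm] at hv
    obtain ⟨v'', hv'', q, hq, hpq⟩ := Submodule.mem_sup.mp hv
    rw [smul_span_singleton_eq] at hq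
    obtain ⟨w, hw, rfl⟩ := hq
    rw [LinearMap.toSpanSingleton_apply] at hpq
    let Y : V →ₗ[B] V × V := y1.prod y2
    have hYv : Y v ∈ I • (⊤ : Submodule B (V × V)) := mem_smul_top_prod h1 h2
    have hYv'' : Y v'' ∈ I' • Submodule.map Y V'' ⊔ I • (⊤ : Submodule B (V × V)) := by
      obtain ⟨p, hp, r, hr, rfl⟩ := Submodule.mem_sup.mp hv''
      rw [map_add]
      refine Submodule.add_mem _ (Submodule.mem_sup_left ?_) (Submodule.mem_sup_right ?_)
      · rw [← Submodule.map_smul'']
        exact Submodule.mem_map_of_mem hp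
      · have : Y r ∈ Submodule.map Y (I • ⊤) := Submodule.mem_map_of_mem hr
        rw [Submodule.map_smul''] at this
        exact Submodule.smul_mono le_rfl le_top this
    have hYu : Y u ∉ Submodule.map Y V'' ⊔ m • (⊤ : Submodule B (V × V)) := by
      intro hmem
      obtain ⟨p, hp, r, hr, hpr⟩ := Submodule.mem_sup.mp hmem
      obtain ⟨v₀, hv₀, rfl⟩ := hp
      have h3 : Y (u - v₀) = r := by rw [map_sub, ← hpr]; abel
      have h4 : u - v₀ ∈ annPart m y1 y2 := by
        refine ⟨?_, ?_⟩
        · have := fst_mem_smul_top hr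
          rw [← h3] at this
          exact this
        · have := snd_mem_smul_top hr
          rw [← h3] at this
          exact this
      apply hu
      have h5 := Submodule.add_mem _ (hWV'' h4) hv₀
      simpa using h5
    have hw' : w ∈ I ⊔ maximalIdeal B * I' := by
      refine hfl (Submodule.map Y V'' ⊔ m • (⊤ : Submodule B (V × V))) (Y u) le_sup_right hYu
        ?_ w hw ?_
      · intro r hr
        rw [← map_smul]
        exact Submodule.mem_sup_left (Submodule.mem_map_of_mem (hnu r hr))
      have h6 : w • Y u = Y v - Y v'' := by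
        rw [← hpq, map_add, map_smul]; abel
      rw [h6]
      refine Submodule.sub_mem _ (Submodule.mem_sup_right hYv) ?_
      have h7 : I' • Submodule.map Y V'' ⊔ I • (⊤ : Submodule B (V × V)) ≤
          I' • (Submodule.map Y V'' ⊔ m • (⊤ : Submodule B (V × V))) ⊔ I • ⊤ :=
        sup_le_sup_right (Submodule.smul_mono le_rfl le_sup_left) _
      exact h7 hYv''
    apply ih v _ h1 h2
    rw [← hpq]
    refine Submodule.add_mem _ hv'' ?_
    have h5 : I ⊔ maximalIdeal B * I' ≤
        (I' • V'' ⊔ I • (⊤ : Submodule B V)).comap (LinearMap.toSpanSingleton B V u) := by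
      refine sup_le ?_ ?_
      · intro w hw
        rw [Submodule.mem_comap, LinearMap.toSpanSingleton_apply]
        exact Submodule.mem_sup_right (Submodule.smul_mem_smul hw Submodule.mem_top)
      · rw [Ideal.mul_le]
        intro r hr s hs
        rw [Submodule.mem_comap, LinearMap.toSpanSingleton_apply, mul_comm, mul_smul]
        exact Submodule.mem_sup_left (Submodule.smul_mem_smul hs (hnu r hr))
    exact h5 hw'

end layers

end Vale.Agent.P202
end

section

/-!
Slope bounds of graded vector spaces: definition.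
-/

namespace Vale.Agent.P202

open IsLocalRing TensorProduct

/-- slope bounds for a graded vector space `E` with degree-one maps `x i`. -/
def GPr (k : Type*) [Field k] {ι : Type*} (E : ℕ → Type*) [∀ j, AddCommGroup (E j)]
    [∀ j, Module k (E j)] (x : ι → ∀ j, E j →ₗ[k] E (j + 1)) (lo hi : ℤ) : Prop :=
  ∀ P : ∀ j, Submodule k (E j), (∀ i j, (P j).map (x i j) ≤ P (j + 1)) → ∃ a x' b y : ℤ,
    EvLin (fun j => Module.length k (E j ⧸ P j)) a x' ∧
    EvLin (fun j => Module.length k (P j)) b y ∧ lo * a ≤ x' ∧ y ≤ hi * b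

end Vale.Agent.P202
end

section

/-!
Slope bounds of graded vector spaces: extension to the rational function field.
-/

namespace Vale.Agent.P202

open IsLocalRing TensorProduct Filter Polynomial

section

variable {k K : Type*} [Field k] [Field K] [Algebra k K]
    [Algebra (Polynomial k) K] [IsScalarTower k (Polynomial k) K]
    (E : Type*) [AddCommGroup E] [Module k E]

/-- `k[X] ⊗ E → K ⊗ E`. -/
noncomputable def gtI (k K : Type*) [Field k] [Field K] [Algebra k K]
    [Algebra (Polynomial k) K] [IsScalarTower k (Polynomial k) K]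
    (E : Type*) [AddCommGroup E] [Module k E] : (k[X] ⊗[k] E) →ₗ[k[X]] (K ⊗[k] E) :=
  AlgebraTensorModule.map (Algebra.linearMap k[X] K) (LinearMap.id : E →ₗ[k] E)

@[simp] lemma gtI_tmul (f : k[X]) (v : E) :
    gtI k K E (f ⊗ₜ v) = algebraMap k[X] K f ⊗ₜ v := rfl

lemma gtI_baseChange [IsFractionRing (Polynomial k) K] : IsBaseChange K (gtI k K E) := by
  refine IsBaseChange.of_comp (TensorProduct.isBaseChange k E k[X]) ?_
  have h : (gtI k K E).restrictScalars k ∘ₗ TensorProduct.mk k k[X] E 1 =
      TensorProduct.mk k K E 1 := by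
    ext v
    simp
  rw [h]
  exact TensorProduct.isBaseChange k E K

/-- evaluation at `0`. -/
noncomputable def gtE (k : Type*) [Field k] (E : Type*) [AddCommGroup E] [Module k E] :
    (k[X] ⊗[k] E) →ₗ[k] E :=
  (TensorProduct.lid k E).toLinearMap ∘ₗ
    LinearMap.rTensor E (Polynomial.aeval (0 : k) : k[X] →ₐ[k] k).toLinearMap

@[simp] lemma gtE_tmul (f : k[X]) (v : E) : gtE k E (f ⊗ₜ v) = f.eval 0 • v := by
  simp [gtE, Polynomial.aeval_def, Polynomial.eval₂_eq_eval_map]

lemma gtE_smul (f : k[X]) (v : k[X] ⊗[k] E) : gtE k E (f • v) = f.eval 0 • gtE k E v := by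
  induction v with
  | zero => simp
  | add v w hv hw => rw [smul_add, map_add, map_add, hv, hw, smul_add]
  | tmul g v => rw [TensorProduct.smul_tmul', gtE_tmul, gtE_tmul, smul_eq_mul,
      Polynomial.eval_mul, mul_smul]

lemma gtE_ker (v : k[X] ⊗[k] E) (hv : gtE k E v = 0) : ∃ w, v = (X : k[X]) • w := by
  have hex : Function.Exact (LinearMap.mulLeft k (X : k[X]))
      (Polynomial.aeval (0 : k) : k[X] →ₐ[k] k).toLinearMap := by
    intro f
    have h1 : (Polynomial.aeval (0 : k) : k[X] →ₐ[k] k).toLinearMap f = f.coeff 0 := by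
      simp [Polynomial.coeff_zero_eq_eval_zero, Polynomial.aeval_def,
        Polynomial.eval₂_eq_eval_map]
    rw [h1, ← Polynomial.X_dvd_iff]
    constructor
    · rintro ⟨g, rfl⟩
      exact ⟨g, rfl⟩
    · rintro ⟨g, rfl⟩
      exact ⟨g, rfl⟩
  have hsurj : Function.Surjective (Polynomial.aeval (0 : k) : k[X] →ₐ[k] k).toLinearMap :=
    fun c => ⟨Polynomial.C c, by simp⟩
  have h2 := rTensor_exact E hex hsurj
  have h3 : LinearMap.rTensor E (Polynomial.aeval (0 : k) : k[X] →ₐ[k] k).toLinearMap v = 0 :=
    (TensorProduct.lid k E).injective (by simpa [gtE] using hv)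
  obtain ⟨w, hw⟩ := (h2 v).mp h3
  refine ⟨w, ?_⟩
  rw [← hw]
  clear hw h3 h2 hv
  induction w with
  | zero => simp
  | add a b ha hb => rw [map_add, smul_add, ha, hb]
  | tmul f e => simp [TensorProduct.smul_tmul']

variable [FiniteDimensional k E]

/-- the specialization of a subspace of `K ⊗ E`. -/
noncomputable def gtP (P : Submodule K (K ⊗[k] E)) : Submodule k E :=
  (((P.restrictScalars k[X]).comap (gtI k K E)).restrictScalars k).map (gtE k E)

lemma gtP_finrank [IsFractionRing (Polynomial k) K] (P : Submodule K (K ⊗[k] E)) :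
    Module.finrank k (gtP E P) = Module.finrank K P := by
  set L : Submodule k[X] (k[X] ⊗[k] E) := (P.restrictScalars k[X]).comap (gtI k K E) with hL
  have hloc : IsLocalizedModule (nonZeroDivisors k[X]) (gtI k K E) :=
    (isLocalizedModule_iff_isBaseChange (nonZeroDivisors k[X]) K _).mpr (gtI_baseChange E)
  obtain ⟨n, ⟨b⟩⟩ := Submodule.nonempty_basis_of_pid
    (Algebra.TensorProduct.basis k[X] (Module.finBasis k E)) L
  -- finrank of `P`
  have h1 : Module.finrank K P = n := by
    have hP : L.localized' K (nonZeroDivisors k[X]) (gtI k K E) = P := by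
      ext v
      constructor
      · rintro ⟨m, hm, s, rfl⟩
        have h2 : (algebraMap k[X] K s) • IsLocalizedModule.mk' (gtI k K E) m s ∈ P := by
          rw [algebraMap_smul]
          have := IsLocalizedModule.mk'_cancel' (gtI k K E) m s
          change (s : k[X]) • IsLocalizedModule.mk' (gtI k K E) m s = _ at this
          rw [this]
          exact hm
        have h3 : algebraMap k[X] K s ≠ 0 :=
          IsFractionRing.to_map_ne_zero_of_mem_nonZeroDivisors s.2
        have h4 := P.smul_mem (algebraMap k[X] K s)⁻¹ h2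
        rwa [smul_smul, inv_mul_cancel₀ h3, one_smul] at h4
      · intro hv
        obtain ⟨⟨m, s⟩, hm⟩ := IsLocalizedModule.surj (nonZeroDivisors k[X]) (gtI k K E) v
        refine ⟨m, ?_, s, ?_⟩
        · change gtI k K E m ∈ P
          rw [← hm]
          change (s : k[X]) • v ∈ P
          rw [← algebraMap_smul K]
          exact P.smul_mem _ hv
        · rw [IsLocalizedModule.mk'_eq_iff]
          exact hm.symm
    have hb := b.ofIsLocalizedModule K (nonZeroDivisors k[X])
      (L.toLocalized' K (nonZeroDivisors k[X]) (gtI k K E))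
    have h5 := Module.finrank_eq_card_basis hb
    rw [← hP, h5]
    simp
  rw [h1]
  have hb : LinearIndependent k (fun i => gtE k E (b i : k[X] ⊗[k] E)) := by
    rw [Fintype.linearIndependent_iff]
    intro c hc
    have h2 : gtE k E (∑ i, (C (c i)) • (b i : k[X] ⊗[k] E)) = 0 := by
      rw [map_sum]
      simpa [gtE_smul] using hc
    obtain ⟨w, hw⟩ := gtE_ker E _ h2
    have hwL : w ∈ L := by
      have h3 : (X : k[X]) • w ∈ L := by
        rw [← hw]
        exact L.sum_mem fun i _ => L.smul_mem _ (b i).2
      change gtI k K E w ∈ P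
      have h4 : algebraMap k[X] K X • gtI k K E w ∈ P := by
        rw [algebraMap_smul, ← map_smul]
        exact h3
      have h5 : algebraMap k[X] K X ≠ 0 := by
        rw [Ne, IsFractionRing.to_map_eq_zero_iff]
        exact X_ne_zero
      have h6 := P.smul_mem (algebraMap k[X] K X)⁻¹ h4
      rwa [smul_smul, inv_mul_cancel₀ h5, one_smul] at h6
    have h7 : ∑ i, (C (c i)) • b i = (X : k[X]) • (⟨w, hwL⟩ : L) := by
      apply Subtype.ext
      simpa using hw
    intro i
    have h8 := congrArg (fun z => (b.repr z i).coeff 0) h7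
    simp only [map_sum, map_smul, Module.Basis.repr_self, Finsupp.coe_finsetSum,
      Finset.sum_apply, Finsupp.smul_single, smul_eq_mul, mul_one, Finsupp.single_apply,
      Finset.sum_ite_eq', Finset.mem_univ, if_true, Finsupp.smul_apply,
      Polynomial.coeff_C_zero, Polynomial.mul_coeff_zero, Polynomial.coeff_X_zero, zero_mul]
      at h8
    exact h8
  have hspan : Submodule.span k (Set.range (fun i => gtE k E (b i : k[X] ⊗[k] E))) = gtP E P := by
    apply le_antisymm
    · rw [Submodule.span_le]
      rintro _ ⟨i, rfl⟩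
      exact ⟨b i, (b i).2, rfl⟩
    · rintro _ ⟨v, hv, rfl⟩
      have hv' : v ∈ L := hv
      have h2 : v = ∑ i, (b.repr ⟨v, hv'⟩ i) • (b i : k[X] ⊗[k] E) := by
        have h3 := congrArg (L.subtype) (b.sum_repr ⟨v, hv'⟩)
        rw [map_sum] at h3
        exact h3.symm
      rw [h2, map_sum]
      refine Submodule.sum_mem _ fun i _ => ?_
      rw [gtE_smul]
      exact Submodule.smul_mem _ _ (Submodule.subset_span ⟨i, rfl⟩)
  rw [← hspan, finrank_span_eq_card hb]
  simp

lemma gtP_length [IsFractionRing (Polynomial k) K] (P : Submodule K (K ⊗[k] E)) :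
    Module.length k (gtP E P) = Module.length K P := by
  rw [Module.length_eq_finrank, Module.length_eq_finrank, gtP_finrank]

lemma gtP_length_quot [IsFractionRing (Polynomial k) K] (P : Submodule K (K ⊗[k] E)) :
    Module.length k (E ⧸ gtP E P) = Module.length K ((K ⊗[k] E) ⧸ P) := by
  rw [Module.length_eq_finrank, Module.length_eq_finrank]
  have h1 := Submodule.finrank_quotient_add_finrank (gtP E P)
  have h2 := Submodule.finrank_quotient_add_finrank P
  rw [gtP_finrank] at h1
  rw [Module.finrank_baseChange] at h2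
  congr 1
  omega

end

lemma gtP_map {k K : Type*} [Field k] [Field K] [Algebra k K]
    [Algebra (Polynomial k) K] [IsScalarTower k (Polynomial k) K]
    {E E' : Type*} [AddCommGroup E] [Module k E] [AddCommGroup E'] [Module k E']
    [FiniteDimensional k E] [FiniteDimensional k E'] (x : E →ₗ[k] E')
    (P : Submodule K (K ⊗[k] E)) (P' : Submodule K (K ⊗[k] E'))
    (h : P.map (x.baseChange K) ≤ P') : (gtP E P).map x ≤ gtP E' P' := by
  rintro _ ⟨_, ⟨v, hv, rfl⟩, rfl⟩
  refine ⟨x.baseChange k[X] v, ?_, ?_⟩
  · change gtI k K E' (x.baseChange k[X] v) ∈ P'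
    have h1 : gtI k K E' (x.baseChange k[X] v) = x.baseChange K (gtI k K E v) := by
      clear hv
      induction v with
      | zero => simp
      | add a b ha hb => rw [map_add, map_add, map_add, map_add, ha, hb]
      | tmul f e => simp
    rw [h1]
    exact h ⟨_, hv, rfl⟩
  · clear hv
    induction v with
    | zero => simp
    | add a b ha hb => rw [map_add, map_add, map_add, map_add, ha, hb]
    | tmul f e => simp

/-- The rational function field. -/
theorem gpr_transcendental {k K : Type*} [Field k] [Field K] [Algebra k K]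
    [Algebra (Polynomial k) K] [IsScalarTower k (Polynomial k) K]
    [IsFractionRing (Polynomial k) K]
    {ι : Type*} (E : ℕ → Type*) [∀ j, AddCommGroup (E j)] [∀ j, Module k (E j)]
    [∀ j, FiniteDimensional k (E j)] (x : ι → ∀ j, E j →ₗ[k] E (j + 1)) (lo hi : ℤ)
    (h : GPr k E x lo hi) :
    GPr K (fun j => K ⊗[k] E j) (fun i j => (x i j).baseChange K) lo hi := by
  intro P hP
  obtain ⟨a, y, b, z, h1, h2, h3, h4⟩ := h (fun j => gtP (E j) (P j))
    (fun i j => gtP_map (x i j) (P j) (P (j + 1)) (hP i j))
  exact ⟨a, y, b, z, h1.congr (Eventually.of_forall fun j => gtP_length_quot (E j) (P j)),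
    h2.congr (Eventually.of_forall fun j => gtP_length (E j) (P j)), h3, h4⟩

end Vale.Agent.P202
end

section

/-!
Slope bounds of graded vector spaces: finite extensions of the base field.
-/

namespace Vale.Agent.P202

open IsLocalRing TensorProduct Filter

/-- Division of an eventually linear function by a positive integer. -/
lemma EvLin.of_const_mul {f : ℕ → ℕ∞} {a x : ℤ} {n : ℕ} (hn : 0 < n)
    (h : EvLin (fun j => (n : ℕ∞) * f j) a x) :
    ∃ a' x' : ℤ, a = n * a' ∧ x = n * x' ∧ EvLin f a' x' := by
  obtain ⟨j₀, hj⟩ := h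
  have hp : ∀ j, j₀ ≤ j → ∃ p : ℕ, f j = (p : ℕ∞) ∧ (n : ℤ) * p = a * j + x := by
    intro j hj'
    obtain ⟨q, h1, h2⟩ := hj j hj'
    dsimp only at h1
    have hne : f j ≠ ⊤ := by
      intro h3
      rw [h3, ENat.mul_top (by exact_mod_cast hn.ne')] at h1
      exact absurd h1 (by simp)
    obtain ⟨p, hp⟩ := ENat.ne_top_iff_exists.mp hne
    refine ⟨p, hp.symm, ?_⟩
    rw [← hp] at h1
    have h4 : n * p = q := by exact_mod_cast h1
    rw [← h2, ← h4]
    push_cast
    rfl
  obtain ⟨p, hp1, hp2⟩ := hp j₀ le_rfl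
  obtain ⟨q, hq1, hq2⟩ := hp (j₀ + 1) (Nat.le_succ _)
  have hn' : (n : ℤ) ≠ 0 := by exact_mod_cast hn.ne'
  have ha : a = n * ((q : ℤ) - p) := by
    push_cast at hq2
    linarith
  refine ⟨(q : ℤ) - p, p - ((q : ℤ) - p) * j₀, ha, ?_, j₀, ?_⟩
  · have e : x = n * p - a * j₀ := by linarith
    rw [e, ha]
    ring
  · intro j hj'
    obtain ⟨u, hu1, hu2⟩ := hp j hj'
    refine ⟨u, hu1, ?_⟩
    refine mul_left_cancel₀ hn' ?_
    rw [hu2]
    have e : x = n * p - a * j₀ := by linarith
    rw [e, ha]
    ring

section GPrLemmas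

variable {k : Type*} [Field k] {ι : Type*}

/-- Transport along compatible linear equivalences. -/
lemma GPr.congrFin {E E' : ℕ → Type*} [∀ j, AddCommGroup (E j)] [∀ j, Module k (E j)]
    [∀ j, AddCommGroup (E' j)] [∀ j, Module k (E' j)] {x : ι → ∀ j, E j →ₗ[k] E (j + 1)}
    {x' : ι → ∀ j, E' j →ₗ[k] E' (j + 1)} {lo hi : ℤ} (e : ∀ j, E j ≃ₗ[k] E' j)
    (he : ∀ i j v, e (j + 1) (x i j v) = x' i j (e j v)) (h : GPr k E x lo hi) :
    GPr k E' x' lo hi := by
  intro P hP
  obtain ⟨a, y, b, z, h1, h2, h3, h4⟩ := h (fun j => (P j).comap (e j : E j →ₗ[k] E' j)) (by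
    intro i j
    rw [Submodule.map_le_iff_le_comap]
    intro v hv
    change e (j + 1) (x i j v) ∈ P (j + 1)
    rw [he]
    exact hP i j ⟨_, hv, rfl⟩)
  refine ⟨a, y, b, z, h1.congr (Eventually.of_forall fun j => ?_),
    h2.congr (Eventually.of_forall fun j => ?_), h3, h4⟩
  · exact (Submodule.Quotient.equiv _ (P j) (e j) (by
      rw [Submodule.map_comap_eq_of_surjective (e j).surjective])).length_eq
  · have e1 : ((P j).comap (e j : E j →ₗ[k] E' j)) ≃ₗ[k] P j :=
      (e j).submoduleMap _ ≪≫ₗ LinearEquiv.ofEq _ _ (by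
        rw [Submodule.map_comap_eq_of_surjective (e j).surjective])
    exact e1.length_eq

/-- Products. -/
lemma GPr.prod {E E' : ℕ → Type*} [∀ j, AddCommGroup (E j)] [∀ j, Module k (E j)]
    [∀ j, AddCommGroup (E' j)] [∀ j, Module k (E' j)] {x : ι → ∀ j, E j →ₗ[k] E (j + 1)}
    {x' : ι → ∀ j, E' j →ₗ[k] E' (j + 1)} {lo hi : ℤ} (h : GPr k E x lo hi)
    (h' : GPr k E' x' lo hi) :
    GPr k (fun j => E j × E' j) (fun i j => (x i j).prodMap (x' i j)) lo hi := by
  intro P hP
  obtain ⟨a, y, b, z, h1, h2, h3, h4⟩ := h (fun j => (P j).comap (LinearMap.inl k (E j) (E' j)))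
    (by
      intro i j
      rw [Submodule.map_le_iff_le_comap]
      intro v hv
      have := hP i j ⟨_, hv, rfl⟩
      simpa using this)
  obtain ⟨a', y', b', z', h1', h2', h3', h4'⟩ := h'
    (fun j => (P j).map (LinearMap.snd k (E j) (E' j))) (by
      intro i j
      rw [Submodule.map_le_iff_le_comap]
      rintro _ ⟨v, hv, rfl⟩
      exact ⟨_, hP i j ⟨_, hv, rfl⟩, rfl⟩)
  refine ⟨a + a', y + y', b + b', z + z', (h1.add h1').congr (Eventually.of_forall fun j => ?_),
    (h2.add h2').congr (Eventually.of_forall fun j => ?_), by linarith, by linarith⟩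
  · -- quotients
    symm
    refine Module.length_eq_add_of_exact
      (Submodule.mapQ ((P j).comap (LinearMap.inl k (E j) (E' j))) (P j)
        (LinearMap.inl k (E j) (E' j)) le_rfl)
      (Submodule.mapQ (P j) ((P j).map (LinearMap.snd k (E j) (E' j)))
        (LinearMap.snd k (E j) (E' j)) (Submodule.le_comap_map _ _)) ?_ ?_ ?_
    · rw [← LinearMap.ker_eq_bot, LinearMap.ker_eq_bot']
      intro u hu
      obtain ⟨u, rfl⟩ := Submodule.Quotient.mk_surjective _ u
      rw [Submodule.mapQ_apply, Submodule.Quotient.mk_eq_zero] at hu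
      rw [Submodule.Quotient.mk_eq_zero]
      exact hu
    · intro u
      obtain ⟨u, rfl⟩ := Submodule.Quotient.mk_surjective _ u
      exact ⟨Submodule.Quotient.mk (0, u), rfl⟩
    · intro u
      obtain ⟨⟨u, v⟩, rfl⟩ := Submodule.Quotient.mk_surjective _ u
      rw [Submodule.mapQ_apply, Submodule.Quotient.mk_eq_zero]
      constructor
      · rintro ⟨⟨u', v'⟩, hm, hv⟩
        change v' = v at hv
        subst hv
        refine ⟨Submodule.Quotient.mk (u - u'), ?_⟩
        rw [Submodule.mapQ_apply, Submodule.Quotient.eq]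
        have := (P j).neg_mem hm
        convert! this using 1
        ext <;> simp
      · rintro ⟨w, hw⟩
        obtain ⟨w, rfl⟩ := Submodule.Quotient.mk_surjective _ w
        rw [Submodule.mapQ_apply, Submodule.Quotient.eq] at hw
        refine ⟨(u, v) - LinearMap.inl k (E j) (E' j) w, ?_, by simp⟩
        have := (P j).neg_mem hw
        simpa using this
  · -- submodules
    symm
    refine Module.length_eq_add_of_exact
      (LinearMap.restrict (LinearMap.inl k (E j) (E' j))
        (p := (P j).comap (LinearMap.inl k (E j) (E' j))) (q := P j) (fun v hv => hv))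
      ((LinearMap.snd k (E j) (E' j)).submoduleMap (P j)) ?_ ?_ ?_
    · intro u v huv
      have := congrArg (fun w : P j => (w : E j × E' j).1) huv
      exact Subtype.ext this
    · exact LinearMap.submoduleMap_surjective _ _
    · rintro ⟨⟨u, v⟩, huv⟩
      constructor
      · intro h0
        have h1 : v = 0 := congrArg Subtype.val h0
        subst h1
        exact ⟨⟨u, huv⟩, rfl⟩
      · rintro ⟨w, hw⟩
        have h1 : (0 : E' j) = v := congrArg (fun w : P j => (w : E j × E' j).2) hw
        exact Subtype.ext h1.symm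

lemma gpr_subsingleton {E : ℕ → Type*} [∀ j, AddCommGroup (E j)] [∀ j, Module k (E j)]
    [∀ j, Subsingleton (E j)] (x : ι → ∀ j, E j →ₗ[k] E (j + 1)) (lo hi : ℤ) :
    GPr k E x lo hi := by
  intro P hP
  refine ⟨0, 0, 0, 0, evLin_zero.congr (Eventually.of_forall fun j => ?_),
    evLin_zero.congr (Eventually.of_forall fun j => ?_), by simp, by simp⟩
  · exact (Module.length_eq_zero (M := E j ⧸ P j)).symm
  · exact (Module.length_eq_zero (M := P j)).symm

/-- Finite powers. -/
lemma GPr.pi {E : ℕ → Type*} [∀ j, AddCommGroup (E j)] [∀ j, Module k (E j)]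
    {x : ι → ∀ j, E j →ₗ[k] E (j + 1)} {lo hi : ℤ} (h : GPr k E x lo hi) (n : ℕ) :
    GPr k (fun j => Fin n → E j) (fun i j => (x i j).compLeft (Fin n)) lo hi := by
  induction n with
  | zero => exact gpr_subsingleton _ lo hi
  | succ n ih =>
    refine (h.prod ih).congrFin (fun j => Fin.consLinearEquiv k (fun _ : Fin (n + 1) => E j)) ?_
    intro i j v
    ext l
    refine Fin.cases ?_ (fun l => ?_) l
    · rfl
    · rfl

end GPrLemmas

lemma length_restrict_field (k K M : Type*) [Field k] [Field K] [Algebra k K]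
    [FiniteDimensional k K] [AddCommGroup M] [Module k M] [Module K M] [IsScalarTower k K M]
    [Module.Finite K M] :
    Module.length k M = (Module.finrank k K : ℕ∞) * Module.length K M := by
  have : Module.Finite k M := Module.Finite.trans K M
  rw [Module.length_eq_finrank k M, Module.length_eq_finrank K M,
    ← Module.finrank_mul_finrank k K M]
  push_cast
  rfl

/-- Finite extensions. -/
theorem gpr_finite {k K : Type*} [Field k] [Field K] [Algebra k K] [FiniteDimensional k K]
    {ι : Type*} (E : ℕ → Type*) [∀ j, AddCommGroup (E j)] [∀ j, Module k (E j)]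
    [∀ j, FiniteDimensional k (E j)] (x : ι → ∀ j, E j →ₗ[k] E (j + 1)) (lo hi : ℤ)
    (h : GPr k E x lo hi) :
    GPr K (fun j => K ⊗[k] E j) (fun i j => (x i j).baseChange K) lo hi := by
  intro P hP
  let bas := Module.finBasis k K
  let n := Module.finrank k K
  have hn : 0 < n := Module.finrank_pos
  let e : ∀ j, (Fin n → E j) ≃ₗ[k] K ⊗[k] E j := fun j =>
    ((TensorProduct.equivFinsuppOfBasisLeft bas) ≪≫ₗ
      (Finsupp.linearEquivFunOnFinite k (E j) (Fin n))).symm
  have key : GPr k (fun j => K ⊗[k] E j)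
      (fun i j => ((x i j).baseChange K).restrictScalars k) lo hi := by
    refine (h.pi n).congrFin e ?_
    intro i j v
    have h0 : ∀ t : K ⊗[k] E j, (e (j + 1)).symm ((x i j).baseChange K t) =
        (x i j).compLeft (Fin n) ((e j).symm t) := by
      intro t
      induction t with
      | zero => simp
      | add s t hs ht => rw [map_add, map_add, map_add, map_add, hs, ht]
      | tmul c u =>
        ext l
        simp only [e, LinearEquiv.symm_symm, LinearMap.baseChange_tmul, LinearEquiv.trans_apply,
          LinearMap.compLeft_apply, Function.comp_apply, Finsupp.linearEquivFunOnFinite_apply,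
          TensorProduct.equivFinsuppOfBasisLeft_apply_tmul_apply, map_smul]
    have h1 := h0 (e j v)
    rw [LinearEquiv.symm_apply_apply, LinearEquiv.symm_apply_eq] at h1
    exact h1.symm
  obtain ⟨a, y, b, z, h1, h2, h3, h4⟩ := key (fun j => (P j).restrictScalars k) (by
    intro i j
    rw [Submodule.map_le_iff_le_comap]
    intro v hv
    exact hP i j ⟨v, hv, rfl⟩)
  have hq : ∀ j, Module.length k ((K ⊗[k] E j) ⧸ (P j).restrictScalars k) =
      (n : ℕ∞) * Module.length K ((K ⊗[k] E j) ⧸ P j) := by
    intro j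
    rw [(Submodule.Quotient.restrictScalarsEquiv k (P j)).length_eq]
    exact length_restrict_field k K _
  have hs : ∀ j, Module.length k ((P j).restrictScalars k) =
      (n : ℕ∞) * Module.length K (P j) := by
    intro j
    exact length_restrict_field k K (P j)
  obtain ⟨a', y', ha, hy, h5⟩ := (h1.congr (Eventually.of_forall hq)).of_const_mul hn
  obtain ⟨b', z', hb, hz, h6⟩ := (h2.congr (Eventually.of_forall hs)).of_const_mul hn
  have hn' : (0 : ℤ) < n := by exact_mod_cast hn
  refine ⟨a', y', b', z', h5, h6, ?_, ?_⟩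
  · rw [ha, hy] at h3
    nlinarith
  · rw [hb, hz] at h4
    nlinarith

end Vale.Agent.P202
end

section

/-!
Slope bounds over arbitrary extension fields, for finitely generated subobjects.
-/

namespace Vale.Agent.P202

open TensorProduct Module

/-- transport of `GPr` along linear equivalences. -/
lemma GPr.congr {k : Type*} [Field k] {ι : Type*} {E E' : ℕ → Type*} [∀ j, AddCommGroup (E j)]
    [∀ j, Module k (E j)] [∀ j, AddCommGroup (E' j)] [∀ j, Module k (E' j)]
    {x : ι → ∀ j, E j →ₗ[k] E (j + 1)} {x' : ι → ∀ j, E' j →ₗ[k] E' (j + 1)} {lo hi : ℤ}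
    (h : GPr k E x lo hi) (e : ∀ j, E j ≃ₗ[k] E' j)
    (he : ∀ i j v, e (j + 1) (x i j v) = x' i j (e j v)) : GPr k E' x' lo hi := by
  intro P hP
  have hsub : ∀ i j, ((P j).comap (e j).toLinearMap).map (x i j) ≤
      (P (j + 1)).comap (e (j + 1)).toLinearMap := by
    intro i j
    rw [Submodule.map_le_iff_le_comap]
    intro v hv
    rw [Submodule.mem_comap, Submodule.mem_comap]
    change e (j + 1) (x i j v) ∈ P (j + 1)
    rw [he]
    exact hP i j (Submodule.mem_map_of_mem hv)
  obtain ⟨a, x', b, y, h1, h2, h3, h4⟩ := h (fun j => (P j).comap (e j).toLinearMap) hsub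
  refine ⟨a, x', b, y, ?_, ?_, h3, h4⟩
  · refine h1.congr (Filter.Eventually.of_forall fun j => ?_)
    refine LinearEquiv.length_eq (Submodule.Quotient.equiv _ _ (e j) ?_)
    exact Submodule.map_comap_eq_of_surjective (e j).surjective _
  · refine h2.congr (Filter.Eventually.of_forall fun j => ?_)
    refine LinearEquiv.length_eq ?_
    exact (e j).ofSubmodule' (P j)

/-- one step of the tower. -/
lemma GPr.tower {k K L : Type*} [Field k] [Field K] [Field L] [Algebra k K] [Algebra K L]
    [Algebra k L] [IsScalarTower k K L]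
    {ι : Type*} {E : ℕ → Type*} [∀ j, AddCommGroup (E j)] [∀ j, Module k (E j)]
    {x : ι → ∀ j, E j →ₗ[k] E (j + 1)} {lo hi : ℤ}
    (h : GPr L (fun j => L ⊗[K] (K ⊗[k] E j)) (fun i j => ((x i j).baseChange K).baseChange L)
      lo hi) :
    GPr L (fun j => L ⊗[k] E j) (fun i j => (x i j).baseChange L) lo hi := by
  refine h.congr (fun j => AlgebraTensorModule.cancelBaseChange k K L L (E j)) ?_
  intro i j v
  induction v using TensorProduct.induction_on with
  | zero => simp
  | tmul a b =>
    induction b using TensorProduct.induction_on with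
    | zero => simp
    | tmul b c => simp [LinearMap.baseChange_tmul]
    | add b c hb hc =>
      rw [TensorProduct.tmul_add, map_add, map_add, map_add, hb, hc, map_add]
  | add a b ha hb => rw [map_add, map_add, map_add, ha, hb, map_add]

universe u

/-- finitely many elements of `l` are contained in a field over which the slope bounds hold. -/
theorem exists_gpr_field {k : Type*} {l : Type u} [Field k] [Field l] [Algebra k l]
    {ι : Type*} (E : ℕ → Type*) [∀ j, AddCommGroup (E j)] [∀ j, Module k (E j)]
    [∀ j, FiniteDimensional k (E j)] (x : ι → ∀ j, E j →ₗ[k] E (j + 1)) (lo hi : ℤ)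
    (h : GPr k E x lo hi) (s : Finset l) :
    ∃ (K : Type u) (_ : Field K) (_ : Algebra k K) (_ : Algebra K l) (_ : IsScalarTower k K l),
      (∀ w ∈ s, w ∈ Set.range (algebraMap K l)) ∧
      GPr K (fun j => K ⊗[k] E j) (fun i j => (x i j).baseChange K) lo hi := by
  classical
  induction s using Finset.induction_on with
  | empty =>
    refine ⟨(⊥ : IntermediateField k l), inferInstance, inferInstance, inferInstance,
      inferInstance, by simp, ?_⟩
    have : FiniteDimensional k (⊥ : IntermediateField k l) := by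
      infer_instance
    exact gpr_finite E x lo hi h
  | insert w s hws ih =>
    obtain ⟨K, _, _, _, _, hs, hK⟩ := ih
    by_cases hw : IsIntegral K w
    · have : FiniteDimensional K (IntermediateField.adjoin K {w}) :=
        IntermediateField.adjoin.finiteDimensional hw
      have htow : IsScalarTower k (IntermediateField.adjoin K {w}) l := by
        refine IsScalarTower.of_algebraMap_eq fun a => ?_
        rw [IsScalarTower.algebraMap_apply k K l,
          IsScalarTower.algebraMap_apply k K (IntermediateField.adjoin K {w}),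
          ← IsScalarTower.algebraMap_apply K (IntermediateField.adjoin K {w}) l]
      refine ⟨IntermediateField.adjoin K {w}, inferInstance, inferInstance, inferInstance,
        htow, ?_, ?_⟩
      · intro v hv
        rw [Finset.mem_insert] at hv
        rcases hv with rfl | hv
        · exact ⟨⟨v, IntermediateField.mem_adjoin_simple_self K v⟩, rfl⟩
        · obtain ⟨z, rfl⟩ := hs v hv
          exact ⟨algebraMap K _ z, rfl⟩
      · exact GPr.tower (gpr_finite _ _ lo hi hK)
    · have hinj : Function.Injective (Polynomial.aeval (R := K) w) := by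
        rw [← transcendental_iff_injective]
        exact fun h => hw h.isIntegral
      let φ : FractionRing (Polynomial K) →+* l :=
        IsFractionRing.lift (A := Polynomial K) (K := FractionRing (Polynomial K)) (L := l)
          (g := (Polynomial.aeval (R := K) w).toRingHom) hinj
      let _ : Algebra (FractionRing (Polynomial K)) l := φ.toAlgebra
      have hφ : ∀ p : Polynomial K, φ (algebraMap (Polynomial K) _ p) = Polynomial.aeval w p :=
        fun p => IsFractionRing.lift_algebraMap hinj p
      have htow : IsScalarTower k (FractionRing (Polynomial K)) l := by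
        refine IsScalarTower.of_algebraMap_eq fun a => ?_
        change algebraMap k l a = φ (algebraMap k (FractionRing (Polynomial K)) a)
        rw [IsScalarTower.algebraMap_apply k K (FractionRing (Polynomial K)), IsScalarTower.algebraMap_apply K (Polynomial K) (FractionRing (Polynomial K)), hφ,
          IsScalarTower.algebraMap_apply k K l, Polynomial.algebraMap_eq, Polynomial.aeval_C]
      refine ⟨FractionRing (Polynomial K), inferInstance, inferInstance, inferInstance,
        htow, ?_, ?_⟩
      · intro v hv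
        rw [Finset.mem_insert] at hv
        rcases hv with rfl | hv
        · refine ⟨algebraMap (Polynomial K) _ Polynomial.X, ?_⟩
          change φ _ = _
          rw [hφ, Polynomial.aeval_X]
        · obtain ⟨z, rfl⟩ := hs v hv
          refine ⟨algebraMap (Polynomial K) _ (Polynomial.C z), ?_⟩
          change φ _ = _
          rw [hφ, Polynomial.aeval_C]
      · exact GPr.tower (gpr_transcendental _ _ lo hi hK)

section descent
variable {k K l : Type*} [Field k] [Field K] [Field l] [Algebra k l] [Algebra k K] [Algebra K l]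
  [IsScalarTower k K l] {E : Type*} [AddCommGroup E] [Module k E] [FiniteDimensional k E]

variable (k K l E) in
/-- the map from `K ⊗ E` to `l ⊗ E`. -/
noncomputable def descMap : (K ⊗[k] E) →ₗ[K] (l ⊗[k] E) :=
  AlgebraTensorModule.map (Algebra.linearMap K l) LinearMap.id

omit [FiniteDimensional k E] in
lemma descMap_tmul (a : K) (v : E) : descMap k K l E (a ⊗ₜ v) = algebraMap K l a ⊗ₜ v := rfl

omit [FiniteDimensional k E] in
lemma cancel_tmul (z : K ⊗[k] E) :
    AlgebraTensorModule.cancelBaseChange k K l l E ((1 : l) ⊗ₜ[K] z) = descMap k K l E z := by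
  induction z using TensorProduct.induction_on with
  | zero => simp
  | tmul a b =>
    rw [AlgebraTensorModule.cancelBaseChange_tmul, descMap_tmul, Algebra.smul_def, mul_one]
  | add a b ha hb => rw [TensorProduct.tmul_add, map_add, map_add, ha, hb]

/-- lengths for subspaces defined over `K`. -/
lemma length_desc (P : Submodule l (l ⊗[k] E)) (Q : Submodule K (K ⊗[k] E))
    (h1 : Q.map (descMap k K l E) ≤ P.restrictScalars K)
    (h2 : P ≤ Submodule.span l (descMap k K l E '' Q)) :
    Module.length l P = Module.length K Q ∧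
      Module.length l ((l ⊗[k] E) ⧸ P) = Module.length K ((K ⊗[k] E) ⧸ Q) := by
  have hP : P = (Q.baseChange l).map
      (AlgebraTensorModule.cancelBaseChange k K l l E).toLinearMap := by
    apply le_antisymm
    · refine h2.trans (Submodule.span_le.mpr ?_)
      rintro _ ⟨z, hz, rfl⟩
      refine ⟨(1 : l) ⊗ₜ[K] z, Submodule.tmul_mem_baseChange_of_mem _ hz, ?_⟩
      exact cancel_tmul z
    · rw [Submodule.map_le_iff_le_comap, Submodule.baseChange]
      rintro _ ⟨w, rfl⟩
      induction w using TensorProduct.induction_on with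
      | zero => simp
      | tmul a b =>
        rw [LinearMap.baseChange_tmul, Submodule.mem_comap]
        have e1 : a ⊗ₜ[K] (Q.subtype b) = a • ((1 : l) ⊗ₜ[K] (b : K ⊗[k] E)) := by
          rw [TensorProduct.smul_tmul', smul_eq_mul, mul_one]; rfl
        rw [e1, map_smul]
        refine P.smul_mem _ ?_
        change AlgebraTensorModule.cancelBaseChange k K l l E ((1 : l) ⊗ₜ[K] (b : K ⊗[k] E)) ∈ P
        rw [cancel_tmul]
        exact h1 (Submodule.mem_map_of_mem b.2)
      | add a b ha hb => rw [map_add]; exact Submodule.add_mem _ ha hb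
  have hfin : Module.finrank l P = Module.finrank K Q := by
    have e1 : Module.finrank l (Q.baseChange l) = Module.finrank K Q := by
      have hinj : Function.Injective (Q.subtype.baseChange l) := by
        have := Module.Flat.lTensor_preserves_injective_linearMap (M := l) Q.subtype
          Q.subtype_injective
        exact this
      have : Module.Free K Q := Module.Free.of_divisionRing K Q
      rw [Submodule.baseChange, LinearMap.finrank_range_of_inj hinj, Module.finrank_baseChange]
    rw [hP, ← e1]
    exact LinearEquiv.finrank_map_eq _ _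
  refine ⟨?_, ?_⟩
  · rw [Module.length_eq_finrank, Module.length_eq_finrank, hfin]
  · rw [Module.length_eq_finrank, Module.length_eq_finrank]
    have e1 := Submodule.finrank_quotient_add_finrank P
    have e2 := Submodule.finrank_quotient_add_finrank Q
    rw [Module.finrank_baseChange] at e1 e2
    have : Module.finrank l ((l ⊗[k] E) ⧸ P) = Module.finrank K ((K ⊗[k] E) ⧸ Q) := by omega
    rw [this]

end descent

/-- every element of `l ⊗ E` is defined over a finitely generated subfield. -/
lemma exists_finset_desc {k : Type*} {l : Type u} [Field k] [Field l] [Algebra k l]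
    {E : Type*} [AddCommGroup E] [Module k E] (g : l ⊗[k] E) :
    ∃ s : Finset l, ∀ (K : Type u) [Field K] [Algebra k K] [Algebra K l] [IsScalarTower k K l],
      (∀ w ∈ s, w ∈ Set.range (algebraMap K l)) → g ∈ LinearMap.range (descMap k K l E) := by
  classical
  induction g using TensorProduct.induction_on with
  | zero => exact ⟨∅, fun K _ _ _ _ _ => Submodule.zero_mem _⟩
  | tmul a b =>
    refine ⟨{a}, fun K _ _ _ _ h => ?_⟩
    obtain ⟨z, hz⟩ := h a (Finset.mem_singleton_self a)
    exact ⟨z ⊗ₜ b, by rw [descMap_tmul, hz]⟩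
  | add a b ha hb =>
    obtain ⟨s, hs⟩ := ha
    obtain ⟨t, ht⟩ := hb
    refine ⟨s ∪ t, fun K _ _ _ _ h => ?_⟩
    exact Submodule.add_mem _ (hs K fun w hw => h w (Finset.mem_union_left _ hw))
      (ht K fun w hw => h w (Finset.mem_union_right _ hw))

/-- TASK G3: arbitrary extensions and finitely generated subobjects. -/
theorem gpr_fg {k l : Type*} [Field k] [Field l] [Algebra k l]
    {ι : Type*} (E : ℕ → Type*) [∀ j, AddCommGroup (E j)] [∀ j, Module k (E j)]
    [∀ j, FiniteDimensional k (E j)] (x : ι → ∀ j, E j →ₗ[k] E (j + 1)) (lo hi : ℤ)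
    (h : GPr k E x lo hi) (P : ∀ j, Submodule l (l ⊗[k] E j))
    (hP : ∀ i j, (P j).map ((x i j).baseChange l) ≤ P (j + 1))
    (hfg : ∃ j₀, ∀ j, j₀ ≤ j → P (j + 1) ≤ ⨆ i, (P j).map ((x i j).baseChange l)) :
    ∃ a x' b y : ℤ, EvLin (fun j => Module.length l ((l ⊗[k] E j) ⧸ P j)) a x' ∧
      EvLin (fun j => Module.length l (P j)) b y ∧ lo * a ≤ x' ∧ y ≤ hi * b := by
  classical
  obtain ⟨j₀, hfg⟩ := hfg
  have hfin : ∀ j, ∃ t : Finset (l ⊗[k] E j), Submodule.span l (t : Set (l ⊗[k] E j)) = P j :=
    fun j => IsNoetherian.noetherian (P j)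
  choose t ht using hfin
  choose sg hsg using fun (j : ℕ) (g : l ⊗[k] E j) => exists_finset_desc g
  obtain ⟨K, _, _, _, _, hs, hK⟩ := exists_gpr_field E x lo hi h
    ((Finset.range (j₀ + 1)).biUnion fun j => (t j).biUnion (sg j))
  let Q : ∀ j, Submodule K (K ⊗[k] E j) := fun j =>
    ((P j).restrictScalars K).comap (descMap k K l (E j))
  have hcomm : ∀ i j v, descMap k K l (E (j + 1)) ((x i j).baseChange K v) =
      (x i j).baseChange l (descMap k K l (E j) v) := by
    intro i j v
    induction v using TensorProduct.induction_on with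
    | zero => simp
    | tmul a b => rfl
    | add a b ha hb => rw [map_add, map_add, map_add, map_add, ha, hb]
  have hQ : ∀ i j, (Q j).map ((x i j).baseChange K) ≤ Q (j + 1) := by
    intro i j
    rw [Submodule.map_le_iff_le_comap]
    intro v hv
    change descMap k K l (E (j + 1)) ((x i j).baseChange K v) ∈ P (j + 1)
    rw [hcomm]
    exact hP i j (Submodule.mem_map_of_mem hv)
  have h1 : ∀ j, (Q j).map (descMap k K l (E j)) ≤ (P j).restrictScalars K := fun j =>
    Submodule.map_comap_le _ _
  have h2 : ∀ j, P j ≤ Submodule.span l (descMap k K l (E j) '' Q j) := by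
    have hsmall : ∀ j, j ≤ j₀ → P j ≤ Submodule.span l (descMap k K l (E j) '' Q j) := by
      intro j hj
      rw [← ht j, Submodule.span_le]
      intro g hg
      obtain ⟨z, hz⟩ := hsg j g K fun w hw => hs w (Finset.mem_biUnion.mpr
        ⟨j, Finset.mem_range.mpr (by omega), Finset.mem_biUnion.mpr ⟨g, hg, hw⟩⟩)
      refine Submodule.subset_span ⟨z, ?_, hz⟩
      change descMap k K l (E j) z ∈ P j
      rw [hz, ← ht j]
      exact Submodule.subset_span hg
    intro j
    induction j with
    | zero => exact hsmall 0 (Nat.zero_le _)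
    | succ j ih =>
      rcases Nat.lt_or_ge j j₀ with hj | hj
      · exact hsmall (j + 1) hj
      · refine (hfg j hj).trans (iSup_le fun i => ?_)
        refine (Submodule.map_mono ih).trans ?_
        rw [Submodule.map_span, Submodule.span_le]
        rintro _ ⟨_, ⟨z, hz, rfl⟩, rfl⟩
        refine Submodule.subset_span ⟨(x i j).baseChange K z, ?_, hcomm i j z⟩
        exact hQ i j (Submodule.mem_map_of_mem hz)
  obtain ⟨a, x', b, y, h3, h4, h5, h6⟩ := hK Q hQ
  refine ⟨a, x', b, y, ?_, ?_, h5, h6⟩
  · exact h3.congr (Filter.Eventually.of_forall fun j => ((length_desc _ _ (h1 j) (h2 j)).2).symm)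
  · exact h4.congr (Filter.Eventually.of_forall fun j => ((length_desc _ _ (h1 j) (h2 j)).1).symm)

end Vale.Agent.P202
end

section

/-!
Proof of the core inequality, with lengths over the larger ring.
-/

namespace Vale.Agent.P202

open Submodule IsLocalRing Filter

section
variable {B : Type*} [CommRing B] [IsLocalRing B] {V : Type*} [AddCommGroup V] [Module B V]

/-- the first term. -/
theorem first_termB (m : Ideal B)
    (y1 y2 : V →ₗ[B] V) (H : ℕ → Ideal B) (hanti : ∀ j, H (j + 1) ≤ H j)
    (hmH : ∀ j, m * H j ≤ H (j + 1)) (hfl : ∀ j, FlatLike m (maximalIdeal B) V (H (j + 1)) (H j))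
    (l hi e ch : ℤ) (hPr : PrB m (maximalIdeal B) H l hi)
    (he : EvLin (fun j => rl (H (j + 1) ⊔ maximalIdeal B * H j) (H j)) e ch) (s : ℕ)
    (S1 : ∀ᶠ j in atTop, H (j + (s + 1)) • (⊤ : Submodule B V) ≤
      Submodule.map y1 (H j • ⊤) ⊔ Submodule.map y2 (H j • ⊤))
    (c : ℕ)
    (hc : Module.length B (V ⧸ ((m • (⊤ : Submodule B V)) ⊔
      (LinearMap.range y1 ⊔ LinearMap.range y2))) = (c : ℕ∞)) :
    ∃ A1 XA : ℤ, 0 ≤ A1 ∧ (c : ℤ) * ch + (l + 1) * A1 ≤ XA ∧
      EvLin (fun j => rl (Submodule.map y1 (H j • ⊤) ⊔ Submodule.map y2 (H j • ⊤))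
        (H j • (⊤ : Submodule B V))) (c * e + A1) XA := by
  classical
  set JV : Submodule B V := LinearMap.range y1 ⊔ LinearMap.range y2 with hJV
  set W : Submodule B V := m • (⊤ : Submodule B V) ⊔ JV with hW
  have hJG : ∀ j, Submodule.map y1 (H j • ⊤) ⊔ Submodule.map y2 (H j • ⊤) = H j • JV := by
    intro j
    rw [Submodule.map_smul'', Submodule.map_smul'', ← LinearMap.range_eq_map,
      ← LinearMap.range_eq_map, hJV, Submodule.smul_sup]
  simp only [hJG] at S1 ⊢
  have hHanti : Antitone H := antitone_nat_of_succ_le hanti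
  -- the layers
  let K : ℕ → ℕ → Submodule B V := fun i j => H (j - i) • JV
  let f : ℕ → ℕ → ℕ∞ := fun i j => rl (H (j + 1) • (⊤ : Submodule B V) ⊔ K i j)
        (H j • (⊤ : Submodule B V) ⊔ (H (j + 1) • (⊤ : Submodule B V) ⊔ K i j))
  have hW1 : m • (⊤ : Submodule B V) ≤ W := le_sup_left
  have hWtop : rl W ⊤ = (c : ℕ∞) := by rw [rl_top]; exact hc
  have hK : ∀ i j, m • K i j ≤ K i (j + 1) := by
    intro i j
    simp only [K]
    rw [← Submodule.mul_smul]
    refine Submodule.smul_mono_left ?_
    rcases Nat.lt_or_ge j i with h | h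
    · have e1 : j - i = 0 := by omega
      have e2 : j + 1 - i = 0 := by omega
      rw [e1, e2]
      exact Ideal.mul_le_right
    · have e1 : j + 1 - i = j - i + 1 := by omega
      rw [e1]
      exact hmH _
  have hGW : ∀ i j, H j • W ≤ H (j + 1) • (⊤ : Submodule B V) ⊔ K i j := by
    intro i j
    rw [hW, Submodule.smul_sup]
    refine sup_le_sup ?_ ?_
    · rw [← Submodule.mul_smul, mul_comm]
      exact Submodule.smul_mono_left (hmH j)
    · exact Submodule.smul_mono_left (hHanti (Nat.sub_le j i))
  have hlayer : ∀ i, ∃ a x : ℤ, EvLin (f i) a x ∧ l * a ≤ x := fun i =>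
    quot_layerB m hanti hmH hPr (K i) (hK i) (hGW i) c ⊤ le_top hWtop
  choose a x hax hlax using hlayer
  -- the zeroth layer
  have h0 : EvLin (f 0) (c * e) (c * ch) := by
    refine (he.const_mul c).congr (Filter.Eventually.of_forall fun j => ?_)
    have h1 := rl_smul_chainB (V := V) m (hfl j) hW1 c ⊤ le_top hWtop
    have h2 : H j • W ⊔ H (j + 1) • (⊤ : Submodule B V) =
        H (j + 1) • (⊤ : Submodule B V) ⊔ K 0 j := by
      apply le_antisymm
      · exact sup_le (hGW 0 j) le_sup_left
      · refine sup_le le_sup_right (le_sup_of_le_left ?_)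
        exact Submodule.smul_mono le_rfl le_sup_right
    have h3 : H j • (⊤ : Submodule B V) ⊔ H (j + 1) • (⊤ : Submodule B V) =
        H j • (⊤ : Submodule B V) ⊔ (H (j + 1) • (⊤ : Submodule B V) ⊔ K 0 j) := by
      have e1 : H (j + 1) • (⊤ : Submodule B V) ≤ H j • (⊤ : Submodule B V) :=
        Submodule.smul_mono_left (hanti j)
      have e2 : K 0 j ≤ H j • (⊤ : Submodule B V) := by
        simp only [K, Nat.sub_zero]
        exact Submodule.smul_mono le_rfl le_top
      rw [sup_eq_left.mpr e1, sup_eq_left.mpr (sup_le e1 e2)]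
    rw [h2, h3] at h1
    exact h1.symm
  obtain ⟨ha0, hx0⟩ := (hax 0).unique h0
  -- telescoping
  have htel : ∀ᶠ j in atTop, rl (H j • JV) (H j • (⊤ : Submodule B V)) =
      ∑ i ∈ Finset.range (s + 1), f i (j + i) := by
    filter_upwards [S1] with j hj
    let U : ℕ → Submodule B V := fun i => H (j + i) • (⊤ : Submodule B V) ⊔ H j • JV
    have hU : ∀ i, U (i + 1) ≤ U i := fun i =>
      sup_le_sup_right (Submodule.smul_mono_left (hanti (j + i))) _
    have hU0 : U 0 = H j • (⊤ : Submodule B V) := by
      simp only [U, Nat.add_zero]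
      exact sup_eq_left.mpr (Submodule.smul_mono le_rfl le_top)
    have hUs : U (s + 1) = H j • JV := sup_eq_right.mpr hj
    have h1 := rl_telescope U hU (s + 1)
    rw [hU0, hUs] at h1
    rw [h1]
    refine Finset.sum_congr rfl fun i _ => ?_
    simp only [f, K, U]
    have e1 : j + i - i = j := by omega
    have e2 : j + (i + 1) = j + i + 1 := by omega
    rw [e1, e2]
    congr 1
    rw [← sup_assoc, sup_eq_left.mpr (Submodule.smul_mono_left (hanti (j + i)) :
      H (j + i + 1) • (⊤ : Submodule B V) ≤ H (j + i) • ⊤)]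
  have hsum : EvLin (fun j => ∑ i ∈ Finset.range (s + 1), f i (j + i))
      (∑ i ∈ Finset.range (s + 1), a i) (∑ i ∈ Finset.range (s + 1), (x i + a i * i)) :=
    EvLin.sum _ (fun i _ => (hax i).shift i)
  have hfinal := hsum.congr (htel.mono fun j hj => hj.symm)
  refine ⟨∑ i ∈ Finset.range s, a (i + 1), ∑ i ∈ Finset.range (s + 1), (x i + a i * i), ?_, ?_, ?_⟩
  · exact Finset.sum_nonneg fun i _ => (hax (i + 1)).slope_nonneg
  · rw [Finset.sum_range_succ', hx0, Finset.mul_sum]
    have : ∑ i ∈ Finset.range s, (l + 1) * a (i + 1) ≤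
        ∑ i ∈ Finset.range s, (x (i + 1) + a (i + 1) * ((i + 1 : ℕ) : ℤ)) := by
      refine Finset.sum_le_sum fun i _ => ?_
      have h1 := hlax (i + 1)
      have h2 := (hax (i + 1)).slope_nonneg
      push_cast
      nlinarith [mul_nonneg h2 (Int.natCast_nonneg i)]
    push_cast at this ⊢
    linarith
  · have h1 : ∑ i ∈ Finset.range (s + 1), a i = c * e + ∑ i ∈ Finset.range s, a (i + 1) := by
      rw [Finset.sum_range_succ', ha0, add_comm]
    rw [← h1]
    exact hfinal

/-- the second term. -/
theorem second_termB (m : Ideal B)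
    (hV : Module.length B (V ⧸ (m • (⊤ : Submodule B V))) ≠ ⊤)
    (y1 y2 : V →ₗ[B] V) (H : ℕ → Ideal B) (hanti : ∀ j, H (j + 1) ≤ H j)
    (hmH : ∀ j, m * H j ≤ H (j + 1)) (hfl : ∀ j, FlatLike m (maximalIdeal B) V (H (j + 1)) (H j))
    (hfl2 : ∀ j, FlatLike m (maximalIdeal B) (V × V) (H (j + 1)) (H j))
    (l e ch : ℤ) (hPr : PrB m (maximalIdeal B) H l (l + 1))
    (he : EvLin (fun j => rl (H (j + 1) ⊔ maximalIdeal B * H j) (H j)) e ch)
    (N0 : Submodule B V) (hN0 : H 0 • (⊤ : Submodule B V) ≤ N0)
    (X : ℕ → Submodule B V)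
    (hX : ∀ j, X j = N0 ⊓ Submodule.comap y1 (H j • ⊤) ⊓ Submodule.comap y2 (H j • ⊤)) (s : ℕ)
    (S2 : ∀ᶠ j in atTop, X (j + (s + 1)) ≤ H j • (⊤ : Submodule B V)) :
    ∃ a A2 XB : ℤ, 0 ≤ a ∧ 0 ≤ A2 ∧ XB ≤ a * ch + a * e * s + (l + s) * A2 ∧
      EvLin (fun j => rl (H (j + (s + 1)) • (⊤ : Submodule B V)) (X (j + (s + 1))))
        (a * e + A2) XB := by
  classical
  have hHanti : Antitone H := antitone_nat_of_succ_le hanti
  set Va : Submodule B V := annPart m y1 y2 with hVa
  have hmVa : m • (⊤ : Submodule B V) ≤ Va := smul_top_le_annPart m y1 y2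
  have hVtop : rl (m • (⊤ : Submodule B V)) ⊤ ≠ ⊤ := by rw [rl_top]; exact hV
  have hsplit := rl_add hmVa (le_top : Va ≤ ⊤)
  have hfin1 : rl (m • (⊤ : Submodule B V)) Va ≠ ⊤ := by
    intro h
    rw [hsplit, h, top_add] at hVtop
    exact hVtop rfl
  have hfin2 : rl Va ⊤ ≠ ⊤ := by
    intro h
    rw [hsplit, h, add_top] at hVtop
    exact hVtop rfl
  obtain ⟨a, ha⟩ := ENat.ne_top_iff_exists.mp hfin1
  -- monotonicity of `X`
  have hXanti : ∀ j, X (j + 1) ≤ X j := by
    intro j
    rw [hX, hX]
    refine inf_le_inf (inf_le_inf le_rfl ?_) ?_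
    · exact Submodule.comap_mono (Submodule.smul_mono_left (hanti j))
    · exact Submodule.comap_mono (Submodule.smul_mono_left (hanti j))
  have hGX : ∀ j, H j • (⊤ : Submodule B V) ≤ X j := by
    intro j
    rw [hX]
    refine le_inf (le_inf ?_ ?_) ?_
    · exact (Submodule.smul_mono_left (hHanti (Nat.zero_le j))).trans hN0
    · rw [← Submodule.map_le_iff_le_comap, Submodule.map_smul'']
      exact Submodule.smul_mono le_rfl le_top
    · rw [← Submodule.map_le_iff_le_comap, Submodule.map_smul'']
      exact Submodule.smul_mono le_rfl le_top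
  have hmX : ∀ j, m • X j ≤ X (j + 1) := by
    intro j
    rw [Submodule.smul_le]
    intro r hr v hv
    rw [hX] at hv ⊢
    obtain ⟨⟨h1, h2⟩, h3⟩ := hv
    refine ⟨⟨N0.smul_mem r h1, ?_⟩, ?_⟩
    · have h4 : r • y1 v ∈ m • (H j • (⊤ : Submodule B V)) := Submodule.smul_mem_smul hr h2
      rw [← Submodule.mul_smul] at h4
      have h5 := Submodule.smul_mono_left (N := (⊤ : Submodule B V)) (hmH j) h4
      rw [SetLike.mem_coe, Submodule.mem_comap, map_smul]
      exact h5
    · have h4 : r • y2 v ∈ m • (H j • (⊤ : Submodule B V)) := Submodule.smul_mem_smul hr h3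
      rw [← Submodule.mul_smul] at h4
      have h5 := Submodule.smul_mono_left (N := (⊤ : Submodule B V)) (hmH j) h4
      rw [SetLike.mem_coe, Submodule.mem_comap, map_smul]
      exact h5
  -- the layers `Y t j`
  let Y : ℕ → ℕ → Submodule B V := fun t j =>
    (X (j + (t + 1)) ⊓ H j • (⊤ : Submodule B V)) ⊔ H (j + 1) • (⊤ : Submodule B V)
  have hYle : ∀ t j, Y t j ≤ H j • Va ⊔ H (j + 1) • (⊤ : Submodule B V) := by
    intro t j
    refine sup_le ?_ le_sup_right
    rintro v ⟨hv1, hv2⟩
    rw [SetLike.mem_coe, hX] at hv1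
    obtain ⟨⟨-, h2⟩, h3⟩ := hv1
    have hle : H (j + (t + 1)) • (⊤ : Submodule B V) ≤ H (j + 1) • (⊤ : Submodule B V) :=
      Submodule.smul_mono_left (hHanti (by omega))
    exact ker_layerB m (hfl2 j) y1 y2 hfin2 hv2 (hle h2) (hle h3)
  have hmY : ∀ t j, m • Y t j ≤ Y t (j + 1) := by
    intro t j
    simp only [Y, Submodule.smul_sup]
    refine sup_le_sup (le_inf ?_ ?_) ?_
    · refine (Submodule.smul_mono le_rfl inf_le_left).trans ((hmX _).trans ?_)
      have : j + (t + 1) + 1 = j + 1 + (t + 1) := by omega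
      rw [this]
    · refine (Submodule.smul_mono le_rfl inf_le_right).trans ?_
      rw [← Submodule.mul_smul]
      exact Submodule.smul_mono_left (hmH j)
    · rw [← Submodule.mul_smul]
      exact Submodule.smul_mono_left (hmH (j + 1))
  have hlayer : ∀ t, ∃ b y : ℤ, EvLin (fun j => rl (H (j + 1) • (⊤ : Submodule B V)) (Y t j)) b y ∧
      y ≤ (l + 1) * b := by
    intro t
    obtain ⟨b, y, h1, h2⟩ := sub_layerB m hanti hmH hfl hPr (Y t) (hmY t) (fun j => le_sup_right)
      a Va hmVa ha.symm
    refine ⟨b, y, h1.congr (Filter.Eventually.of_forall fun j => ?_), h2⟩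
    rw [inf_eq_left.mpr (hYle t j)]
  choose b y hby hlby using hlayer
  -- the zeroth layer
  have h0 : EvLin (fun j => rl (H (j + 1) • (⊤ : Submodule B V)) (Y 0 j)) (a * e) (a * ch) := by
    refine (he.const_mul a).congr (Filter.Eventually.of_forall fun j => ?_)
    have h1 := rl_smul_chainB (V := V) m (hfl j) le_rfl a Va hmVa ha.symm
    have h2 : H j • (m • (⊤ : Submodule B V)) ⊔ H (j + 1) • (⊤ : Submodule B V) =
        H (j + 1) • (⊤ : Submodule B V) := by
      rw [sup_eq_right, ← Submodule.mul_smul, mul_comm]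
      exact Submodule.smul_mono_left (hmH j)
    have h3 : H j • Va ⊔ H (j + 1) • (⊤ : Submodule B V) = Y 0 j := by
      refine le_antisymm (sup_le (le_sup_of_le_left (le_inf ?_ ?_)) le_sup_right) (hYle 0 j)
      · rw [hX]
        refine le_inf (le_inf ?_ ?_) ?_
        · exact (Submodule.smul_mono (hHanti (Nat.zero_le j)) le_top).trans hN0
        · rw [← Submodule.map_le_iff_le_comap, Submodule.map_smul'']
          have : Submodule.map y1 Va ≤ m • ⊤ := by
            rw [Submodule.map_le_iff_le_comap]; exact inf_le_left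
          refine (Submodule.smul_mono le_rfl this).trans ?_
          rw [← Submodule.mul_smul, mul_comm]
          exact Submodule.smul_mono_left (hmH j)
        · rw [← Submodule.map_le_iff_le_comap, Submodule.map_smul'']
          have : Submodule.map y2 Va ≤ m • ⊤ := by
            rw [Submodule.map_le_iff_le_comap]; exact inf_le_right
          refine (Submodule.smul_mono le_rfl this).trans ?_
          rw [← Submodule.mul_smul, mul_comm]
          exact Submodule.smul_mono_left (hmH j)
      · exact Submodule.smul_mono le_rfl le_top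
    rw [h2, h3] at h1
    exact h1.symm
  obtain ⟨hb0, hy0⟩ := (hby 0).unique h0
  -- telescoping
  have htel : ∀ᶠ j in atTop, rl (H (j + (s + 1)) • (⊤ : Submodule B V)) (X (j + (s + 1))) =
      ∑ i ∈ Finset.range (s + 1), rl (H (j + i + 1) • (⊤ : Submodule B V)) (Y (s - i) (j + i)) := by
    filter_upwards [S2] with j hj
    let U : ℕ → Submodule B V := fun i => X (j + (s + 1)) ⊓ H (j + i) • (⊤ : Submodule B V)
    have hU : ∀ i, U (i + 1) ≤ U i := fun i =>
      inf_le_inf_left _ (Submodule.smul_mono_left (hanti (j + i)))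
    have hU0 : U 0 = X (j + (s + 1)) := inf_eq_left.mpr hj
    have hUs : U (s + 1) = H (j + (s + 1)) • (⊤ : Submodule B V) := inf_eq_right.mpr (hGX _)
    have h1 := rl_telescope U hU (s + 1)
    rw [hU0, hUs] at h1
    rw [h1]
    refine Finset.sum_congr rfl fun i hi => ?_
    have hi' : i < s + 1 := Finset.mem_range.mp hi
    simp only [U, Y]
    have e1 : j + i + (s - i + 1) = j + (s + 1) := by omega
    have e2 : j + (i + 1) = j + i + 1 := by omega
    rw [e1, e2, sup_comm, rl_sup_right]
    have e3 : X (j + (s + 1)) ⊓ H (j + i + 1) • (⊤ : Submodule B V) =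
        H (j + i + 1) • (⊤ : Submodule B V) ⊓ (X (j + (s + 1)) ⊓ H (j + i) • ⊤) := by
      have e4 : H (j + i + 1) • (⊤ : Submodule B V) ≤ H (j + i) • ⊤ :=
        Submodule.smul_mono_left (hanti (j + i))
      apply le_antisymm
      · exact le_inf inf_le_right (le_inf inf_le_left (inf_le_right.trans e4))
      · exact le_inf (inf_le_right.trans inf_le_left) inf_le_left
    rw [e3, rl_inf_left]
  have hsum : EvLin (fun j => ∑ i ∈ Finset.range (s + 1),
      rl (H (j + i + 1) • (⊤ : Submodule B V)) (Y (s - i) (j + i)))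
      (∑ i ∈ Finset.range (s + 1), b (s - i))
      (∑ i ∈ Finset.range (s + 1), (y (s - i) + b (s - i) * i)) :=
    EvLin.sum _ (fun i _ => (hby (s - i)).shift i)
  have hfinal := hsum.congr (htel.mono fun j hj => hj.symm)
  have e1 : ∑ i ∈ Finset.range (s + 1), b (s - i) =
      ∑ i ∈ Finset.range s, b (s - i) + a * e := by
    rw [Finset.sum_range_succ, Nat.sub_self, hb0]
  have e2 : ∑ i ∈ Finset.range (s + 1), (y (s - i) + b (s - i) * i) =
      ∑ i ∈ Finset.range s, (y (s - i) + b (s - i) * i) + (a * ch + a * e * s) := by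
    rw [Finset.sum_range_succ, Nat.sub_self, hb0, hy0]
  refine ⟨a, ∑ i ∈ Finset.range s, b (s - i),
    ∑ i ∈ Finset.range (s + 1), (y (s - i) + b (s - i) * i), by positivity, ?_, ?_, ?_⟩
  · exact Finset.sum_nonneg fun i _ => (hby (s - i)).slope_nonneg
  · rw [e2, Finset.mul_sum]
    have : ∑ i ∈ Finset.range s, (y (s - i) + b (s - i) * (i : ℤ)) ≤
        ∑ i ∈ Finset.range s, (l + s) * b (s - i) := by
      refine Finset.sum_le_sum fun i hi => ?_
      have hi' : i < s := Finset.mem_range.mp hi
      have h1 := hlby (s - i)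
      have h2 := (hby (s - i)).slope_nonneg
      have h3 : ((i : ℤ) + 1) ≤ s := by exact_mod_cast hi'
      nlinarith [mul_nonneg h2 (by linarith : (0 : ℤ) ≤ s - i - 1)]
    linarith
  · have e3 : ∑ i ∈ Finset.range (s + 1), b (s - i) =
        a * e + ∑ i ∈ Finset.range s, b (s - i) := by rw [e1]; ring
    rw [e3] at hfinal
    exact hfinal

end

/-- the core inequality with lengths over the larger ring. -/
theorem coreB {B : Type*} [CommRing B] [IsLocalRing B]
    {V : Type*} [AddCommGroup V] [Module B V] (m : Ideal B)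
    (hV : Module.length B (V ⧸ (m • (⊤ : Submodule B V))) ≠ ⊤)
    (y1 y2 : V →ₗ[B] V) (H : ℕ → Ideal B) (hanti : ∀ j, H (j + 1) ≤ H j)
    (hmH : ∀ j, m * H j ≤ H (j + 1)) (hfl : ∀ j, FlatLike m (maximalIdeal B) V (H (j + 1)) (H j))
    (hfl2 : ∀ j, FlatLike m (maximalIdeal B) (V × V) (H (j + 1)) (H j))
    (l e ch : ℤ) (hPr : PrB m (maximalIdeal B) H l (l + 1))
    (he : EvLin (fun j => rl (H (j + 1) ⊔ maximalIdeal B * H j) (H j)) e ch)
    (N0 : Submodule B V) (hN0 : H 0 • (⊤ : Submodule B V) ≤ N0)
    (X : ℕ → Submodule B V)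
    (hX : ∀ j, X j = N0 ⊓ Submodule.comap y1 (H j • ⊤) ⊓ Submodule.comap y2 (H j • ⊤))
    (s : ℕ)
    (S1 : ∀ᶠ j in Filter.atTop, H (j + s) • (⊤ : Submodule B V) ≤
      Submodule.map y1 (H j • ⊤) ⊔ Submodule.map y2 (H j • ⊤))
    (S2 : ∀ᶠ j in Filter.atTop, X (j + s) ≤ H j • (⊤ : Submodule B V))
    (Θ : ℕ)
    (S3 : ∀ᶠ j in Filter.atTop,
      rl (Submodule.map y1 (H j • ⊤) ⊔ Submodule.map y2 (H j • ⊤)) (H j • (⊤ : Submodule B V))
        = (Θ : ℕ∞) + rl (H j • (⊤ : Submodule B V)) (X j))
    (c : ℕ)
    (hc : Module.length B (V ⧸ ((m • (⊤ : Submodule B V)) ⊔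
      (LinearMap.range y1 ⊔ LinearMap.range y2))) = (c : ℕ∞)) :
    (c : ℤ) * e ≤ (Θ : ℤ) := by
  have hHanti : Antitone H := antitone_nat_of_succ_le hanti
  have S1' : ∀ᶠ j in atTop, H (j + (s + 1)) • (⊤ : Submodule B V) ≤
      Submodule.map y1 (H j • ⊤) ⊔ Submodule.map y2 (H j • ⊤) := by
    filter_upwards [S1] with j hj
    exact (Submodule.smul_mono_left (hHanti (by omega))).trans hj
  have S2' : ∀ᶠ j in atTop, X (j + (s + 1)) ≤ H j • (⊤ : Submodule B V) := by
    filter_upwards [S2] with j hj
    refine le_trans ?_ hj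
    have h1 : j + (s + 1) = j + s + 1 := by omega
    rw [h1, hX, hX]
    refine inf_le_inf (inf_le_inf le_rfl ?_) ?_
    · exact Submodule.comap_mono (Submodule.smul_mono_left (hanti _))
    · exact Submodule.comap_mono (Submodule.smul_mono_left (hanti _))
  obtain ⟨A1, XA, hA1, hXA, hA⟩ := first_termB m y1 y2 H hanti hmH hfl l (l + 1) e ch hPr he s
    S1' c hc
  obtain ⟨a, A2, XB, ha, hA2, hXB, hB⟩ := second_termB m hV y1 y2 H hanti hmH hfl hfl2 l e ch hPr he
    N0 hN0 X hX s S2'
  have hle1 : ∀ j, H (j + 1) ⊔ maximalIdeal B * H j ≤ H j := fun j =>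
    sup_le (hanti j) Ideal.mul_le_right
  -- slope bounds for the whole filtration
  have hch1 : l * e ≤ ch := by
    have hsf : SubFilB m (maximalIdeal B) H (fun j => H (j + 1) ⊔ maximalIdeal B * H j) := by
      refine ⟨hle1, fun j => le_rfl, fun j => ?_⟩
      rw [Ideal.mul_sup]
      refine sup_le_sup (hmH (j + 1)) ?_
      rw [mul_left_comm]
      exact Ideal.mul_mono_right (hmH j)
    obtain ⟨a', x', -, -, h1, -, h2, -⟩ := hPr _ hsf
    obtain ⟨rfl, rfl⟩ := h1.unique he
    exact h2
  have hch2 : ch ≤ (l + 1) * e := by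
    obtain ⟨-, -, b', y', -, h1, -, h2⟩ := hPr H ⟨fun j => le_rfl, hle1, hmH⟩
    obtain ⟨rfl, rfl⟩ := h1.unique he
    exact h2
  -- combine
  have hshift := hA.shift (s + 1)
  have hcomb : EvLin (fun j => rl (Submodule.map y1 (H (j + (s + 1)) • ⊤) ⊔
      Submodule.map y2 (H (j + (s + 1)) • ⊤)) (H (j + (s + 1)) • (⊤ : Submodule B V)))
      (0 + (a * e + A2)) ((Θ : ℤ) + XB) := by
    refine ((evLin_const Θ).add hB).congr ?_
    have h1 : ∀ᶠ j in atTop, rl (Submodule.map y1 (H (j + (s + 1)) • ⊤) ⊔
      Submodule.map y2 (H (j + (s + 1)) • ⊤)) (H (j + (s + 1)) • (⊤ : Submodule B V)) =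
      (Θ : ℕ∞) + rl (H (j + (s + 1)) • (⊤ : Submodule B V)) (X (j + (s + 1))) :=
      (Filter.tendsto_add_atTop_nat (s + 1)).eventually S3
    filter_upwards [h1] with j hj
    exact hj.symm
  obtain ⟨h1, h2⟩ := hshift.unique hcomb
  refine core_arith (a := a) (s := (s : ℤ) + 1) (l := l) (ch := ch) (A1 := A1) (A2 := A2)
    (XA := XA) (XB := XB) he.slope_nonneg hA1 hA2 hch1 hch2 ?_ hXA ?_ ?_
  · linarith
  · have e1 : a * ch + a * e * ((s : ℤ) + 1 - 1) + (l + ((s : ℤ) + 1) - 1) * A2 =
        a * ch + a * e * s + (l + s) * A2 := by ring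
    rw [e1]
    exact hXB
  · push_cast at h2
    linarith

end Vale.Agent.P202
end

section

/-!
Flatness over a local ring gives the property used in the core inequality; comparison of relative
lengths over the two rings.
-/

namespace Vale.Agent.P202

open Submodule TensorProduct IsLocalRing

section
variable {A B : Type*} [CommRing A] [CommRing B] [Algebra A B] {V : Type*} [AddCommGroup V]
  [Module A V] [Module B V] [IsScalarTower A B V]

/-- a retraction onto the residue field. -/
lemma exists_functionalB (m : Ideal A) [m.IsMaximal] (n : Ideal B) [n.IsMaximal]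
    (hmn : m.map (algebraMap A B) ≤ n) (W : Submodule B V)
    (hmW : (m.map (algebraMap A B)) • (⊤ : Submodule B V) ≤ W) {u : V} (hu : u ∉ W)
    (hnu : ∀ r ∈ n, r • u ∈ W) :
    ∃ ψ : V →ₗ[A] (B ⧸ n), (∀ w ∈ W, ψ w = 0) ∧ ∀ b : B, ψ (b • u) = Ideal.Quotient.mk n b := by
  let _ : Field (A ⧸ m) := Ideal.Quotient.field m
  have hm : ∀ r ∈ m, ∀ v : V, r • v ∈ W := by
    intro r hr v
    rw [← algebraMap_smul B r v]
    exact hmW (Submodule.smul_mem_smul (Ideal.mem_map_of_mem _ hr) Submodule.mem_top)
  have htor : Module.IsTorsionBySet A (V ⧸ W) m := by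
    intro x r
    obtain ⟨x, rfl⟩ := Submodule.Quotient.mk_surjective _ x
    change Submodule.Quotient.mk (r.1 • x) = _
    rw [Submodule.Quotient.mk_eq_zero]
    exact hm _ r.2 x
  have htor2 : Module.IsTorsionBySet A (B ⧸ n) m := by
    intro x r
    obtain ⟨x, rfl⟩ := Submodule.Quotient.mk_surjective _ x
    change Submodule.Quotient.mk (r.1 • x) = _
    rw [Submodule.Quotient.mk_eq_zero, Algebra.smul_def]
    exact n.mul_mem_right _ (hmn (Ideal.mem_map_of_mem _ r.2))
  let _ : Module (A ⧸ m) (V ⧸ W) := htor.module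
  have _ : IsScalarTower A (A ⧸ m) (V ⧸ W) := htor.isScalarTower
  let _ : Module (A ⧸ m) (B ⧸ n) := htor2.module
  have _ : IsScalarTower A (A ⧸ m) (B ⧸ n) := htor2.isScalarTower
  let f0 : B →ₗ[B] (V ⧸ W) := W.mkQ.comp (LinearMap.toSpanSingleton B V u)
  have hf0 : ∀ b, f0 b = Submodule.Quotient.mk (b • u) := fun b => rfl
  have hker : LinearMap.ker f0 = n := by
    refine (Ideal.IsMaximal.eq_of_le (inferInstance : n.IsMaximal) ?_ ?_).symm
    · intro h
      apply hu
      have h1 : (1 : B) ∈ LinearMap.ker f0 := by rw [h]; trivial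
      rw [LinearMap.mem_ker, hf0, one_smul, Submodule.Quotient.mk_eq_zero] at h1
      exact h1
    · intro r hr
      rw [LinearMap.mem_ker, hf0, Submodule.Quotient.mk_eq_zero]
      exact hnu r hr
  let f1 : (B ⧸ n) →ₗ[B] (V ⧸ W) := n.liftQ f0 hker.ge
  have hf1 : ∀ b : B, f1 (Submodule.Quotient.mk b) = Submodule.Quotient.mk (b • u) := fun b => rfl
  have hf1inj : Function.Injective f1 := by
    rw [← LinearMap.ker_eq_bot]
    exact Submodule.ker_liftQ_eq_bot _ _ _ hker.le
  let f2 : (B ⧸ n) →ₗ[A ⧸ m] (V ⧸ W) :=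
    { toFun := f1
      map_add' := f1.map_add
      map_smul' := by
        intro r x
        obtain ⟨r, rfl⟩ := Ideal.Quotient.mk_surjective r
        have h1 : (Ideal.Quotient.mk m r) • x = r • x := by
          rw [← algebraMap_smul (A ⧸ m) r x]; rfl
        have h2 : (Ideal.Quotient.mk m r) • f1 x = r • f1 x := by
          rw [← algebraMap_smul (A ⧸ m) r (f1 x)]; rfl
        rw [h1, RingHom.id_apply, h2, ← algebraMap_smul B r x, map_smul, algebraMap_smul] }
  have hf2 : ∀ x, f2 x = f1 x := fun x => rfl
  obtain ⟨g, hg⟩ := f2.exists_leftInverse_of_injective (LinearMap.ker_eq_bot.mpr hf1inj)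
  refine ⟨(g.restrictScalars A).comp (W.mkQ.restrictScalars A), ?_, ?_⟩
  · intro w hw
    have : (Submodule.Quotient.mk w : V ⧸ W) = 0 := (Submodule.Quotient.mk_eq_zero _).mpr hw
    simp only [LinearMap.comp_apply, LinearMap.restrictScalars_apply, Submodule.mkQ_apply, this,
      map_zero]
  · intro b
    simp only [LinearMap.comp_apply, LinearMap.restrictScalars_apply, Submodule.mkQ_apply]
    rw [← hf1, ← hf2]
    exact LinearMap.congr_fun hg (Submodule.Quotient.mk b)

/-- flatness gives `FlatLike`. -/
theorem flatLike_of_flat [Module.Flat A V] (m : Ideal A) [m.IsMaximal] (n : Ideal B) [n.IsMaximal]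
    (hmn : m.map (algebraMap A B) ≤ n) {I I' : Ideal A} (hII : I ≤ I') :
    FlatLike (m.map (algebraMap A B)) n V (I.map (algebraMap A B)) (I'.map (algebraMap A B)) := by
  intro W u hmW hu hnu w hw h
  obtain ⟨ψ, hψ0, hψ1⟩ := exists_functionalB m n hmn W hmW hu hnu
  let q : I' →ₗ[A] (I' ⧸ (I.submoduleOf I')) := Submodule.mkQ _
  let θ : (I' ⊗[A] V) →ₗ[A] ((I' ⧸ (I.submoduleOf I')) ⊗[A] (B ⧸ n)) := TensorProduct.map q ψ
  let e : (I' ⊗[A] V) →ₗ[A] V :=
    TensorProduct.lift ((LinearMap.lsmul A V).comp (Submodule.subtype I'))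
  have he : ∀ (z : I') (v : V), e (z ⊗ₜ v) = (z : A) • v := by
    intro z v
    simp [e]
  have hinj : Function.Injective e := by
    have h1 := Module.Flat.rTensor_preserves_injective_linearMap (M := V)
      (Submodule.subtype I') (Submodule.subtype_injective I')
    have h2 : e = (TensorProduct.lid A V).toLinearMap ∘ₗ
        (LinearMap.rTensor V (Submodule.subtype I')) := by
      ext z v
      simp [e]
    rw [h2]
    exact (TensorProduct.lid A V).injective.comp h1
  -- the image of the kernel of `θ`
  have hS : I' • (W.restrictScalars A) ⊔ I • (⊤ : Submodule A V) ≤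
      Submodule.map e (LinearMap.ker θ) := by
    rw [sup_le_iff]
    constructor
    · rw [Submodule.smul_le]
      intro r hr x hx
      refine ⟨(⟨r, hr⟩ : I') ⊗ₜ x, ?_, by rw [he]⟩
      rw [SetLike.mem_coe, LinearMap.mem_ker]
      simp only [θ, TensorProduct.map_tmul]
      rw [hψ0 x hx, TensorProduct.tmul_zero]
    · rw [Submodule.smul_le]
      intro r hr x _
      refine ⟨(⟨r, hII hr⟩ : I') ⊗ₜ x, ?_, by rw [he]⟩
      rw [SetLike.mem_coe, LinearMap.mem_ker]
      simp only [θ, TensorProduct.map_tmul]
      have : q (⟨r, hII hr⟩ : I') = 0 := by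
        change Submodule.Quotient.mk (⟨r, hII hr⟩ : I') = 0
        rw [Submodule.Quotient.mk_eq_zero]
        exact hr
      rw [this, TensorProduct.zero_tmul]
  have h' : w • u ∈ I' • (W.restrictScalars A) ⊔ I • (⊤ : Submodule A V) := by
    have e1 := Ideal.smul_restrictScalars (R := A) (S := B) I' W
    have e2 := Ideal.smul_restrictScalars (R := A) (S := B) I (⊤ : Submodule B V)
    obtain ⟨p, hp, r, hr, hpr⟩ := Submodule.mem_sup.mp h
    rw [← hpr]
    refine Submodule.add_mem _ (Submodule.mem_sup_left ?_) (Submodule.mem_sup_right ?_)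
    · rw [← e1]; exact hp
    · rw [Submodule.restrictScalars_top] at e2
      rw [← e2]; exact hr
  obtain ⟨z, hz, hze⟩ := hS h'
  -- lift of `w`
  let μ : (I' ⊗[A] B) →ₗ[A] B :=
    TensorProduct.lift ((LinearMap.lsmul A B).comp (Submodule.subtype I'))
  have hμ : ∀ (z : I') (b : B), μ (z ⊗ₜ b) = (z : A) • b := by
    intro z b
    simp [μ]
  have hw' : w ∈ Submodule.map μ ⊤ := by
    have h1 : w ∈ I' • (⊤ : Submodule A B) := by
      rw [Ideal.smul_top_eq_map]; exact hw
    refine (?_ : I' • (⊤ : Submodule A B) ≤ Submodule.map μ ⊤) h1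
    rw [Submodule.smul_le]
    intro r hr b _
    exact ⟨(⟨r, hr⟩ : I') ⊗ₜ b, trivial, by rw [hμ]⟩
  obtain ⟨y, -, hy⟩ := hw'
  let ρ : B →ₗ[A] V := (LinearMap.toSpanSingleton B V u).restrictScalars A
  have hρ : ∀ b, ρ b = b • u := fun b => rfl
  have heρ : ∀ y, e (LinearMap.lTensor I' ρ y) = ρ (μ y) := by
    intro y
    have : e ∘ₗ LinearMap.lTensor I' ρ = ρ ∘ₗ μ := by
      refine TensorProduct.ext' fun a b => ?_
      rw [LinearMap.comp_apply, LinearMap.comp_apply, LinearMap.lTensor_tmul, he, hμ, map_smul]
    exact LinearMap.congr_fun this y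
  have hyz : LinearMap.lTensor I' ρ y = z := by
    apply hinj
    rw [heρ, hze, hy, hρ]
  have hθy : TensorProduct.map q (Ideal.Quotient.mkₐ A n).toLinearMap y = 0 := by
    have h1 : TensorProduct.map q (Ideal.Quotient.mkₐ A n).toLinearMap =
        θ ∘ₗ LinearMap.lTensor I' ρ := by
      refine TensorProduct.ext' fun a b => ?_
      rw [LinearMap.comp_apply, LinearMap.lTensor_tmul]
      simp only [θ, TensorProduct.map_tmul]
      rw [hρ, hψ1]
      rfl
    rw [h1, LinearMap.comp_apply, hyz]
    exact hz
  have hex1 : Function.Exact (Submodule.subtype (I.submoduleOf I')) q :=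
    LinearMap.exact_subtype_mkQ _
  have hex2 : Function.Exact (Submodule.subtype (n.restrictScalars A))
      (Ideal.Quotient.mkₐ A n).toLinearMap := by
    intro x
    have h1 : (Ideal.Quotient.mkₐ A n).toLinearMap x = 0 ↔ x ∈ n := Ideal.Quotient.eq_zero_iff_mem
    rw [h1]
    constructor
    · intro hx; exact ⟨⟨x, hx⟩, rfl⟩
    · rintro ⟨x, rfl⟩; exact x.2
  have hyker : y ∈ LinearMap.ker (TensorProduct.map q (Ideal.Quotient.mkₐ A n).toLinearMap) := hθy
  rw [TensorProduct.map_ker hex1 (Submodule.mkQ_surjective _) hex2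
    (Ideal.Quotient.mkₐ_surjective A n)] at hyker
  have hm1 : ∀ y1, μ (LinearMap.lTensor I' (Submodule.subtype (n.restrictScalars A)) y1) ∈
      n * I'.map (algebraMap A B) := by
    intro y1
    induction y1 using TensorProduct.induction_on with
    | zero => rw [map_zero, map_zero]; exact Ideal.zero_mem _
    | tmul a b =>
      rw [LinearMap.lTensor_tmul, hμ, Algebra.smul_def, mul_comm (algebraMap A B a)]
      exact Ideal.mul_mem_mul b.2 (Ideal.mem_map_of_mem _ a.2)
    | add a b ha hb =>
      rw [map_add, map_add]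
      exact Ideal.add_mem _ ha hb
  have hm2 : ∀ y2, μ (LinearMap.rTensor B (Submodule.subtype (I.submoduleOf I')) y2) ∈
      I.map (algebraMap A B) := by
    intro y2
    induction y2 using TensorProduct.induction_on with
    | zero => rw [map_zero, map_zero]; exact Ideal.zero_mem _
    | tmul a b =>
      rw [LinearMap.rTensor_tmul, hμ, Algebra.smul_def]
      exact Ideal.mul_mem_right _ _ (Ideal.mem_map_of_mem _ a.2)
    | add a b ha hb =>
      rw [map_add, map_add]
      exact Ideal.add_mem _ ha hb
  obtain ⟨y1, ⟨y1, rfl⟩, y2, ⟨y2, rfl⟩, hy12⟩ := Submodule.mem_sup.mp hyker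
  rw [← hy, ← hy12, map_add]
  exact Ideal.add_mem _ (Ideal.mem_sup_right (hm1 y1)) (Ideal.mem_sup_left (hm2 y2))

end

section
variable {A B : Type*} [CommRing A] [IsLocalRing A] [CommRing B] [IsLocalRing B] [Algebra A B]
  [IsLocalHom (algebraMap A B)]

lemma map_maximalIdeal_le : (maximalIdeal A).map (algebraMap A B) ≤ maximalIdeal B :=
  ((IsLocalRing.local_hom_TFAE (algebraMap A B)).out 0 2).mp
    (inferInstance : IsLocalHom (algebraMap A B))

/-- comparison of lengths over `A` and over `B`. -/
theorem rl_map_eq [Module.Flat A B] {I I' : Ideal A} (hII : I ≤ I') (hm : maximalIdeal A * I' ≤ I) (N : ℕ)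
    (hN : rl I I' = (N : ℕ∞)) :
    rl (I.map (algebraMap A B) ⊔ maximalIdeal B * I'.map (algebraMap A B))
      (I'.map (algebraMap A B)) = (N : ℕ∞) := by
  set Z : Ideal B := I.map (algebraMap A B) ⊔ maximalIdeal B * I'.map (algebraMap A B) with hZ
  have key := chain_inductionB (B := A) (V := A) (W := I) (P := fun n J => J ≤ I' →
    rl Z (Ideal.map (algebraMap A B) J ⊔ Z) = (n : ℕ∞)) ?_ ?_ N I' hII hN le_rfl
  · have h1 : I'.map (algebraMap A B) ⊔ Z = I'.map (algebraMap A B) := by
      rw [sup_eq_left]
      exact sup_le (Ideal.map_mono hII) Ideal.mul_le_right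
    rw [h1] at key
    exact key
  · intro _
    rw [Nat.cast_zero, rl_eq_zero_iff]
    exact sup_le le_sup_left le_rfl
  · intro n (J : Ideal A) u hIJ hu hmu ih hJu
    have hJ : J ≤ I' := le_sup_left.trans hJu
    have huI' : u ∈ I' := hJu (Submodule.mem_sup_right (Submodule.mem_span_singleton_self u))
    have e1 : Ideal.map (algebraMap A B) (J ⊔ span A {u}) ⊔ Z =
        (J.map (algebraMap A B) ⊔ Z) ⊔ span B {algebraMap A B u} := by
      have : Ideal.map (algebraMap A B) (span A {u}) = span B {algebraMap A B u} := by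
        change (Ideal.span {u}).map (algebraMap A B) = Ideal.span {algebraMap A B u}
        rw [Ideal.map_span, Set.image_singleton]
      rw [Ideal.map_sup, this, sup_right_comm]
    have hu' : algebraMap A B u ∉ J.map (algebraMap A B) ⊔ Z := by
      intro hmem
      apply hu
      have hle : J.map (algebraMap A B) ⊔ Z ≤
          J.map (algebraMap A B) ⊔ maximalIdeal B * I'.map (algebraMap A B) := by
        refine sup_le le_sup_left (sup_le ?_ le_sup_right)
        exact (Ideal.map_mono hIJ).trans le_sup_left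
      have h1 := hle hmem
      refine mem_of_smul_mem (V := B) (maximalIdeal A) (I := J) (I' := I') hJ (hm.trans hIJ)
        ((maximalIdeal B).restrictScalars A) ?_ (u := 1) ?_ huI' ?_
      · rw [Ideal.smul_top_eq_map]
        intro x hx
        exact map_maximalIdeal_le hx
      · intro h2
        exact (Ideal.ne_top_iff_one _).mp (IsLocalRing.maximalIdeal.isMaximal B).ne_top h2
      · obtain ⟨p, hp, q, hq, hpq⟩ := Submodule.mem_sup.mp h1
        have h3 : u • (1 : B) = q + p := by
          rw [Algebra.smul_def, mul_one, ← hpq, add_comm]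
        rw [h3]
        refine Submodule.add_mem _ (Submodule.mem_sup_left ?_) (Submodule.mem_sup_right ?_)
        · have e2 := Ideal.smul_restrictScalars (R := A) (S := B) I' (maximalIdeal B)
          rw [← e2]
          rw [mul_comm] at hq
          exact hq
        · rw [Ideal.smul_top_eq_map]
          exact hp
    have hnu : ∀ r ∈ maximalIdeal B, r • algebraMap A B u ∈ J.map (algebraMap A B) ⊔ Z := by
      intro r hr
      refine Ideal.mem_sup_right (Ideal.mem_sup_right ?_)
      exact Ideal.mul_mem_mul hr (Ideal.mem_map_of_mem _ huI')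
    rw [e1, rl_add (le_sup_right : Z ≤ J.map (algebraMap A B) ⊔ Z) le_sup_left, ih hJ,
      rl_sup_span_eq_one (maximalIdeal B) hu' hnu]
    push_cast
    rfl

end

end Vale.Agent.P202
end

section

/-!
Slope bounds: translation from graded vector spaces to ideals.
-/

namespace Vale.Agent.P202

set_option linter.unusedSectionVars false

open IsLocalRing TensorProduct

section corr
variable {R K : Type*} [CommRing R] [Field K] [Algebra R K] {M E T : Type*} [AddCommGroup M]
  [Module R M] [AddCommGroup E] [Module R E] [AddCommGroup T] [Module R T] [Module K T]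
  [IsScalarTower R K T]

/-- lengths through a correspondence. -/
lemma corr_lengths (hsurj : Function.Surjective (algebraMap R K)) (f : E →ₗ[R] M) (g : E →ₗ[R] T)
    (hg : Function.Surjective g) {Z H P : Submodule R M} (hZ : Z.comap f = LinearMap.ker g)
    (hH : LinearMap.range f = H) (hP : P ≤ H) (Pb : Submodule K T)
    (hcorr : P.comap f = (Pb.restrictScalars R).comap g) :
    rl P H = Module.length K (T ⧸ Pb) ∧ rl Z P = Module.length K Pb := by
  subst hH
  constructor
  · have h1 := rl_eq_of_corr f g (K₁ := P) (N₁ := LinearMap.range f)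
      (K₂ := Pb.restrictScalars R) (N₂ := ⊤) hcorr rfl (by rw [LinearMap.range_eq_top.mpr hg])
    rw [h1, rl_top, (Submodule.Quotient.restrictScalarsEquiv R Pb).length_eq]
    have : IsScalarTower R K (T ⧸ Pb) := ⟨fun r c x => by
      obtain ⟨x, rfl⟩ := Submodule.Quotient.mk_surjective _ x
      rw [← Submodule.Quotient.mk_smul, ← Submodule.Quotient.mk_smul, ← Submodule.Quotient.mk_smul,
        smul_assoc]⟩
    exact Module.length_eq_of_surjective hsurj
  · have h1 := rl_eq_of_corr (E := ↥(P.comap f)) (f.comp (Submodule.subtype _))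
      (g.comp (Submodule.subtype _)) (K₁ := Z) (N₁ := P)
      (K₂ := ⊥) (N₂ := Pb.restrictScalars R) ?_ ?_ ?_
    · rw [h1, rl_bot]
      have : IsScalarTower R K Pb := ⟨fun r c x => Subtype.ext (smul_assoc r c (x : T))⟩
      change Module.length R Pb = _
      exact Module.length_eq_of_surjective hsurj
    · ext z
      have := Submodule.ext_iff.mp hZ z.1
      simpa using this
    · rw [LinearMap.range_comp, Submodule.range_subtype, Submodule.map_comap_eq,
        inf_eq_right.mpr hP]
    · rw [LinearMap.range_comp, Submodule.range_subtype, hcorr, Submodule.map_comap_eq,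
        LinearMap.range_eq_top.mpr hg, top_inf_eq]

/-- the `K`-subspace attached to an `R`-submodule. -/
def toField (hsurj : Function.Surjective (algebraMap R K)) (N : Submodule R T) :
    Submodule K T where
  carrier := N
  add_mem' := N.add_mem
  zero_mem' := N.zero_mem
  smul_mem' := by
    intro c x hx
    obtain ⟨r, rfl⟩ := hsurj c
    rw [algebraMap_smul]
    exact N.smul_mem r hx

lemma restrictScalars_toField (hsurj : Function.Surjective (algebraMap R K))
    (N : Submodule R T) : (toField (K := K) hsurj N).restrictScalars R = N := rfl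

end corr

section graded
variable {A : Type*} [CommRing A] [IsLocalRing A] (G : ℕ → Ideal A)

/-- the graded pieces. -/
abbrev Gr (j : ℕ) : Type _ := ↥(G j) ⧸ (G (j + 1)).submoduleOf (G j)

/-- the graded pieces as vector spaces. -/
abbrev GrK (j : ℕ) : Type _ := ResidueField A ⊗[A] Gr G j

/-- multiplication by `a` from `G j` to `G (j + 1)`. -/
def mulG (hG : ∀ j, maximalIdeal A • G j ≤ G (j + 1)) (a : maximalIdeal A) (j : ℕ) :
    ↥(G j) →ₗ[A] ↥(G (j + 1)) :=
  LinearMap.restrict (LinearMap.lsmul A A a.1) (p := G j) (q := G (j + 1))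
    (fun _ hx => hG j (Submodule.smul_mem_smul a.2 hx))

lemma mulG_coe (hG : ∀ j, maximalIdeal A • G j ≤ G (j + 1)) (a : maximalIdeal A) (j : ℕ)
    (x : G j) : (mulG G hG a j x : A) = a.1 * x.1 := rfl

/-- multiplication on the graded pieces. -/
def mulGr (hG : ∀ j, maximalIdeal A • G j ≤ G (j + 1)) (a : maximalIdeal A) (j : ℕ) :
    Gr G j →ₗ[A] Gr G (j + 1) :=
  Submodule.mapQ _ _ (mulG G hG a j) (by
    intro x hx
    exact hG (j + 1) (Submodule.smul_mem_smul a.2 hx))

/-- multiplication on the graded vector spaces. -/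
noncomputable def mulGrK (hG : ∀ j, maximalIdeal A • G j ≤ G (j + 1)) (a : maximalIdeal A)
    (j : ℕ) : GrK G j →ₗ[ResidueField A] GrK G (j + 1) :=
  (mulGr G hG a j).baseChange (ResidueField A)

end graded

section
variable {A : Type*} [CommRing A] [IsLocalRing A] [IsNoetherianRing A] (G : ℕ → Ideal A)

instance (j : ℕ) : FiniteDimensional (ResidueField A) (GrK G j) := inferInstance

end

/-- the projection from `G j` to the graded vector space. -/
noncomputable def prK {A : Type*} [CommRing A] [IsLocalRing A] (G : ℕ → Ideal A) (j : ℕ) :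
    ↥(G j) →ₗ[A] GrK G j :=
  (TensorProduct.mk A (ResidueField A) (Gr G j) 1).comp
    (Submodule.mkQ ((G (j + 1)).submoduleOf (G j)))

section
variable {A : Type*} [CommRing A] [IsLocalRing A] (G : ℕ → Ideal A)

lemma prK_surjective (j : ℕ) : Function.Surjective (prK G j) := by
  intro z
  induction z using TensorProduct.induction_on with
  | zero => exact ⟨0, map_zero _⟩
  | tmul c q =>
    obtain ⟨a, rfl⟩ := IsLocalRing.residue_surjective c
    obtain ⟨g, rfl⟩ := Submodule.mkQ_surjective _ q
    refine ⟨a • g, ?_⟩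
    rw [prK, LinearMap.comp_apply, map_smul, TensorProduct.mk_apply]
    rw [TensorProduct.tmul_smul, TensorProduct.smul_tmul', Algebra.smul_def, mul_one]
    rfl
  | add x y hx hy =>
    obtain ⟨x, rfl⟩ := hx
    obtain ⟨y, rfl⟩ := hy
    exact ⟨x + y, map_add _ _ _⟩

lemma ker_prK (hG : ∀ j, maximalIdeal A • G j ≤ G (j + 1)) (j : ℕ) :
    LinearMap.ker (prK G j) = (G (j + 1)).submoduleOf (G j) := by
  apply le_antisymm
  · intro x hx
    rw [LinearMap.mem_ker] at hx
    -- a retraction `k ⊗ Gr → Gr`
    have ht : Module.IsTorsionBySet A (Gr G j) (maximalIdeal A : Set A) := by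
      intro v a
      obtain ⟨v, rfl⟩ := Submodule.Quotient.mk_surjective _ v
      rw [← Submodule.Quotient.mk_smul, Submodule.Quotient.mk_eq_zero]
      exact hG j (Submodule.smul_mem_smul a.2 v.2)
    let _ : Module (ResidueField A) (Gr G j) := ht.module
    have : IsScalarTower A (ResidueField A) (Gr G j) := ht.isScalarTower
    let r : GrK G j →ₗ[A] Gr G j :=
      TensorProduct.lift ((Algebra.lsmul A A (Gr G j) : ResidueField A →ₐ[A] _).toLinearMap)
    have h1 : r (prK G j x) = Submodule.Quotient.mk x := by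
      rw [prK, LinearMap.comp_apply, TensorProduct.mk_apply, TensorProduct.lift.tmul]
      simp
    rw [hx, map_zero] at h1
    exact (Submodule.Quotient.mk_eq_zero _).mp h1.symm
  · intro x hx
    rw [LinearMap.mem_ker, prK, LinearMap.comp_apply,
      (Submodule.Quotient.mk_eq_zero _).mpr hx |> (fun h => (show Submodule.mkQ _ x = 0 from h)),
      map_zero]

lemma mulGrK_prK (hG : ∀ j, maximalIdeal A • G j ≤ G (j + 1)) (a : maximalIdeal A)
    (j : ℕ) (x : G j) : mulGrK G hG a j (prK G j x) = prK G (j + 1) (mulG G hG a j x) := rfl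

end

/-- slope bounds for the graded vector spaces. -/
theorem gpr_of_pr {A : Type*} [CommRing A] [IsLocalRing A] [IsNoetherianRing A] (G : ℕ → Ideal A)
    (hG : Fil (maximalIdeal A) G) (lo hi : ℤ) (hPr : Pr (maximalIdeal A) G lo hi) :
    GPr (ResidueField A) (GrK G) (mulGrK G hG.smul) lo hi := by
  intro Pb hPb
  have hsurj : Function.Surjective (algebraMap A (ResidueField A)) :=
    IsLocalRing.residue_surjective
  let P : ℕ → Ideal A := fun j =>
    (((Pb j).restrictScalars A).comap (prK G j)).map (G j).subtype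
  have hP : SubFil (maximalIdeal A) G P := by
    refine ⟨fun j => ?_, fun j => ?_, fun j => ?_⟩
    · rintro _ ⟨x, -, rfl⟩
      exact x.2
    · intro x hx
      refine ⟨⟨x, hG.anti j hx⟩, ?_, rfl⟩
      rw [SetLike.mem_coe, Submodule.mem_comap]
      have : prK G j ⟨x, hG.anti j hx⟩ = 0 := by
        rw [← LinearMap.mem_ker, ker_prK G hG.smul]
        exact hx
      rw [this]
      exact Submodule.zero_mem _
    · rw [Submodule.smul_le]
      rintro r hr _ ⟨x, hx, rfl⟩
      refine ⟨mulG G hG.smul ⟨r, hr⟩ j x, ?_, rfl⟩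
      rw [SetLike.mem_coe, Submodule.mem_comap, ← mulGrK_prK]
      exact hPb ⟨r, hr⟩ j (Submodule.mem_map_of_mem hx)
  obtain ⟨a, x, b, y, h1, h2, h3, h4⟩ := hPr P hP
  have key : ∀ j, rl (P j) (G j) = Module.length (ResidueField A) (GrK G j ⧸ Pb j) ∧
      rl (G (j + 1)) (P j) = Module.length (ResidueField A) (Pb j) := by
    intro j
    refine corr_lengths hsurj (G j).subtype (prK G j) (prK_surjective G j) ?_ ?_ (hP.le j) _ ?_
    · rw [ker_prK G hG.smul]; rfl
    · exact Submodule.range_subtype _
    · exact Submodule.comap_map_eq_of_injective (Submodule.subtype_injective _) _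
  refine ⟨a, x, b, y, ?_, ?_, h3, h4⟩
  · exact h1.congr (Filter.Eventually.of_forall fun j => (key j).1)
  · exact h2.congr (Filter.Eventually.of_forall fun j => (key j).2)


section baseB
variable {A B : Type*} [CommRing A] [IsLocalRing A] [CommRing B] [IsLocalRing B] [Algebra A B]
  [IsLocalHom (algebraMap A B)]

instance smulComm1 : SMulCommClass (ResidueField A) B (ResidueField B) := ⟨fun r b x => by
  rw [Algebra.smul_def, Algebra.smul_def, Algebra.smul_def, Algebra.smul_def, mul_left_comm]⟩

instance smulComm2 : SMulCommClass (ResidueField A) A (ResidueField B) := ⟨fun r b x => by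
  rw [Algebra.smul_def, Algebra.smul_def, Algebra.smul_def, Algebra.smul_def, mul_left_comm]⟩

variable (B) (G : ℕ → Ideal A)

/-- the multiplication map `B ⊗ G j → B`. -/
noncomputable def fB (j : ℕ) : B ⊗[A] ↥(G j) →ₗ[B] B :=
  (AlgebraTensorModule.rid A B B).toLinearMap ∘ₗ (G j).subtype.baseChange B

lemma fB_tmul (j : ℕ) (b : B) (x : G j) : fB B G j (b ⊗ₜ x) = algebraMap A B x * b := by
  simp [fB, Algebra.smul_def]

lemma range_fB (j : ℕ) : LinearMap.range (fB B G j) = (G j).map (algebraMap A B) := by
  apply le_antisymm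
  · rintro _ ⟨z, rfl⟩
    induction z using TensorProduct.induction_on with
    | zero => rw [map_zero]; exact Submodule.zero_mem _
    | tmul b x =>
      rw [fB_tmul]
      exact Ideal.mul_mem_right _ _ (Ideal.mem_map_of_mem _ x.2)
    | add x y hx hy => rw [map_add]; exact Submodule.add_mem _ hx hy
  · rw [Ideal.map_le_iff_le_comap]
    intro x hx
    exact ⟨1 ⊗ₜ ⟨x, hx⟩, by rw [fB_tmul, mul_one]⟩

lemma fB_injective [Module.Flat A B] (j : ℕ) : Function.Injective (fB B G j) := by
  refine (AlgebraTensorModule.rid A B B).injective.comp ?_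
  exact Module.Flat.lTensor_preserves_injective_linearMap (M := B) (G j).subtype
    (G j).subtype_injective

/-- the projection `B ⊗ G j → l ⊗ E j`. -/
noncomputable def gB (j : ℕ) : B ⊗[A] ↥(G j) →ₗ[B] (ResidueField B ⊗[ResidueField A] GrK G j) :=
  AlgebraTensorModule.lift
    { toFun := fun b =>
        { toFun := fun x => residue B b ⊗ₜ prK G j x
          map_add' := fun x y => by rw [map_add, TensorProduct.tmul_add]
          map_smul' := fun a x => by
            rw [map_smul, RingHom.id_apply]
            rw [← algebraMap_smul (ResidueField A) a (prK G j x), TensorProduct.tmul_smul,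
              TensorProduct.smul_tmul', TensorProduct.smul_tmul', algebraMap_smul] }
      map_add' := fun x y => by
        ext z
        simp [TensorProduct.add_tmul]
      map_smul' := fun b x => by
        ext z
        simp [TensorProduct.smul_tmul', Algebra.smul_def] }

lemma gB_tmul (j : ℕ) (b : B) (x : G j) : gB B G j (b ⊗ₜ x) = residue B b ⊗ₜ prK G j x := rfl

lemma gB_surjective (j : ℕ) : Function.Surjective (gB B G j) := by
  intro z
  induction z using TensorProduct.induction_on with
  | zero => exact ⟨0, map_zero _⟩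
  | tmul c q =>
    obtain ⟨b, rfl⟩ := IsLocalRing.residue_surjective c
    obtain ⟨g, rfl⟩ := prK_surjective G j q
    exact ⟨b ⊗ₜ g, gB_tmul B G j b g⟩
  | add x y hx hy =>
    obtain ⟨x, rfl⟩ := hx
    obtain ⟨y, rfl⟩ := hy
    exact ⟨x + y, map_add _ _ _⟩

/-- the comparison with `l ⊗ Gr`. -/
lemma gB_cancel (j : ℕ) (z : B ⊗[A] ↥(G j)) :
    AlgebraTensorModule.cancelBaseChange A (ResidueField A) (ResidueField B) (ResidueField B)
      (Gr G j) (gB B G j z) =
    TensorProduct.map (Algebra.linearMap B (ResidueField B) |>.restrictScalars A)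
      (Submodule.mkQ ((G (j + 1)).submoduleOf (G j))) z := by
  induction z using TensorProduct.induction_on with
  | zero => simp
  | tmul b x =>
    rw [gB_tmul, TensorProduct.map_tmul, prK, LinearMap.comp_apply, TensorProduct.mk_apply,
      AlgebraTensorModule.cancelBaseChange_tmul, one_smul]
    rfl
  | add x y hx hy => rw [map_add, map_add, map_add, hx, hy]

lemma comap_fB [Module.Flat A B] (hG : ∀ j, maximalIdeal A • G j ≤ G (j + 1))
    (hanti : ∀ j, G (j + 1) ≤ G j) (j : ℕ) :
    Submodule.comap (fB B G j)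
      ((G (j + 1)).map (algebraMap A B) ⊔ maximalIdeal B * (G j).map (algebraMap A B)) =
      LinearMap.ker (gB B G j) := by
  apply le_antisymm
  · -- every element of the left side is the image of an element of the kernel
    have h1 : (G (j + 1)).map (algebraMap A B) ⊔ maximalIdeal B * (G j).map (algebraMap A B) ≤
        (LinearMap.ker (gB B G j)).map (fB B G j) := by
      refine sup_le ?_ ?_
      · rw [Ideal.map_le_iff_le_comap]
        intro x hx
        have hxj : x ∈ G j := hanti j hx
        refine ⟨1 ⊗ₜ ⟨x, hxj⟩, ?_, by rw [fB_tmul, mul_one]⟩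
        rw [SetLike.mem_coe, LinearMap.mem_ker, gB_tmul]
        have : prK G j ⟨x, hxj⟩ = 0 := by
          rw [← LinearMap.mem_ker, ker_prK G hG]
          exact hx
        rw [this, TensorProduct.tmul_zero]
      · rw [Ideal.mul_le]
        intro r hr s hs
        rw [← range_fB] at hs
        obtain ⟨z, rfl⟩ := hs
        refine ⟨r • z, ?_, by rw [map_smul, smul_eq_mul]⟩
        rw [SetLike.mem_coe, LinearMap.mem_ker, map_smul, ← algebraMap_smul (ResidueField B) r]
        have : algebraMap B (ResidueField B) r = 0 := by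
          exact (residue_eq_zero_iff r).mpr hr
        rw [this, zero_smul]
    intro z hz
    obtain ⟨z', hz', he⟩ := h1 (Submodule.mem_comap.mp hz)
    rw [← fB_injective B G j he]
    exact hz'
  · intro z hz
    have hex1 : Function.Exact (Submodule.subtype ((maximalIdeal B).restrictScalars A))
        ((Algebra.linearMap B (ResidueField B)).restrictScalars A) := by
      intro x
      have h1 : ((Algebra.linearMap B (ResidueField B)).restrictScalars A) x = 0 ↔
          x ∈ maximalIdeal B := residue_eq_zero_iff x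
      rw [h1]
      constructor
      · intro hx; exact ⟨⟨x, hx⟩, rfl⟩
      · rintro ⟨x, rfl⟩; exact x.2
    have hex2 : Function.Exact (Submodule.subtype ((G (j + 1)).submoduleOf (G j)))
        (Submodule.mkQ ((G (j + 1)).submoduleOf (G j))) := LinearMap.exact_subtype_mkQ _
    have hz2 : z ∈ LinearMap.ker (TensorProduct.map
        ((Algebra.linearMap B (ResidueField B)).restrictScalars A)
        (Submodule.mkQ ((G (j + 1)).submoduleOf (G j)))) := by
      rw [LinearMap.mem_ker, ← gB_cancel, LinearMap.mem_ker.mp hz, map_zero]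
    rw [TensorProduct.map_ker hex1 residue_surjective hex2
      (Submodule.mkQ_surjective _)] at hz2
    obtain ⟨y1, ⟨y1, rfl⟩, y2, ⟨y2, rfl⟩, rfl⟩ := Submodule.mem_sup.mp hz2
    clear hz hz2
    refine Submodule.add_mem _ (Submodule.mem_comap.mpr (Submodule.mem_sup_left ?_))
      (Submodule.mem_comap.mpr (Submodule.mem_sup_right ?_))
    · induction y1 using TensorProduct.induction_on with
      | zero => rw [map_zero, map_zero]; exact Ideal.zero_mem _
      | tmul a b =>
        rw [LinearMap.lTensor_tmul, fB_tmul]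
        exact Ideal.mul_mem_right _ _ (Ideal.mem_map_of_mem _ b.2)
      | add a b ha hb =>
        rw [map_add, map_add]
        exact Ideal.add_mem _ ha hb
    · induction y2 using TensorProduct.induction_on with
      | zero => rw [map_zero, map_zero]; exact Ideal.zero_mem _
      | tmul a b =>
        rw [LinearMap.rTensor_tmul, fB_tmul]
        rw [mul_comm (algebraMap A B b)]
        exact Ideal.mul_mem_mul a.2 (Ideal.mem_map_of_mem _ b.2)
      | add a b ha hb =>
        rw [map_add, map_add]
        exact Ideal.add_mem _ ha hb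

/-- multiplication on `B ⊗ G`. -/
lemma fB_mulG (hG : ∀ j, maximalIdeal A • G j ≤ G (j + 1)) (a : maximalIdeal A) (j : ℕ)
    (z : B ⊗[A] ↥(G j)) :
    fB B G (j + 1) ((mulG G hG a j).baseChange B z) = algebraMap A B a * fB B G j z := by
  induction z using TensorProduct.induction_on with
  | zero => simp
  | tmul b x =>
    rw [LinearMap.baseChange_tmul, fB_tmul, fB_tmul, mulG_coe, map_mul]
    ring
  | add x y hx hy => rw [map_add, map_add, map_add, hx, hy, mul_add]

lemma gB_mulG (hG : ∀ j, maximalIdeal A • G j ≤ G (j + 1)) (a : maximalIdeal A) (j : ℕ)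
    (z : B ⊗[A] ↥(G j)) :
    gB B G (j + 1) ((mulG G hG a j).baseChange B z) =
      (mulGrK G hG a j).baseChange (ResidueField B) (gB B G j z) := by
  induction z using TensorProduct.induction_on with
  | zero => simp
  | tmul b x =>
    rw [LinearMap.baseChange_tmul, gB_tmul, gB_tmul, LinearMap.baseChange_tmul, mulGrK_prK]
  | add x y hx hy => rw [map_add, map_add, map_add, map_add, hx, hy]

end baseB

/-- TASK G4: translation to ideals. -/
theorem prB_of_pr {A B : Type*} [CommRing A] [IsLocalRing A] [IsNoetherianRing A]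
    [CommRing B] [IsLocalRing B] [IsNoetherianRing B] [Algebra A B]
    [IsLocalHom (algebraMap A B)] [Module.Flat A B] (G : ℕ → Ideal A)
    (hG : Fil (maximalIdeal A) G) (hst : ∃ j₀, ∀ j, j₀ ≤ j → G (j + 1) ≤ maximalIdeal A * G j)
    (lo hi : ℤ) (hPr : Pr (maximalIdeal A) G lo hi) :
    PrB ((maximalIdeal A).map (algebraMap A B)) (maximalIdeal B)
      (fun j => (G j).map (algebraMap A B)) lo hi := by
  intro P hP
  have hsurj : Function.Surjective (algebraMap B (ResidueField B)) :=
    IsLocalRing.residue_surjective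
  have hgpr := gpr_of_pr G hG lo hi hPr
  -- the graded subobject
  let Pb : ∀ j, Submodule (ResidueField B) (ResidueField B ⊗[ResidueField A] GrK G j) :=
    fun j => toField hsurj ((Submodule.comap (fB B G j) (P j)).map (gB B G j))
  have hker : ∀ j, LinearMap.ker (gB B G j) ≤ Submodule.comap (fB B G j) (P j) := by
    intro j
    rw [← comap_fB B G hG.smul hG.anti j]
    exact Submodule.comap_mono (hP.ge j)
  have key : ∀ j, rl (P j) ((G j).map (algebraMap A B)) =
      Module.length (ResidueField B) ((ResidueField B ⊗[ResidueField A] GrK G j) ⧸ Pb j) ∧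
      rl ((G (j + 1)).map (algebraMap A B) ⊔ maximalIdeal B * (G j).map (algebraMap A B)) (P j) =
      Module.length (ResidueField B) (Pb j) := by
    intro j
    refine corr_lengths hsurj (fB B G j) (gB B G j) (gB_surjective B G j)
      (comap_fB B G hG.smul hG.anti j) (range_fB B G j) (hP.le j) (Pb j) ?_
    rw [restrictScalars_toField, Submodule.comap_map_eq, sup_eq_left.mpr (hker j)]
  have hPb : ∀ i j, (Pb j).map ((mulGrK G hG.smul i j).baseChange (ResidueField B)) ≤
      Pb (j + 1) := by
    rintro i j _ ⟨_, ⟨z, hz, rfl⟩, rfl⟩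
    refine ⟨(mulG G hG.smul i j).baseChange B z, ?_, gB_mulG B G hG.smul i j z⟩
    rw [SetLike.mem_coe, Submodule.mem_comap, fB_mulG]
    exact hP.smul j (Ideal.mul_mem_mul (Ideal.mem_map_of_mem _ i.2) hz)
  -- stability
  obtain ⟨j₀, hj₀⟩ := BaseAux.stable_of_le ((maximalIdeal A).map (algebraMap A B))
    (fun j => (G j).map (algebraMap A B)) P (fun j => Ideal.map_mono (hG.anti j))
    (fun j => by
      rw [smul_eq_mul, ← Ideal.map_mul]
      exact Ideal.map_mono (hG.smul j))
    (by
      obtain ⟨b, hb⟩ := hst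
      refine ⟨b, fun j hj => ?_⟩
      rw [smul_eq_mul, ← Ideal.map_mul]
      exact Ideal.map_mono (hb j hj))
    (fun j => (hP.le (j + 1)).trans (le_sup_left.trans (hP.ge j)))
    (fun j => hP.smul j) hP.le
  have hfg : ∃ j₀, ∀ j, j₀ ≤ j → Pb (j + 1) ≤
      ⨆ i, (Pb j).map ((mulGrK G hG.smul i j).baseChange (ResidueField B)) := by
    refine ⟨j₀, fun j hj => ?_⟩
    set N := ⨆ i, (Pb j).map ((mulGrK G hG.smul i j).baseChange (ResidueField B)) with hN
    let D : Ideal B := ((N.restrictScalars B).comap (gB B G (j + 1))).map (fB B G (j + 1))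
    have hD : (maximalIdeal A).map (algebraMap A B) • P j ≤ D := by
      rw [smul_eq_mul, Ideal.mul_le]
      intro r hr s hs
      have h1 : (maximalIdeal A).map (algebraMap A B) ≤ col D s := by
        rw [Ideal.map_le_iff_le_comap]
        intro a ha
        rw [Ideal.mem_comap, mem_col]
        have hs' := hP.le j hs
        rw [← range_fB] at hs'
        obtain ⟨z, rfl⟩ := hs'
        refine ⟨(mulG G hG.smul ⟨a, ha⟩ j).baseChange B z, ?_, fB_mulG B G hG.smul ⟨a, ha⟩ j z⟩
        rw [SetLike.mem_coe, Submodule.mem_comap, gB_mulG]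
        refine (le_iSup (fun i => (Pb j).map
          ((mulGrK G hG.smul i j).baseChange (ResidueField B))) ⟨a, ha⟩ : _) ?_
        exact Submodule.mem_map_of_mem ⟨z, hs, rfl⟩
      exact mem_col.mp (h1 hr)
    rintro _ ⟨z, hz, rfl⟩
    obtain ⟨z', hz', he⟩ := hD (hj₀ j hj hz)
    rw [← fB_injective B G (j + 1) he]
    exact hz'
  obtain ⟨a, x, b, y, h1, h2, h3, h4⟩ := gpr_fg (l := ResidueField B) (GrK G)
    (mulGrK G hG.smul) lo hi hgpr Pb hPb hfg
  refine ⟨a, x, b, y, ?_, ?_, h3, h4⟩
  · exact h1.congr (Filter.Eventually.of_forall fun j => ((key j).1).symm)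
  · exact h2.congr (Filter.Eventually.of_forall fun j => ((key j).2).symm)

end Vale.Agent.P202
end

section

/-!
P202-CHARP, tasks M0 and M1: membership in monomial submodules, stability of the sets of
monomials, the Čech differential.
-/

namespace Vale.Agent.P202.CharP

open Submodule TensorProduct

variable {κ : Type*} [Field κ] {r : ℕ}

/-! ### coefficients -/

theorem mb_cf_mono_mul (h : Gx r) (c : κ) (f : Lau κ r) (g : Gx r) :
    cf (mono h c * f) g = c * cf f (g - h) := by
  have := AddMonoidAlgebra.coeff_single_mul_apply (R := κ) (G := Gx r) f c h g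
  rw [neg_add_eq_sub] at this
  exact this

theorem mb_cf_sum {ι : Type*} (s : Finset ι) (f : ι → Lau κ r) (g : Gx r) :
    cf (∑ i ∈ s, f i) g = ∑ i ∈ s, cf (f i) g := by
  classical
  induction s using Finset.induction_on with
  | empty => simp [cf_zero]
  | insert a s ha ih => rw [Finset.sum_insert ha, Finset.sum_insert ha, cf_add, ih]

theorem mb_cf_neg (f : Lau κ r) (g : Gx r) : cf (-f) g = -cf f g := by
  have h := cf_add f (-f) g
  rw [add_neg_cancel, cf_zero] at h
  exact (neg_eq_of_add_eq_zero_right h.symm).symm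

theorem mb_cf_smul (c : κ) (f : Lau κ r) (g : Gx r) : cf (c • f) g = c * cf f g := rfl

theorem mb_cf_zsmul (c : ℤ) (f : Lau κ r) (g : Gx r) : cf (c • f) g = c • cf f g := by
  induction c using Int.induction_on with
  | zero => simp [cf_zero]
  | succ n ih => rw [add_smul, add_smul, cf_add, ih, one_smul, one_smul]
  | pred n ih => rw [sub_smul, sub_smul, sub_eq_add_neg, cf_add, mb_cf_neg, ih, one_smul, one_smul,
      sub_eq_add_neg]

theorem mb_lau_ext {f f' : Lau κ r} (h : ∀ g, cf f g = cf f' g) : f = f' := by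
  have : AddMonoidAlgebra.coeff (R := κ) (M := Gx r) f = AddMonoidAlgebra.coeff f' := by
    ext g
    exact h g
  exact (AddMonoidAlgebra.coeffEquiv (R := κ) (M := Gx r)).injective this

/-- the coefficients of `X_l • f`. -/
theorem mb_cf_X_smul (l : Fin (r + 1)) (f : Lau κ r) (g : Gx r) :
    cf ((MvPolynomial.X l : PP κ r) • f) g =
      ∑ L ∈ (Finset.univ : Finset (Fin r)).powersetCard l, cf f (g - ex L) := by
  rw [Algebra.smul_def, algebraMap_X, xl, Finset.sum_mul, mb_cf_sum]
  refine Finset.sum_congr rfl fun L _ => ?_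
  rw [mb_cf_mono_mul, one_mul]

/-- the support of `q • f` is inside the closure of the support of `f` under the monomials. -/
theorem mb_support_smul {E : Set (Gx r)} (hE : NUp E) (q : PP κ r) :
    ∀ f : Lau κ r, (∀ g, cf f g ≠ 0 → g ∈ E) → ∀ g, cf (q • f) g ≠ 0 → g ∈ E := by
  induction q using MvPolynomial.induction_on with
  | C c =>
    intro f hf g hg
    refine hf g fun h0 => hg ?_
    have : (MvPolynomial.C c : PP κ r) • f = c • f := by
      rw [Algebra.smul_def, Algebra.smul_def]
      congr 1
      change MvPolynomial.aeval (xl κ (r := r)) (MvPolynomial.C c) = _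
      rw [MvPolynomial.aeval_C]
    rw [this, mb_cf_smul, h0, mul_zero]
  | add p q hp hq =>
    intro f hf g hg
    rw [add_smul, cf_add] at hg
    by_cases h1 : cf (p • f) g = 0
    · rw [h1, zero_add] at hg
      exact hq f hf g hg
    · exact hp f hf g h1
  | mul_X p l hp =>
    intro f hf g hg
    rw [mul_smul] at hg
    refine hp _ (fun g' hg' => ?_) g hg
    rw [mb_cf_X_smul] at hg'
    obtain ⟨L, _, hL⟩ := Finset.exists_ne_zero_of_sum_ne_zero hg'
    have := hE _ L (hf _ hL)
    rwa [sub_add_cancel] at this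

/-- TASK M0: membership for stable sets of monomials. -/
theorem mem_Mon {E : Set (Finset (Fin r) × Gx r)} (hE : Up E) (f : Lam κ r) :
    f ∈ Mon κ E ↔ ∀ I g, cf (f I) g ≠ 0 → (I, g) ∈ E := by
  constructor
  · intro h I g hg
    exact h 1 I g (by rwa [one_smul])
  · intro h q I g hg
    exact mb_support_smul (E := {g | (I, g) ∈ E}) (fun g' L hg' => hE I g' L hg') q (f I)
      (fun g' hg' => h I g' hg') g hg

/-- TASK M0. -/
theorem mem_NMon {E : Set (Gx r)} (hE : NUp E) (f : Lau κ r) :
    f ∈ NMon κ E ↔ ∀ g, cf f g ≠ 0 → g ∈ E := by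
  constructor
  · intro h g hg
    exact h 1 g (by rwa [one_smul])
  · intro h q g hg
    exact mb_support_smul hE q f h g hg

/-! ### stable sets -/

theorem mb_ex_fst_nonneg (L : Finset (Fin r)) (i : Fin r) : 0 ≤ (ex L).1 i := by
  unfold ex
  dsimp only
  split_ifs <;> norm_num

theorem mb_ex_fst_le (L : Finset (Fin r)) (i : Fin r) : (ex L).1 i ≤ 1 := by
  unfold ex
  dsimp only
  split_ifs <;> norm_num

theorem mb_ex_snd (L : Finset (Fin r)) : (ex L).2 = 1 := rfl

/-- TASK M0. -/
theorem up_SF : Up (SF r) := by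
  intro I g L h i hi
  have h1 := h i hi
  have h2 := mb_ex_fst_nonneg L i
  change 0 ≤ g.1 i + (ex L).1 i
  change 0 ≤ g.1 i at h1
  omega

/-- TASK M0. -/
theorem up_SG (a : Fin r → ℤ) : Up (SG a) := by
  rintro I g L ⟨h, i, hi, h1⟩
  refine ⟨up_SF I g L h, i, hi, ?_⟩
  have h2 := mb_ex_fst_le L i
  have h3 := mb_ex_snd L
  change g.1 i + (ex L).1 i ≤ a i + (g.2 + (ex L).2)
  change g.1 i ≤ a i + g.2 at h1
  omega

/-- TASK M0. -/
theorem up_SW (a : Fin r → ℤ) (Q k : ℕ) : Up (SW a Q k) := by
  rintro I g L (h | ⟨h, h1⟩)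
  · exact Or.inl (up_SG a I g L h)
  · refine Or.inr ⟨up_SF I g L h, ?_⟩
    have h3 := mb_ex_snd L
    change (1 - (k : ℤ)) * Q ≤ g.2 + (ex L).2
    change (1 - (k : ℤ)) * Q ≤ g.2 at h1
    rw [h3]
    linarith

/-- TASK M0. -/
theorem up_grd {E : Set (Finset (Fin r) × Gx r)} (hE : Up E) (p : ℤ) : Up (grd E p) := by
  rintro I g L ⟨h, h1⟩
  exact ⟨hE I g L h, h1⟩

/-- TASK M0. -/
theorem nup_SN (a : Fin r → ℤ) : NUp (SN a) := by
  rintro g L ⟨h, h1⟩
  refine ⟨?_, fun i => ⟨?_, ?_⟩⟩
  · have h3 := mb_ex_snd L
    change 0 ≤ g.2 + (ex L).2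
    omega
  · have h2 := mb_ex_fst_nonneg L i
    have := (h1 i).1
    change 0 ≤ g.1 i + (ex L).1 i
    omega
  · have h2 := mb_ex_fst_le L i
    have h3 := mb_ex_snd L
    have := (h1 i).2
    change g.1 i + (ex L).1 i ≤ a i + (g.2 + (ex L).2)
    omega

/-! ### the Čech differential -/

theorem mb_dC_apply (f : Lam κ r) (I : Finset (Fin r)) :
    dC κ r f I = ∑ i ∈ I, sg i I • f (I.erase i) := rfl

theorem mb_sg_swap_aux {I : Finset (Fin r)} {i j : Fin r} (hi : i ∈ I) (hij : i < j) :
    sg i I * sg j (I.erase i) + sg j I * sg i (I.erase j) = 0 := by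
  unfold sg
  have h1 : ((I.erase j).filter (· < i)) = I.filter (· < i) := by
    ext k
    simp only [Finset.mem_filter, Finset.mem_erase]
    constructor
    · rintro ⟨⟨_, h⟩, h'⟩; exact ⟨h, h'⟩
    · rintro ⟨h, h'⟩; exact ⟨⟨(h'.trans hij).ne, h⟩, h'⟩
  have h2 : (I.filter (· < j)) = insert i ((I.erase i).filter (· < j)) := by
    ext k
    simp only [Finset.mem_filter, Finset.mem_erase, Finset.mem_insert]
    constructor
    · rintro ⟨h, h'⟩
      by_cases hk : k = i
      · exact Or.inl hk
      · exact Or.inr ⟨⟨hk, h⟩, h'⟩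
    · rintro (rfl | ⟨⟨_, h⟩, h'⟩)
      · exact ⟨hi, hij⟩
      · exact ⟨h, h'⟩
  rw [h1, h2, Finset.card_insert_of_notMem (by simp)]
  ring

theorem mb_sg_swap {I : Finset (Fin r)} {i j : Fin r} (hi : i ∈ I) (hj : j ∈ I) (hij : i ≠ j) :
    sg i I * sg j (I.erase i) + sg j I * sg i (I.erase j) = 0 := by
  rcases lt_or_gt_of_ne hij with h | h
  · exact mb_sg_swap_aux hi h
  · rw [add_comm]; exact mb_sg_swap_aux hj h

/-- TASK M1. -/
theorem dC_dC (f : Lam κ r) : dC κ r (dC κ r f) = 0 := by
  funext I
  rw [mb_dC_apply, Pi.zero_apply]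
  simp only [mb_dC_apply, Finset.smul_sum, smul_smul]
  rw [Finset.sum_sigma']
  refine Finset.sum_involution (fun x _ => (⟨x.2, x.1⟩ : Σ _ : Fin r, Fin r)) ?_ ?_ ?_ ?_
  · rintro ⟨i, j⟩ hx
    simp only [Finset.mem_sigma, Finset.mem_erase] at hx
    obtain ⟨hi, hji, hj⟩ := hx
    dsimp only
    rw [Finset.erase_right_comm (a := j) (b := i), ← add_smul, mb_sg_swap hi hj hji.symm, zero_smul]
  · rintro ⟨i, j⟩ hx _ h
    simp only [Finset.mem_sigma, Finset.mem_erase] at hx
    simp only [Sigma.mk.injEq, heq_eq_eq] at h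
    exact hx.2.1 h.1
  · rintro ⟨i, j⟩ hx
    simp only [Finset.mem_sigma, Finset.mem_erase] at hx ⊢
    exact ⟨hx.2.2, fun h => hx.2.1 h.symm, hx.1⟩
  · rintro ⟨i, j⟩ hx
    rfl

/-- TASK M1. -/
theorem cstab_MF {E : Set (Finset (Fin r) × Gx r)} (hE : Up E)
    (hE' : ∀ I g i, (I, g) ∈ E → i ∉ I → (insert i I, g) ∈ E) : CStab (dC κ r) (MF κ E) := by
  intro p f hf
  rw [MF, mem_Mon (up_grd hE _)] at hf ⊢
  intro I g hg
  rw [mb_dC_apply, mb_cf_sum] at hg
  obtain ⟨i, hi, h1⟩ := Finset.exists_ne_zero_of_sum_ne_zero hg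
  have h2 : cf (f (I.erase i)) g ≠ 0 := by
    intro h0
    apply h1
    rw [mb_cf_zsmul, h0, smul_zero]
  obtain ⟨h3, h4⟩ := hf _ _ h2
  have h5 := hE' _ _ i h3 (Finset.notMem_erase i I)
  rw [Finset.insert_erase hi] at h5
  refine ⟨h5, ?_⟩
  change ((I.erase i).card : ℤ) = p at h4
  change (I.card : ℤ) = p + 1
  have := Finset.card_erase_add_one hi
  rw [← this]
  push_cast
  rw [h4]

end Vale.Agent.P202.CharP
end
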