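import Vale.Agent.P202.MathlibUsed
import Vale.Agent.P202.Bdl.B2
import Vale.Agent.P202.Bdl.B7
import Vale.Agent.P202.Bdl.B12
import Vale.Agent.P202.Bdl.B4
import Vale.Agent.P202.Bdl.B5
import Vale.Agent.P202.Bdl.B6
import Vale.Agent.P202.Bdl.B10
attribute [-instance] DenselyNormedField.toNontriviallyNormedField DenselyNormedField.toNormedField NontriviallyNormedField.toNormedField RCLike.toDenselyNormedField NormedField.toField NormedField.toNormedDivisionRing IdemCommSemiring.toCommSemiring NormedDivisionRing.toDivisionRing IdemCommSemiring.toIdemSemiring KleeneAlgebra.toIdemSemiring CommSemiRingCat.instCommSemiringObjForgetRingHomCarrier SemiRingCat.instSemiringObjForgetRingHomCarrier instCoeTOfCoeDep NormedField.toNormedCommRing NormedCommRing.toNormedRing NormedDivisionRing.toNormedRing LinearOrderedAddCommGroupWithTop.instLinearOrderedAddCommMonoidWithTop LinearOrderedAddCommGroupWithTop.toAddCommMonoid LinearOrderedAddCommMonoidWithTop.toAddCommMonoid SemimoduleCat.isAddCommMonoid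 NormedCommRing.toSeminormedCommRing NormedCommRing.toNonUnitalNormedCommRing NonUnitalNormedCommRing.toNonUnitalNormedRing NormedRing.toNonUnitalNormedRing NormedRing.toSeminormedRing SeminormedCommRing.toSeminormedRing EuclideanDomain.toCommRing NormedCommRing.toCommRing SeminormedCommRing.toCommRing LieRing.toAddCommGroup NormedRing.toRing SeminormedRing.toRing NonUnitalNormedRing.toNormedAddCommGroup NonUnitalNormedCommRing.toNonUnitalSeminormedCommRing SeminormedCommRing.toNonUnitalSeminormedCommRing NonUnitalNormedRing.toNonUnitalSeminormedRing NonUnitalSeminormedCommRing.toNonUnitalSeminormedRing SeminormedRing.toNonUnitalSeminormedRing Ring.toNonAssocRing ModuleCat.isModule CommSemiring.toNonAssocCommSemiring NonAssocCommRing.toNonAssocCommSemiring NonAssocCommSemiring.toNonAssocSemiring NonAssocRing.toNonAssocSemiring CommRing.toAddCommGroupWithOne LieAlgebra.toModule NormedSpace.toModule AddCommGroupWithOne.toAddCommMonoidWithOne NonAssocCommRing.toNonUnitalNonAssocCommRing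 NonUnitalNormedCommRing.toNonUnitalCommRing NonUnitalSeminormedCommRing.toNonUnitalCommRing NonUnitalNormedRing.toNonUnitalRing NonUnitalRing.toNonUnitalNonAssocRing NonUnitalSeminormedRing.toNonUnitalRing Ring.toNonUnitalRing TopologicalSpace.Compacts.instSetLike NonAssocCommSemiring.toNonUnitalNonAssocCommSemiring NonUnitalNonAssocCommSemiring.toNonUnitalNonAssocSemiring NonUnitalRing.toNonUnitalSemiring NonUnitalSemiring.toNonUnitalNonAssocSemiring Pi.seminormedAddCommGroup NormedCommGroup.toNormedGroup NormedCommGroup.toSeminormedCommGroup NormedGroup.toSeminormedGroup SeminormedCommGroup.toSeminormedGroup AddMonCat.addMonoidObj Invertible.toNeZero NeZero.of_gt' Nat.AtLeastTwo.toNeZero ModuleCat.instAddCommGroupCarrierMkOfSMul' AbsoluteValue.funLike NormedAddCommGroup.toNormedAddGroup CompleteAtomicBooleanAlgebra.toCompleteBooleanAlgebra Nat.instAtLeastTwoHAddOfNat NonUnitalSeminormedRing.toSeminormedAddCommGroup NormedAddCommGroup.toSeminormedAddCommGroup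 LinearOrderedAddCommGroupWithTop.toSubNegMonoid LinearOrderedCommMonoidWithZero.toIsBotZeroClass CompleteAtomicBooleanAlgebra.toCompletelyDistribLattice CompleteBooleanAlgebra.toCompleteDistribLattice CompleteLinearOrder.toCompletelyDistribLattice CompletelyDistribLattice.toCompleteDistribLattice Nat.Prime.one_lt' CompleteDistribLattice.toCoframe CompleteDistribLattice.toFrame Filter.instMembership AddCommGroupWithOne.toAddCommGroup NonUnitalNonAssocRing.toAddCommGroup NormedAddCommGroup.toAddCommGroup SeminormedAddCommGroup.toAddCommGroup ENormedAddCommMonoid.toESeminormedAddCommMonoid NormedAddCommGroup.toENormedAddCommMonoid Algebra.Generators.instRing NormedAddGroup.toSeminormedAddGroup SeminormedAddCommGroup.toSeminormedAddGroup MulSemiringAction.toDistribMulAction instCoeTC instCoeTCOfCoe instCoeTCOfCoe_1 NormedAddGroup.toAddGroup SeminormedAddGroup.toAddGroup LinearOrderedAddCommGroupWithTop.toSubtractionMonoid CommGroup.toGroup NormedCommGroup.toCommGroup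 NormedGroup.toGroup SeminormedCommGroup.toCommGroup SeminormedGroup.toGroup AddCancelCommMonoid.toAddCancelMonoid AddCancelCommMonoid.toAddCommMonoid AddCancelCommMonoid.toAddLeftCancelMonoid AddCancelMonoid.toAddLeftCancelMonoid AddCancelMonoid.toAddRightCancelMonoid AddCommGroup.toAddCancelCommMonoid AddLeftCancelMonoid.toAddMonoid AddRightCancelMonoid.toAddMonoid ENormedAddCommMonoid.toENormedAddMonoid ENormedAddMonoid.toESeminormedAddMonoid ESeminormedAddCommMonoid.toAddCommMonoid ESeminormedAddCommMonoid.toESeminormedAddMonoid ESeminormedAddMonoid.toAddMonoid NormedAddGroup.toENormedAddMonoid SubtractionCommMonoid.toAddCommMonoid Pi.addMonoidWithOne CompleteBooleanAlgebra.toBooleanAlgebra RingCat.instRingObjForgetRingHomCarrier EMetricSpace.toPseudoEMetricSpace MetricSpace.toEMetricSpace MetricSpace.toPseudoMetricSpace NonUnitalNormedRing.toMetricSpace NonUnitalSeminormedRing.toPseudoMetricSpace NormedAddCommGroup.toMetricSpace NormedAddGroup.toMetricSpace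 NormedCommGroup.toMetricSpace NormedDivisionRing.toMetricSpace NormedField.toMetricSpace NormedGroup.toMetricSpace NormedRing.toMetricSpace PseudoEMetricSpace.toUniformSpace PseudoMetricSpace.toPseudoEMetricSpace PseudoMetricSpace.toUniformSpace SeminormedAddCommGroup.toPseudoMetricSpace SeminormedAddGroup.toPseudoMetricSpace SeminormedCommGroup.toPseudoMetricSpace SeminormedGroup.toPseudoMetricSpace SeminormedRing.toPseudoMetricSpace UniformSpace.toTopologicalSpace Valued.toUniformSpace WithIdeal.instTopologicalSpace WithIdeal.instUniformSpace CompleteBooleanAlgebra.toCompleteLattice CompleteLinearOrder.toCompleteLattice CompletelyDistribLattice.toCompleteLattice Order.Coframe.toCompleteLattice Order.Frame.toCompleteLattice Nat.instOne Algebra.Generators.instIsScalarTowerRing LinearOrderedCommGroupWithZero.toLinearOrderedCommMonoidWithZero CompleteLattice.toCompletePartialOrder BooleanAlgebra.toBiheytingAlgebra CompleteDistribLattice.toBiheytingAlgebra CompleteLinearOrder.toBiheytingAlgebra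 CompletelyDistribLattice.toBiheytingAlgebra Fin.completeLinearOrder CompleteLinearOrder.toConditionallyCompleteLinearOrderBot Torsor.toMulAction GradedMonoid.GradeZero.mulAction ChainCompletePartialOrder.instOfCompleteLattice ChainCompletePartialOrder.instOmegaCompletePartialOrder ChainCompletePartialOrder.toPartialOrder CompletePartialOrder.toOmegaCompletePartialOrder CompletePartialOrder.toPartialOrder OmegaCompletePartialOrder.toPartialOrder ConditionallyCompleteLinearOrderBot.toConditionallyCompleteLinearOrder BiheytingAlgebra.toCoheytingAlgebra Order.Coframe.toCoheytingAlgebra BiheytingAlgebra.toHeytingAlgebra BooleanAlgebra.toGeneralizedBooleanAlgebra Order.Frame.toHeytingAlgebra instCoeHTC instCoeHTCT Fin.instBiheytingAlgebra TensorProduct.instModule MonCat.monoidObj instDistribSMul NonUnitalNonAssocSemiring.toDistribSMul Pi.preorder CompleteLinearOrder.toLinearOrder ConditionallyCompleteLinearOrder.toLinearOrder LinearOrderedAddCommGroupWithTop.toLinearOrder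 LinearOrderedAddCommMonoidWithTop.toLinearOrder LinearOrderedCommMonoidWithZero.toLinearOrder CoheytingAlgebra.toGeneralizedCoheytingAlgebra GeneralizedBooleanAlgebra.toGeneralizedCoheytingAlgebra HeytingAlgebra.toGeneralizedHeytingAlgebra OrderDual.instDivisionRing AddOpposite.instAddZero Algebra.Extension.commRing instNeZeroNatHAdd instSMulZeroClass instNonUnitalAlgHomClassOfNonUnitalAlgEquivClass OrderDual.instDivisionSemiring Pi.instTopForall LinearOrderedCommGroupWithZero.toCommGroupWithZero Semifield.toCommGroupWithZero Vector.instHMul instSubsingleton IsEmpty.instSubsingleton Unique.instSubsingleton CommMonCat.str AddGrpCat.str coePNatNat Nat.Primes.coeNat Nat.Primes.coePNat Set.instEmptyCollection CommGroupWithZero.toGroupWithZero SubfieldClass.toSubringClass CommGroupWithZero.toCommMonoidWithZero LinearOrderedCommMonoidWithZero.toCommMonoidWithZero instConditionallyCompletePartialOrderSup CompleteLattice.toCompleteSemilatticeInf CompleteLattice.toCompleteSemilatticeSup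 ConditionallyCompletePartialOrder.toConditionallyCompletePartialOrderInf Fin.instCoheytingAlgebra Fin.instHeytingAlgebra Part.ofOptionDecidable Pi.partialOrder NormedAlgebra.id NormedAlgebra.toAlgebra Field.henselian Field.instIsLocalRing HenselianLocalRing.toIsLocalRing IsDiscreteValuationRing.toIsLocalRing IsRegularLocalRing.instOfIsLocalRingOfIsDomainOfIsPrincipalIdealRing IsRegularLocalRing.toIsLocalRing ValuationRing.isLocalRing GroupWithZero.toMonoidWithZero MonoidWithZero.toSemigroupWithZero NonUnitalNonAssocSemiring.toMulZeroClass SemigroupWithZero.toMulZeroClass Pi.semigroup instOfNatAtLeastTwo AbsoluteValue.mulHomClass ENormedCommMonoid.toESeminormedCommMonoid NormedCommGroup.toENormedCommMonoid instNonUnitalSubringClassIdeal SubringClass.nonUnitalSubringClass Std.Time.WallTime.instHAddOffset_1 AddHom.addHomClass instFiniteProp SubfieldClass.toNormedField IsLocalRing.toNontrivial IsSimpleOrder.toNontrivial BooleanAlgebra.toDistribLattice CompleteLattice.toPartialOrder'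 CompleteSemilatticeInf.toPartialOrder CompleteSemilatticeSup.toPartialOrder ConditionallyCompletePartialOrderInf.toPartialOrder GeneralizedBooleanAlgebra.toDistribLattice GeneralizedCoheytingAlgebra.toDistribLattice GeneralizedCoheytingAlgebra.toLattice GeneralizedHeytingAlgebra.toDistribLattice GeneralizedHeytingAlgebra.toLattice LinearOrder.toLattice Order.Coframe.toDistribLattice Order.Frame.toDistribLattice LinearOrder.toDecidableEq RCLike.toDecidableEq instRingHomSurjectiveForallEvalRingHom Pi.normedCommutativeRing SubringClass.toNormedCommRing Pi.mulZeroOneClass Pi.mulOneClass Pi.normedRing SubalgebraClass.normedRing SubringClass.toNormedRing OrderAddMonoidHom.instAddMonoidHomClass AlgEquivClass.toAlgHomClass Ideal.instHasQuotient DivisionRing.toNontrivial LinearOrderedAddCommGroupWithTop.toNontrivial SubringClass.toSeminormedCommRing AbsoluteValue.zeroHomClass ValuationClass.toMonoidWithZeroHomClass decidableEq_of_subsingleton CategoryTheory.instFinCategoryOfFintypeOfIsThin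 SetLike.instFintype Unique.fintype CategoryTheory.FinCategory.fintypeObj Pi.nonUnitalNormedCommRing Pi.nonUnitalNormedRing Pi.normedAddCommGroup SubalgebraClass.seminormedRing SubfieldClass.toField SubringClass.toSeminormedRing CoheytingAlgebra.toOrderTop LinearOrderedAddCommGroupWithTop.toOrderTop LinearOrderedAddCommMonoidWithTop.toOrderTop MulSemiringActionSemiHomClass.toDistribMulActionSemiHomClass Std.DTreeMap.Raw.instInsertSigma Pi.seminormedCommRing AddSubgroupClass.normedAddCommGroup NonUnitalSubalgebraClass.nonUnitalNormedRing instInhabitedOfMonad SubringClass.toCommRing Unique.instInhabited SetLike.GradeZero.instCommRing instIsDedekindDomainOfIsDomainOfIsDedekindRing BooleanAlgebra.toTop FloorSemiring.instCharZero IsDedekindDomainDvr.isDedekindDomain IsStrictOrderedRing.toCharZero NumberField.to_charZero RCLike.charZero_rclike CategoryTheory.Groupoid.toCategory CategoryTheory.StrictBicategory.category ContinuousSemilinearEquivClass.continuousSemilinearMapClass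 ContinuousSemilinearMapClass.toSemilinearMapClass RingHomClass.toLinearMapClassNNRat RingHomClass.toLinearMapClassRat SemilinearIsometryClass.toContinuousSemilinearMapClass SemilinearIsometryClass.toSemilinearMapClass Pi.mulZeroClass Pi.instBotForall Pi.seminormedRing Std.DTreeMap.Raw.instSingletonSigma bot_nonempty infSet_to_nonempty instNonemptyOfInhabited instNonemptyOfMonad supSet_to_nonempty top_nonempty AddTorsor.nonempty CommGroup.toDivisionCommMonoid CommGroupWithZero.toDivisionCommMonoid ConnectedSpace.toNonempty DivisionCommMonoid.toDivisionMonoid Group.toDivisionMonoid GroupWithZero.toDivisionMonoid IrreducibleSpace.toNonempty Nontrivial.to_nonempty One.instNonempty Torsor.nonempty Zero.instNonempty CategoryTheory.IsConnected.is_nonempty BoundedOrder.toOrderBot CompletePartialOrder.toOrderBot ConditionallyCompleteLinearOrderBot.toOrderBot GeneralizedBooleanAlgebra.toOrderBot GeneralizedCoheytingAlgebra.toOrderBot GeneralizedHeytingAlgebra.toOrderTop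 HeytingAlgebra.toOrderBot IdemSemiring.toOrderBot IrreducibleSpace.connectedSpace LinearOrderedCommMonoidWithZero.toOrderBot PathConnectedSpace.connectedSpace Pi.smulZeroClass' Pi.instLocallyFiniteOrder forall_prop_decidable Array.instDecidableForallForallMemOfDecidablePred Finset.decidableDforallFinset Fintype.decidableForallFintype Multiset.decidableDforallMultiset Option.decidableForallMem Vector.instDecidableForallForallMemOfDecidablePred SubfieldClass.toDivisionRing SubringClass.toRing SetLike.GradeZero.instRing instInfiniteOfUncountable instIsDomain AddCommGroup.toGrindIntModule AddCommMonoid.toGrindNatModule AddGroup.instAddTorsor AddSubgroupClass.seminormedAddCommGroup BooleanAlgebra.toBot BooleanAlgebra.toBoundedOrder CancelCommMonoid.toCancelMonoid CancelCommMonoid.toCommMonoid CancelCommMonoid.toLeftCancelMonoid CancelMonoid.toLeftCancelMonoid CancelMonoid.toRightCancelMonoid CategoryTheory.isConnected_of_nonempty_and_subsingleton CharZero.infinite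 CoheytingAlgebra.toBoundedOrder CommGroup.toCancelCommMonoid CommGroup.toCommMonoid CommRing.toGrindCommRing CommSemiring.toGrindCommSemiring CompletePartialOrder.toSupSet CompleteSemilatticeInf.toInfSet CompleteSemilatticeSup.toSupSet ConditionallyCompleteLattice.toInfSet ConditionallyCompleteLattice.toSupSet ConditionallyCompletePartialOrderInf.toInfSet ConditionallyCompletePartialOrderSup.toSupSet Denumerable.instInfinite DivInvOneMonoid.toDivInvMonoid DivInvOneMonoid.toInvOneClass DivisionCommMonoid.toCommMonoid DivisionMonoid.toDivInvMonoid DivisionMonoid.toDivInvOneMonoid DivisionRing.isDomain DivisionRing.toDivInvMonoid ENormedCommMonoid.toENormedMonoid ENormedMonoid.toESeminormedMonoid ESeminormedCommMonoid.toCommMonoid ESeminormedCommMonoid.toESeminormedMonoid ESeminormedMonoid.toMonoid EuclideanDomain.instIsDomain Field.isDomain Field.toGrindField GeneralizedBooleanAlgebra.toBot Group.instTorsor Group.toCancelMonoid Group.toDivInvMonoid GroupWithZero.toDivInvMonoid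 GroupWithZero.toNontrivial HeytingAlgebra.toBoundedOrder Infinite.instNontrivial InvOneClass.toOne IsAlgClosed.instInfinite IsDedekindDomain.toIsDomain IsOrderedRing.toIsStrictOrderedRing IsSimpleAddGroup.toNontrivial IsSimpleGroup.toNontrivial IsSimpleRing.instNontrivial IsStrictOrderedRing.isDomain IsStrictOrderedRing.toNontrivial LeftCancelMonoid.toMonoid MonoidWithZero.toMonoid MulZeroClass.negZeroClass NoMaxOrder.infinite NoMinOrder.infinite NonUnitalSubalgebraClass.nonUnitalSeminormedRing NontriviallyNormedField.infinite NormedGroup.toENormedMonoid NormedSpace.instPathConnectedSpace One.ofOfNat1 Pi.commMagma RightCancelMonoid.toMonoid Ring.toGrindRing Semiring.toGrindSemiring Zero.ofOfNat0 GradedMonoid.GradeZero.commMonoid GradedMonoid.GradeZero.monoid NumberField.instFiniteDimensional Pi.nonUnitalSeminormedCommRing Pi.nonUnitalSeminormedRing Submodule.addSubgroupClass Fin.addCommGroup Fin.instInhabited Fin.instNonUnitalCommRing AlgHomClass.linearMapClass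 NonUnitalAlgHomClass.instSemilinearMapClassOfNonUnitalAlgSemiHomClassToMonoidHomRingHom Pi.instCompleteAtomicBooleanAlgebra Pi.instCompleteBooleanAlgebra ContinuousAddMonoidHom.instCoeOutOfAddMonoidHomClassOfContinuousMapClass ContinuousMonoidHom.instCoeOutOfMonoidHomClassOfContinuousMapClass HomeomorphClass.instCoeOutHomeomorph IsometryClass.instCoeOutIsometryEquiv Fin.addCommMonoid Fin.instBoundedOrder Fin.instCommMonoid Fin.instNontrivial SemilinearIsometryEquivClass.toSemilinearIsometryClass Submodule.normedAddCommGroup Submodule.seminormedAddCommGroup instIsNoetherianRingOfIsArtinianRing IsDedekindDomainDvr.toIsNoetherian IsDedekindRing.toIsNoetherian IsRegularLocalRing.toIsNoetherian IsSimpleModule.instIsNoetherian Ring.HasFiniteQuotients.instIsNoetherianRing AddSubgroupClass.toAddCommGroup NonUnitalSubringClass.toNonUnitalCommRing NonUnitalSubringClass.toNonUnitalNonAssocCommRing NonUnitalSubringClass.toNonUnitalNonAssocRing NonUnitalSubringClass.toNonUnitalRing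 SubringClass.toNonAssocCommRing SubringClass.toNonAssocRing Monoid.End.instMonoidHomClass LinOrd.str Finite.of_subsingleton Pi.instMaxForall_mathlib SetLike.instFinite IdemSemiring.toCanonicallyOrderedAdd Pi.instBooleanAlgebra Pi.instCompleteDistribLattice Pi.instCompletelyDistribLattice Algebra.TensorProduct.instCommRing Algebra.TensorProduct.instNonAssocRing Algebra.TensorProduct.instRing isNoetherian_of_finite isNoetherian_of_subsingleton IsSemisimpleModule.instIsNoetherianOfFinite PrincipalIdealRing.isNoetherianRing MulZeroClass.toSMulWithZero NonUnitalSubringClass.addSubgroupClass SubringClass.addSubgroupClass instFiniteOfFinitePresentation instFinitePresentation instIsSimpleModule Algebra.instFiniteOfIsQuadraticExtension FiniteDimensional.finiteDimensional_self Algebra.IsFiniteSplit.instFinitePresentation Module.Finite.self Module.FinitePresentation.of_subsingleton RingHom.Finite.instFinite instMulActionSemiHomClassMulActionHom Pi.distribSMul' IsStrictOrderedRing.noZeroDivisors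 NormMulClass.toNoZeroDivisors Ideal.instIdemCommSemiring Submodule.instIdemCommSemiring SubringClass.toSubsemiringClass Pi.nonUnitalCommRing Pi.nonUnitalNonAssocRing Pi.nonUnitalRing Int.decidableLELE Int.decidableLELT Int.decidableLTLE Int.decidableLTLT List.instDecidableMemOfLawfulBEq MonomialOrder.orderBot Pi.instBiheytingAlgebra Pi.instCoframe Pi.instFrame Pi.isScalarTower' Pi.smulCommClass' Algebra.TensorProduct.instNonUnitalNonAssocRing Algebra.TensorProduct.instNonUnitalRing GradedRing.toGradedMonoid instIsSemisimpleModuleOfIsSimpleModule instIsSemisimpleRingOfSubsingleton IsSemisimpleRing.isSemisimpleModule Module.instFiniteDimensionalOfIsReflexive Module.Finite.of_finite WithTop.addCommMonoidWithOne boolToProp Set.instNoZeroDivisors MulEquivClass.toMonoidWithZeroHomClass MulRingSeminormClass.toMonoidWithZeroHomClass Pi.divInvMonoid instIsBotZeroClass Pi.instGeneralizedCoheytingAlgebra Ideal.Quotient.commRing Ideal.Quotient.normedCommRing Ideal.Quotient.semiNormedCommRing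 -- iprune

set_option linter.all false

section

/-!
P202 MIX, M6 (helper666): a generic idempotent, and monic polynomials with a simple root.
-/

namespace Vale.Agent.P202.Mix

open Polynomial TensorProduct IsLocalRing

universe u

section aux

/-- A finite torsion-free module over a domain: a dual basis up to a nonzero denominator. -/
theorem exists_dual_family {Λ A : Type u} [CommRing Λ] [IsDomain Λ] [AddCommGroup A]
    [Module Λ A] [Module.Finite Λ A] :
    ∃ (ι : Type) (_ : Fintype ι) (e : ι → A) (φ : ι → (A →ₗ[Λ] Λ)) (d : Λ), d ≠ 0 ∧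
      ∀ x : A, d • x = ∑ i, φ i x • e i := by
  classical
  obtain ⟨n, v, hv⟩ := Module.Finite.exists_fin (R := Λ) (M := A)
  obtain ⟨s, hs, hmax⟩ := exists_maximal_linearIndepOn Λ v
  have hex : ∀ i : Fin n, ∃ c : Λ, c ≠ 0 ∧ c • v i ∈ Submodule.span Λ (v '' s) := by
    intro i
    by_cases hi : i ∈ s
    · exact ⟨1, one_ne_zero, by
        rw [one_smul]; exact Submodule.subset_span (Set.mem_image_of_mem _ hi)⟩
    · exact hmax i hi
  choose c hc0 hc using hex
  set d : Λ := ∏ i, c i with hd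
  have hd0 : d ≠ 0 := Finset.prod_ne_zero_iff.2 fun i _ => hc0 i
  have hdx : ∀ x : A, d • x ∈ Submodule.span Λ (v '' s) := by
    intro x
    have hx : x ∈ Submodule.span Λ (Set.range v) := hv ▸ Submodule.mem_top
    refine Submodule.span_induction ?_ ?_ ?_ ?_ hx
    · rintro _ ⟨i, rfl⟩
      rw [hd, ← Finset.mul_prod_erase Finset.univ c (Finset.mem_univ i), mul_comm, mul_smul]
      exact Submodule.smul_mem _ _ (hc i)
    · rw [smul_zero]; exact Submodule.zero_mem _
    · intro x y _ _ hx hy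
      rw [smul_add]; exact Submodule.add_mem _ hx hy
    · intro r x _ hx
      rw [smul_comm]; exact Submodule.smul_mem _ _ hx
  have hli : LinearIndependent Λ (fun i : s => v i) := hs
  have himg : Submodule.span Λ (v '' s) = Submodule.span Λ (Set.range fun i : s => v i) := by
    congr 1
    ext y
    simp
  rw [himg] at hdx
  let b := Module.Basis.span hli
  let D : A →ₗ[Λ] Submodule.span Λ (Set.range fun i : s => v i) :=
    LinearMap.codRestrict _ (d • (LinearMap.id : A →ₗ[Λ] A)) (fun x => hdx x)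
  refine ⟨s, inferInstance, fun i => v i, fun i => (b.coord i).comp D, d, hd0, fun x => ?_⟩
  have h := b.sum_repr (D x)
  have h2 := congrArg (Submodule.subtype _) h
  rw [map_sum] at h2
  have h3 : (Submodule.subtype (Submodule.span Λ (Set.range fun i : s => v i))) (D x) = d • x := rfl
  rw [h3] at h2
  rw [← h2]
  refine Finset.sum_congr rfl fun i _ => ?_
  rw [map_smul, LinearMap.comp_apply, Module.Basis.coord_apply]
  congr 1
  exact congrArg Subtype.val (Module.Basis.span_apply hli i)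

/-- coefficientwise application of a linear map -/
noncomputable def cw {Λ A : Type u} [CommRing Λ] [CommRing A] [Algebra Λ A] {s : ℕ}
    (φ : A →ₗ[Λ] Λ) (q : MvPolynomial (Fin s) A) : MvPolynomial (Fin s) Λ :=
  ∑ m ∈ q.support, MvPolynomial.monomial m (φ (q.coeff m))

theorem coeff_cw {Λ A : Type u} [CommRing Λ] [CommRing A] [Algebra Λ A] {s : ℕ}
    (φ : A →ₗ[Λ] Λ) (q : MvPolynomial (Fin s) A) (m : Fin s →₀ ℕ) :
    (cw φ q).coeff m = φ (q.coeff m) := by
  classical
  rw [cw, MvPolynomial.coeff_sum]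
  simp only [MvPolynomial.coeff_monomial]
  rw [Finset.sum_ite_eq']
  split_ifs with h
  · rfl
  · rw [MvPolynomial.notMem_support_iff.1 h, map_zero]

theorem cw_add {Λ A : Type u} [CommRing Λ] [CommRing A] [Algebra Λ A] {s : ℕ}
    (φ : A →ₗ[Λ] Λ) (q r : MvPolynomial (Fin s) A) : cw φ (q + r) = cw φ q + cw φ r := by
  ext m
  simp [coeff_cw]

theorem cw_zero {Λ A : Type u} [CommRing Λ] [CommRing A] [Algebra Λ A] {s : ℕ}
    (φ : A →ₗ[Λ] Λ) : cw φ (0 : MvPolynomial (Fin s) A) = 0 := by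
  ext m
  simp [coeff_cw]

theorem cw_sum {Λ A : Type u} [CommRing Λ] [CommRing A] [Algebra Λ A] {s : ℕ}
    (φ : A →ₗ[Λ] Λ) {κ : Type} (t : Finset κ) (q : κ → MvPolynomial (Fin s) A) :
    cw φ (∑ i ∈ t, q i) = ∑ i ∈ t, cw φ (q i) := by
  classical
  induction t using Finset.induction_on with
  | empty => simp [cw_zero]
  | insert i t hi ih => rw [Finset.sum_insert hi, Finset.sum_insert hi, cw_add, ih]

theorem cw_map_mul {Λ A : Type u} [CommRing Λ] [CommRing A] [Algebra Λ A] {s : ℕ}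
    (φ : A →ₗ[Λ] Λ) (p : MvPolynomial (Fin s) Λ) (q : MvPolynomial (Fin s) A) :
    cw φ (MvPolynomial.map (algebraMap Λ A) p * q) = p * cw φ q := by
  classical
  ext m
  rw [coeff_cw, MvPolynomial.coeff_mul, MvPolynomial.coeff_mul, map_sum]
  refine Finset.sum_congr rfl fun ij _ => ?_
  rw [MvPolynomial.coeff_map, ← Algebra.smul_def, map_smul, coeff_cw, smul_eq_mul]

theorem smul_eval_eq {Λ A : Type u} [CommRing Λ] [CommRing A] [Algebra Λ A] {s : ℕ}
    (a : Fin s → A) {ι : Type} [Fintype ι] (e : ι → A) (φ : ι → (A →ₗ[Λ] Λ)) (d : Λ)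
    (h : ∀ x : A, d • x = ∑ i, φ i x • e i) (q : MvPolynomial (Fin s) A) :
    d • MvPolynomial.eval a q = ∑ i, MvPolynomial.aeval a (cw (φ i) q) * e i := by
  have h1 : MvPolynomial.eval a q = ∑ m ∈ q.support, q.coeff m * m.prod fun j k => a j ^ k := by
    rw [MvPolynomial.eval_eq]
    rfl
  have h2 : ∀ i, MvPolynomial.aeval a (cw (φ i) q) =
      ∑ m ∈ q.support, algebraMap Λ A (φ i (q.coeff m)) * m.prod fun j k => a j ^ k := by
    intro i
    rw [cw, map_sum]
    exact Finset.sum_congr rfl fun m _ => MvPolynomial.aeval_monomial _ _ _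
  rw [h1, Finset.smul_sum]
  simp only [h2, Finset.sum_mul]
  rw [Finset.sum_comm]
  refine Finset.sum_congr rfl fun m _ => ?_
  rw [← smul_mul_assoc, h, Finset.sum_mul]
  refine Finset.sum_congr rfl fun i _ => ?_
  rw [Algebra.smul_def]
  ring

theorem sub_eval_mem {A : Type u} [CommRing A] {s : ℕ} (a : Fin s → A)
    (f : MvPolynomial (Fin s) A) :
    f - MvPolynomial.C (MvPolynomial.eval a f) ∈
      Ideal.span (Set.range fun j => MvPolynomial.X j - MvPolynomial.C (a j)) := by
  induction f using MvPolynomial.induction_on with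
  | C c => simp
  | add p q hp hq =>
    have : p + q - MvPolynomial.C (MvPolynomial.eval a (p + q)) =
        (p - MvPolynomial.C (MvPolynomial.eval a p)) +
          (q - MvPolynomial.C (MvPolynomial.eval a q)) := by
      rw [map_add, map_add]; ring
    rw [this]
    exact Ideal.add_mem _ hp hq
  | mul_X p j hp =>
    have : p * MvPolynomial.X j - MvPolynomial.C (MvPolynomial.eval a (p * MvPolynomial.X j)) =
        MvPolynomial.X j * (p - MvPolynomial.C (MvPolynomial.eval a p)) +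
          MvPolynomial.C (MvPolynomial.eval a p) * (MvPolynomial.X j - MvPolynomial.C (a j)) := by
      rw [map_mul, map_mul, MvPolynomial.eval_X]; ring
    rw [this]
    exact Ideal.add_mem _ (Ideal.mul_mem_left _ _ hp)
      (Ideal.mul_mem_left _ _ (Ideal.subset_span ⟨j, rfl⟩))

end aux

section M6

/-- TASK M6a: a generic idempotent. Proof: in `A[T]` let `ε = ∏_j F_j(T_j)/(T_j - a_j)`; for
`f ∈ Λ[T]` with `f(a) = 0` we have `f ∈ (T_j - a_j)`, hence `f ε ∈ (F_j(T_j)) A[T]`. For a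
`Λ`-linear `φ : A → Λ`, applied to the coefficients, `φ(ε) f ∈ (F_j(T_j)) Λ[T]`. As
`ε(a) = ∏ F_j'(a_j) ≠ 0`, some `φ` has `φ(ε)(a) ≠ 0` (basis of `Frac A` over `Frac Λ`, dual basis,
clear the denominators); multiply by a polynomial `β` with `β(a) φ(ε)(a) ∈ Λ - 0`. -/
theorem exists_idem {Λ A : Type u} [CommRing Λ] [IsDomain Λ] [CommRing A] [IsDomain A]
    [Algebra Λ A] [Module.Finite Λ A] (hinj : Function.Injective (algebraMap Λ A)) {s : ℕ}
    (a : Fin s → A) (ha : Algebra.adjoin Λ (Set.range a) = ⊤) (F : Fin s → Λ[X])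
    (hFm : ∀ j, (F j).Monic) (hF : ∀ j, aeval (a j) (F j) = 0)
    (hF' : ∀ j, aeval (a j) (derivative (F j)) ≠ 0) :
    ∃ (g : Λ) (E : MvPolynomial (Fin s) Λ), g ≠ 0 ∧
      MvPolynomial.aeval a E = algebraMap Λ A g ∧
      ∀ f : MvPolynomial (Fin s) Λ, MvPolynomial.aeval a f = 0 →
        E * f ∈ Ideal.span (Set.range fun j => Polynomial.toMvPolynomial j (F j)) := by
  classical
  have _ := hFm
  -- the quotients `G_j`
  set FA : Fin s → A[X] := fun j => (F j).map (algebraMap Λ A) with hFA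
  set G : Fin s → A[X] := fun j => FA j /ₘ (X - C (a j)) with hG
  have hroot : ∀ j, (FA j).IsRoot (a j) := by
    intro j
    rw [IsRoot.def, hFA, eval_map_algebraMap]
    exact hF j
  have hGmul : ∀ j, (X - C (a j)) * G j = FA j := fun j => mul_divByMonic_eq_iff_isRoot.2 (hroot j)
  have hGeval : ∀ j, (G j).eval (a j) ≠ 0 := by
    intro j h
    apply hF' j
    have h1 : (derivative (FA j)).eval (a j) = (G j).eval (a j) := by
      rw [← hGmul j, derivative_mul]
      simp
    rw [h, hFA, derivative_map, eval_map_algebraMap] at h1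
    exact h1
  set ε : MvPolynomial (Fin s) A := ∏ j, toMvPolynomial j (G j) with hε
  have hεa : MvPolynomial.eval a ε ≠ 0 := by
    rw [hε, map_prod]
    refine Finset.prod_ne_zero_iff.2 fun j _ => ?_
    rw [MvPolynomial.eval_toMvPolynomial]
    exact hGeval j
  -- `ε` kills
  set J : Ideal (MvPolynomial (Fin s) A) :=
    Ideal.span (Set.range fun j => toMvPolynomial j (FA j)) with hJ
  have hkill1 : ∀ f ∈ Ideal.span (Set.range fun j : Fin s =>
      (MvPolynomial.X j - MvPolynomial.C (a j) : MvPolynomial (Fin s) A)), ε * f ∈ J := by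
    intro f hf
    refine Submodule.span_induction ?_ ?_ ?_ ?_ hf
    · rintro _ ⟨j, rfl⟩
      have h1 : ε * (MvPolynomial.X j - MvPolynomial.C (a j)) =
          (∏ i ∈ Finset.univ.erase j, toMvPolynomial i (G i)) * toMvPolynomial j (FA j) := by
        rw [hε, ← Finset.mul_prod_erase Finset.univ _ (Finset.mem_univ j), ← hGmul j, map_mul,
          map_sub, toMvPolynomial_X, toMvPolynomial_C]
        ring
      change ε * (MvPolynomial.X j - MvPolynomial.C (a j)) ∈ J
      rw [h1]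
      exact Ideal.mul_mem_left _ _ (Ideal.subset_span ⟨j, rfl⟩)
    · rw [mul_zero]; exact Ideal.zero_mem _
    · intro x y _ _ hx hy
      rw [mul_add]; exact Ideal.add_mem _ hx hy
    · intro r x _ hx
      rw [smul_eq_mul, mul_left_comm]; exact Ideal.mul_mem_left _ _ hx
  have hkill : ∀ f : MvPolynomial (Fin s) A, MvPolynomial.eval a f = 0 → ε * f ∈ J := by
    intro f hf
    apply hkill1
    have := sub_eval_mem a f
    rwa [hf, map_zero, sub_zero] at this
  -- the dual family
  obtain ⟨ι, _, e, φ, d, hd0, hdφ⟩ := exists_dual_family (Λ := Λ) (A := A)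
  have hne : ∃ i, MvPolynomial.aeval a (cw (φ i) ε) ≠ 0 := by
    by_contra hcon
    push Not at hcon
    have h1 := smul_eval_eq a e φ d hdφ ε
    simp only [hcon, zero_mul, Finset.sum_const_zero] at h1
    rw [Algebra.smul_def] at h1
    rcases mul_eq_zero.1 h1 with h2 | h2
    · exact hd0 (hinj (by rw [h2, map_zero]))
    · exact hεa h2
  obtain ⟨i, hi⟩ := hne
  obtain ⟨g, hg0, z, hz⟩ :=
    ((Algebra.IsIntegral.isIntegral (R := Λ)
      (MvPolynomial.aeval a (cw (φ i) ε))).isAlgebraic).exists_nonzero_dvd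
        (mem_nonZeroDivisors_of_ne_zero hi)
  have hzmem : z ∈ Algebra.adjoin Λ (Set.range a) := ha ▸ Algebra.mem_top
  rw [Algebra.adjoin_range_eq_range_aeval] at hzmem
  obtain ⟨β, hβ⟩ := hzmem
  refine ⟨g, β * cw (φ i) ε, hg0, ?_, fun f hf => ?_⟩
  · rw [map_mul]
    rw [show (MvPolynomial.aeval a) β = z from hβ, hz, mul_comm]
  · have h1 : ε * MvPolynomial.map (algebraMap Λ A) f ∈ J := by
      apply hkill
      rw [MvPolynomial.eval_map, ← MvPolynomial.aeval_def]
      exact hf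
    obtain ⟨c, hc⟩ := Submodule.mem_span_range_iff_exists_fun _ |>.1 h1
    have h2 : cw (φ i) (ε * MvPolynomial.map (algebraMap Λ A) f) = f * cw (φ i) ε := by
      rw [mul_comm, cw_map_mul]
    have h3 : f * cw (φ i) ε = ∑ j, toMvPolynomial j (F j) * cw (φ i) (c j) := by
      rw [← h2, ← hc, cw_sum]
      refine Finset.sum_congr rfl fun j _ => ?_
      have h4 : toMvPolynomial j (FA j) =
          MvPolynomial.map (algebraMap Λ A) (toMvPolynomial j (F j)) := by
        rw [hFA]
        change toMvPolynomial j ((F j).map (algebraMap Λ A)) = _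
        induction (F j) using Polynomial.induction_on' with
        | add p q hp hq => rw [Polynomial.map_add, map_add, hp, hq, map_add, map_add]
        | monomial n c =>
          rw [Polynomial.map_monomial, ← C_mul_X_pow_eq_monomial, ← C_mul_X_pow_eq_monomial,
            map_mul, map_mul, map_pow, map_pow, toMvPolynomial_X, toMvPolynomial_X,
            toMvPolynomial_C, toMvPolynomial_C, map_mul, map_pow, MvPolynomial.map_C,
            MvPolynomial.map_X]
      rw [h4, smul_eq_mul, mul_comm, cw_map_mul]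
    have h5 : β * cw (φ i) ε * f = β * (f * cw (φ i) ε) := by ring
    rw [h5, h3]
    refine Ideal.mul_mem_left _ _ (Ideal.sum_mem _ fun j _ => ?_)
    exact Ideal.mul_mem_right _ _ (Ideal.subset_span ⟨j, rfl⟩)

/-- TASK M6b: monic polynomials with a simple root at `a`. Proof: `G` monic of degree `D1` with
lower coefficients in `𝔪` and `G(a) = 0` (Cayley-Hamilton for `a^M`); `P ≠ 0` in `Λ[T]` of minimal
degree with `P(a) = 0`, so `P'(a) ≠ 0`; `c ∈ 𝔪`, `c ≠ 0`. For `D ≥ D1, deg P + 1` take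
`F = G T^(D - D1)` or `G T^(D - D1) + c P`. -/
theorem exists_simple_root {Λ A : Type u} [CommRing Λ] [IsDomain Λ] [CommRing A] [IsDomain A]
    [CharZero A] [Algebra Λ A] [Module.Finite Λ A] (hinj : Function.Injective (algebraMap Λ A))
    (𝔪 : Ideal Λ) (h𝔪 : 𝔪 ≠ ⊥) (a : A) (M : ℕ) (ha : a ^ M ∈ 𝔪.map (algebraMap Λ A)) :
    ∃ D0 : ℕ, ∀ D, D0 ≤ D → ∃ F : Λ[X], F.Monic ∧ F.natDegree = D ∧ (∀ i < D, F.coeff i ∈ 𝔪) ∧
      aeval a F = 0 ∧ aeval a (derivative F) ≠ 0 := by
  classical
  have : CharZero Λ := by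
    refine ⟨fun m n h => ?_⟩
    have : ((m : Λ) : Λ) = (n : Λ) := h
    have h2 := congrArg (algebraMap Λ A) this
    rw [map_natCast, map_natCast] at h2
    exact_mod_cast h2
  -- Cayley-Hamilton
  have haM : a ^ (M + 1) ∈ 𝔪.map (algebraMap Λ A) := by
    rw [pow_succ]; exact Ideal.mul_mem_right _ _ ha
  have hrange : LinearMap.range (Algebra.lmul Λ A (a ^ (M + 1))) ≤
      𝔪 • (⊤ : Submodule Λ A) := by
    rintro _ ⟨x, rfl⟩
    have h1 : (𝔪 • (⊤ : Submodule Λ A)) = (𝔪.map (algebraMap Λ A)).restrictScalars Λ :=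
      Ideal.smul_top_eq_map 𝔪
    rw [h1]
    change a ^ (M + 1) * x ∈ 𝔪.map (algebraMap Λ A)
    exact Ideal.mul_mem_right _ _ haM
  obtain ⟨g0, hg0m, -, hg0c, hg0a⟩ :=
    LinearMap.exists_monic_and_natDegree_eq_and_coeff_mem_pow_and_aeval_eq_zero Λ
      (Algebra.lmul Λ A (a ^ (M + 1))) 𝔪 hrange
  have hg0a' : aeval (a ^ (M + 1)) g0 = 0 := by
    rw [Polynomial.aeval_algHom_apply] at hg0a
    exact Algebra.lmul_injective (by rw [hg0a, map_zero])
  set G : Λ[X] := Polynomial.expand Λ (M + 1) g0 with hG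
  have hGm : G.Monic := hg0m.expand (Nat.succ_pos M)
  have hGa : aeval a G = 0 := by
    rw [hG, Polynomial.expand_aeval]; exact hg0a'
  have hGd : G.natDegree = g0.natDegree * (M + 1) := natDegree_expand _ _
  have hGc : ∀ i < G.natDegree, G.coeff i ∈ 𝔪 := by
    intro i hi
    rw [hG, coeff_expand (Nat.succ_pos M)]
    split_ifs with h
    · have h2 : i / (M + 1) < g0.natDegree := by
        rw [hGd] at hi
        exact Nat.div_lt_of_lt_mul (by rwa [mul_comm])
      have h3 := hg0c (i / (M + 1))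
      exact Ideal.pow_le_self (by omega) h3
    · exact Ideal.zero_mem _
  -- minimal degree
  have hexP : ∃ n : ℕ, ∃ P : Λ[X], P ≠ 0 ∧ P.natDegree = n ∧ aeval a P = 0 :=
    ⟨G.natDegree, G, hGm.ne_zero, rfl, hGa⟩
  obtain ⟨P, hP0, hPn, hPa⟩ := Nat.find_spec hexP
  have hmin : ∀ Q : Λ[X], Q ≠ 0 → aeval a Q = 0 → P.natDegree ≤ Q.natDegree := by
    intro Q hQ hQa
    rw [hPn]
    exact Nat.find_min' hexP ⟨Q, hQ, rfl, hQa⟩
  have hP' : aeval a (derivative P) ≠ 0 := by
    intro h
    by_cases hd : derivative P = 0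
    · have h1 := Polynomial.derivative_eq_zero.1 hd
      obtain ⟨c, hc⟩ := Polynomial.natDegree_eq_zero.1 h1
      rw [← hc, aeval_C] at hPa
      have : c = 0 := hinj (by rw [hPa, map_zero])
      exact hP0 (by rw [← hc, this, map_zero])
    · have h1 := hmin _ hd h
      have h2 : P.natDegree ≠ 0 := by
        intro h3
        obtain ⟨c, hc⟩ := Polynomial.natDegree_eq_zero.1 h3
        exact hd (by rw [← hc, derivative_C])
      have h3 := Polynomial.natDegree_derivative_lt h2
      omega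
  obtain ⟨c, hc, hc0⟩ := Submodule.exists_mem_ne_zero_of_ne_bot h𝔪
  refine ⟨max G.natDegree (P.natDegree + 1), fun D hD => ?_⟩
  have hD1 : G.natDegree ≤ D := le_trans (le_max_left _ _) hD
  have hD2 : P.natDegree < D := lt_of_lt_of_le (Nat.lt_succ_self _) (le_trans (le_max_right _ _) hD)
  set F1 : Λ[X] := G * X ^ (D - G.natDegree) with hF1
  have hF1m : F1.Monic := hGm.mul (monic_X_pow _)
  have hF1d : F1.natDegree = D := by
    rw [hF1, hGm.natDegree_mul (monic_X_pow _), natDegree_X_pow]; omega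
  have hF1a : aeval a F1 = 0 := by rw [hF1, map_mul, hGa, zero_mul]
  have hF1c : ∀ i < D, F1.coeff i ∈ 𝔪 := by
    intro i hi
    rw [hF1, coeff_mul_X_pow']
    split_ifs with h
    · exact hGc _ (by omega)
    · exact Ideal.zero_mem _
  by_cases h1 : aeval a (derivative F1) = 0
  · have hlt : (C c * P).degree < F1.degree := by
      rw [degree_C_mul hc0, degree_eq_natDegree hP0, degree_eq_natDegree hF1m.ne_zero, hF1d]
      exact_mod_cast hD2
    refine ⟨F1 + C c * P, hF1m.add_of_left hlt, ?_, fun i hi => ?_, ?_, ?_⟩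
    · rw [natDegree_add_eq_left_of_degree_lt hlt, hF1d]
    · rw [coeff_add, coeff_C_mul]
      exact Ideal.add_mem _ (hF1c i hi) (Ideal.mul_mem_right _ _ hc)
    · rw [map_add, hF1a, map_mul, hPa, mul_zero, add_zero]
    · rw [derivative_add, derivative_C_mul, map_add, h1, zero_add, map_mul, aeval_C]
      refine mul_ne_zero (fun h => hc0 (hinj (by rw [h, map_zero]))) hP'
  · exact ⟨F1, hF1m, hF1d, hF1c, hF1a, h1⟩

end M6

end Vale.Agent.P202.Mix
end

section

/-!
P202-CHARP, L2: the abstract lower bound.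
-/

namespace Vale.Agent.P202.CharP

open Submodule

section alt

end alt

section L

variable {S 𝕋 : Type*} [CommRing S] [AddCommGroup 𝕋] [Module S 𝕋]

/-- image of the connecting map `H_δ (Z / Y) → H_(δ - 1) (Y / X)`. -/
noncomputable def gam (D : 𝕋 →ₗ[S] 𝕋) (Z Y X : ℤ → Submodule S 𝕋) (δ : ℤ) : ℕ∞ :=
  rl (bb D Y X (δ - 1)) ((zz D Z Y δ).map D ⊔ bb D Y X (δ - 1))

/-- the long exact sequence, repackaged. -/
lemma les (D : 𝕋 →ₗ[S] 𝕋) (hD : ∀ x, D (D x) = 0) (X Y Z : ℤ → Submodule S 𝕋)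
    (hX : Stab D X) (hY : Stab D Y) (hZ : Stab D Z) (hXY : ∀ δ, X δ ≤ Y δ)
    (hYZ : ∀ δ, Y δ ≤ Z δ) : ∃ al be : ℤ → ℕ∞, ∀ δ,
    hh D Z X δ = al δ + be δ ∧ hh D Z Y δ = be δ + gam D Z Y X δ ∧
      hh D Y X δ = gam D Z Y X (δ + 1) + al δ ∧
      al δ = rl (bb D Z X δ) (zz D Y X δ ⊔ bb D Z X δ) := by
  refine ⟨fun δ => rl (bb D Z X δ) (zz D Y X δ ⊔ bb D Z X δ),
    fun δ => rl (bb D Z Y δ) (zz D Z X δ ⊔ bb D Z Y δ), fun δ => ?_⟩
  obtain ⟨h1, h2, h3⟩ := hh_les D hD X Y Z hX hY hZ hXY hYZ δ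
  refine ⟨h1, h2, ?_, rfl⟩
  rw [h3, gam, add_sub_cancel_right]

end L

end Vale.Agent.P202.CharP
end

section

/-!
P202-CHARP, CAT: the core theorem (lower bound from windows after base change).
-/

namespace Vale.Agent.P202.CharP

open Submodule TensorProduct IsLocalRing

section Core

variable {A : Type*} [CommRing A] {V : Type*} [AddCommGroup V] [Module A V]
  (S : Type*) [CommRing S] [Algebra A S]

lemma cstab_bcf (d : V →ₗ[A] V) (X : ℤ → Submodule A V) (hX : CStab d X) :
    CStab (d.baseChange S) (bcf S X) := by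
  intro p x hx
  have h1 : (X p).map d ≤ X (p + 1) := by
    rintro _ ⟨y, hy, rfl⟩
    exact hX p y hy
  have h2 : ((X p).baseChange S).map (d.baseChange S) ≤ (X (p + 1)).baseChange S := by
    rw [← baseChange_map S d (X p)]
    exact Submodule.baseChange_mono S h1
  exact h2 (Submodule.mem_map_of_mem hx)

lemma ex_bcf [Module.Flat A S] (d : V →ₗ[A] V) (Y X : ℤ → Submodule A V) (p : ℤ)
    (h : Ex d Y X p) : Ex (d.baseChange S) (bcf S Y) (bcf S X) p := by
  unfold Ex
  rw [cz_bcf, cb_bcf]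
  exact Submodule.baseChange_mono S h

lemma baseChange_dd (d : V →ₗ[A] V) (hd : ∀ x, d (d x) = 0) (x : S ⊗[A] V) :
    d.baseChange S (d.baseChange S x) = 0 := by
  have h1 : d.comp d = 0 := LinearMap.ext hd
  have h2 : (d.baseChange S).comp (d.baseChange S) = 0 := by
    rw [← LinearMap.baseChange_comp, h1, LinearMap.baseChange_zero]
  exact LinearMap.congr_fun h2 x

lemma cb_le_cz (d : V →ₗ[A] V) (hd : ∀ x, d (d x) = 0) (Y X : ℤ → Submodule A V)
    (hX : CStab d X) (hY : CStab d Y) (hXY : ∀ p, X p ≤ Y p) (p : ℤ) :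
    cb d Y X p ≤ cz d Y X p := by
  unfold cb cz
  refine sup_le ?_ ?_
  · rintro _ ⟨y, hy, rfl⟩
    refine Submodule.mem_inf.mpr ⟨?_, ?_⟩
    · have := hY (p - 1) y hy
      rwa [sub_add_cancel] at this
    · rw [Submodule.mem_comap, hd]
      exact Submodule.zero_mem _
  · intro x hx
    exact Submodule.mem_inf.mpr ⟨hXY p hx, hX p x hx⟩

variable {ι : Type*} [Fintype ι] [IsLocalRing A] [Module.Flat A S]

end Core

end Vale.Agent.P202.CharP
end

section

/-!
P202-CHARP, windows: `κ`-linear structure and lengths of nilpotent modules.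
-/

namespace Vale.Agent.P202.CharP.WinAux

open Submodule

section len

variable {κ : Type*} [Field κ] {r : ℕ}

/-- for a module killed by the variables the length is the dimension. -/
theorem length_eq_of_killed (M : Type*) [AddCommGroup M] [Module (PP κ r) M] [Module κ M]
    [IsScalarTower κ (PP κ r) M] (h : ∀ (l : Fin (r + 1)) (x : M),
      (MvPolynomial.X l : PP κ r) • x = 0) :
    Module.length (PP κ r) M = Module.length κ M := by
  letI : Algebra (PP κ r) κ := (MvPolynomial.constantCoeff (R := κ) (σ := Fin (r + 1))).toAlgebra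
  have key : ∀ (p : PP κ r) (x : M), p • x = (MvPolynomial.constantCoeff p : κ) • x := by
    intro p x
    induction p using MvPolynomial.induction_on generalizing x with
    | C c =>
      rw [MvPolynomial.constantCoeff_C]
      have : (MvPolynomial.C c : PP κ r) = c • (1 : PP κ r) := by
        rw [MvPolynomial.smul_eq_C_mul, mul_one]
      rw [this, smul_assoc, one_smul]
    | add p q hp hq => rw [add_smul, hp, hq, map_add, add_smul]
    | mul_X p l hp => rw [mul_smul, h, smul_zero, map_mul, MvPolynomial.constantCoeff_X, mul_zero,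
        zero_smul]
  haveI : IsScalarTower (PP κ r) κ M := ⟨fun p c x => by
    rw [key p (c • x), ← mul_smul]
    rfl⟩
  exact Module.length_eq_of_surjective (R := κ) (S := PP κ r) (M := M) (fun c =>
    ⟨MvPolynomial.C c, MvPolynomial.constantCoeff_C _ c⟩)

/-- for a module killed by a power of the ideal of the variables the length is the dimension. -/
theorem length_eq_of_nilpotent (n : ℕ) : ∀ (M : Type*) [AddCommGroup M] [Module (PP κ r) M]
    [Module κ M] [IsScalarTower κ (PP κ r) M],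
    (∀ p ∈ (mX κ r) ^ n, ∀ x : M, p • x = 0) →
    Module.length (PP κ r) M = Module.length κ M := by
  induction n with
  | zero =>
    intro M _ _ _ _ h
    haveI : Subsingleton M := ⟨fun x y => by
      rw [← one_smul (PP κ r) x, ← one_smul (PP κ r) y, h 1 (by simp), h 1 (by simp)]⟩
    rw [Module.length_eq_zero, Module.length_eq_zero]
  | succ n ih =>
    intro M _ _ _ _ h
    let N : Submodule (PP κ r) M := (mX κ r) • (⊤ : Submodule (PP κ r) M)
    have h1 : Module.length (PP κ r) N = Module.length κ N := by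
      refine ih N (fun p hp x => ?_)
      obtain ⟨x, hx⟩ := x
      apply Subtype.ext
      change p • x = 0
      refine Submodule.smul_induction_on hx (fun a ha y _ => ?_) (fun y z hy hz => ?_)
      · rw [← mul_smul]
        exact h _ (by rw [pow_succ]; exact Ideal.mul_mem_mul hp ha) y
      · rw [smul_add, hy, hz, add_zero]
    have h2 : Module.length (PP κ r) (M ⧸ N) = Module.length κ (M ⧸ N) := by
      refine length_eq_of_killed (M ⧸ N) (fun l x => ?_)
      obtain ⟨x, rfl⟩ := Submodule.Quotient.mk_surjective _ x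
      rw [← Submodule.Quotient.mk_smul, Submodule.Quotient.mk_eq_zero]
      exact Submodule.smul_mem_smul (Ideal.subset_span ⟨l, rfl⟩) trivial
    rw [Module.length_eq_add_of_exact N.subtype N.mkQ N.injective_subtype N.mkQ_surjective
        (LinearMap.exact_subtype_mkQ N), h1, h2]
    exact (Module.length_eq_add_of_exact (N.subtype.restrictScalars κ) (N.mkQ.restrictScalars κ)
      N.injective_subtype N.mkQ_surjective (LinearMap.exact_subtype_mkQ N)).symm

end len

section cf

variable {κ : Type*} [Field κ] {r : ℕ}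

instance : IsScalarTower κ (PP κ r) (Lau κ r) := by
  refine IsScalarTower.of_algebraMap_eq fun c => ?_
  change _ = MvPolynomial.aeval (xl κ (r := r)) (MvPolynomial.C c)
  rw [MvPolynomial.aeval_C]

theorem cf_smul (c : κ) (f : Lau κ r) (g : Gx r) : cf (c • f) g = c * cf f g := rfl

theorem cf_zsmul (n : ℤ) (f : Lau κ r) (g : Gx r) : cf (n • f) g = n • cf f g := by
  have h : ∀ n : ℤ, n • f = (n : κ) • f := fun n => (Int.cast_smul_eq_zsmul κ n f).symm
  rw [h, cf_smul, zsmul_eq_mul]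

/-- the coefficient as a linear map -/
noncomputable def cfl (g : Gx r) : Lau κ r →ₗ[κ] κ where
  toFun f := cf f g
  map_add' f f' := cf_add f f' g
  map_smul' c f := cf_smul c f g

theorem cf_sum {ι : Type*} (s : Finset ι) (f : ι → Lau κ r) (g : Gx r) :
    cf (∑ i ∈ s, f i) g = ∑ i ∈ s, cf (f i) g := map_sum (cfl g) f s

theorem cf_ext {f f' : Lau κ r} (h : ∀ g, cf f g = cf f' g) : f = f' := by
  apply AddMonoidAlgebra.coeff_injective
  ext g
  exact h g

theorem cf_mono (g g' : Gx r) (c : κ) : cf (mono g c) g' = if g = g' then c else 0 := by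
  unfold cf mono
  rw [AddMonoidAlgebra.coeff_single, Finsupp.single_apply]

theorem cf_mono_mul (g : Gx r) (f : Lau κ r) (k : Gx r) :
    cf (mono g 1 * f) k = cf f (k - g) := by
  have := AddMonoidAlgebra.coeff_single_mul_eq_mul_coeff (x := (f : AddMonoidAlgebra κ (Gx r)))
    (r := (1 : κ)) (m := g) (m₁ := k) (k - g) (by
      intro m' _
      constructor
      · rintro rfl; abel
      · rintro rfl; abel)
  rw [one_mul] at this
  exact this

theorem cf_X_smul (l : Fin (r + 1)) (f : Lau κ r) (g : Gx r)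
    (h : cf ((MvPolynomial.X l : PP κ r) • f) g ≠ 0) : ∃ L, cf f (g - ex L) ≠ 0 := by
  rw [Algebra.smul_def, algebraMap_X, xl, Finset.sum_mul, cf_sum] at h
  obtain ⟨L, _, hL⟩ := Finset.exists_ne_zero_of_sum_ne_zero h
  rw [cf_mono_mul] at hL
  exact ⟨L, hL⟩

end cf

end Vale.Agent.P202.CharP.WinAux
end

section

/-!
P202-CHARP, tasks M3, M4, M5: the windows of the Čech complex.
-/

namespace Vale.Agent.P202.CharP

open Submodule TensorProduct

variable {κ : Type*} [Field κ] {r : ℕ}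

namespace WinAux

/-- level `b` -/
def SB (a : Fin r → ℤ) (b : ℤ) : Set (Finset (Fin r) × Gx r) :=
  {x | x ∈ SG a ∨ (x ∈ SF r ∧ b ≤ x.2.2)}

theorem up_SB (a : Fin r → ℤ) (b : ℤ) : Up (SB a b) := by
  rintro I g L (h | h)
  · exact Or.inl (up_SG a I g L h)
  · refine Or.inr ⟨up_SF I g L h.1, ?_⟩
    have : b ≤ g.2 := h.2
    change b ≤ g.2 + 1
    omega

theorem SB_sub_SF {a : Fin r → ℤ} {b : ℤ} : SB a b ⊆ SF r := by
  rintro x (h | h)
  · exact h.1
  · exact h.1

theorem SG_sub_SB {a : Fin r → ℤ} {b : ℤ} : SG a ⊆ SB a b := fun _ h => Or.inl h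

theorem SB_anti {a : Fin r → ℤ} {b b' : ℤ} (h : b ≤ b') : SB a b' ⊆ SB a b := by
  rintro x (h1 | h1)
  · exact Or.inl h1
  · exact Or.inr ⟨h1.1, h.trans h1.2⟩

theorem SF_ins {I : Finset (Fin r)} {g : Gx r} (i : Fin r) (h : (I, g) ∈ SF r) :
    (insert i I, g) ∈ SF r := fun k hk => h k (fun h' => hk (Finset.mem_insert_of_mem h'))

theorem SG_ins {a : Fin r → ℤ} {I : Finset (Fin r)} {g : Gx r} (i : Fin r) (h : (I, g) ∈ SG a) :
    (insert i I, g) ∈ SG a := by
  obtain ⟨k, hk, hk'⟩ := h.2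
  exact ⟨SF_ins i h.1, k, Finset.mem_insert_of_mem hk, hk'⟩

theorem SB_ins {a : Fin r → ℤ} {b : ℤ} {I : Finset (Fin r)} {g : Gx r} (i : Fin r)
    (h : (I, g) ∈ SB a b) : (insert i I, g) ∈ SB a b := by
  rcases h with h | h
  · exact Or.inl (SG_ins i h)
  · exact Or.inr ⟨SF_ins i h.1, h.2⟩

theorem mem_MF {E : Set (Finset (Fin r) × Gx r)} (hE : Up E) {p : ℤ} {f : Lam κ r} :
    f ∈ MF κ E p ↔ ∀ I g, cf (f I) g ≠ 0 → (I, g) ∈ E ∧ (I.card : ℤ) = p :=
  mem_Mon (up_grd hE p) f

theorem MF_mono {E E' : Set (Finset (Fin r) × Gx r)} (hE : Up E) (hE' : Up E') (h : E ⊆ E')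
    (p : ℤ) : MF κ E p ≤ MF κ E' p := by
  intro f hf
  rw [mem_MF hE] at hf
  rw [mem_MF hE']
  exact fun I g hg => ⟨h (hf I g hg).1, (hf I g hg).2⟩

/-- multiplication by a variable raises the level -/
theorem X_MF {a : Fin r → ℤ} {b p : ℤ} (l : Fin (r + 1)) {f : Lam κ r}
    (hf : f ∈ MF κ (SB a b) p) : (MvPolynomial.X l : PP κ r) • f ∈ MF κ (SB a (b + 1)) p := by
  rw [mem_MF (up_SB a b)] at hf
  rw [mem_MF (up_SB a (b + 1))]
  intro I g hg
  rw [Pi.smul_apply] at hg
  obtain ⟨L, hL⟩ := cf_X_smul l (f I) g hg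
  obtain ⟨h1, h2⟩ := hf I _ hL
  refine ⟨?_, h2⟩
  rcases h1 with h1 | h1
  · have := up_SG a I _ L h1
    rw [sub_add_cancel] at this
    exact Or.inl this
  · have h3 := up_SF I _ L h1.1
    rw [sub_add_cancel] at h3
    refine Or.inr ⟨h3, ?_⟩
    have h4 : b ≤ g.2 - 1 := h1.2
    change b + 1 ≤ g.2
    omega

theorem mX_MF {a : Fin r → ℤ} {b p : ℤ} : mX κ r • MF κ (SB a b) p ≤ MF κ (SB a (b + 1)) p := by
  rw [Submodule.smul_le]
  intro c hc f hf
  unfold mX at hc
  induction hc using Submodule.span_induction with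
  | mem x h =>
    obtain ⟨l, rfl⟩ := h
    exact X_MF l hf
  | zero => rw [zero_smul]; exact Submodule.zero_mem _
  | add x y _ _ hx hy => rw [add_smul]; exact Submodule.add_mem _ hx hy
  | smul c x _ hx => rw [smul_eq_mul, mul_smul]; exact Submodule.smul_mem _ _ hx

theorem mX_pow_MF {a : Fin r → ℤ} {b p : ℤ} (k : ℕ) :
    (mX κ r) ^ k • MF κ (SB a b) p ≤ MF κ (SB a (b + k)) p := by
  induction k generalizing b with
  | zero => simp
  | succ k ih =>
    rw [pow_succ, Submodule.mul_smul]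
    refine (smul_mono_right _ mX_MF).trans (ih.trans ?_)
    rw [show b + 1 + (k : ℤ) = b + ((k + 1 : ℕ) : ℤ) by push_cast; ring]

/-! ### the homotopy -/

/-- the toggling stabilises a set of monomials -/
def Tog (a : Fin r → ℤ) (E : Set (Finset (Fin r) × Gx r)) : Prop :=
  ∀ i I g, i ∉ I → (insert i I, g) ∈ E → 0 ≤ g.1 i → a i + g.2 < g.1 i → (I, g) ∈ E

theorem tog_SG (a : Fin r → ℤ) : Tog a (SG a) := by
  intro i I g hi h h0 h1
  refine ⟨fun k hk => ?_, ?_⟩
  · by_cases hki : k = i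
    · subst hki; exact h0
    · exact h.1 k (fun h' => by
        rcases Finset.mem_insert.1 h' with h2 | h2
        · exact hki h2
        · exact hk h2)
  · obtain ⟨k, hk, hk'⟩ := h.2
    rcases Finset.mem_insert.1 hk with h2 | h2
    · subst h2
      change g.1 k ≤ a k + g.2 at hk'
      omega
    · exact ⟨k, h2, hk'⟩

theorem tog_SB (a : Fin r → ℤ) (b : ℤ) : Tog a (SB a b) := by
  intro i I g hi h h0 h1
  rcases h with h | h
  · exact Or.inl (tog_SG a i I g hi h h0 h1)
  · refine Or.inr ⟨fun k hk => ?_, h.2⟩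
    by_cases hki : k = i
    · subst hki; exact h0
    · exact h.1 k (fun h' => by
        rcases Finset.mem_insert.1 h' with h2 | h2
        · exact hki h2
        · exact hk h2)

/-- property of the homotopy -/
structure Hom (a : Fin r → ℤ) (h π : Lam κ r →ₗ[κ] Lam κ r) : Prop where
  eq : ∀ f, f = dC κ r (h f) + h (dC κ r f) + π f
  hs : ∀ f I g, cf (h f I) g ≠ 0 →
      ∃ i, i ∉ I ∧ cf (f (insert i I)) g ≠ 0 ∧ 0 ≤ g.1 i ∧ a i + g.2 < g.1 i
  ps : ∀ f I g, cf (π f I) g ≠ 0 → cf (f I) g ≠ 0 ∧ ∀ i, g.1 i < 0 ∨ g.1 i ≤ a i + g.2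

theorem exists_hom (a : Fin r → ℤ) : ∃ h π : Lam κ r →ₗ[κ] Lam κ r, Hom a h π := by
  obtain ⟨h, π, h1, h2, h3⟩ := exists_homotopy (κ := κ) a
  exact ⟨h, π, h1, h2, h3⟩

theorem Hom.mem {a : Fin r → ℤ} {h π : Lam κ r →ₗ[κ] Lam κ r} (H : Hom a h π)
    {E : Set (Finset (Fin r) × Gx r)} (hE : Up E) (hT : Tog a E) {p : ℤ} {f : Lam κ r}
    (hf : f ∈ MF κ E (p + 1)) : h f ∈ MF κ E p := by
  rw [mem_MF hE] at hf ⊢
  intro I g hg
  obtain ⟨i, hi, h1, h2, h3⟩ := H.hs f I g hg
  obtain ⟨h4, h5⟩ := hf _ g h1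
  refine ⟨hT i I g hi h4 h2 h3, ?_⟩
  rw [Finset.card_insert_of_notMem hi] at h5
  push_cast at h5
  omega

/-- a monomial without free index of degree `p`, in level `b` but not in level `b'` -/
theorem nofree {a : Fin r → ℤ} {b b' : ℤ} {I : Finset (Fin r)} {g : Gx r}
    (h : (I, g) ∈ SB a b) (h' : (I, g) ∉ SB a b') (hn : ∀ i, g.1 i < 0 ∨ g.1 i ≤ a i + g.2) :
    b ≤ g.2 ∧ g.2 < b' ∧ (∀ i, i ∈ I ↔ a i + g.2 < 0) ∧
      ∀ i, (i ∈ I → a i + g.2 < g.1 i ∧ g.1 i < 0) ∧ (i ∉ I → 0 ≤ g.1 i ∧ g.1 i ≤ a i + g.2) := by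
  have hF : (I, g) ∈ SF r := SB_sub_SF h
  have hG : (I, g) ∉ SG a := fun hG => h' (Or.inl hG)
  have h1 : b ≤ g.2 := by
    rcases h with h | h
    · exact absurd h hG
    · exact h.2
  have h2 : g.2 < b' := by
    by_contra hc
    exact h' (Or.inr ⟨hF, not_lt.1 hc⟩)
  have h3 : ∀ i ∈ I, a i + g.2 < g.1 i := by
    intro i hi
    by_contra hc
    exact hG ⟨hF, i, hi, not_lt.1 hc⟩
  have h4 : ∀ i ∉ I, 0 ≤ g.1 i := fun i hi => hF i hi
  refine ⟨h1, h2, fun i => ?_, fun i => ⟨fun hi => ?_, fun hi => ?_⟩⟩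
  · have := hn i
    constructor
    · intro hi
      have := h3 i hi
      omega
    · intro hi
      by_contra hi'
      have := h4 i hi'
      omega
  · have := hn i
    have := h3 i hi
    omega
  · have := hn i
    have := h4 i hi
    omega

/-- exactness of a window away from its degree -/
theorem ex_SB {a : Fin r → ℤ} {b b' p : ℤ}
    (hp : ∀ t, b ≤ t → t < b' → ((Finset.univ.filter fun i => a i + t < 0).card : ℤ) ≠ p) :
    Ex (dC κ r) (MF κ (SB a b)) (MF κ (SB a b')) p := by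
  obtain ⟨h, π, H⟩ := exists_hom (κ := κ) a
  rintro z ⟨hz, hdz⟩
  replace hdz : dC κ r z ∈ MF κ (SB a b') (p + 1) := hdz
  replace hz : z ∈ MF κ (SB a b) p := hz
  rw [H.eq z]
  refine Submodule.add_mem _ (Submodule.add_mem _ (Submodule.mem_sup_left ?_)
    (Submodule.mem_sup_right ?_)) (Submodule.mem_sup_right ?_)
  · exact Submodule.mem_map_of_mem (H.mem (up_SB a b) (tog_SB a b) (by rwa [sub_add_cancel]))
  · exact H.mem (up_SB a b') (tog_SB a b') hdz
  · rw [mem_MF (up_SB a b')]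
    intro I g hg
    obtain ⟨h1, h2⟩ := H.ps z I g hg
    rw [mem_MF (up_SB a b)] at hz
    obtain ⟨h3, h4⟩ := hz I g h1
    refine ⟨?_, h4⟩
    by_contra hc
    obtain ⟨h5, h6, h7, _⟩ := nofree h3 hc h2
    refine hp g.2 h5 h6 ?_
    rw [← h4]
    congr 2
    ext i
    simp [h7 i]

/-- the level `b` is exact over `G` away from degree `0`, if `b` is large -/
theorem ex_SB_SG {a : Fin r → ℤ} {b p : ℤ} (ha : ∀ i, 0 ≤ a i + b) (hp : p ≠ 0) :
    Ex (dC κ r) (MF κ (SB a b)) (MF κ (SG a)) p := by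
  obtain ⟨h, π, H⟩ := exists_hom (κ := κ) a
  rintro z ⟨hz, hdz⟩
  replace hdz : dC κ r z ∈ MF κ (SG a) (p + 1) := hdz
  replace hz : z ∈ MF κ (SB a b) p := hz
  rw [H.eq z]
  refine Submodule.add_mem _ (Submodule.add_mem _ (Submodule.mem_sup_left ?_)
    (Submodule.mem_sup_right ?_)) (Submodule.mem_sup_right ?_)
  · exact Submodule.mem_map_of_mem (H.mem (up_SB a b) (tog_SB a b) (by rwa [sub_add_cancel]))
  · exact H.mem (up_SG a) (tog_SG a) hdz
  · rw [mem_MF (up_SG a)]
    intro I g hg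
    obtain ⟨h1, h2⟩ := H.ps z I g hg
    rw [mem_MF (up_SB a b)] at hz
    obtain ⟨h3, h4⟩ := hz I g h1
    refine ⟨?_, h4⟩
    by_contra hc
    have h3' : (I, g) ∉ SB a (g.2 + 1) := by
      rintro (h5 | h5)
      · exact hc h5
      · have := h5.2
        change g.2 + 1 ≤ g.2 at this
        omega
    obtain ⟨h5, h6, h7, _⟩ := nofree h3 h3' h2
    apply hp
    rw [← h4]
    have : I = ∅ := by
      rw [Finset.eq_empty_iff_forall_notMem]
      intro i hi
      have := (h7 i).1 hi
      have := ha i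
      omega
    rw [this]
    simp

/-- cocycles of a window lift modulo boundaries to cocycles modulo `G` -/
theorem lift_SB {a : Fin r → ℤ} {b b' p : ℤ} (hb : b ≤ b') :
    cz (dC κ r) (MF κ (SB a b)) (MF κ (SB a b')) p ≤
      (MF κ (SB a b) p ⊓ (MF κ (SG a) (p + 1)).comap (dC κ r)) ⊔
        cb (dC κ r) (MF κ (SB a b)) (MF κ (SB a b')) p := by
  obtain ⟨h, π, H⟩ := exists_hom (κ := κ) a
  rintro z ⟨hz, hdz⟩
  replace hdz : dC κ r z ∈ MF κ (SB a b') (p + 1) := hdz
  replace hz : z ∈ MF κ (SB a b) p := hz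
  rw [H.eq z]
  have hhd : h (dC κ r z) ∈ MF κ (SB a b') p := H.mem (up_SB a b') (tog_SB a b') hdz
  refine Submodule.add_mem _ (Submodule.add_mem _ (Submodule.mem_sup_right
    (Submodule.mem_sup_left ?_)) (Submodule.mem_sup_right (Submodule.mem_sup_right hhd)))
    (Submodule.mem_sup_left ?_)
  · exact Submodule.mem_map_of_mem (H.mem (up_SB a b) (tog_SB a b) (by rwa [sub_add_cancel]))
  · have hπ : ∀ I g, cf (π z I) g ≠ 0 → ((I, g) ∈ SB a b ∧ (I.card : ℤ) = p) ∧
        ∀ i, g.1 i < 0 ∨ g.1 i ≤ a i + g.2 := by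
      intro I g hg
      obtain ⟨h1, h2⟩ := H.ps z I g hg
      rw [mem_MF (up_SB a b)] at hz
      exact ⟨hz I g h1, h2⟩
    refine ⟨(mem_MF (up_SB a b)).2 fun I g hg => (hπ I g hg).1, ?_⟩
    change dC κ r (π z) ∈ MF κ (SG a) (p + 1)
    rw [mem_MF (up_SG a)]
    intro I g hg
    have hsum : dC κ r (π z) I = ∑ i ∈ I, sg i I • π z (I.erase i) := rfl
    rw [hsum, cf_sum] at hg
    obtain ⟨i, hi, hne⟩ := Finset.exists_ne_zero_of_sum_ne_zero hg
    rw [cf_zsmul] at hne
    have hne' : cf (π z (I.erase i)) g ≠ 0 := fun h0 => hne (by rw [h0, smul_zero])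
    obtain ⟨⟨h1, h2⟩, h3⟩ := hπ _ g hne'
    have hcard : (I.card : ℤ) = p + 1 := by
      rw [← h2, Finset.card_erase_of_mem hi]
      have : 1 ≤ I.card := Finset.card_pos.2 ⟨i, hi⟩
      push_cast [this]
      ring
    have hF := SB_sub_SF h1
    have hins : insert i (I.erase i) = I := Finset.insert_erase hi
    refine ⟨⟨?_, i, hi, ?_⟩, hcard⟩
    · have := SF_ins i hF
      rwa [hins] at this
    · have h4 : 0 ≤ g.1 i := hF i (Finset.notMem_erase i I)
      have := h3 i
      change g.1 i ≤ a i + g.2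
      omega

/-! ### the dimension of the cohomology of a window -/

/-- the slot of the monomials of level `t` -/
def slot (a : Fin r → ℤ) (t : ℤ) : Finset (Fin r) := Finset.univ.filter fun i => a i + t < 0

/-- the possible exponents in one variable -/
noncomputable def rg (b : ℤ) : Finset ℤ := if 0 ≤ b then Finset.Icc 0 b else Finset.Ioo b 0

theorem card_rg (b : ℤ) : (rg b).card = (b + 1).natAbs := by
  unfold rg
  split_ifs with h
  · rw [Int.card_Icc]; omega
  · rw [Int.card_Ioo]; omega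

/-- the monomials of the cohomology of a window of `Q` levels above `b` -/
noncomputable def TT (a : Fin r → ℤ) (b : ℤ) (Q : ℕ) : Finset (Σ _ : ℕ, (Fin r → ℤ)) :=
  (Finset.range Q).sigma fun u => Fintype.piFinset fun i => rg (a i + (b + u))

theorem card_TT (a : Fin r → ℤ) (b : ℤ) (Q : ℕ) :
    (TT a b Q).card = ∑ u ∈ Finset.range Q, ∏ i : Fin r, (a i + (b + u) + 1).natAbs := by
  rw [TT, Finset.card_sigma]
  refine Finset.sum_congr rfl fun u _ => ?_
  rw [Fintype.card_piFinset]
  exact Finset.prod_congr rfl fun i _ => card_rg _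

/-- coordinates of a class -/
noncomputable def Phi (κ : Type*) [Field κ] (a : Fin r → ℤ) (b : ℤ) (Q : ℕ) :
    Lam κ r →ₗ[κ] (↥(TT a b Q) → κ) where
  toFun f x := cf (f (slot a (b + x.1.1))) (x.1.2, b + x.1.1)
  map_add' f f' := by ext x; exact cf_add _ _ _
  map_smul' c f := by ext x; exact cf_smul _ _ _

theorem mem_rg {b s : ℤ} : s ∈ rg b ↔ (0 ≤ b ∧ 0 ≤ s ∧ s ≤ b) ∨ (b < 0 ∧ b < s ∧ s < 0) := by
  unfold rg
  split_ifs with h
  · rw [Finset.mem_Icc]; omega
  · rw [Finset.mem_Ioo]; omega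

/-- the monomials indexed by `TT` -/
theorem TT_spec {a : Fin r → ℤ} {b : ℤ} {Q : ℕ} (x : ↥(TT a b Q)) :
    (x.1.1 < Q) ∧ ∀ i, (i ∈ slot a (b + x.1.1) → a i + (b + x.1.1) < x.1.2 i ∧ x.1.2 i < 0) ∧
      (i ∉ slot a (b + x.1.1) → 0 ≤ x.1.2 i ∧ x.1.2 i ≤ a i + (b + x.1.1)) := by
  obtain ⟨⟨u, s⟩, hx⟩ := x
  unfold TT at hx
  rw [Finset.mem_sigma, Finset.mem_range, Fintype.mem_piFinset] at hx
  refine ⟨hx.1, fun i => ?_⟩
  have h1 := mem_rg.1 (hx.2 i)
  simp only [slot, Finset.mem_filter, Finset.mem_univ, true_and]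
  change (0 ≤ a i + (b + u) ∧ 0 ≤ s i ∧ s i ≤ a i + (b + u)) ∨
            (a i + (b + u) < 0 ∧ a i + (b + u) < s i ∧ s i < 0) at h1
  constructor
  · intro hi
    omega
  · intro hi
    omega

theorem slot_mem_SF {a : Fin r → ℤ} {b : ℤ} {Q : ℕ} (x : ↥(TT a b Q)) :
    (slot a (b + x.1.1), ((x.1.2, b + x.1.1) : Gx r)) ∈ SF r :=
  fun i hi => (((TT_spec x).2 i).2 hi).1

theorem slot_notMem {a : Fin r → ℤ} {b : ℤ} {Q : ℕ} (x : ↥(TT a b Q)) :
    (slot a (b + x.1.1), ((x.1.2, b + x.1.1) : Gx r)) ∉ SB a (b + Q) := by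
  rintro (h | h)
  · obtain ⟨i, hi, h1⟩ := h.2
    have := ((TT_spec x).2 i).1 hi
    change x.1.2 i ≤ a i + (b + x.1.1) at h1
    omega
  · have h1 := h.2
    have h2 := (TT_spec x).1
    change b + Q ≤ b + x.1.1 at h1
    omega

/-- the kernel of the coordinate map -/
theorem phi_ker {a : Fin r → ℤ} {b p : ℤ} {Q : ℕ} {z : Lam κ r}
    (hz : z ∈ cz (dC κ r) (MF κ (SB a b)) (MF κ (SB a (b + Q))) p)
    (h0 : Phi κ a b Q z = 0) : z ∈ cb (dC κ r) (MF κ (SB a b)) (MF κ (SB a (b + Q))) p := by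
  obtain ⟨h, π, H⟩ := exists_hom (κ := κ) a
  have hz1 : z ∈ MF κ (SB a b) p := hz.1
  have hz2 : dC κ r z ∈ MF κ (SB a (b + Q)) (p + 1) := hz.2
  rw [H.eq z]
  refine Submodule.add_mem _ (Submodule.add_mem _ (Submodule.mem_sup_left ?_)
    (Submodule.mem_sup_right ?_)) (Submodule.mem_sup_right ?_)
  · exact Submodule.mem_map_of_mem
      (H.mem (up_SB a b) (tog_SB a b) (by rwa [sub_add_cancel]))
  · exact H.mem (up_SB a _) (tog_SB a _) hz2
  · rw [mem_MF (up_SB a _)]
    intro I g hg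
    obtain ⟨h1, h2⟩ := H.ps z I g hg
    rw [mem_MF (up_SB a b)] at hz1
    obtain ⟨h3, h4⟩ := hz1 I g h1
    refine ⟨?_, h4⟩
    by_contra hc
    obtain ⟨h5, h6, h7, h8⟩ := nofree h3 hc h2
    obtain ⟨u, hu⟩ : ∃ u : ℕ, g.2 = b + u := ⟨(g.2 - b).toNat, by omega⟩
    have hI : I = slot a (b + u) := by
      ext i
      rw [← hu]
      simp [slot, h7 i]
    have hmem : (⟨u, g.1⟩ : Σ _ : ℕ, (Fin r → ℤ)) ∈ TT a b Q := by
      unfold TT
      rw [Finset.mem_sigma, Finset.mem_range, Fintype.mem_piFinset]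
      refine ⟨by change u < Q; omega, fun i => ?_⟩
      rw [mem_rg]
      change (0 ≤ a i + (b + u) ∧ 0 ≤ g.1 i ∧ g.1 i ≤ a i + (b + u)) ∨
        (a i + (b + u) < 0 ∧ a i + (b + u) < g.1 i ∧ g.1 i < 0)
      rw [← hu]
      by_cases hi : i ∈ I
      · have h9 := (h8 i).1 hi
        have h10 := (h7 i).1 hi
        omega
      · have h9 := (h8 i).2 hi
        omega
    have h9 : cf (z (slot a (b + u))) (g.1, b + u) = 0 := congrFun h0 ⟨⟨u, g.1⟩, hmem⟩
    rw [← hI, ← hu] at h9
    exact h1 h9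

/-- the coordinate map kills the boundaries -/
theorem phi_bdry {a : Fin r → ℤ} {b p : ℤ} {Q : ℕ} {z : Lam κ r}
    (hz : z ∈ cb (dC κ r) (MF κ (SB a b)) (MF κ (SB a (b + Q))) p) : Phi κ a b Q z = 0 := by
  obtain ⟨y, hy, x, hx, rfl⟩ := Submodule.mem_sup.1 hz
  obtain ⟨w, hw, rfl⟩ := hy
  replace hw : w ∈ MF κ (SB a b) (p - 1) := hw
  rw [mem_MF (up_SB a b)] at hw
  rw [mem_MF (up_SB a _)] at hx
  rw [map_add]
  ext v
  have e1 : Phi κ a b Q (dC κ r w) v = 0 := by
    change cf (∑ i ∈ slot a (b + v.1.1), sg i (slot a (b + v.1.1)) •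
      w ((slot a (b + v.1.1)).erase i)) (v.1.2, b + v.1.1) = 0
    rw [cf_sum]
    refine Finset.sum_eq_zero fun i hi => ?_
    rw [cf_zsmul]
    by_contra hne
    have hne' : cf (w ((slot a (b + v.1.1)).erase i)) (v.1.2, b + v.1.1) ≠ 0 :=
      fun h0 => hne (by rw [h0, smul_zero])
    have h1 := SB_sub_SF (hw _ _ hne').1 i (Finset.notMem_erase i _)
    have h2 := (((TT_spec v).2 i).1 hi).2
    change 0 ≤ v.1.2 i at h1
    omega
  have e2 : Phi κ a b Q x v = 0 := by
    by_contra hne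
    exact slot_notMem v (hx _ _ hne).1
  rw [Pi.add_apply, e1, e2, add_zero]
  rfl

/-- the standard elements -/
noncomputable def std (c : κ) {a : Fin r → ℤ} {b : ℤ} {Q : ℕ} (v : ↥(TT a b Q)) : Lam κ r :=
  Pi.single (slot a (b + v.1.1)) (mono (v.1.2, b + v.1.1) c)

theorem cf_std (c : κ) {a : Fin r → ℤ} {b : ℤ} {Q : ℕ} (v : ↥(TT a b Q)) (I : Finset (Fin r))
    (g : Gx r) : cf (std c v I) g =
      if I = slot a (b + v.1.1) ∧ ((v.1.2, b + v.1.1) : Gx r) = g then c else 0 := by
  unfold std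
  rw [Pi.single_apply]
  by_cases hI : I = slot a (b + v.1.1)
  · rw [if_pos hI, cf_mono]
    simp [hI]
  · rw [if_neg hI, cf_zero, if_neg (fun h => hI h.1)]

theorem cf_std_ne {c : κ} {a : Fin r → ℤ} {b : ℤ} {Q : ℕ} {v : ↥(TT a b Q)}
    {I : Finset (Fin r)} {g : Gx r} (h : cf (std c v I) g ≠ 0) :
    I = slot a (b + v.1.1) ∧ ((v.1.2, b + v.1.1) : Gx r) = g := by
  by_contra hc
  rw [cf_std, if_neg hc] at h
  exact h rfl

theorem std_mem {a : Fin r → ℤ} {b p : ℤ} {Q : ℕ}
    (hp : ∀ t, b ≤ t → t < b + Q → ((slot a t).card : ℤ) = p) (c : κ) (v : ↥(TT a b Q)) :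
    std c v ∈ cz (dC κ r) (MF κ (SB a b)) (MF κ (SB a (b + Q))) p := by
  have hcard : ((slot a (b + v.1.1)).card : ℤ) = p :=
    hp _ (by omega) (by have := (TT_spec v).1; omega)
  constructor
  · change std c v ∈ MF κ (SB a b) p
    rw [mem_MF (up_SB a b)]
    intro I g hg
    obtain ⟨rfl, rfl⟩ := cf_std_ne hg
    refine ⟨Or.inr ⟨slot_mem_SF v, ?_⟩, hcard⟩
    change b ≤ b + v.1.1
    omega
  · change dC κ r (std c v) ∈ MF κ (SB a (b + Q)) (p + 1)
    rw [mem_MF (up_SB a _)]
    intro I g hg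
    change cf (∑ i ∈ I, sg i I • std c v (I.erase i)) g ≠ 0 at hg
    rw [cf_sum] at hg
    obtain ⟨i, hi, hne⟩ := Finset.exists_ne_zero_of_sum_ne_zero hg
    rw [cf_zsmul] at hne
    have hne' : cf (std c v (I.erase i)) g ≠ 0 := fun h0 => hne (by rw [h0, smul_zero])
    obtain ⟨h1, rfl⟩ := cf_std_ne hne'
    have hii : i ∉ slot a (b + v.1.1) := by rw [← h1]; exact Finset.notMem_erase i I
    have hins : insert i (slot a (b + v.1.1)) = I := by rw [← h1]; exact Finset.insert_erase hi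
    constructor
    · refine Or.inl ⟨?_, i, hi, (((TT_spec v).2 i).2 hii).2⟩
      have := SF_ins i (slot_mem_SF v)
      rwa [hins] at this
    · rw [← hins, Finset.card_insert_of_notMem hii]
      push_cast
      rw [hcard]

theorem phi_std {a : Fin r → ℤ} {b : ℤ} {Q : ℕ} (c : κ) (v : ↥(TT a b Q)) :
    Phi κ a b Q (std c v) = Pi.single v c := by
  ext w
  change cf (std c v (slot a (b + w.1.1))) (w.1.2, b + w.1.1) = _
  rw [cf_std, Pi.single_apply]
  by_cases hvw : w = v
  · subst hvw; simp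
  · rw [if_neg hvw, if_neg]
    rintro ⟨_, h2⟩
    apply hvw
    rw [Prod.mk.injEq] at h2
    apply Subtype.ext
    have h3 : v.1.1 = w.1.1 := by omega
    have h4 : v.1.2 = w.1.2 := h2.1
    exact (Sigma.ext h3 (heq_of_eq h4)).symm

theorem phi_surj {a : Fin r → ℤ} {b p : ℤ} {Q : ℕ}
    (hp : ∀ t, b ≤ t → t < b + Q → ((slot a t).card : ℤ) = p) (c : ↥(TT a b Q) → κ) :
    ∃ z ∈ cz (dC κ r) (MF κ (SB a b)) (MF κ (SB a (b + Q))) p, Phi κ a b Q z = c := by
  refine ⟨∑ v, std (c v) v, Submodule.sum_mem _ fun v _ => std_mem hp (c v) v, ?_⟩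
  rw [map_sum, Finset.sum_congr rfl fun v _ => phi_std (c v) v]
  ext w
  rw [Finset.sum_apply, Finset.sum_eq_single w]
  · rw [Pi.single_eq_same]
  · intro v _ hv
    exact Pi.single_eq_of_ne hv.symm _
  · intro hw
    exact absurd (Finset.mem_univ _) hw

/-- the length of the cohomology of a window -/
theorem rl_SB {a : Fin r → ℤ} {b p : ℤ} {Q : ℕ}
    (hp : ∀ t, b ≤ t → t < b + Q → ((slot a t).card : ℤ) = p) :
    rl (cb (dC κ r) (MF κ (SB a b)) (MF κ (SB a (b + Q))) p)
      (cz (dC κ r) (MF κ (SB a b)) (MF κ (SB a (b + Q))) p) = ((TT a b Q).card : ℕ∞) := by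
  set Z := cz (dC κ r) (MF κ (SB a b)) (MF κ (SB a (b + Q))) p with hZ
  set B := cb (dC κ r) (MF κ (SB a b)) (MF κ (SB a (b + Q))) p with hB
  have hnil : ∀ c ∈ (mX κ r) ^ Q, ∀ x : (↥Z ⧸ B.submoduleOf Z), c • x = 0 := by
    intro c hc x
    obtain ⟨x, rfl⟩ := Submodule.Quotient.mk_surjective _ x
    rw [← Submodule.Quotient.mk_smul, Submodule.Quotient.mk_eq_zero]
    refine Submodule.mem_sup_right ?_
    exact mX_pow_MF Q (Submodule.smul_mem_smul hc x.2.1)
  let f : ↥Z →ₗ[κ] (↥(TT a b Q) → κ) := (Phi κ a b Q).comp (Z.subtype.restrictScalars κ)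
  have hf : Function.Surjective f := fun c => by
    obtain ⟨z, hz, h1⟩ := phi_surj hp c
    exact ⟨⟨z, hz⟩, h1⟩
  have hk : LinearMap.ker f = (B.submoduleOf Z).restrictScalars κ := by
    ext z
    rw [LinearMap.mem_ker]
    exact ⟨fun h0 => phi_ker z.2 h0, fun h0 => phi_bdry h0⟩
  have e : (↥Z ⧸ B.submoduleOf Z) ≃ₗ[κ] (↥(TT a b Q) → κ) :=
    (Submodule.quotEquivOfEq _ _ hk.symm).trans (f.quotKerEquivOfSurjective hf)
  rw [rl, length_eq_of_nilpotent Q _ hnil, e.length_eq, Module.length_eq_finrank,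
    Module.finrank_fintype_fun_eq_card, Fintype.card_coe]

/-! ### the statements -/

theorem lev_succ (Q j : ℕ) : (1 - ((j + 1 : ℕ) : ℤ)) * Q = -((j : ℤ) * Q) := by push_cast; ring

theorem lev (Q j : ℕ) : (1 - (j : ℤ)) * Q = -((j : ℤ) * Q) + Q := by ring

theorem slot_iff (m : Fin (r + 1)) {Q j : ℕ} {t : ℤ} (h1 : -((j : ℤ) * Q) ≤ t)
    (h2 : t < -((j : ℤ) * Q) + Q) (i : Fin r) :
    am m Q i + t < 0 ↔ (m.succAbove i : ℕ) < j := by
  unfold am
  set l : ℕ := (m.succAbove i : ℕ)
  constructor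
  · intro h
    by_contra hc
    push Not at hc
    have h3 : (j : ℤ) * Q ≤ (l : ℤ) * Q := by
      have : (j : ℤ) ≤ l := by exact_mod_cast hc
      exact mul_le_mul_of_nonneg_right this (by positivity)
    omega
  · intro h
    have h3 : ((l : ℤ) + 1) * Q ≤ (j : ℤ) * Q := by
      have : (l : ℤ) + 1 ≤ j := by exact_mod_cast h
      exact mul_le_mul_of_nonneg_right this (by positivity)
    rw [add_mul, one_mul] at h3
    omega

theorem card_lt (m : Fin (r + 1)) {j : ℕ} (hj : j ≤ r + 1) :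
    ((Finset.univ.filter fun i : Fin r => (m.succAbove i : ℕ) < j).card : ℤ) = pdeg (m : ℕ) j := by
  have h1 : ∑ l : Fin (r + 1), (if (l : ℕ) < j then 1 else 0) = j := by
    rw [Fin.sum_univ_eq_sum_range (fun l => if l < j then 1 else 0) (r + 1), ← Finset.card_filter]
    have : (Finset.range (r + 1)).filter (fun l => l < j) = Finset.range j := by
      ext l; simp only [Finset.mem_filter, Finset.mem_range]; omega
    rw [this, Finset.card_range]
  rw [Fin.sum_univ_succAbove _ m, ← Finset.card_filter] at h1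
  unfold pdeg
  split_ifs at h1 ⊢ with h2 h3 <;> omega

theorem slot_card (m : Fin (r + 1)) {Q j : ℕ} (hj : j ≤ r + 1) {t : ℤ}
    (h1 : -((j : ℤ) * Q) ≤ t) (h2 : t < -((j : ℤ) * Q) + Q) :
    ((slot (am m Q) t).card : ℤ) = pdeg (m : ℕ) j := by
  rw [← card_lt m hj]
  congr 2
  ext i
  simp only [slot, Finset.mem_filter, Finset.mem_univ, true_and]
  exact slot_iff m h1 h2 i

theorem am_nonneg (m : Fin (r + 1)) (Q : ℕ) (i : Fin r) : 0 ≤ am m Q i := by
  unfold am; positivity

end WinAux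

open WinAux

/-- TASK M3: the windows of the Čech complex (second proof, see also `WinLam.lean`). -/
theorem win_lam' (m : Fin (r + 1)) (Q : ℕ) (_hQ : 1 ≤ Q) :
    Win ((mX κ r) ^ Q) (r + 1) (m : ℕ) (dC κ r) (fun k => MF κ (SW (am m Q) Q k))
      (MF κ (SG (am m Q))) (fun j => (wc m Q j : ℕ∞)) where
  dd := dC_dC
  stab j := cstab_MF (up_SB _ _) (fun _ _ i h _ => SB_ins i h)
  stabinf := cstab_MF (up_SG _) (fun _ _ i h _ => SG_ins i h)
  mono j p := by
    refine MF_mono (up_SB _ _) (up_SB _ _) (SB_anti ?_) p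
    rw [lev_succ, lev]
    omega
  monoinf p := MF_mono (up_SG _) (up_SB _ _) SG_sub_SB p
  push j p := by
    have h := mX_pow_MF (κ := κ) (a := am m Q) (b := -((j : ℤ) * Q)) (p := p) Q
    rw [← lev, ← lev_succ] at h
    exact h
  neg j p hp := by
    rw [eq_bot_iff]
    intro f hf
    rw [Submodule.mem_bot]
    funext I
    refine cf_ext fun g => ?_
    by_contra hne
    have := ((mem_MF (up_SB _ _)).1 hf I g (by rwa [Pi.zero_apply, cf_zero] at hne)).2
    omega
  ex j hj p hp := by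
    have h := ex_SB (κ := κ) (a := am m Q) (b := -((j : ℤ) * Q)) (b' := -((j : ℤ) * Q) + Q)
      (p := p) (fun t h1 h2 h3 => hp (by rw [← h3]; exact slot_card m (by omega) h1 h2))
    rw [← lev, ← lev_succ] at h
    exact h
  dim j hj := by
    have h := rl_SB (κ := κ) (a := am m Q) (b := -((j : ℤ) * Q)) (p := pdeg (m : ℕ) j) (Q := Q)
      (fun t h1 h2 => slot_card m (by omega) h1 h2)
    rw [card_TT] at h
    have e : (∑ u ∈ Finset.range Q, ∏ i : Fin r, (am m Q i + (-((j : ℤ) * Q) + u) + 1).natAbs) =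
        wc m Q j := by
      unfold wc
      refine Finset.sum_congr rfl fun u _ => Finset.prod_congr rfl fun i _ => ?_
      congr 1
      ring
    rw [e, ← lev, ← lev_succ] at h
    exact h
  lift j hj := by
    have h := lift_SB (κ := κ) (a := am m Q) (b := -((j : ℤ) * Q)) (b' := -((j : ℤ) * Q) + Q)
      (p := pdeg (m : ℕ) j) (by omega)
    rw [← lev, ← lev_succ] at h
    exact h
  ex1 p hp := by
    refine ex_SB_SG (κ := κ) (a := am m Q) (b := (1 - ((0 : ℕ) : ℤ)) * Q) (fun i => ?_) (by omega)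
    have := am_nonneg m Q i
    push_cast
    omega

/-- the part of degree `0` of the cocycles of level `0` -/
theorem WinAux.cz_zero_iff (m : Fin (r + 1)) (Q : ℕ) (f : Lam κ r) :
    f ∈ cz (dC κ r) (MF κ (SW (am m Q) Q 1)) (MF κ (SG (am m Q))) 0 ↔
      (∀ I, I ≠ ∅ → f I = 0) ∧ ∀ g, cf (f ∅) g ≠ 0 → g ∈ SN (am m Q) := by
  have hlev : (1 - ((1 : ℕ) : ℤ)) * Q = 0 := by simp
  constructor
  · rintro ⟨h1, h2⟩
    replace h1 : f ∈ MF κ (SB (am m Q) ((1 - ((1 : ℕ) : ℤ)) * Q)) 0 := h1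
    replace h2 : dC κ r f ∈ MF κ (SG (am m Q)) (0 + 1) := h2
    rw [mem_MF (up_SB _ _), hlev] at h1
    rw [mem_MF (up_SG _)] at h2
    refine ⟨fun I hI => cf_ext fun g => ?_, fun g hg => ?_⟩
    · rw [cf_zero]
      by_contra hne
      have := (h1 I g hne).2
      apply hI
      rw [← Finset.card_eq_zero]
      exact_mod_cast this
    · obtain ⟨h3, _⟩ := h1 ∅ g hg
      have h4 : 0 ≤ g.2 ∧ ∀ i, 0 ≤ g.1 i := by
        rcases h3 with h3 | h3
        · obtain ⟨i, hi, _⟩ := h3.2
          exact absurd hi (Finset.notMem_empty i)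
        · exact ⟨h3.2, fun i => h3.1 i (Finset.notMem_empty i)⟩
      refine ⟨h4.1, fun i => ⟨h4.2 i, ?_⟩⟩
      have h5 : cf (dC κ r f {i}) g ≠ 0 := by
        change cf (∑ k ∈ ({i} : Finset (Fin r)), sg k {i} • f (({i} : Finset (Fin r)).erase k)) g ≠ 0
        have hs : sg i ({i} : Finset (Fin r)) = 1 := by
          simp [sg, Finset.filter_singleton]
        rw [Finset.sum_singleton, Finset.erase_singleton, hs, one_smul]
        exact hg
      obtain ⟨h6, _⟩ := h2 {i} g h5
      obtain ⟨k, hk, hk'⟩ := h6.2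
      rw [Finset.mem_singleton] at hk
      subst hk
      exact hk'
  · rintro ⟨h1, h2⟩
    have hne : ∀ I g, cf (f I) g ≠ 0 → I = ∅ := by
      intro I g hg
      by_contra hI
      rw [h1 I hI, cf_zero] at hg
      exact hg rfl
    refine ⟨?_, ?_⟩
    · change f ∈ MF κ (SB (am m Q) ((1 - ((1 : ℕ) : ℤ)) * Q)) 0
      rw [mem_MF (up_SB _ _), hlev]
      intro I g hg
      have hI := hne I g hg
      subst hI
      have := h2 g hg
      exact ⟨Or.inr ⟨fun i _ => (this.2 i).1, this.1⟩, by simp⟩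
    · change dC κ r f ∈ MF κ (SG (am m Q)) (0 + 1)
      rw [mem_MF (up_SG _)]
      intro I g hg
      change cf (∑ i ∈ I, sg i I • f (I.erase i)) g ≠ 0 at hg
      rw [cf_sum] at hg
      obtain ⟨i, hi, hne1⟩ := Finset.exists_ne_zero_of_sum_ne_zero hg
      rw [cf_zsmul] at hne1
      have hne' : cf (f (I.erase i)) g ≠ 0 := fun h0 => hne1 (by rw [h0, smul_zero])
      have hI := hne _ g hne'
      rw [hI] at hne'
      have h3 := h2 g hne'
      have hI' : I = {i} := by rw [← Finset.insert_erase hi, hI]; rfl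
      subst hI'
      exact ⟨⟨fun k _ => (h3.2 k).1, i, hi, (h3.2 i).2⟩, by simp⟩

/-- TASK M5: the cohomology of the level `0` is the module `N_a`. -/
theorem coh_zero (m : Fin (r + 1)) (Q : ℕ) :
    Nonempty ((↥(cz (dC κ r) (MF κ (SW (am m Q) Q 1)) (MF κ (SG (am m Q))) 0) ⧸
      (cb (dC κ r) (MF κ (SW (am m Q) Q 1)) (MF κ (SG (am m Q))) 0).submoduleOf
        (cz (dC κ r) (MF κ (SW (am m Q) Q 1)) (MF κ (SG (am m Q))) 0)) ≃ₗ[PP κ r]
      ↥(NMon κ (SN (am m Q)))) := by
  set Z := cz (dC κ r) (MF κ (SW (am m Q) Q 1)) (MF κ (SG (am m Q))) 0 with hZ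
  set B := cb (dC κ r) (MF κ (SW (am m Q) Q 1)) (MF κ (SG (am m Q))) 0 with hB
  let f : ↥Z →ₗ[PP κ r] ↥(NMon κ (SN (am m Q))) :=
    LinearMap.codRestrict _ ((LinearMap.proj (∅ : Finset (Fin r))).comp Z.subtype) (fun z =>
      (mem_NMon (nup_SN _) _).2 ((cz_zero_iff m Q z.1).1 z.2).2)
  have hf : Function.Surjective f := by
    intro y
    refine ⟨⟨Pi.single ∅ y.1, ?_⟩, ?_⟩
    · refine (cz_zero_iff m Q _).2 ⟨fun I hI => Pi.single_eq_of_ne hI _, ?_⟩
      rw [Pi.single_eq_same]
      exact (mem_NMon (nup_SN _) _).1 y.2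
    · apply Subtype.ext
      change (Pi.single ∅ y.1 : Lam κ r) ∅ = y.1
      rw [Pi.single_eq_same]
  have hk : LinearMap.ker f = B.submoduleOf Z := by
    ext z
    rw [LinearMap.mem_ker]
    have hz := (cz_zero_iff m Q z.1).1 z.2
    constructor
    · intro h0
      have h1 : z.1 ∅ = 0 := congrArg Subtype.val h0
      have h2 : z.1 = 0 := by
        funext I
        by_cases hI : I = ∅
        · rw [hI]; exact h1
        · exact hz.1 I hI
      change z.1 ∈ B
      rw [h2]
      exact B.zero_mem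
    · intro h0
      replace h0 : z.1 ∈ B := h0
      obtain ⟨y, hy, x, hx, hxy⟩ := Submodule.mem_sup.1 h0
      obtain ⟨w, hw, rfl⟩ := hy
      replace hw : w ∈ MF κ (SB (am m Q) ((1 - ((1 : ℕ) : ℤ)) * Q)) (0 - 1) := hw
      rw [mem_MF (up_SB _ _)] at hw
      rw [mem_MF (up_SG _)] at hx
      apply Subtype.ext
      change z.1 ∅ = 0
      rw [← hxy, Pi.add_apply]
      have e1 : dC κ r w ∅ = 0 := by
        change (∑ i ∈ (∅ : Finset (Fin r)), sg i ∅ • w ((∅ : Finset (Fin r)).erase i)) = 0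
        simp
      have e2 : x ∅ = 0 := by
        refine cf_ext fun g => ?_
        rw [cf_zero]
        by_contra hne
        obtain ⟨i, hi, _⟩ := (hx ∅ g hne).1.2
        exact absurd hi (Finset.notMem_empty i)
      rw [e1, e2, add_zero]
  exact ⟨(Submodule.quotEquivOfEq _ _ hk.symm).trans (f.quotKerEquivOfSurjective hf)⟩

end Vale.Agent.P202.CharP
end

section

/-!
P202-G3, definitions for the finite box model of the Čech complex.
-/

namespace Vale.Agent.P202.CharP.Gen2

open Submodule TensorProduct Gen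

/-- the level `1 - k` of the window filtration, restricted to the box `s i ≤ B + j`. -/
def SWB {r : ℕ} (a : Fin r → ℤ) (Q : ℕ) (B : ℤ) (k : ℕ) : Set (Finset (Fin r) × Gx r) :=
  {x | x ∈ SG a ∨ (x ∈ SF r ∧ (1 - (k : ℤ)) * Q ≤ x.2.2 ∧ ∀ i, x.2.1 i ≤ B + x.2.2)}

/-- position of the cohomology of the window `-j`. -/
def pos (r m j : ℕ) : ℤ := if j < r + 1 then pdeg m j else r

/-- the estimate of the homology of all finite subquotients of `Lam` killed by `(X)^Q`. -/
def EstAll (κ : Type*) [Field κ] (r Q : ℕ) (S : Type*) [CommRing S] [Algebra (PP κ r) S]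
    {ι : Type*} [Fintype ι] (deg : ι → ℤ) (K : Matrix ι ι S) (c lam : ℕ) (t : ℤ → ℕ) (η : ℕ) :
    Prop :=
  ∀ X Y : Submodule (PP κ r) (Lam κ r), X ≤ Y → (mX κ r) ^ Q • Y ≤ X → rl X Y ≠ ⊤ → ∀ i : ℤ,
    khs deg K (Y.baseChange S) (X.baseChange S) i ≠ ⊤ ∧
    |(c : ℤ) * ((khs deg K (Y.baseChange S) (X.baseChange S) i).toNat : ℤ) -
      (lam : ℤ) * ((rl X Y).toNat : ℤ) * (t i : ℤ)| ≤ ((rl X Y).toNat : ℤ) * (η : ℤ)

/-- the total differential of the model. -/
noncomputable def DB (κ : Type*) [Field κ] (r : ℕ) (S : Type*) [CommRing S] [Algebra (PP κ r) S]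
    {n' : ℕ} (L : Fin n' → S) :
    (KIdx n' → S ⊗[PP κ r] Lam κ r) →ₗ[S] (KIdx n' → S ⊗[PP κ r] Lam κ r) :=
  tot (kdeg n') (kos n' L) ((dC κ r).baseChange S)

/-- the level `k` of the box model. -/
noncomputable def WB (κ : Type*) [Field κ] {r : ℕ} (a : Fin r → ℤ) (Q : ℕ) (B : ℤ) (S : Type*)
    [CommRing S] [Algebra (PP κ r) S] (n' k : ℕ) (δ : ℤ) :
    Submodule S (KIdx n' → S ⊗[PP κ r] Lam κ r) :=
  lift (kdeg n') (bcf S (MF κ (SWB a Q B k))) δ

/-- the bottom of the model. -/
noncomputable def WI (κ : Type*) [Field κ] {r : ℕ} (a : Fin r → ℤ) (S : Type*)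
    [CommRing S] [Algebra (PP κ r) S] (n' : ℕ) (δ : ℤ) :
    Submodule S (KIdx n' → S ⊗[PP κ r] Lam κ r) :=
  lift (kdeg n') (bcf S (MF κ (SG a))) δ

end Vale.Agent.P202.CharP.Gen2
end

section

/-!
P202-G3, task M1: basic properties of the box families.
-/

set_option linter.all false

namespace Vale.Agent.P202.CharP.Gen2

open Submodule TensorProduct Gen

variable {κ : Type*} [Field κ] {r : ℕ}

namespace BoxBasic

/-- level `b`, restricted to the box. -/
def SBB (a : Fin r → ℤ) (b B : ℤ) : Set (Finset (Fin r) × Gx r) :=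
  {x | x ∈ SG a ∨ (x ∈ SF r ∧ b ≤ x.2.2 ∧ ∀ i, x.2.1 i ≤ B + x.2.2)}

theorem up_SBB (a : Fin r → ℤ) (b B : ℤ) : Up (SBB a b B) := by
  rintro I g L (h | h)
  · exact Or.inl (up_SG a I g L h)
  · refine Or.inr ⟨up_SF I g L h.1, ?_, fun i => ?_⟩
    · have h1 : b ≤ g.2 := h.2.1
      change b ≤ g.2 + 1
      omega
    · have h1 := mb_ex_fst_le L i
      have h2 : g.1 i ≤ B + g.2 := h.2.2 i
      change g.1 i + (ex L).1 i ≤ B + (g.2 + 1)
      omega

theorem SF_ins {I : Finset (Fin r)} {g : Gx r} (i : Fin r) (h : (I, g) ∈ SF r) :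
    (insert i I, g) ∈ SF r := fun k hk => h k (fun h' => hk (Finset.mem_insert_of_mem h'))

theorem SG_ins {a : Fin r → ℤ} {I : Finset (Fin r)} {g : Gx r} (i : Fin r) (h : (I, g) ∈ SG a) :
    (insert i I, g) ∈ SG a := by
  obtain ⟨k, hk, hk'⟩ := h.2
  exact ⟨SF_ins i h.1, k, Finset.mem_insert_of_mem hk, hk'⟩

theorem mem_MF {E : Set (Finset (Fin r) × Gx r)} (hE : Up E) {p : ℤ} {f : Lam κ r} :
    f ∈ MF κ E p ↔ ∀ I g, cf (f I) g ≠ 0 → (I, g) ∈ E ∧ (I.card : ℤ) = p :=
  mem_Mon (up_grd hE p) f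

theorem MF_mono {E E' : Set (Finset (Fin r) × Gx r)} (hE : Up E) (hE' : Up E') (h : E ⊆ E')
    (p : ℤ) : MF κ E p ≤ MF κ E' p := by
  intro f hf
  rw [mem_MF hE] at hf
  rw [mem_MF hE']
  exact fun I g hg => ⟨h (hf I g hg).1, (hf I g hg).2⟩

/-- multiplication by a variable raises the level -/
theorem X_MF {a : Fin r → ℤ} {b B p : ℤ} (l : Fin (r + 1)) {f : Lam κ r}
    (hf : f ∈ MF κ (SBB a b B) p) :
    (MvPolynomial.X l : PP κ r) • f ∈ MF κ (SBB a (b + 1) B) p := by
  rw [mem_MF (up_SBB a b B)] at hf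
  rw [mem_MF (up_SBB a (b + 1) B)]
  intro I g hg
  rw [Pi.smul_apply] at hg
  obtain ⟨L, hL⟩ := WinAux.cf_X_smul l (f I) g hg
  obtain ⟨h1, h2⟩ := hf I _ hL
  refine ⟨?_, h2⟩
  rcases h1 with h1 | h1
  · have := up_SG a I _ L h1
    rw [sub_add_cancel] at this
    exact Or.inl this
  · have h3 := up_SF I _ L h1.1
    rw [sub_add_cancel] at h3
    refine Or.inr ⟨h3, ?_, fun i => ?_⟩
    · have h4 : b ≤ g.2 - 1 := h1.2.1
      change b + 1 ≤ g.2
      omega
    · have h4 : g.1 i - (ex L).1 i ≤ B + (g.2 - 1) := h1.2.2 i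
      have h5 := mb_ex_fst_le L i
      change g.1 i ≤ B + g.2
      omega

theorem mX_MF {a : Fin r → ℤ} {b B p : ℤ} :
    mX κ r • MF κ (SBB a b B) p ≤ MF κ (SBB a (b + 1) B) p := by
  rw [Submodule.smul_le]
  intro c hc f hf
  unfold mX at hc
  induction hc using Submodule.span_induction with
  | mem x h =>
    obtain ⟨l, rfl⟩ := h
    exact X_MF l hf
  | zero => rw [zero_smul]; exact Submodule.zero_mem _
  | add x y _ _ hx hy => rw [add_smul]; exact Submodule.add_mem _ hx hy
  | smul c x _ hx => rw [smul_eq_mul, mul_smul]; exact Submodule.smul_mem _ _ hx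

theorem mX_pow_MF {a : Fin r → ℤ} {b B p : ℤ} (k : ℕ) :
    (mX κ r) ^ k • MF κ (SBB a b B) p ≤ MF κ (SBB a (b + k) B) p := by
  induction k generalizing b with
  | zero => simp
  | succ k ih =>
    rw [pow_succ, Submodule.mul_smul]
    refine (smul_mono_right _ mX_MF).trans (ih.trans ?_)
    rw [show b + 1 + (k : ℤ) = b + ((k + 1 : ℕ) : ℤ) by push_cast; ring]

end BoxBasic

open BoxBasic

/-- TASK G3-M1: basic properties of the box families. -/
theorem up_SWB (a : Fin r → ℤ) (Q : ℕ) (B : ℤ) (k : ℕ) : Up (SWB a Q B k) := up_SBB _ _ _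

/-- TASK G3-M1. -/
theorem cstab_SWB (a : Fin r → ℤ) (Q : ℕ) (B : ℤ) (k : ℕ) :
    CStab (dC κ r) (MF κ (SWB a Q B k)) := by
  refine cstab_MF (up_SWB a Q B k) fun I g i h hi => ?_
  rcases h with h | h
  · exact Or.inl (SG_ins i h)
  · exact Or.inr ⟨SF_ins i h.1, h.2⟩

/-- TASK G3-M1. -/
theorem SWB_mono (a : Fin r → ℤ) (Q : ℕ) (B : ℤ) (k : ℕ) (p : ℤ) :
    MF κ (SWB a Q B k) p ≤ MF κ (SWB a Q B (k + 1)) p := by
  refine MF_mono (up_SWB a Q B k) (up_SWB a Q B (k + 1)) ?_ p
  rintro x (h | h)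
  · exact Or.inl h
  · refine Or.inr ⟨h.1, ?_, h.2.2⟩
    have h1 := h.2.1
    have h2 : (0 : ℤ) ≤ Q := Int.natCast_nonneg Q
    push_cast
    have h3 : (1 - ((k : ℤ) + 1)) * Q = (1 - (k : ℤ)) * Q - Q := by ring
    rw [h3]
    omega

/-- TASK G3-M1. -/
theorem SG_le_SWB (a : Fin r → ℤ) (Q : ℕ) (B : ℤ) (k : ℕ) (p : ℤ) :
    MF κ (SG a) p ≤ MF κ (SWB a Q B k) p :=
  MF_mono (up_SG a) (up_SWB a Q B k) (fun _ h => Or.inl h) p

/-- TASK G3-M1. -/
theorem SWB_le_SW (a : Fin r → ℤ) (Q : ℕ) (B : ℤ) (k : ℕ) (p : ℤ) :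
    MF κ (SWB a Q B k) p ≤ MF κ (SW a Q k) p := by
  refine MF_mono (up_SWB a Q B k) (up_SW a Q k) ?_ p
  rintro x (h | h)
  · exact Or.inl h
  · exact Or.inr ⟨h.1, h.2.1⟩

/-- TASK G3-M1. -/
theorem MF_out (E : Set (Finset (Fin r) × Gx r)) (p : ℤ) (hp : p < 0 ∨ ((r + 1 : ℕ) : ℤ) ≤ p) :
    MF κ E p = ⊥ := by
  rw [eq_bot_iff]
  intro f hf
  rw [Submodule.mem_bot]
  funext I
  refine mb_lau_ext fun g => ?_
  rw [Pi.zero_apply, cf_zero]
  by_contra hne
  have h1 := hf 1 I g (by rwa [one_smul])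
  have h2 : (I.card : ℤ) = p := h1.2
  have h3 : I.card ≤ r := by
    have := Finset.card_le_univ I
    rwa [Fintype.card_fin] at this
  omega

/-- TASK G3-M1. -/
theorem push_SWB (a : Fin r → ℤ) (Q : ℕ) (B : ℤ) (k : ℕ) (p : ℤ) :
    (mX κ r) ^ Q • MF κ (SWB a Q B (k + 1)) p ≤ MF κ (SWB a Q B k) p := by
  have h := mX_pow_MF (κ := κ) (a := a) (b := (1 - ((k + 1 : ℕ) : ℤ)) * Q) (B := B) (p := p) Q
  rw [show (1 - ((k + 1 : ℕ) : ℤ)) * Q + Q = (1 - (k : ℤ)) * Q by push_cast; ring] at h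
  exact h

end Vale.Agent.P202.CharP.Gen2
end

section

/-!
P202-G3, tasks M3 and M5: exactness of the windows of the box model.
-/

namespace Vale.Agent.P202.CharP.Gen2

open Submodule TensorProduct Gen

variable {κ : Type*} [Field κ] {r : ℕ}

namespace BoxExAux

open WinAux TogM

theorem up_SWB (a : Fin r → ℤ) (Q : ℕ) (B : ℤ) (k : ℕ) : Up (SWB a Q B k) := by
  rintro I g L (h | h)
  · exact Or.inl (up_SG a I g L h)
  · refine Or.inr ⟨up_SF I g L h.1, ?_, fun i => ?_⟩
    · have : (1 - (k : ℤ)) * Q ≤ g.2 := h.2.1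
      change (1 - (k : ℤ)) * Q ≤ g.2 + 1
      omega
    · have h1 : g.1 i ≤ B + g.2 := h.2.2 i
      have h2 := mb_ex_fst_le L i
      change g.1 i + (ex L).1 i ≤ B + (g.2 + 1)
      omega

theorem tog_SWB (a : Fin r → ℤ) (Q : ℕ) (B : ℤ) (k : ℕ) : Tog a (SWB a Q B k) := by
  intro i I g hi h h0 h1
  rcases h with h | h
  · exact Or.inl (tog_SG a i I g hi h h0 h1)
  · refine Or.inr ⟨fun k hk => ?_, h.2⟩
    by_cases hki : k = i
    · subst hki; exact h0
    · exact h.1 k (fun h' => by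
        rcases Finset.mem_insert.1 h' with h2 | h2
        · exact hki h2
        · exact hk h2)

/-- the homotopy argument -/
theorem ex_gen {a : Fin r → ℤ} {E E' : Set (Finset (Fin r) × Gx r)} (hE : Up E) (hE' : Up E')
    (hT : Tog a E) (hT' : Tog a E') {p : ℤ}
    (hn : ∀ I g, (I, g) ∈ E → (I.card : ℤ) = p → (∀ i, g.1 i < 0 ∨ g.1 i ≤ a i + g.2) →
      (I, g) ∈ E') : Ex (dC κ r) (MF κ E) (MF κ E') p := by
  obtain ⟨h, π, H⟩ := exists_hom (κ := κ) a
  rintro z ⟨hz, hdz⟩
  replace hdz : dC κ r z ∈ MF κ E' (p + 1) := hdz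
  replace hz : z ∈ MF κ E p := hz
  rw [H.eq z]
  refine Submodule.add_mem _ (Submodule.add_mem _ (Submodule.mem_sup_left ?_)
    (Submodule.mem_sup_right ?_)) (Submodule.mem_sup_right ?_)
  · exact Submodule.mem_map_of_mem (H.mem hE hT (by rwa [sub_add_cancel]))
  · exact H.mem hE' hT' hdz
  · rw [mem_MF hE']
    intro I g hg
    obtain ⟨h1, h2⟩ := H.ps z I g hg
    rw [mem_MF hE] at hz
    obtain ⟨h3, h4⟩ := hz I g h1
    exact ⟨hn I g h3 h4 h2, h4⟩

end BoxExAux

open WinAux BoxExAux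

/-- TASK G3-M3: exactness of the windows of the box model. -/
theorem ex_SWB (m : Fin (r + 1)) (Q : ℕ) (_hQ : 1 ≤ Q) (B : ℤ) (k : ℕ) (p : ℤ)
    (hp : p ≠ pos r m k) :
    Ex (dC κ r) (MF κ (SWB (am m Q) Q B (k + 1))) (MF κ (SWB (am m Q) Q B k)) p := by
  refine ex_gen (BoxExAux.up_SWB _ _ _ _) (BoxExAux.up_SWB _ _ _ _) (tog_SWB _ _ _ _)
    (tog_SWB _ _ _ _) fun I g h3 h4 h2 => ?_
  by_contra hc
  have hG : (I, g) ∉ SG (am m Q) := fun h => hc (Or.inl h)
  rcases h3 with h3 | ⟨hF, hlev, hbox⟩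
  · exact hG h3
  have hl : g.2 < -((k : ℤ) * Q) + Q := by
    by_contra hl
    refine hc (Or.inr ⟨hF, ?_, hbox⟩)
    change (1 - (k : ℤ)) * Q ≤ g.2
    rw [lev]
    omega
  have hlev' : -((k : ℤ) * Q) ≤ g.2 := by
    have h5 : (1 - ((k + 1 : ℕ) : ℤ)) * Q ≤ g.2 := hlev
    rwa [lev_succ] at h5
  have hS : (I, g) ∈ SB (am m Q) (-((k : ℤ) * Q)) := Or.inr ⟨hF, hlev'⟩
  have hS' : (I, g) ∉ SB (am m Q) (-((k : ℤ) * Q) + Q) := by
    rintro (h5 | h5)
    · exact hG h5
    · have h6 : -((k : ℤ) * Q) + Q ≤ g.2 := h5.2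
      omega
  obtain ⟨h5, h6, h7, _⟩ := nofree hS hS' h2
  have hI : I = slot (am m Q) g.2 := by
    ext i
    simp [slot, h7 i]
  apply hp
  unfold pos
  rw [← h4]
  split_ifs with hk
  · rw [hI]
    exact slot_card m (by omega) h5 h6
  · have : I = Finset.univ := by
      rw [hI]
      ext i
      simp only [slot, Finset.mem_filter, Finset.mem_univ, true_and, iff_true]
      rw [slot_iff m h5 h6 i]
      have := (m.succAbove i).isLt
      omega
    rw [this, Finset.card_univ, Fintype.card_fin]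

/-- TASK G3-M5: the box model computes the same cohomology. -/
theorem ex_SW_SWB (m : Fin (r + 1)) (Q : ℕ) (_hQ : 1 ≤ Q) (B : ℤ) (k : ℕ)
    (hB : (k : ℤ) * Q ≤ B) (hB' : (r : ℤ) * Q ≤ B) (p : ℤ) :
    Ex (dC κ r) (MF κ (SW (am m Q) Q k)) (MF κ (SWB (am m Q) Q B k)) p := by
  refine ex_gen (up_SB _ _) (BoxExAux.up_SWB _ _ _ _) (tog_SB _ _)
    (tog_SWB _ _ _ _) fun I g h3 _ h2 => ?_
  rcases h3 with h3 | ⟨hF, hlev⟩
  · exact Or.inl h3
  refine Or.inr ⟨hF, hlev, fun i => ?_⟩
  have hlev' : (1 - (k : ℤ)) * Q ≤ g.2 := hlev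
  rw [lev] at hlev'
  rcases h2 i with h5 | h5
  · change g.1 i ≤ B + g.2
    omega
  · change g.1 i ≤ B + g.2
    have h6 : am m Q i ≤ (r : ℤ) * Q := by
      unfold am
      have h7 : ((m.succAbove i : ℕ) : ℤ) ≤ r := by
        have := (m.succAbove i).isLt
        omega
      exact mul_le_mul_of_nonneg_right h7 (by positivity)
    omega

end Vale.Agent.P202.CharP.Gen2
end

section

/-!
P202-G3-N3: the Ulrich module is free (dimension count degree by degree).
-/

namespace Vale.Agent.P202.CharP.Gen2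

open Submodule TensorProduct

namespace UlFree

open NMod

variable {κ : Type*} [Field κ] {r : ℕ}

lemma cf_X_deg (l : Fin (r + 1)) {f : Lau κ r} {t : ℤ} (hf : ∀ g, cf f g ≠ 0 → g.2 = t) :
    ∀ g, cf ((MvPolynomial.X l : PP κ r) • f) g ≠ 0 → g.2 = t + 1 := by
  intro g hg
  rw [cf_X_smul] at hg
  obtain ⟨L, _, hL⟩ := Finset.exists_ne_zero_of_sum_ne_zero hg
  have h1 := hf _ hL
  have h2 : (g - ex L).2 = g.2 - 1 := rfl
  rw [h2] at h1
  linarith

lemma cf_monomial_deg (d : Fin (r + 1) →₀ ℕ) : ∀ {f : Lau κ r} {t : ℤ},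
    (∀ g, cf f g ≠ 0 → g.2 = t) →
    ∀ g, cf ((MvPolynomial.monomial d (1 : κ) : PP κ r) • f) g ≠ 0 → g.2 = t + d.degree := by
  induction d using Finsupp.induction_linear with
  | zero =>
    intro f t hf g hg
    have h1 : (MvPolynomial.monomial (0 : Fin (r + 1) →₀ ℕ) (1 : κ) : PP κ r) = 1 := rfl
    rw [h1, one_smul] at hg
    simpa using hf g hg
  | add d₁ d₂ h1 h2 =>
    intro f t hf g hg
    have h3 : (MvPolynomial.monomial (d₁ + d₂) (1 : κ) : PP κ r) =
        MvPolynomial.monomial d₁ 1 * MvPolynomial.monomial d₂ 1 := by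
      rw [MvPolynomial.monomial_mul, one_mul]
    rw [h3, mul_smul] at hg
    have h4 := h1 (h2 hf) g hg
    rw [h4, map_add]
    push_cast
    ring
  | single l n =>
    induction n with
    | zero =>
      intro f t hf g hg
      have h1 : (MvPolynomial.monomial (Finsupp.single l 0 : Fin (r + 1) →₀ ℕ) (1 : κ) : PP κ r) =
          1 := by
        rw [Finsupp.single_zero]
        rfl
      rw [h1, one_smul] at hg
      simpa using hf g hg
    | succ n ih =>
      intro f t hf g hg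
      have h3 : (MvPolynomial.monomial (Finsupp.single l (n + 1)) (1 : κ) : PP κ r) =
          MvPolynomial.X l * MvPolynomial.monomial (Finsupp.single l n) 1 := by
        rw [MvPolynomial.X, MvPolynomial.monomial_mul, one_mul, ← Finsupp.single_add, add_comm 1 n]
      rw [h3, mul_smul] at hg
      have h4 := cf_X_deg l (ih hf) g hg
      rw [h4, Finsupp.degree_single, Finsupp.degree_single]
      push_cast
      ring

lemma cf_smul_eq (q : PP κ r) {f : Lau κ r} {t : ℤ} (hf : ∀ g, cf f g ≠ 0 → g.2 = t) (j : ℕ)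
    (g : Gx r) (hg : g.2 = t + j) :
    cf (q • f) g = ∑ d ∈ Finset.finsuppAntidiag (Finset.univ : Finset (Fin (r + 1))) j,
      q.coeff d * cf ((MvPolynomial.monomial d (1 : κ) : PP κ r) • f) g := by
  conv_lhs => rw [q.as_sum]
  rw [Finset.sum_smul, cf_sum]
  have h1 : ∀ d, cf ((MvPolynomial.monomial d (q.coeff d) : PP κ r) • f) g =
      q.coeff d * cf ((MvPolynomial.monomial d (1 : κ) : PP κ r) • f) g := by
    intro d
    have h2 : (MvPolynomial.monomial d (q.coeff d) : PP κ r) =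
        MvPolynomial.C (q.coeff d) * MvPolynomial.monomial d 1 := by
      rw [MvPolynomial.C_mul_monomial, mul_one]
    rw [h2, mul_smul, C_smul, cf_smul]
  refine Finset.sum_congr_of_eq_on_inter (fun d _ hd => ?_) (fun d _ hd => ?_) (fun d _ _ => h1 d)
  · rw [h1]
    by_contra h3
    have h4 := cf_monomial_deg d hf g (right_ne_zero_of_mul h3)
    refine hd (Finset.mem_finsuppAntidiag.2 ⟨?_, Finset.subset_univ _⟩)
    have h5 : (d.degree : ℤ) = j := by linarith
    rw [Finsupp.degree_eq_sum] at h5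
    exact_mod_cast h5
  · rw [MvPolynomial.notMem_support_iff.1 hd, zero_mul]

/-- exponents of the monomials of degree `j` of the Ulrich module -/
abbrev TI (r j : ℕ) : Type := ∀ i : Fin r, Fin (r - i + j)

/-- monomials of degree `j` of the polynomial ring -/
abbrev DI (r j : ℕ) : Type :=
  {d : Fin (r + 1) →₀ ℕ // d ∈ Finset.finsuppAntidiag (Finset.univ : Finset (Fin (r + 1))) j}

/-- the exponent -/
def gt {r j : ℕ} (u : TI r j) : Gx r := (fun i => ((u i : ℕ) : ℤ), (j : ℤ))

lemma gt_inj {r j : ℕ} {u u' : TI r j} (h : gt u = gt u') : u = u' := by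
  funext i
  have h1 := congrFun (congrArg Prod.fst h) i
  have h2 : ((u i : ℕ) : ℤ) = ((u' i : ℕ) : ℤ) := h1
  exact Fin.ext (by exact_mod_cast h2)

lemma card_TI (r j : ℕ) : Fintype.card (TI r j) = r.factorial * (r + j).choose r := by
  rw [← Nat.descFactorial_eq_factorial_mul_choose, Fintype.card_pi]
  simp only [Fintype.card_fin]
  rw [Fin.prod_univ_eq_prod_range (fun i => r - i + j) r, Nat.descFactorial_eq_prod_range]
  refine Finset.prod_congr rfl fun i hi => ?_
  rw [Finset.mem_range] at hi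
  omega

lemma card_DI (r j : ℕ) : Fintype.card (DI r j) = (r + j).choose r := by
  rw [Fintype.card_coe, Finset.card_finsuppAntidiag_nat_eq_choose, Finset.card_univ,
    Fintype.card_fin]
  have h1 : r + 1 + j - 1 = r + j := by omega
  rw [h1]
  exact (Nat.choose_symm_add).symm

/-- matrix of the multiplication in degree `j` -/
noncomputable def mm (κ : Type*) [Field κ] (r j : ℕ) : Matrix (TI r j) (GI r × DI r j) κ :=
  Matrix.of fun u p => cf ((MvPolynomial.monomial (p.2 : Fin (r + 1) →₀ ℕ) (1 : κ) : PP κ r) •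
    gn κ r p.1) (gt u)

lemma gn_deg (s : GI r) : ∀ g, cf (gn κ r s) g ≠ 0 → g.2 = 0 := by
  intro g hg
  rw [gn, cf_mono] at hg
  split_ifs at hg with h
  · rw [← h]
  · exact absurd rfl hg

lemma mm_mulVec (j : ℕ) (c : GI r → PP κ r) (u : TI r j) :
    (mm κ r j).mulVec (fun p => (c p.1).coeff (p.2 : Fin (r + 1) →₀ ℕ)) u =
      cf (∑ s, c s • gn κ r s) (gt u) := by
  have h0 : (gt u).2 = (0 : ℤ) + j := by
    show (j : ℤ) = 0 + j
    rw [zero_add]
  rw [cf_sum, Matrix.mulVec, dotProduct, Fintype.sum_prod_type]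
  refine Finset.sum_congr rfl fun s _ => ?_
  have h2 := cf_smul_eq (c s) (gn_deg s) j (gt u) h0
  refine Eq.trans ?_ h2.symm
  refine Eq.trans ?_ (Finset.sum_coe_sort _ _)
  refine Finset.sum_congr rfl fun d _ => ?_
  exact mul_comm _ _

lemma mm_surj (κ : Type*) [Field κ] (r j : ℕ) : Function.Surjective (mm κ r j).mulVecLin := by
  classical
  have h1 : ∀ u₀ : TI r j, ∃ x, (mm κ r j).mulVecLin x = Pi.single u₀ 1 := by
    intro u₀
    have h2 := mono_mem_GG (κ := κ) (r := r) j (fun i => (u₀ i : ℕ)) (fun i => by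
      have h3 := (u₀ i).isLt
      have h4 := i.isLt
      unfold ul
      omega)
    unfold GG at h2
    rw [Submodule.mem_span_range_iff_exists_fun] at h2
    obtain ⟨c, hc⟩ := h2
    change _ = mono (gt u₀) 1 at hc
    refine ⟨fun p => (c p.1).coeff (p.2 : Fin (r + 1) →₀ ℕ), ?_⟩
    funext u
    rw [Matrix.mulVecLin_apply, mm_mulVec, hc, cf_mono]
    by_cases h : u = u₀
    · subst h
      rw [if_pos rfl, Pi.single_eq_same]
    · rw [if_neg (fun h' => h (gt_inj (j := j) h').symm), Pi.single_eq_of_ne h]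
  choose x hx using h1
  intro y
  refine ⟨∑ u, y u • x u, ?_⟩
  rw [map_sum]
  simp only [map_smul, hx]
  funext u
  rw [Finset.sum_apply]
  simp [Pi.single_apply]

lemma mm_inj (κ : Type*) [Field κ] (r j : ℕ) : Function.Injective (mm κ r j).mulVecLin := by
  refine (LinearMap.injective_iff_surjective_of_finrank_eq_finrank ?_).2 (mm_surj κ r j)
  rw [Module.finrank_fintype_fun_eq_card, Module.finrank_fintype_fun_eq_card, Fintype.card_prod,
    card_GI, card_TI, card_DI]

/-- the generators of the Ulrich module are linearly independent -/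
theorem gn_lin (κ : Type*) [Field κ] (r : ℕ) : LinearIndependent (PP κ r) (gn κ r) := by
  rw [Fintype.linearIndependent_iff]
  intro c hc s
  ext d
  rw [MvPolynomial.coeff_zero]
  have hd : d ∈ Finset.finsuppAntidiag (Finset.univ : Finset (Fin (r + 1))) d.degree :=
    Finset.mem_finsuppAntidiag.2 ⟨(Finsupp.degree_eq_sum d).symm, Finset.subset_univ _⟩
  have h1 : (mm κ r d.degree).mulVecLin
      (fun p => (c p.1).coeff (p.2 : Fin (r + 1) →₀ ℕ)) = 0 := by
    funext u
    rw [Matrix.mulVecLin_apply, mm_mulVec, hc, cf_zero]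
    rfl
  have h2 := mm_inj κ r d.degree (h1.trans (map_zero _).symm)
  exact congrFun h2 (s, ⟨d, hd⟩)

end UlFree

open NMod in
/-- TASK G3-N3: the Ulrich module is free. -/
theorem NMon_ul_free (κ : Type*) [Field κ] (r : ℕ) :
    Nonempty ((Fin r.factorial → PP κ r) ≃ₗ[PP κ r]
      ↥(NMon κ (SN (fun i : Fin r => (r : ℤ) - 1 - (i : ℕ))))) := by
  classical
  let v : GI r → ↥(NMon κ (SN (ul r))) := fun s => ⟨gn κ r s, gn_mem _⟩
  have hli : LinearIndependent (PP κ r) v := by
    refine LinearIndependent.of_comp (NMon κ (SN (ul r))).subtype ?_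
    exact UlFree.gn_lin κ r
  have hsp : ⊤ ≤ Submodule.span (PP κ r) (Set.range v) := by
    intro f _
    have h1 : (f : Lau κ r) ∈ (Submodule.span (PP κ r) (Set.range v)).map
        (NMon κ (SN (ul r))).subtype := by
      rw [Submodule.map_span, ← Set.range_comp]
      exact NMon_ul_le f.2
    obtain ⟨f', hf', h⟩ := h1
    have : f' = f := Subtype.ext h
    rw [← this]
    exact hf'
  let e : GI r ≃ Fin r.factorial := Fintype.equivFinOfCardEq (card_GI r)
  exact ⟨((Module.Basis.mk hli hsp).reindex e).equivFun.symm⟩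

end Vale.Agent.P202.CharP.Gen2
end

section

/-!
P202-G3, normalization: the Koszul Euler characteristic of `S ⊗ N_a` and the bottom of the box
model.
-/

namespace Vale.Agent.P202.CharP.Gen2

open Submodule TensorProduct Gen

universe u v w

namespace PsiNorm

section Mon

variable {κ : Type w} [Field κ] {r : ℕ}

/-- the variable `X_0` acts as `τ`. -/
theorem cf_X0_smul (f : Lau κ r) (k : Gx r) :
    cf ((MvPolynomial.X 0 : PP κ r) • f) k = cf f (k - (0, 1)) := by
  rw [NMod.cf_X_smul]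
  have h : (Finset.univ : Finset (Fin r)).powersetCard ((0 : Fin (r + 1)) : ℕ) = {∅} :=
    Finset.powersetCard_zero _
  rw [h, Finset.sum_singleton]
  rfl

theorem cf_X0_pow_smul (c : ℕ) (f : Lau κ r) (k : Gx r) :
    cf ((MvPolynomial.X 0 : PP κ r) ^ c • f) k = cf f (k - (0, (c : ℤ))) := by
  induction c generalizing k with
  | zero =>
    rw [pow_zero, one_smul]
    congr 1
    ext i <;> simp
  | succ c ih =>
    rw [pow_succ', mul_smul, cf_X0_smul, ih]
    congr 1
    ext i
    · simp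
    · simp only [Prod.snd_sub]
      push_cast
      ring

theorem X0_pow_mem {a a' : Fin r → ℤ} {c : ℕ} (h : ∀ i, a' i ≤ a i + c) {f : Lau κ r}
    (hf : f ∈ NMon κ (SN a')) : (MvPolynomial.X 0 : PP κ r) ^ c • f ∈ NMon κ (SN a) := by
  refine NMod.mem_of_supp (nup_SN a) fun g hg => ?_
  rw [cf_X0_pow_smul] at hg
  obtain ⟨h1, h2⟩ := NMod.supp_of_mem hf hg
  have h1' : 0 ≤ g.2 - (c : ℤ) := h1
  refine ⟨by omega, fun i => ?_⟩
  have h3 : 0 ≤ g.1 i - 0 ∧ g.1 i - 0 ≤ a' i + (g.2 - (c : ℤ)) := h2 i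
  have h4 := h i
  omega

end Mon

section Psi

variable {κ : Type w} [Field κ] {r : ℕ} {S : Type v} [CommRing S] [IsNoetherianRing S]
  [Algebra (PP κ r) S] [Module.Flat (PP κ r) S]

/-- a submodule with quotient killed by a power of `X_0` has the same Euler characteristic. -/
theorem kchi_eq_of_inj {n : ℕ} (L : Fin n → S)
    (hL : Module.length S (S ⧸ Ideal.span (Set.range L)) ≠ ⊤) {N₁ N₂ : Type*}
    [AddCommGroup N₁] [AddCommGroup N₂] [Module (PP κ r) N₁] [Module (PP κ r) N₂]
    [Module.Finite (PP κ r) N₁] [Module.Finite (PP κ r) N₂] (f : N₁ →ₗ[PP κ r] N₂)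
    (hf : Function.Injective f) (c : ℕ)
    (hc : ∀ v, (MvPolynomial.X 0 : PP κ r) ^ c • v ∈ LinearMap.range f) :
    kchi L (S ⊗[PP κ r] N₁) = kchi L (S ⊗[PP κ r] N₂) := by
  have h1 := kchi_tensor_add L hL f (LinearMap.range f).mkQ hf (Submodule.mkQ_surjective _)
    (LinearMap.exact_map_mkQ_range f)
  have h2 := kchi_tensor_eq_zero (κ := κ) (r := r) L hL (N₂ ⧸ LinearMap.range f) c (by
    intro v
    obtain ⟨v, rfl⟩ := Submodule.Quotient.mk_surjective _ v
    exact (Submodule.Quotient.mk_eq_zero (LinearMap.range f)).mpr (hc v))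
  rw [h1, h2, add_zero]

theorem kchi_NMon_mono {n : ℕ} (L : Fin n → S)
    (hL : Module.length S (S ⧸ Ideal.span (Set.range L)) ≠ ⊤) {a a' : Fin r → ℤ}
    (h : ∀ i, a i ≤ a' i) :
    kchi L (S ⊗[PP κ r] ↥(NMon κ (SN a))) = kchi L (S ⊗[PP κ r] ↥(NMon κ (SN a'))) := by
  have := NMon_fg (κ := κ) a
  have := NMon_fg (κ := κ) a'
  have hc : ∀ i, a' i ≤ a i + ((∑ i, (a' i - a i).natAbs : ℕ) : ℤ) := by
    intro i
    have h1 : (a' i - a i).natAbs ≤ ∑ i, (a' i - a i).natAbs :=
      Finset.single_le_sum (f := fun i => (a' i - a i).natAbs) (fun _ _ => Nat.zero_le _)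
        (Finset.mem_univ i)
    omega
  refine kchi_eq_of_inj L hL (Submodule.inclusion (NMon_mono h))
    (Submodule.inclusion_injective _) (∑ i, (a' i - a i).natAbs) fun v => ?_
  exact ⟨⟨_, X0_pow_mem hc v.2⟩, rfl⟩

omit [IsNoetherianRing S] [Module.Flat (PP κ r) S] in
theorem kchi_pi {n : ℕ} (L : Fin n → S) (k : ℕ) (M : Type*) [AddCommGroup M] [Module S M] :
    kchi L (Fin k → M) = (k : ℤ) * kchi L M := by
  unfold kchi kk
  rw [Finset.mul_sum]
  refine Finset.sum_congr rfl fun i _ => ?_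
  rw [kh_pi, ENat.toNat_mul, ENat.toNat_natCast]
  push_cast
  ring

omit [IsNoetherianRing S] [Module.Flat (PP κ r) S] in
theorem kchi_free {n : ℕ} (L : Fin n → S) (k : ℕ) :
    kchi L (S ⊗[PP κ r] (Fin k → PP κ r)) = (k : ℤ) * kchi L S := by
  rw [kchi_congr L (TensorProduct.piRight (PP κ r) S S (fun _ : Fin k => PP κ r)), kchi_pi,
    kchi_congr L (TensorProduct.AlgebraTensorModule.rid (PP κ r) S S)]

end Psi

end PsiNorm

section Norm

variable {κ : Type w} [Field κ] {r : ℕ} {S : Type v} [CommRing S] [IsNoetherianRing S]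
  [Algebra (PP κ r) S] [Module.Flat (PP κ r) S]

open PsiNorm in
/-- TASK G3-N4: normalization. -/
theorem kchi_NMon_eq {n : ℕ} (L : Fin n → S)
    (hL : Module.length S (S ⧸ Ideal.span (Set.range L)) ≠ ⊤) (a : Fin r → ℤ) :
    kchi L (S ⊗[PP κ r] ↥(NMon κ (SN a))) = (r.factorial : ℤ) * kchi L S := by
  set ul : Fin r → ℤ := fun i : Fin r => (r : ℤ) - 1 - (i : ℕ) with hul
  have h1 := kchi_NMon_mono (κ := κ) L hL (a := a) (a' := fun i => max (a i) (ul i))
    (fun i => le_max_left _ _)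
  have h2 := kchi_NMon_mono (κ := κ) L hL (a := ul) (a' := fun i => max (a i) (ul i))
    (fun i => le_max_right _ _)
  obtain ⟨e⟩ := NMon_ul_free κ r
  rw [h1, ← h2, ← kchi_congr L (e.baseChange (PP κ r) S _ _), kchi_free]

namespace PsiNorm

omit [IsNoetherianRing S] in
/-- the homology of the level `1` over the bottom. -/
theorem hh_level_one (m : Fin (r + 1)) (Q : ℕ) (hQ : 1 ≤ Q) {n : ℕ} (L : Fin n → S) (i : ℤ) :
    hh (DB κ r S L) (lift (kdeg n) (bcf S (MF κ (SW (am m Q) Q 0)))) (WI κ (am m Q) S n) i =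
      kk L (S ⊗[PP κ r] (↥(cz (dC κ r) (MF κ (SW (am m Q) Q 0)) (MF κ (SG (am m Q))) 0) ⧸
        (cb (dC κ r) (MF κ (SW (am m Q) Q 0)) (MF κ (SG (am m Q))) 0).submoduleOf
          (cz (dC κ r) (MF κ (SW (am m Q) Q 0)) (MF κ (SG (am m Q))) 0))) i := by
  have hW := win_lam' (κ := κ) m Q hQ
  have hex : ∀ p, p ≠ 0 → Ex (dC κ r) (MF κ (SW (am m Q) Q 0)) (MF κ (SG (am m Q))) p := by
    intro p hp
    rcases lt_or_gt_of_ne hp with h | h
    · intro x hx
      have h1 : x ∈ MF κ (SW (am m Q) Q 0) p := hx.1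
      have h2 : MF κ (SW (am m Q) Q 0) p = ⊥ := hW.neg 0 p h
      rw [h2, Submodule.mem_bot] at h1
      rw [h1]
      exact Submodule.zero_mem _
    · exact hW.ex1 p (by omega)
  unfold DB WI
  rw [hh_lift_of_ex (kdeg n) (kos n L) (kos_isCx n L) ((dC κ r).baseChange S)
    (baseChange_dd S _ dC_dC) _ _ (cstab_bcf S _ _ hW.stabinf) (cstab_bcf S _ _ (hW.stab 0))
    (fun p => Submodule.baseChange_mono S (hW.monoinf p)) 0
    (fun p hp => ex_bcf S _ _ _ p (hex p hp)) i, cz_bcf, cb_bcf, add_zero,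
    khs_eq_kh _ _ (kos_isCx n L)]
  · set Y0 := cz (dC κ r) (MF κ (SW (am m Q) Q 0)) (MF κ (SG (am m Q))) 0 with hY0
    set X0 := cb (dC κ r) (MF κ (SW (am m Q) Q 0)) (MF κ (SG (am m Q))) 0 with hX0
    obtain ⟨g', hg', hk'⟩ := exists_quot_baseChange S X0 Y0
      (X0.submoduleOf Y0).mkQ (Submodule.mkQ_surjective _) (Submodule.ker_mkQ _)
    unfold kk
    exact kh_congr _ _ ((Submodule.quotEquivOfEq _ _ hk'.symm).trans
      (g'.quotKerEquivOfSurjective hg')) i
  · exact Submodule.baseChange_mono S (cb_le_cz _ dC_dC _ _ hW.stabinf (hW.stab 0)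
      hW.monoinf 0)

omit [IsNoetherianRing S] [Module.Flat (PP κ r) S] in
/-- the cohomology of the level `1` inside `N_a`. -/
theorem exists_inj (κ : Type w) [Field κ] (m : Fin (r + 1)) (Q : ℕ) (hQ : 1 ≤ Q) :
    ∃ f : (↥(cz (dC κ r) (MF κ (SW (am m Q) Q 0)) (MF κ (SG (am m Q))) 0) ⧸
        (cb (dC κ r) (MF κ (SW (am m Q) Q 0)) (MF κ (SG (am m Q))) 0).submoduleOf
          (cz (dC κ r) (MF κ (SW (am m Q) Q 0)) (MF κ (SG (am m Q))) 0)) →ₗ[PP κ r]
      ↥(NMon κ (SN (am m Q))), Function.Injective f ∧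
      ∀ v, (MvPolynomial.X 0 : PP κ r) ^ Q • v ∈ LinearMap.range f := by
  have hW := win_lam' (κ := κ) m Q hQ
  obtain ⟨e⟩ := coh_zero (κ := κ) m Q
  have hcb : ∀ k, cb (dC κ r) (MF κ (SW (am m Q) Q k)) (MF κ (SG (am m Q))) 0 =
      MF κ (SG (am m Q)) 0 := by
    intro k
    have h2 : MF κ (SW (am m Q) Q k) (0 - 1) = ⊥ := hW.neg k (0 - 1) (by omega)
    rw [cb, h2, Submodule.map_bot, bot_sup_eq]
  set Z1 := cz (dC κ r) (MF κ (SW (am m Q) Q 0)) (MF κ (SG (am m Q))) 0 with hZ1
  set Z0 := cz (dC κ r) (MF κ (SW (am m Q) Q 1)) (MF κ (SG (am m Q))) 0 with hZ0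
  rw [hcb] at e ⊢
  set G := MF κ (SG (am m Q)) 0 with hG
  have hZ : Z1 ≤ Z0 := inf_le_inf_right _ (hW.mono 0 0)
  let f : (↥Z1 ⧸ G.submoduleOf Z1) →ₗ[PP κ r] (↥Z0 ⧸ G.submoduleOf Z0) :=
    Submodule.mapQ _ _ (Submodule.inclusion hZ) (by intro x hx; exact hx)
  refine ⟨e.toLinearMap ∘ₗ f, ?_, ?_⟩
  · refine e.injective.comp ?_
    rw [injective_iff_map_eq_zero]
    intro z
    obtain ⟨z, rfl⟩ := Submodule.Quotient.mk_surjective _ z
    intro hz
    have hz' : (Submodule.Quotient.mk (Submodule.inclusion hZ z) : ↥Z0 ⧸ G.submoduleOf Z0) = 0 :=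
      hz
    rw [Submodule.Quotient.mk_eq_zero] at hz' ⊢
    exact hz'
  · intro v
    obtain ⟨z, rfl⟩ := e.surjective v
    obtain ⟨z, rfl⟩ := Submodule.Quotient.mk_surjective _ z
    have hX : (MvPolynomial.X 0 : PP κ r) ^ Q ∈ (mX κ r) ^ Q :=
      Ideal.pow_mem_pow (Ideal.subset_span (Set.mem_range_self (0 : Fin (r + 1)))) Q
    have h1 : (MvPolynomial.X 0 : PP κ r) ^ Q • z.1 ∈ Z1 := by
      refine ⟨hW.push 0 0 (Submodule.smul_mem_smul hX z.2.1), ?_⟩
      have h3 := (Submodule.smul_mem Z0 ((MvPolynomial.X 0 : PP κ r) ^ Q) z.2).2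
      exact h3
    refine ⟨Submodule.Quotient.mk ⟨_, h1⟩, ?_⟩
    change e (Submodule.Quotient.mk (Submodule.inclusion hZ
      (⟨(MvPolynomial.X 0 : PP κ r) ^ Q • z.1, h1⟩ : ↥Z1))) = _
    rw [← map_smul]
    rfl

end PsiNorm

open PsiNorm in
/-- TASK G3-N5: the bottom of the box model. -/
theorem bottom_box (m : Fin (r + 1)) (Q : ℕ) (hQ : 1 ≤ Q) (B : ℤ) (hB' : (r : ℤ) * Q ≤ B)
    (hB : 0 ≤ B) {n : ℕ} (L : Fin n → S)
    (hL : Module.length S (S ⧸ Ideal.span (Set.range L)) ≠ ⊤) :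
    (∀ δ, δ < 0 → hh (DB κ r S L) (WB κ (am m Q) Q B S n 0) (WI κ (am m Q) S n) δ = 0) ∧
    (∀ δ, hh (DB κ r S L) (WB κ (am m Q) Q B S n 0) (WI κ (am m Q) S n) δ ≠ ⊤) ∧
    ∑ i ∈ Finset.range (n + 1), (-1 : ℤ) ^ i *
      ((hh (DB κ r S L) (WB κ (am m Q) Q B S n 0) (WI κ (am m Q) S n) (i : ℤ)).toNat : ℤ) =
      (r.factorial : ℤ) * kchi L S := by
  have hW := win_lam' (κ := κ) m Q hQ
  have hd := baseChange_dd S (dC κ r) dC_dC
  have h0 : ∀ δ, hh (DB κ r S L) (lift (kdeg n) (bcf S (MF κ (SW (am m Q) Q 0))))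
      (WB κ (am m Q) Q B S n 0) δ = 0 := by
    intro δ
    exact hh_lift_eq_zero (kdeg n) (kos n L) (kos_isCx n L) _ hd _ _
      (cstab_bcf S _ _ (cstab_SWB _ _ _ _)) (cstab_bcf S _ _ (hW.stab 0))
      (fun p => Submodule.baseChange_mono S (SWB_le_SW _ _ _ _ p)) δ
      (fun b => ex_bcf S _ _ _ _ (ex_SW_SWB m Q hQ B 0 (by simpa using hB) hB' _))
  have key : ∀ δ, hh (DB κ r S L) (WB κ (am m Q) Q B S n 0) (WI κ (am m Q) S n) δ =
      kk L (S ⊗[PP κ r] (↥(cz (dC κ r) (MF κ (SW (am m Q) Q 0)) (MF κ (SG (am m Q))) 0) ⧸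
        (cb (dC κ r) (MF κ (SW (am m Q) Q 0)) (MF κ (SG (am m Q))) 0).submoduleOf
          (cz (dC κ r) (MF κ (SW (am m Q) Q 0)) (MF κ (SG (am m Q))) 0))) δ := by
    intro δ
    rw [← hh_level_one m Q hQ L δ]
    exact (TR.hh_upper (D := DB κ r S L) (tot_tot _ _ (kos_isCx n L) _ hd)
      (lift_mono _ fun p => Submodule.baseChange_mono S (SG_le_SWB _ _ _ _ p))
      (lift_mono _ fun p => Submodule.baseChange_mono S (SWB_le_SW _ _ _ _ p))
      (h0 δ) (h0 (δ + 1))).symm
  obtain ⟨f, hf, hc⟩ := exists_inj κ m Q hQ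
  have := NMon_fg (κ := κ) (am m Q)
  have hN : IsNoetherian (PP κ r) ↥(NMon κ (SN (am m Q))) := inferInstance
  have hN1 := isNoetherian_of_injective f hf
  have hN2 : Module.Finite (PP κ r) (↥(cz (dC κ r) (MF κ (SW (am m Q) Q 0))
      (MF κ (SG (am m Q))) 0) ⧸ (cb (dC κ r) (MF κ (SW (am m Q) Q 0))
        (MF κ (SG (am m Q))) 0).submoduleOf
          (cz (dC κ r) (MF κ (SW (am m Q) Q 0)) (MF κ (SG (am m Q))) 0)) := inferInstance
  refine ⟨fun δ hδ => ?_, fun δ => ?_, ?_⟩
  · rw [key]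
    exact kk_out L _ δ (Or.inl hδ)
  · rw [key]
    exact kk_tensor_ne_top L hL _ δ
  · simp only [key]
    rw [← kchi_NMon_eq (κ := κ) L hL (am m Q), ← kchi_eq_of_inj L hL f hf Q hc]
    rfl

end Norm

end Vale.Agent.P202.CharP.Gen2
end

section

/-!
P202-G3, task M4: the Euler characteristic of the windows of the box model, by a direct count.
-/

namespace Vale.Agent.P202.CharP.Gen2

open Submodule TensorProduct Gen WinAux

variable {κ : Type*} [Field κ] {r : ℕ}

namespace BoxEuler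

/-- level `b` of the box -/
def SBB (a : Fin r → ℤ) (b B : ℤ) : Set (Finset (Fin r) × Gx r) :=
  {x | x ∈ SG a ∨ (x ∈ SF r ∧ b ≤ x.2.2 ∧ ∀ i, x.2.1 i ≤ B + x.2.2)}

theorem SWB_eq (a : Fin r → ℤ) (Q : ℕ) (B : ℤ) (k : ℕ) :
    SWB a Q B k = SBB a ((1 - (k : ℤ)) * Q) B := rfl

theorem up_SBB (a : Fin r → ℤ) (b B : ℤ) : Up (SBB a b B) := by
  rintro I g L (h | h)
  · exact Or.inl (up_SG a I g L h)
  · refine Or.inr ⟨up_SF I g L h.1, ?_, fun i => ?_⟩
    · have : b ≤ g.2 := h.2.1
      change b ≤ g.2 + 1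
      omega
    · have h1 : g.1 i ≤ B + g.2 := h.2.2 i
      have h2 := mb_ex_fst_le L i
      change g.1 i + (ex L).1 i ≤ B + (g.2 + 1)
      omega

/-- multiplication by a variable raises the level -/
theorem X_MF {a : Fin r → ℤ} {b B p : ℤ} (l : Fin (r + 1)) {f : Lam κ r}
    (hf : f ∈ MF κ (SBB a b B) p) :
    (MvPolynomial.X l : PP κ r) • f ∈ MF κ (SBB a (b + 1) B) p := by
  rw [mem_MF (up_SBB a b B)] at hf
  rw [mem_MF (up_SBB a (b + 1) B)]
  intro I g hg
  rw [Pi.smul_apply] at hg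
  obtain ⟨L, hL⟩ := cf_X_smul l (f I) g hg
  obtain ⟨h1, h2⟩ := hf I _ hL
  refine ⟨?_, h2⟩
  rcases h1 with h1 | h1
  · have := up_SG a I _ L h1
    rw [sub_add_cancel] at this
    exact Or.inl this
  · have h3 := up_SF I _ L h1.1
    rw [sub_add_cancel] at h3
    refine Or.inr ⟨h3, ?_, fun i => ?_⟩
    · have h4 : b ≤ g.2 - 1 := h1.2.1
      change b + 1 ≤ g.2
      omega
    · have h4 : g.1 i - (ex L).1 i ≤ B + (g.2 - 1) := h1.2.2 i
      have h5 := mb_ex_fst_le L i
      change g.1 i ≤ B + g.2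
      omega

theorem mX_MF {a : Fin r → ℤ} {b B p : ℤ} :
    mX κ r • MF κ (SBB a b B) p ≤ MF κ (SBB a (b + 1) B) p := by
  rw [Submodule.smul_le]
  intro c hc f hf
  unfold mX at hc
  induction hc using Submodule.span_induction with
  | mem x h =>
    obtain ⟨l, rfl⟩ := h
    exact X_MF l hf
  | zero => rw [zero_smul]; exact Submodule.zero_mem _
  | add x y _ _ hx hy => rw [add_smul]; exact Submodule.add_mem _ hx hy
  | smul c x _ hx => rw [smul_eq_mul, mul_smul]; exact Submodule.smul_mem _ _ hx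

theorem mX_pow_MF {a : Fin r → ℤ} {b B p : ℤ} (k : ℕ) :
    (mX κ r) ^ k • MF κ (SBB a b B) p ≤ MF κ (SBB a (b + k) B) p := by
  induction k generalizing b with
  | zero => simp
  | succ k ih =>
    rw [pow_succ, Submodule.mul_smul]
    refine (smul_mono_right _ mX_MF).trans (ih.trans ?_)
    rw [show b + 1 + (k : ℤ) = b + ((k + 1 : ℕ) : ℤ) by push_cast; ring]

/-- relative length of two monomial families -/
theorem rl_MF {E E' : Set (Finset (Fin r) × Gx r)} (hE : Up E) (hE' : Up E')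
    {p : ℤ} (n : ℕ) (hn : (mX κ r) ^ n • MF κ E' p ≤ MF κ E p) {ι : Type*} [Fintype ι]
    (ix : ι → Finset (Fin r) × Gx r) (hinj : Function.Injective ix)
    (hix : ∀ x, (∃ v, ix v = x) ↔ x ∈ E' ∧ (x.1.card : ℤ) = p ∧ x ∉ E) :
    rl (MF κ E p) (MF κ E' p) = (Fintype.card ι : ℕ∞) := by
  classical
  set Y := MF κ E' p with hY
  set X := MF κ E p with hX
  have hnil : ∀ c ∈ (mX κ r) ^ n, ∀ x : (↥Y ⧸ X.submoduleOf Y), c • x = 0 := by
    intro c hc x
    obtain ⟨x, rfl⟩ := Submodule.Quotient.mk_surjective _ x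
    rw [← Submodule.Quotient.mk_smul, Submodule.Quotient.mk_eq_zero]
    exact hn (Submodule.smul_mem_smul hc x.2)
  let f₀ : Lam κ r →ₗ[κ] (ι → κ) :=
    { toFun := fun f v => cf (f (ix v).1) (ix v).2
      map_add' := fun f f' => by ext v; exact cf_add _ _ _
      map_smul' := fun c f => by ext v; exact cf_smul _ _ _ }
  let f : ↥Y →ₗ[κ] (ι → κ) := f₀.comp (Y.subtype.restrictScalars κ)
  have hf : Function.Surjective f := by
    intro c
    have hstd : ∀ v, (Pi.single (ix v).1 (mono (ix v).2 (c v)) : Lam κ r) ∈ Y := by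
      intro v
      rw [hY, mem_MF hE']
      intro I g hg
      rw [Pi.single_apply] at hg
      by_cases hI : I = (ix v).1
      · rw [if_pos hI, cf_mono] at hg
        have hg' : (ix v).2 = g := by
          by_contra h
          rw [if_neg h] at hg
          exact hg rfl
        have h1 := (hix (ix v)).1 ⟨v, rfl⟩
        rw [hI, ← hg']
        exact ⟨h1.1, h1.2.1⟩
      · rw [if_neg hI, cf_zero] at hg
        exact absurd rfl hg
    refine ⟨⟨∑ v, Pi.single (ix v).1 (mono (ix v).2 (c v)),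
      Submodule.sum_mem _ fun v _ => hstd v⟩, ?_⟩
    have h1 : ∀ v, f₀ (Pi.single (ix v).1 (mono (ix v).2 (c v))) = Pi.single v (c v) := by
      intro v
      ext w
      change cf ((Pi.single (ix v).1 (mono (ix v).2 (c v)) : Lam κ r) (ix w).1) (ix w).2 = _
      rw [Pi.single_apply, Pi.single_apply]
      by_cases hvw : w = v
      · subst hvw
        rw [if_pos rfl, if_pos rfl, cf_mono, if_pos rfl]
      · rw [if_neg hvw]
        by_cases hI : (ix w).1 = (ix v).1
        · rw [if_pos hI, cf_mono, if_neg]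
          intro h
          exact hvw (hinj (Prod.ext hI h.symm))
        · rw [if_neg hI, cf_zero]
    change f₀ (∑ v, Pi.single (ix v).1 (mono (ix v).2 (c v))) = c
    rw [map_sum, Finset.sum_congr rfl fun v _ => h1 v]
    ext w
    rw [Finset.sum_apply, Finset.sum_eq_single w]
    · rw [Pi.single_eq_same]
    · intro v _ hv
      exact Pi.single_eq_of_ne hv.symm _
    · intro hw
      exact absurd (Finset.mem_univ _) hw
  have hk : LinearMap.ker f = (X.submoduleOf Y).restrictScalars κ := by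
    ext z
    rw [LinearMap.mem_ker]
    have hz : z.1 ∈ MF κ E' p := z.2
    rw [mem_MF hE'] at hz
    constructor
    · intro h0
      change z.1 ∈ MF κ E p
      rw [mem_MF hE]
      intro I g hg
      obtain ⟨h1, h2⟩ := hz I g hg
      refine ⟨?_, h2⟩
      by_contra hc
      obtain ⟨v, hv⟩ := (hix (I, g)).2 ⟨h1, h2, hc⟩
      have h3 : cf (z.1 (ix v).1) (ix v).2 = 0 := congrFun h0 v
      rw [hv] at h3
      exact hg h3
    · intro h0
      have h0' : z.1 ∈ MF κ E p := h0
      rw [mem_MF hE] at h0'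
      ext v
      change cf (z.1 (ix v).1) (ix v).2 = 0
      by_contra hne
      exact ((hix (ix v)).1 ⟨v, rfl⟩).2.2 (h0' _ _ hne).1
  have e : (↥Y ⧸ X.submoduleOf Y) ≃ₗ[κ] (ι → κ) :=
    (Submodule.quotEquivOfEq _ _ hk.symm).trans (f.quotKerEquivOfSurjective hf)
  rw [rl, length_eq_of_nilpotent n _ hnil, e.length_eq, Module.length_eq_finrank,
    Module.finrank_fintype_fun_eq_card]

/-- the monomials of a window of the box, of degree `p` -/
noncomputable def TB (a : Fin r → ℤ) (b B : ℤ) (Q p : ℕ) :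
    Finset (Σ _ : ℕ, Σ _ : Finset (Fin r), (Fin r → ℤ)) :=
  (Finset.range Q).sigma fun u => (Finset.univ.filter fun I : Finset (Fin r) => I.card = p).sigma
    fun I => Fintype.piFinset fun i =>
      if i ∈ I then Finset.Ioc (a i + (b + u)) (B + (b + u)) else Finset.Icc 0 (B + (b + u))

theorem mem_TB {a : Fin r → ℤ} {b B : ℤ} {Q p : ℕ}
    (x : Σ _ : ℕ, Σ _ : Finset (Fin r), (Fin r → ℤ)) :
    x ∈ TB a b B Q p ↔ x.1 < Q ∧ x.2.1.card = p ∧
      ∀ i, x.2.2 i ≤ B + (b + x.1) ∧ (i ∈ x.2.1 → a i + (b + x.1) < x.2.2 i) ∧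
        (i ∉ x.2.1 → 0 ≤ x.2.2 i) := by
  unfold TB
  rw [Finset.mem_sigma, Finset.mem_sigma, Finset.mem_range, Finset.mem_filter,
    Fintype.mem_piFinset]
  simp only [Finset.mem_univ, true_and]
  refine and_congr_right fun _ => and_congr_right fun _ => forall_congr' fun i => ?_
  by_cases hi : i ∈ x.2.1
  · rw [if_pos hi, Finset.mem_Ioc]
    tauto
  · rw [if_neg hi, Finset.mem_Icc]
    tauto

theorem card_TB (a : Fin r → ℤ) (b B : ℤ) (Q p : ℕ) (hb : 0 ≤ B + b) (ha : ∀ i, a i ≤ B) :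
    ((TB a b B Q p).card : ℤ) = ∑ u ∈ Finset.range Q,
      ∑ I ∈ Finset.univ.filter fun I : Finset (Fin r) => I.card = p,
        ∏ i, (if i ∈ I then (B - a i) else (B + (b + u) + 1)) := by
  rw [TB, Finset.card_sigma]
  push_cast
  refine Finset.sum_congr rfl fun u _ => ?_
  rw [Finset.card_sigma]
  push_cast
  refine Finset.sum_congr rfl fun I _ => ?_
  rw [Fintype.card_piFinset]
  push_cast
  refine Finset.prod_congr rfl fun i _ => ?_
  have hai := ha i
  split_ifs
  · rw [Int.card_Ioc]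
    omega
  · rw [Int.card_Icc]
    omega

/-- the index of a monomial -/
def ixB (a : Fin r → ℤ) (b B : ℤ) (Q p : ℕ) (x : ↥(TB a b B Q p)) : Finset (Fin r) × Gx r :=
  (x.1.2.1, (x.1.2.2, b + x.1.1))

theorem ixB_inj (a : Fin r → ℤ) (b B : ℤ) (Q p : ℕ) : Function.Injective (ixB a b B Q p) := by
  rintro ⟨⟨u, I, s⟩, hx⟩ ⟨⟨u', I', s'⟩, hx'⟩ h
  unfold ixB at h
  simp only [Prod.mk.injEq] at h
  obtain ⟨h1, h2, h3⟩ := h
  have h4 : u = u' := by omega
  subst h1 h2 h4
  rfl

theorem ixB_range (a : Fin r → ℤ) (b B : ℤ) (Q p : ℕ) (x : Finset (Fin r) × Gx r) :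
    (∃ v, ixB a b B Q p v = x) ↔ x ∈ SBB a b B ∧ (x.1.card : ℤ) = (p : ℤ) ∧
      x ∉ SBB a (b + Q) B := by
  constructor
  · rintro ⟨⟨⟨u, I, s⟩, hx⟩, rfl⟩
    rw [mem_TB] at hx
    obtain ⟨h1, h2, h3⟩ := hx
    simp only at h1 h2 h3
    have hSF : (I, ((s, b + (u : ℤ)) : Gx r)) ∈ SF r := fun i hi => (h3 i).2.2 hi
    refine ⟨Or.inr ⟨hSF, ?_, fun i => (h3 i).1⟩, ?_, ?_⟩
    · change b ≤ b + (u : ℤ)
      omega
    · exact_mod_cast h2
    · rintro (h | h)
      · obtain ⟨i, hi, hi'⟩ := h.2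
        have h4 := (h3 i).2.1 hi
        change s i ≤ a i + (b + u) at hi'
        omega
      · have h4 : b + Q ≤ b + (u : ℤ) := h.2.1
        omega
  · obtain ⟨I, s, j⟩ := x
    rintro ⟨h1, h2, h3⟩
    have hG : (I, ((s, j) : Gx r)) ∉ SG a := fun hG => h3 (Or.inl hG)
    rcases h1 with h1 | h1
    · exact absurd h1 hG
    · obtain ⟨h4, h5, h6⟩ := h1
      change b ≤ j at h5
      have h7 : j < b + Q := by
        by_contra hc
        exact h3 (Or.inr ⟨h4, not_lt.1 hc, h6⟩)
      obtain ⟨u, hu⟩ : ∃ u : ℕ, j = b + u := ⟨(j - b).toNat, by omega⟩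
      subst hu
      refine ⟨⟨⟨u, I, s⟩, ?_⟩, rfl⟩
      rw [mem_TB]
      refine ⟨by change u < Q; omega, by exact_mod_cast h2, fun i => ⟨h6 i, fun hi => ?_,
        fun hi => h4 i hi⟩⟩
      by_contra hc
      exact hG ⟨h4, i, hi, not_lt.1 hc⟩

theorem rl_SBB (a : Fin r → ℤ) (b B : ℤ) (Q p : ℕ) :
    rl (MF κ (SBB a (b + Q) B) p) (MF κ (SBB a b B) p) = ((TB a b B Q p).card : ℕ∞) := by
  rw [rl_MF (up_SBB a _ B) (up_SBB a b B) Q (mX_pow_MF Q) (ixB a b B Q p) (ixB_inj a b B Q p)
    (ixB_range a b B Q p), Fintype.card_coe]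

theorem sum_TB (a : Fin r → ℤ) (b B : ℤ) (Q : ℕ) (hb : 0 ≤ B + b) (ha : ∀ i, a i ≤ B) :
    ∑ p ∈ Finset.range (r + 1), (-1 : ℤ) ^ p * ((TB a b B Q p).card : ℤ) =
      ∑ u ∈ Finset.range Q, ∏ i, (a i + (b + u) + 1) := by
  simp only [card_TB a b B Q _ hb ha, Finset.mul_sum]
  rw [Finset.sum_comm]
  refine Finset.sum_congr rfl fun u _ => ?_
  set G : Finset (Fin r) → ℤ := fun I => (-1 : ℤ) ^ I.card *
    ∏ i, (if i ∈ I then (B - a i) else (B + (b + u) + 1)) with hG
  have h1 : ∑ p ∈ Finset.range (r + 1), ∑ I ∈ Finset.univ.filter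
      (fun I : Finset (Fin r) => I.card = p), (-1 : ℤ) ^ p *
        ∏ i, (if i ∈ I then (B - a i) else (B + (b + u) + 1)) = ∑ I, G I := by
    rw [← Finset.sum_fiberwise_of_maps_to (s := (Finset.univ : Finset (Finset (Fin r))))
      (t := Finset.range (r + 1)) (g := fun I => I.card) (fun I _ => by
        rw [Finset.mem_range]
        have := Finset.card_le_univ I
        rw [Fintype.card_fin] at this
        omega) G]
    refine Finset.sum_congr rfl fun p _ => Finset.sum_congr rfl fun I hI => ?_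
    change _ = (-1 : ℤ) ^ I.card * _
    rw [(Finset.mem_filter.1 hI).2]
  rw [h1]
  have h2 : ∀ i : Fin r, a i + (b + u) + 1 = -(B - a i) + (B + (b + u) + 1) := fun i => by ring
  simp only [h2]
  rw [Finset.prod_add, Finset.powerset_univ]
  refine Finset.sum_congr rfl fun I _ => ?_
  rw [hG]
  simp only
  rw [Finset.prod_ite, Finset.prod_neg, ← mul_assoc]
  have e1 : (Finset.univ.filter fun i : Fin r => i ∈ I) = I := by ext i; simp
  have e2 : (Finset.univ.filter fun i : Fin r => i ∉ I) = Finset.univ \ I := by ext i; simp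
  rw [e1, e2]

theorem prod_sign (m : Fin (r + 1)) {Q k : ℕ} (hk : k < r + 1) {u : ℕ} (hu : u < Q) :
    ∏ i : Fin r, (am m Q i + (-((k : ℤ) * Q) + u) + 1) =
      ((pdeg m k).negOnePow : ℤ) * ((∏ i : Fin r, (am m Q i - (k : ℤ) * Q + u + 1).natAbs : ℕ) : ℤ) := by
  have h1 : ∀ i : Fin r, am m Q i + (-((k : ℤ) * Q) + u) + 1 =
      (if i ∈ slot (am m Q) (-((k : ℤ) * Q) + u) then -1 else 1) *
        ((am m Q i - (k : ℤ) * Q + u + 1).natAbs : ℤ) := by
    intro i
    have e : am m Q i - (k : ℤ) * Q + u + 1 = am m Q i + (-((k : ℤ) * Q) + u) + 1 := by ring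
    rw [e]
    simp only [slot, Finset.mem_filter, Finset.mem_univ, true_and]
    split_ifs with h
    · omega
    · omega
  rw [Finset.prod_congr rfl fun i _ => h1 i, Finset.prod_mul_distrib, Finset.prod_ite_mem,
    Finset.univ_inter, Finset.prod_const]
  push_cast
  congr 1
  have h2 := slot_card m (Q := Q) (j := k) (by omega) (t := -((k : ℤ) * Q) + u) (by omega)
    (by omega)
  rw [← h2, Int.negOnePow_def]
  simp

end BoxEuler

open BoxEuler

/-- TASK G3-M4: the Euler characteristic of the windows of the box model. -/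
theorem euler_SWB (m : Fin (r + 1)) (Q : ℕ) (hQ : 1 ≤ Q) (B : ℤ) (k : ℕ)
    (hB : (k : ℤ) * Q ≤ B) (hB' : (r : ℤ) * Q ≤ B) (hk' : k < r + 1) :
    ∑ p ∈ Finset.range (r + 1), (-1 : ℤ) ^ p *
      ((rl (MF κ (SWB (am m Q) Q B k) p) (MF κ (SWB (am m Q) Q B (k + 1)) p)).toNat : ℤ) =
    ((pdeg m k).negOnePow : ℤ) * (wc m Q k : ℤ) := by
  have h1 : ∀ p : ℕ, (rl (MF κ (SWB (am m Q) Q B k) p)
      (MF κ (SWB (am m Q) Q B (k + 1)) p)).toNat = (TB (am m Q) (-((k : ℤ) * Q)) B Q p).card := by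
    intro p
    have h := rl_SBB (κ := κ) (am m Q) (-((k : ℤ) * Q)) B Q p
    rw [← lev, ← lev_succ] at h
    rw [SWB_eq, SWB_eq, h]
    rw [lev_succ]
    rfl
  simp only [h1]
  rw [sum_TB]
  · unfold wc
    rw [Nat.cast_sum, Finset.mul_sum]
    exact Finset.sum_congr rfl fun u hu => prod_sign m hk' (Finset.mem_range.1 hu)
  · omega
  · intro i
    refine le_trans ?_ hB'
    unfold am
    have h2 : ((m.succAbove i : ℕ) : ℤ) ≤ r := by
      have := (m.succAbove i).isLt
      omega
    exact mul_le_mul_of_nonneg_right h2 (by positivity)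

end Vale.Agent.P202.CharP.Gen2
end
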