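import Vale.Agent.P202.MathlibUsed
import Vale.Agent.P202.Bdl.B3
import Vale.Agent.P202.Bdl.B11
import Vale.Agent.P202.Bdl.B6
import Vale.Agent.P202.Bdl.B2
import Vale.Agent.P202.Bdl.B13

set_option linter.all false

section

/-!
P202 MIX: the algebra of all `p`-power roots: relations, universal property, monomial basis.
-/

namespace Vale.Agent.P202.Mix

open Polynomial TensorProduct IsLocalRing

universe u v w

noncomputable section

variable (p : ℕ) (S : Type u) [CommRing S] {ι : Type v} (a : ι → S)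

/-- the ideal of the relations of `RootAlg`. -/
def rrel : Ideal (MvPolynomial (ι × ℕ) S) := Ideal.span
    ((Set.range fun i : ι => (MvPolynomial.X (i, 0) - MvPolynomial.C (a i) :
      MvPolynomial (ι × ℕ) S)) ∪
    Set.range fun x : ι × ℕ => (MvPolynomial.X (x.1, x.2 + 1) ^ p - MvPolynomial.X x :
      MvPolynomial (ι × ℕ) S))

/-- the projection onto `RootAlg`. -/
def rmk : MvPolynomial (ι × ℕ) S →ₐ[S] RootAlg p S a := Ideal.Quotient.mkₐ S (rrel p S a)

theorem rmk_X (i : ι) (e : ℕ) : rmk p S a (MvPolynomial.X (i, e)) = rx p S a i e := rfl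

theorem rmk_C (s : S) : rmk p S a (MvPolynomial.C s) = algebraMap S _ s := rfl

theorem rmk_surj : Function.Surjective (rmk p S a) := Ideal.Quotient.mk_surjective

theorem rmk_eq_of_sub_mem {x y : MvPolynomial (ι × ℕ) S} (h : x - y ∈ rrel p S a) :
    rmk p S a x = rmk p S a y := Ideal.Quotient.eq.mpr h

theorem rmk_exists_lift {T : Type w} [CommRing T] [Algebra S T]
    (g : MvPolynomial (ι × ℕ) S →ₐ[S] T) (h : ∀ x ∈ rrel p S a, g x = 0) :
    ∃ f : RootAlg p S a →ₐ[S] T, ∀ x, f (rmk p S a x) = g x :=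
  ⟨Ideal.Quotient.liftₐ (rrel p S a) g h, fun _ => rfl⟩

theorem rx_zero (i : ι) : rx p S a i 0 = algebraMap S _ (a i) := by
  rw [← rmk_X, ← rmk_C]
  exact rmk_eq_of_sub_mem p S a (Ideal.subset_span (Or.inl ⟨i, rfl⟩))

theorem rx_succ (i : ι) (e : ℕ) : rx p S a i (e + 1) ^ p = rx p S a i e := by
  rw [← rmk_X, ← rmk_X, ← map_pow]
  exact rmk_eq_of_sub_mem p S a (Ideal.subset_span (Or.inr ⟨(i, e), rfl⟩))

theorem exists_lift {T : Type w} [CommRing T] [Algebra S T] (ρ : ι → ℕ → T)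
    (h0 : ∀ i, ρ i 0 = algebraMap S T (a i)) (hs : ∀ i e, ρ i (e + 1) ^ p = ρ i e) :
    ∃ f : RootAlg p S a →ₐ[S] T, ∀ i e, f (rx p S a i e) = ρ i e := by
  have hker : rrel p S a ≤ RingHom.ker
      (MvPolynomial.aeval (R := S) fun x : ι × ℕ => ρ x.1 x.2) := by
    rw [rrel, Ideal.span_le]
    rintro _ (⟨i, rfl⟩ | ⟨x, rfl⟩)
    · simp only [SetLike.mem_coe, RingHom.mem_ker, map_sub, MvPolynomial.aeval_X,
        MvPolynomial.aeval_C, h0, sub_self]
    · simp only [SetLike.mem_coe, RingHom.mem_ker, map_sub, map_pow, MvPolynomial.aeval_X, hs,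
        sub_self]
  obtain ⟨f, hf⟩ := rmk_exists_lift p S a _ (fun x hx => hker hx)
  refine ⟨f, fun i e => ?_⟩
  rw [← rmk_X, hf, MvPolynomial.aeval_X]

theorem rx_pow_pow (i : ι) (e : ℕ) : rx p S a i e ^ p ^ e = algebraMap S _ (a i) := by
  induction e with
  | zero => rw [pow_zero, pow_one, rx_zero]
  | succ e ih => rw [pow_succ', pow_mul, rx_succ, ih]

theorem rx_pow_add (i : ι) (e d : ℕ) : rx p S a i (e + d) ^ p ^ d = rx p S a i e := by
  induction d with
  | zero => rw [pow_zero, pow_one, add_zero]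
  | succ d ih => rw [pow_succ', pow_mul, ← add_assoc, rx_succ, ih]

theorem rx_mem_rsub {F : Finset ι} {e : ℕ} {i : ι} (hi : i ∈ F) :
    rx p S a i e ∈ rsub p S a (F, e) :=
  Algebra.subset_adjoin ⟨i, hi, rfl⟩

theorem rsub_le {F F' : Finset ι} {e e' : ℕ} (hF : F ⊆ F') (he : e ≤ e') :
    rsub p S a (F, e) ≤ rsub p S a (F', e') := by
  refine Algebra.adjoin_le ?_
  rintro _ ⟨i, hi, rfl⟩
  obtain ⟨d, rfl⟩ := Nat.exists_eq_add_of_le he
  change rx p S a i e ∈ rsub p S a (F', e + d)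
  rw [← rx_pow_add p S a i e d]
  exact pow_mem (rx_mem_rsub p S a (hF hi)) _

theorem rsub_mono : Monotone (rsub p S a) := fun _ _ h => rsub_le p S a h.1 h.2

theorem exists_mem_rsub (x : RootAlg p S a) : ∃ y : RI ι, x ∈ rsub p S a y := by
  classical
  obtain ⟨P, rfl⟩ := rmk_surj p S a x
  induction P using MvPolynomial.induction_on with
  | C s => exact ⟨(∅, 0), by rw [rmk_C]; exact algebraMap_mem _ s⟩
  | add f g hf hg =>
    obtain ⟨y, hy⟩ := hf
    obtain ⟨z, hz⟩ := hg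
    refine ⟨(y.1 ∪ z.1, max y.2 z.2), ?_⟩
    rw [map_add]
    exact add_mem (rsub_le p S a Finset.subset_union_left (le_max_left _ _) hy)
      (rsub_le p S a Finset.subset_union_right (le_max_right _ _) hz)
  | mul_X f x hf =>
    obtain ⟨y, hy⟩ := hf
    refine ⟨(insert x.1 y.1, max x.2 y.2), ?_⟩
    rw [map_mul, show rmk p S a (MvPolynomial.X x) = rx p S a x.1 x.2 from rfl]
    refine mul_mem (rsub_le p S a (Finset.subset_insert _ _) (le_max_right _ _) hy)
      (rsub_le p S a (F := {x.1}) ?_ (le_max_left _ _)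
        (rx_mem_rsub p S a (Finset.mem_singleton_self _)))
    intro j hj
    rw [Finset.mem_singleton.mp hj]
    exact Finset.mem_insert_self _ _

theorem prod_rx_mem_span [Fact p.Prime] (F : Finset ι) (e : ℕ) (n : ι →₀ ℕ) (hn : n.support ⊆ F) :
    (n.prod fun i m => rx p S a i e ^ m) ∈ Submodule.span S
      {y | ∃ α : Bx ι (p ^ e), α.1.support ⊆ F ∧ y = α.1.prod fun i m => rx p S a i e ^ m} := by
  have hq : 0 < p ^ e := pow_pos (Fact.out : p.Prime).pos _
  let α : ι →₀ ℕ := n.mapRange (fun m => m % p ^ e) (Nat.zero_mod _)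
  have hα : α.support ⊆ F := (Finsupp.support_mapRange).trans hn
  have h : (n.prod fun i m => rx p S a i e ^ m) =
      (∏ i ∈ F, a i ^ (n i / p ^ e)) • α.prod fun i m => rx p S a i e ^ m := by
    rw [Finsupp.prod_of_support_subset _ hn _ (fun i _ => pow_zero _),
      Finsupp.prod_of_support_subset _ hα _ (fun i _ => pow_zero _), Algebra.smul_def, map_prod,
      ← Finset.prod_mul_distrib]
    refine Finset.prod_congr rfl fun i _ => ?_
    rw [map_pow, ← rx_pow_pow, ← pow_mul, ← pow_add]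
    congr 1
    exact (Nat.div_add_mod _ _).symm
  rw [h]
  exact Submodule.smul_mem _ _ (Submodule.subset_span ⟨⟨α, fun i => Nat.mod_lt _ hq⟩, hα, rfl⟩)

theorem mem_rsub_iff [Fact p.Prime] (F : Finset ι) (e : ℕ) (x : RootAlg p S a) :
    x ∈ rsub p S a (F, e) ↔ x ∈ Submodule.span S
      {y | ∃ α : Bx ι (p ^ e), α.1.support ⊆ F ∧ y = α.1.prod fun i m => rx p S a i e ^ m} := by
  constructor
  · intro hx
    rw [← Subalgebra.mem_toSubmodule, rsub, Algebra.adjoin_eq_span] at hx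
    refine Submodule.span_le.mpr ?_ hx
    intro y hy
    obtain ⟨n, hn, rfl⟩ : ∃ n : ι →₀ ℕ, n.support ⊆ F ∧
        y = n.prod fun i m => rx p S a i e ^ m := by
      induction hy using Submonoid.closure_induction with
      | mem y hy =>
        obtain ⟨i, hi, rfl⟩ := hy
        refine ⟨Finsupp.single i 1, Finsupp.support_single_subset.trans ?_, ?_⟩
        · exact Finset.singleton_subset_iff.mpr hi
        · rw [Finsupp.prod_single_index (by exact pow_zero _), pow_one]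
      | one => exact ⟨0, by simp, by simp⟩
      | mul y z _ _ hy hz =>
        classical
        obtain ⟨n, hn, rfl⟩ := hy
        obtain ⟨m, hm, rfl⟩ := hz
        refine ⟨n + m, Finsupp.support_add.trans (Finset.union_subset hn hm), ?_⟩
        rw [Finsupp.prod_add_index' (fun _ => pow_zero _) (fun _ _ _ => pow_add _ _ _)]
    exact prod_rx_mem_span p S a F e n hn
  · intro hx
    rw [← Subalgebra.mem_toSubmodule]
    refine Submodule.span_le.mpr ?_ hx
    rintro _ ⟨α, hα, rfl⟩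
    change (α.1.prod fun i m => rx p S a i e ^ m) ∈ rsub p S a (F, e)
    exact prod_mem fun i hi => pow_mem (rx_mem_rsub p S a (hα hi)) _

end

end Vale.Agent.P202.Mix
end

section

/-!
P202 MIX: the tower of the algebra of all `p`-power roots.
-/

namespace Vale.Agent.P202.Mix

open Polynomial TensorProduct IsLocalRing

universe u v w

noncomputable section

/-- the set of the exponents with support in `F` is finite. -/
theorem finite_Bx {ι : Type v} (F : Finset ι) (q : ℕ) :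
    Finite {α : Bx ι q // α.1.support ⊆ F} := by
  refine Finite.of_injective (fun α : {α : Bx ι q // α.1.support ⊆ F} =>
    (fun i : F => (⟨α.1.1 i, α.1.2 i⟩ : Fin q))) ?_
  intro α β h
  refine Subtype.ext (Subtype.ext (Finsupp.ext fun i => ?_))
  by_cases hi : i ∈ F
  · exact congrArg Fin.val (congrFun h ⟨i, hi⟩)
  · rw [Finsupp.notMem_support_iff.mp fun h' => hi (α.2 h'),
      Finsupp.notMem_support_iff.mp fun h' => hi (β.2 h')]

variable (p : ℕ) (S : Type u) [CommRing S] {ι : Type v} (a : ι → S)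

theorem rsub_fg [Fact p.Prime] (x : RI ι) : (Subalgebra.toSubmodule (rsub p S a x)).FG := by
  obtain ⟨F, e⟩ := x
  have h : Subalgebra.toSubmodule (rsub p S a (F, e)) = Submodule.span S
      {y | ∃ α : Bx ι (p ^ e), α.1.support ⊆ F ∧ y = α.1.prod fun i m => rx p S a i e ^ m} := by
    ext x
    rw [Subalgebra.mem_toSubmodule, mem_rsub_iff]
  rw [h]
  refine Submodule.fg_span ?_
  have := finite_Bx F (p ^ e)
  refine (Set.finite_range (fun α : {α : Bx ι (p ^ e) // α.1.support ⊆ F} =>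
    α.1.1.prod fun i m => rx p S a i e ^ m)).subset ?_
  rintro _ ⟨α, hα, rfl⟩
  exact ⟨⟨α, hα⟩, rfl⟩

open Classical in
/-- the widths of the box of the exponents of the generators of `rsub (F', e')` over
`rsub (F, e)`. -/
def rwidth (F : Finset ι) (e e' : ℕ) (i : ι) : ℕ := if i ∈ F then p ^ (e' - e) else p ^ e'

theorem rwidth_pos [Fact p.Prime] (F : Finset ι) (e e' : ℕ) (i : ι) :
    0 < rwidth p F e e' i := by
  unfold rwidth
  split_ifs
  · exact pow_pos (Fact.out : p.Prime).pos _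
  · exact pow_pos (Fact.out : p.Prime).pos _

theorem prod_rwidth {F F' : Finset ι} (h : F ⊆ F') {e e' : ℕ} (he : e ≤ e') :
    (∏ i ∈ F', rwidth p F e e' i) * p ^ (e * F.card) = p ^ (e' * F'.card) := by
  classical
  have h1 : p ^ (e * F.card) = ∏ i ∈ F', if i ∈ F then p ^ e else 1 := by
    rw [Finset.prod_ite_mem, Finset.inter_eq_right.mpr h, Finset.prod_const, ← pow_mul]
  rw [h1, ← Finset.prod_mul_distrib, pow_mul, ← Finset.prod_const]
  refine Finset.prod_congr rfl fun i _ => ?_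
  unfold rwidth
  split_ifs
  · rw [← pow_add, Nat.sub_add_cancel he]
  · rw [mul_one]

/-- the generators of `rsub (F', e')` over `rsub (F, e)`. -/
abbrev RK (F F' : Finset ι) (e e' : ℕ) : Type v :=
  (i : {x // x ∈ F'}) → Fin (rwidth p F e e' i)

instance instFintypeRK (F F' : Finset ι) (e e' : ℕ) : Fintype (RK p F F' e e') := by
  classical
  exact inferInstance

/-- the monomials. -/
def rgen (F F' : Finset ι) (e e' : ℕ) (β : RK p F F' e e') : RootAlg p S a :=
  ∏ i : {x // x ∈ F'}, rx p S a i e' ^ (β i : ℕ)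

theorem rgen_mem (F F' : Finset ι) (e e' : ℕ) (β : RK p F F' e e') :
    rgen p S a F F' e e' β ∈ rsub p S a (F', e') :=
  prod_mem fun i _ => pow_mem (rx_mem_rsub p S a i.2) _

theorem card_RK {F F' : Finset ι} (h : F ⊆ F') {e e' : ℕ} (he : e ≤ e') :
    Fintype.card (RK p F F' e e') * p ^ (e * F.card) = p ^ (e' * F'.card) := by
  rw [← prod_rwidth p h he, ← Nat.card_eq_fintype_card, Nat.card_pi]
  simp only [Nat.card_eq_fintype_card, Fintype.card_fin]
  rw [Finset.prod_coe_sort F' (rwidth p F e e')]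

theorem prod_eq_rgen_mul [Fact p.Prime] {F F' : Finset ι} (h : F ⊆ F') {e e' : ℕ} (he : e ≤ e')
    (α : Bx ι (p ^ e')) (hα : α.1.support ⊆ F') :
    (α.1.prod fun i m => rx p S a i e' ^ m) =
      rgen p S a F F' e e' (fun i => ⟨α.1 i % rwidth p F e e' i,
        Nat.mod_lt _ (rwidth_pos p F e e' i)⟩) *
      ∏ i ∈ F, rx p S a i e ^ (α.1 i / rwidth p F e e' i) := by
  classical
  have h1 : (∏ i ∈ F, rx p S a i e ^ (α.1 i / rwidth p F e e' i)) =
      ∏ i ∈ F', if i ∈ F then rx p S a i e ^ (α.1 i / rwidth p F e e' i) else 1 := by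
    rw [Finset.prod_ite_mem, Finset.inter_eq_right.mpr h]
  rw [h1, rgen, Finset.prod_coe_sort F' (fun i => rx p S a i e' ^ (α.1 i % rwidth p F e e' i)),
    ← Finset.prod_mul_distrib, Finsupp.prod_of_support_subset _ hα _ (fun i _ => pow_zero _)]
  refine Finset.prod_congr rfl fun i _ => ?_
  unfold rwidth
  split_ifs with hi
  · have h2 : rx p S a i e' ^ p ^ (e' - e) = rx p S a i e := by
      have h3 := rx_pow_add p S a i e (e' - e)
      rwa [Nat.add_sub_cancel' he] at h3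
    rw [← h2, ← pow_mul, ← pow_add, Nat.mod_add_div]
  · rw [Nat.mod_eq_of_lt (α.2 i), mul_one]

/-- every element of `rsub (F', e')` is a combination of the monomials with coefficients in
`rsub (F, e)`. -/
theorem exists_eq_sum_rgen [Fact p.Prime] {F F' : Finset ι} (h : F ⊆ F') {e e' : ℕ}
    (he : e ≤ e') (x : RootAlg p S a) (hx : x ∈ rsub p S a (F', e')) :
    ∃ c : RK p F F' e e' → RootAlg p S a, (∀ β, c β ∈ rsub p S a (F, e)) ∧
      x = ∑ β, rgen p S a F F' e e' β * c β := by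
  classical
  have hx' := (mem_rsub_iff p S a F' e' x).mp hx
  clear hx
  induction hx' using Submodule.span_induction with
  | mem x hx =>
    obtain ⟨α, hα, rfl⟩ := hx
    let β0 : RK p F F' e e' := fun i => ⟨α.1 i % rwidth p F e e' i,
      Nat.mod_lt _ (rwidth_pos p F e e' i)⟩
    let y : RootAlg p S a := ∏ i ∈ F, rx p S a i e ^ (α.1 i / rwidth p F e e' i)
    refine ⟨fun β => if β = β0 then y else 0, fun β => ?_, ?_⟩
    · dsimp only
      split_ifs
      · exact prod_mem fun i hi => pow_mem (rx_mem_rsub p S a hi) _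
      · exact zero_mem _
    · dsimp only
      rw [Finset.sum_eq_single β0 (fun β _ hβ => by rw [if_neg hβ, mul_zero])
        (fun h' => absurd (Finset.mem_univ _) h'), if_pos rfl]
      exact prod_eq_rgen_mul p S a h he α hα
  | zero => exact ⟨0, fun _ => zero_mem _, by simp⟩
  | add x y _ _ hx hy =>
    obtain ⟨c, hc, rfl⟩ := hx
    obtain ⟨d, hd, rfl⟩ := hy
    refine ⟨c + d, fun β => add_mem (hc β) (hd β), ?_⟩
    rw [← Finset.sum_add_distrib]
    exact Finset.sum_congr rfl fun β _ => (mul_add _ _ _).symm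
  | smul s x _ hx =>
    obtain ⟨c, hc, rfl⟩ := hx
    refine ⟨s • c, fun β => Subalgebra.smul_mem _ (hc β) s, ?_⟩
    rw [Finset.smul_sum]
    exact Finset.sum_congr rfl fun β _ => (mul_smul_comm _ _ _).symm

/-- the tower of the subalgebras generated by finitely many roots. -/
def rootTower [Fact p.Prime] : Tower S (RootAlg p S a) (RI ι) where
  sub := rsub p S a
  mono := rsub_mono p S a
  cover := exists_mem_rsub p S a
  rank x := p ^ (x.2 * x.1.card)
  rank_pos x := pow_pos (Fact.out : p.Prime).pos _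
  fg := rsub_fg p S a
  gen := by
    rintro ⟨F, e⟩ ⟨F', e'⟩ ⟨hF, he⟩
    have hF : F ⊆ F' := hF
    have he : e ≤ e' := he
    let ε := Fintype.equivFin (RK p F F' e e')
    refine ⟨Fintype.card (RK p F F' e e'), fun k => rgen p S a F F' e e' (ε.symm k),
      card_RK p hF he, fun k => rgen_mem p S a F F' e e' _, fun x hx => ?_⟩
    obtain ⟨c, hc, rfl⟩ := exists_eq_sum_rgen p S a hF he x hx
    refine ⟨fun k => c (ε.symm k), fun k => hc _, ?_⟩
    exact (Equiv.sum_comp ε.symm fun β => rgen p S a F F' e e' β * c β).symm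

/-- TASK K4: the tower (`rank (F, e) = p ^ (e * card F)`; `sub (F', e')` is generated over
`sub (F, e)` by `p ^ (e' * card F' - e * card F)` monomials). -/
theorem exists_rootTower [Fact p.Prime] : ∃ T : Tower S (RootAlg p S a) (RI ι),
    (∀ x, T.sub x = rsub p S a x) ∧ ∀ x, T.rank x = p ^ (x.2 * x.1.card) :=
  ⟨rootTower p S a, fun _ => rfl, fun _ => rfl⟩

end

end Vale.Agent.P202.Mix
end

section

/-!
P202-MIX, task GEO-B3: exactness of the rows of a family of cells (toggle homotopy).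
-/

namespace Vale.Agent.P202.Mix

open Vale.Agent.P202.CharP
open scoped ENNReal

universe u

namespace CellRow

open Finset

section Sign

variable {n : ℕ}

theorem ksg_mul_self (i : Fin n) (J : Finset (Fin n)) : ksg i J * ksg i J = 1 := by
  unfold ksg
  rw [← pow_add, ← two_mul, pow_mul]
  simp

theorem ksg_erase_self (i : Fin n) (J : Finset (Fin n)) : ksg i (J.erase i) = ksg i J := by
  unfold ksg
  congr 2
  ext x
  simp only [mem_filter, mem_erase]
  constructor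
  · rintro ⟨⟨_, h⟩, h'⟩; exact ⟨h, h'⟩
  · rintro ⟨h, h'⟩; exact ⟨⟨h'.ne, h⟩, h'⟩

theorem ksg_insert_self (i : Fin n) (J : Finset (Fin n)) : ksg i (insert i J) = ksg i J := by
  unfold ksg
  congr 2
  ext x
  simp only [mem_filter, mem_insert]
  constructor
  · rintro ⟨h | h, h'⟩
    · exact absurd h h'.ne
    · exact ⟨h, h'⟩
  · rintro ⟨h, h'⟩; exact ⟨Or.inr h, h'⟩

theorem ksg_erase_of_le {i j : Fin n} (J : Finset (Fin n)) (h : i ≤ j) :
    ksg i (J.erase j) = ksg i J := by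
  unfold ksg
  congr 2
  ext x
  simp only [mem_filter, mem_erase]
  constructor
  · rintro ⟨⟨_, h1⟩, h'⟩; exact ⟨h1, h'⟩
  · rintro ⟨h1, h'⟩; exact ⟨⟨(h'.trans_le h).ne, h1⟩, h'⟩

theorem ksg_erase_of_lt {i j : Fin n} {J : Finset (Fin n)} (hj : j ∈ J) (h : j < i) :
    ksg i (J.erase j) = - ksg i J := by
  unfold ksg
  have e : ((J.erase j).filter (· < i)) = (J.filter (· < i)).erase j := by
    ext x; simp only [mem_filter, mem_erase]; tauto
  have hm : j ∈ (J.filter (· < i)) := by simp [hj, h]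
  have hc := card_erase_add_one hm
  rw [e, ← hc, pow_succ]
  ring

theorem ksg_insert_of_le {i j : Fin n} (J : Finset (Fin n)) (h : i ≤ j) :
    ksg i (insert j J) = ksg i J := by
  unfold ksg
  congr 2
  ext x
  simp only [mem_filter, mem_insert]
  constructor
  · rintro ⟨h1 | h1, h'⟩
    · exact absurd (h1 ▸ h') (not_lt.2 h)
    · exact ⟨h1, h'⟩
  · rintro ⟨h1, h'⟩; exact ⟨Or.inr h1, h'⟩

theorem ksg_insert_of_lt {i j : Fin n} {J : Finset (Fin n)} (hj : j ∉ J) (h : j < i) :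
    ksg i (insert j J) = - ksg i J := by
  have := ksg_erase_of_lt (i := i) (mem_insert_self j J) h
  rw [erase_insert hj] at this
  rw [this]; ring

variable {V : Type*} [AddCommGroup V]

/-- wedge with the sum of all basis vectors. -/
def wd (f : Finset (Fin n) → V) (J : Finset (Fin n)) : V :=
  ∑ i ∈ J, ksg i J • f (J.erase i)

/-- contraction with the `i`-th dual basis vector. -/
def wc (i : Fin n) (f : Finset (Fin n) → V) (J : Finset (Fin n)) : V :=
  if i ∈ J then 0 else ksg i J • f (insert i J)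

theorem wd_wc (i : Fin n) (f : Finset (Fin n) → V) (J : Finset (Fin n)) :
    wd (wc i f) J + wc i (wd f) J = f J := by
  by_cases hi : i ∈ J
  · have h2 : wc i (wd f) J = 0 := by simp [wc, hi]
    rw [h2, add_zero]
    unfold wd
    rw [sum_eq_single i]
    · simp only [wc, mem_erase, ne_eq, not_true_eq_false, false_and, if_false]
      rw [insert_erase hi, ksg_erase_self, smul_smul, ksg_mul_self, one_smul]
    · intro j hj hji
      have : i ∈ J.erase j := mem_erase.2 ⟨Ne.symm hji, hi⟩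
      simp [wc, this]
    · intro h; exact absurd hi h
  · have h2 : wc i (wd f) J =
        f J + ∑ j ∈ J, (ksg i J * ksg j (insert i J)) • f (insert i (J.erase j)) := by
      simp only [wc, hi, if_false, wd]
      rw [sum_insert hi, smul_add, smul_smul, erase_insert hi, ksg_insert_self, ksg_mul_self,
        one_smul, smul_sum]
      congr 1
      refine sum_congr rfl ?_
      intro j hj
      have : j ≠ i := fun e => hi (e ▸ hj)
      rw [smul_smul, erase_insert_of_ne this.symm]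
    have h1 : wd (wc i f) J =
        ∑ j ∈ J, (ksg j J * ksg i (J.erase j)) • f (insert i (J.erase j)) := by
      unfold wd
      refine sum_congr rfl ?_
      intro j hj
      have : i ∉ J.erase j := fun h => hi (mem_of_mem_erase h)
      simp only [wc, this, if_false]
      rw [smul_smul]
    rw [h1, h2, add_comm, add_assoc, ← sum_add_distrib]
    rw [sum_eq_zero, add_zero]
    intro j hj
    have hne : j ≠ i := fun e => hi (e ▸ hj)
    rw [← add_smul]
    rcases lt_or_gt_of_ne hne with h | h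
    · rw [ksg_erase_of_lt hj h, ksg_insert_of_le J h.le]
      have : ksg i J * ksg j J + ksg j J * -ksg i J = 0 := by ring
      rw [this, zero_smul]
    · rw [ksg_insert_of_lt hi h, ksg_erase_of_le J h.le]
      have : ksg i J * -ksg j J + ksg j J * ksg i J = 0 := by ring
      rw [this, zero_smul]

end Sign

section Hom

variable {R : Type u} [CommRing R] {Q : Type u} [AddCommGroup Q] [Module R Q] {r : ℕ}

open Classical in
/-- the chosen index. -/
noncomputable def l0 (a : Fin r → ℤ) (g : Gz r) : Option (Fin r) :=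
  if h : ∃ i, 0 ≤ g.1 i ∧ a i + g.2 < g.1 i then some h.choose else none

lemma l0_some {a : Fin r → ℤ} {g : Gz r} {i : Fin r} (h : l0 a g = some i) :
    0 ≤ g.1 i ∧ a i + g.2 < g.1 i := by
  unfold l0 at h
  split_ifs at h with h'
  have := h'.choose_spec
  rw [Option.some.inj h] at this
  exact this

lemma l0_none {a : Fin r → ℤ} {g : Gz r} (h : l0 a g = none) (i : Fin r) :
    g.1 i < 0 ∨ g.1 i ≤ a i + g.2 := by
  unfold l0 at h
  split_ifs at h with h'
  by_contra hc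
  rw [not_or, not_lt, not_le] at hc
  exact h' ⟨i, hc⟩

/-- the homotopy. -/
noncomputable def hK (a : Fin r → ℤ) (v : KV r Q) : KV r Q := fun J I g =>
  match l0 a g with
  | none => 0
  | some l => wc l (fun I' => v J I' g) I

/-- the projection. -/
noncomputable def pK (a : Fin r → ℤ) (v : KV r Q) : KV r Q := fun J I g =>
  match l0 a g with
  | none => v J I g
  | some _ => 0

lemma hK_some {a : Fin r → ℤ} (v : KV r Q) (J : Finset (Fin (r + 1))) (I : Finset (Fin r))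
    {g : Gz r} {l : Fin r} (h : l0 a g = some l) :
    hK a v J I g = wc l (fun I' => v J I' g) I := by
  unfold hK; rw [h]

lemma hK_none {a : Fin r → ℤ} (v : KV r Q) (J : Finset (Fin (r + 1))) (I : Finset (Fin r))
    {g : Gz r} (h : l0 a g = none) : hK a v J I g = 0 := by
  unfold hK; rw [h]

lemma pK_some {a : Fin r → ℤ} (v : KV r Q) (J : Finset (Fin (r + 1))) (I : Finset (Fin r))
    {g : Gz r} {l : Fin r} (h : l0 a g = some l) : pK a v J I g = 0 := by
  unfold pK; rw [h]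

lemma pK_none {a : Fin r → ℤ} (v : KV r Q) (J : Finset (Fin (r + 1))) (I : Finset (Fin r))
    {g : Gz r} (h : l0 a g = none) : pK a v J I g = v J I g := by
  unfold pK; rw [h]

lemma dK_apply (v : KV r Q) (J : Finset (Fin (r + 1))) (I : Finset (Fin r)) (g : Gz r) :
    dK R Q r v J I g = wd (fun I' => v J I' g) I := rfl

theorem homotopy (a : Fin r → ℤ) (v : KV r Q) :
    dK R Q r (hK a v) + (hK a (dK R Q r v) + pK a v) = v := by
  funext J I g
  show dK R Q r (hK a v) J I g + (hK a (dK R Q r v) J I g + pK a v J I g) = v J I g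
  rw [dK_apply]
  rcases h : l0 a g with _ | l
  · rw [hK_none _ J I h, pK_none _ J I h]
    have : (fun I' => hK a v J I' g) = fun _ => 0 := by
      funext I'
      exact hK_none v J I' h
    rw [this]
    simp [wd]
  · rw [hK_some _ J I h, pK_some _ J I h, add_zero]
    have h1 : (fun I' => hK a v J I' g) = wc l (fun I' => v J I' g) := by
      funext I'
      exact hK_some v J I' h
    have h2 : (fun I' => dK R Q r v J I' g) = wd (fun I' => v J I' g) := by
      funext I'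
      exact dK_apply v J I' g
    rw [h1, h2, wd_wc]

theorem hK_mem (a : Fin r → ℤ) (B : ℤ) (c : ℤ → Gz r → Submodule R Q) (i p : ℤ) (v : KV r Q)
    (hv : v ∈ CF a B c i (p + 1)) : hK a v ∈ CF a B c i p := by
  classical
  intro J I g
  rcases h : l0 a g with _ | l
  · rw [hK_none _ J I h]; exact Submodule.zero_mem _
  · rw [hK_some _ J I h]
    unfold wc
    split_ifs with hl
    · exact Submodule.zero_mem _
    · have hm := hv J (insert l I) g
      refine zsmul_mem ?_ _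
      obtain ⟨h0, h1⟩ := l0_some h
      unfold CV at hm ⊢
      split_ifs at hm with h2 h3
      · obtain ⟨e1, e2, e3, e4⟩ := h2
        rw [card_insert_of_notMem hl] at e2
        push_cast at e2
        have h5 : inF B I g := ⟨fun m hmI => by
          by_cases hml : m = l
          · rw [hml]; exact h0
          · exact e3 m (by simp [hml, hmI]), e4⟩
        have h6 : inG a I g := by
          obtain ⟨m, hm1, hm2⟩ := h3
          rcases mem_insert.1 hm1 with rfl | h7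
          · exact absurd hm2 (not_le.2 h1)
          · exact ⟨m, h7, hm2⟩
        rw [if_pos ⟨e1, by linarith, h5⟩, if_pos h6]
        exact Submodule.mem_top
      · obtain ⟨e1, e2, e3, e4⟩ := h2
        rw [card_insert_of_notMem hl] at e2
        push_cast at e2
        have h5 : inF B I g := ⟨fun m hmI => by
          by_cases hml : m = l
          · rw [hml]; exact h0
          · exact e3 m (by simp [hml, hmI]), e4⟩
        have h6 : ¬ inG a I g := by
          rintro ⟨m, hm1, hm2⟩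
          exact h3 ⟨m, mem_insert_of_mem hm1, hm2⟩
        rw [if_pos ⟨e1, by linarith, h5⟩, if_neg h6]
        exact hm
      · rw [Submodule.mem_bot] at hm
        show v J (insert l I) g ∈ _
        rw [hm]; exact Submodule.zero_mem _

theorem pK_mem (a : Fin r → ℤ) (B : ℤ) (c c' : ℤ → Gz r → Submodule R Q) (i p : ℤ)
    (h : ∀ g : Gz r, c i g = c' i g ∨ (∃ l, a l + g.2 = -1) ∨ (pj a g.2 : ℤ) ≠ p)
    (v : KV r Q) (hv : v ∈ CF a B c' i p) : pK a v ∈ CF a B c i p := by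
  classical
  intro J I g
  rcases h' : l0 a g with _ | l
  · rw [pK_none _ J I h']
    have hm := hv J I g
    unfold CV at hm ⊢
    split_ifs at hm ⊢ with h2 h3
    · exact Submodule.mem_top
    · have key : ∀ l, (l ∈ I ↔ a l + g.2 < 0) ∧ a l + g.2 ≠ -1 := by
        intro l
        by_cases hl : l ∈ I
        · have h4 : a l + g.2 < g.1 l := by
            by_contra hc
            exact h3 ⟨l, hl, not_lt.1 hc⟩
          have h5 := l0_none h' l
          have : a l + g.2 < -1 := by omega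
          exact ⟨⟨fun _ => by omega, fun _ => hl⟩, by omega⟩
        · have h4 : 0 ≤ g.1 l := h2.2.2.1 l hl
          have h5 := l0_none h' l
          have : 0 ≤ a l + g.2 := by omega
          exact ⟨⟨fun hc => absurd hc hl, fun hc => by omega⟩, by omega⟩
      have hI : I = univ.filter fun l => a l + g.2 < 0 := by
        ext l; simp [(key l).1]
      rcases h g with h6 | ⟨l, h6⟩ | h6
      · rw [h6]; exact hm
      · exact absurd h6 (key l).2
      · exact absurd (by rw [← h2.2.1]; unfold pj; rw [← hI]) h6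
    · exact hm
  · rw [pK_some _ J I h']; exact Submodule.zero_mem _

end Hom

end CellRow

section

variable {R : Type u} [CommRing R] {Q : Type u} [AddCommGroup Q] [Module R Q] {r : ℕ}
variable (a : Fin r → ℤ) (B : ℤ)

/-- TASK GEO-B3: exactness of the rows. -/
theorem row_exact (c c' : ℤ → Gz r → Submodule R Q) (i p : ℤ) (hcc : ∀ g, c i g ≤ c' i g)
    (h : ∀ g : Gz r, c i g = c' i g ∨ (∃ l, a l + g.2 = -1) ∨ (pj a g.2 : ℤ) ≠ p) :
    Ex (dK R Q r) (CF a B c' i) (CF a B c i) p := by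
  rintro v ⟨hv, hdv⟩
  have hdv : dK R Q r v ∈ CF a B c i (p + 1) := hdv
  have hv' : v ∈ CF a B c' i (p - 1 + 1) := by rw [sub_add_cancel]; exact hv
  rw [← CellRow.homotopy (R := R) a v]
  exact Submodule.add_mem_sup (Submodule.mem_map_of_mem (CellRow.hK_mem a B c' i (p - 1) v hv'))
    (Submodule.add_mem _ (CellRow.hK_mem a B c i p _ hdv) (CellRow.pK_mem a B c c' i p h v hv))

end

end Vale.Agent.P202.Mix
end

section

/-!
P202-MIX, part GEO, task C3: the complexes of the windows.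
-/

namespace Vale.Agent.P202.Mix

open Vale.Agent.P202.CharP

namespace WinCx

variable {r : ℕ} {a : Fin r → ℤ} {B p j₀ j₁ : ℤ}

section

variable {M : Type} [AddCommGroup M]

open Classical in
/-- extension by zero of a function on the cells of a window. -/
noncomputable def xt (f : ↥(cellset a B p j₀ j₁) → M) : UV r M := fun I g =>
  if h : (I, g) ∈ cellset a B p j₀ j₁ then f ⟨(I, g), h⟩ else 0

theorem xt_of_mem (f : ↥(cellset a B p j₀ j₁) → M) {I : Finset (Fin r)} {g : Gz r}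
    (h : (I, g) ∈ cellset a B p j₀ j₁) : xt f I g = f ⟨(I, g), h⟩ := dif_pos h

theorem xt_of_notMem (f : ↥(cellset a B p j₀ j₁) → M) {I : Finset (Fin r)} {g : Gz r}
    (h : (I, g) ∉ cellset a B p j₀ j₁) : xt f I g = 0 := dif_neg h

open Classical in
theorem sum_cell (f : ↥(cellset a B p j₀ j₁) → M) (k : ℤ) (I : Finset (Fin r)) (g : Gz r) :
    ∑ y : ↥(cellset a B p j₀ j₁), (if y.1.1 = I ∧ y.1.2 = g then k else 0) • f y =
      k • xt f I g := by
  by_cases h : (I, g) ∈ cellset a B p j₀ j₁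
  · rw [xt_of_mem f h, Finset.sum_eq_single (⟨(I, g), h⟩ : ↥(cellset a B p j₀ j₁))]
    · rw [if_pos ⟨rfl, rfl⟩]
    · intro y _ hy
      rw [if_neg, zero_smul]
      rintro ⟨h1, h2⟩
      exact hy (Subtype.ext (Prod.ext h1 h2))
    · intro hn
      exact absurd (Finset.mem_univ _) hn
  · rw [xt_of_notMem f h, smul_zero]
    refine Finset.sum_eq_zero fun y _ => ?_
    rw [if_neg, zero_smul]
    rintro ⟨h1, h2⟩
    apply h
    have : y.1 = (I, g) := Prod.ext h1 h2
    rw [← this]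
    exact y.2

theorem za_X (l : Fin (r + 1)) (f : ↥(cellset a B p j₀ j₁) → M) (x : ↥(cellset a B p j₀ j₁)) :
    za ((winRep a B p j₀ j₁).X l) ℤ M f x = XU ℤ M r l (xt f) x.1.1 x.1.2 := by
  classical
  show ∑ y : ↥(cellset a B p j₀ j₁), (∑ L ∈ (Finset.univ : Finset (Fin r)).powersetCard l,
      if x.1.1 = y.1.1 ∧ x.1.2 = y.1.2 + exz L then (1 : ℤ) else 0) • f y =
    ∑ L ∈ (Finset.univ : Finset (Fin r)).powersetCard l, xt f x.1.1 (x.1.2 - exz L)
  simp only [Finset.sum_smul]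
  rw [Finset.sum_comm]
  refine Finset.sum_congr rfl fun L _ => ?_
  rw [← one_smul ℤ (xt f x.1.1 (x.1.2 - exz L)), ← sum_cell]
  refine Finset.sum_congr rfl fun y _ => ?_
  congr 1
  refine if_congr ?_ rfl rfl
  constructor
  · rintro ⟨h1, h2⟩
    exact ⟨h1.symm, by rw [h2, add_sub_cancel_right]⟩
  · rintro ⟨h1, h2⟩
    exact ⟨h1.symm, by rw [h2, sub_add_cancel]⟩

theorem za_D (p : ℕ) (f : ↥(cellset a B p j₀ j₁) → M) (x : ↥(cellset a B (p + 1 : ℕ) j₀ j₁)) :
    za ((winCx a B j₀ j₁).D p) ℤ M f x = dU ℤ M r (xt f) x.1.1 x.1.2 := by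
  classical
  show ∑ y : ↥(cellset a B p j₀ j₁), (∑ i ∈ x.1.1,
      if y.1.1 = x.1.1.erase i ∧ y.1.2 = x.1.2 then ksg i x.1.1 else 0) • f y =
    ∑ i ∈ x.1.1, ksg i x.1.1 • xt f (x.1.1.erase i) x.1.2
  simp only [Finset.sum_smul]
  rw [Finset.sum_comm]
  refine Finset.sum_congr rfl fun i _ => ?_
  exact sum_cell f _ _ _

end

/-! ### membership -/

theorem sub_fst (g : Gz r) (K : Finset (Fin r)) (l : Fin r) :
    (g - exz K).1 l = g.1 l - if l ∈ K then 1 else 0 := rfl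

theorem sub_snd (g : Gz r) (K : Finset (Fin r)) : (g - exz K).2 = g.2 - 1 := rfl

theorem mem_iff (I : Finset (Fin r)) (g : Gz r) : (I, g) ∈ cellset a B p j₀ j₁ ↔
    (((∀ l, l ∉ I → 0 ≤ g.1 l) ∧ ∀ l, g.1 l ≤ B + g.2) ∧ ∀ l ∈ I, a l + g.2 < g.1 l) ∧
      (I.card : ℤ) = p ∧ j₀ ≤ g.2 ∧ g.2 < j₁ := by
  have h : ¬ inG a I g ↔ ∀ l ∈ I, a l + g.2 < g.1 l := by
    unfold inG
    push Not
    rfl
  rw [← h]
  rfl

theorem mem_mid {I : Finset (Fin r)} {g : Gz r} {K L : Finset (Fin r)}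
    (hx : (I, g) ∈ cellset a B p j₀ j₁) (hz : (I, g - exz K - exz L) ∈ cellset a B p j₀ j₁) :
    (I, g - exz K) ∈ cellset a B p j₀ j₁ := by
  rw [mem_iff] at hx hz ⊢
  obtain ⟨⟨⟨h1, h2⟩, h3⟩, h4, h5, h6⟩ := hx
  obtain ⟨⟨⟨k1, k2⟩, k3⟩, k4, k5, k6⟩ := hz
  simp only [sub_fst, sub_snd] at *
  refine ⟨⟨⟨fun l hl => ?_, fun l => ?_⟩, fun l hl => ?_⟩, h4, by omega, by omega⟩
  · have := k1 l hl
    split_ifs at this ⊢ <;> omega
  · have := k2 l
    split_ifs at this ⊢ <;> omega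
  · have := h3 l hl
    split_ifs <;> omega

theorem mem_two {p' : ℤ} {I : Finset (Fin r)} {g : Gz r} {i : Fin r} {L : Finset (Fin r)}
    (hx : (I, g) ∈ cellset a B p' j₀ j₁)
    (hz : (I.erase i, g - exz L) ∈ cellset a B p j₀ j₁) :
    (I.erase i, g) ∈ cellset a B p j₀ j₁ := by
  rw [mem_iff] at hx hz ⊢
  obtain ⟨⟨⟨h1, h2⟩, h3⟩, h4, h5, h6⟩ := hx
  obtain ⟨⟨⟨k1, k2⟩, k3⟩, k4, k5, k6⟩ := hz
  simp only [sub_fst, sub_snd] at *
  refine ⟨⟨⟨fun l hl => ?_, h2⟩, fun l hl => h3 l (Finset.mem_of_mem_erase hl)⟩, k4, h5, h6⟩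
  have := k1 l hl
  split_ifs at this <;> omega

theorem mem_three {p' : ℤ} {I : Finset (Fin r)} {g : Gz r} {i : Fin r} {K : Finset (Fin r)}
    (hx : (I, g) ∈ cellset a B p' j₀ j₁)
    (hz : (I.erase i, g - exz K) ∈ cellset a B p j₀ j₁) :
    (I, g - exz K) ∈ cellset a B p' j₀ j₁ := by
  rw [mem_iff] at hx hz ⊢
  obtain ⟨⟨⟨h1, h2⟩, h3⟩, h4, h5, h6⟩ := hx
  obtain ⟨⟨⟨k1, k2⟩, k3⟩, k4, k5, k6⟩ := hz
  refine ⟨⟨⟨fun l hl => k1 l fun h => hl (Finset.mem_of_mem_erase h), k2⟩, fun l hl => ?_⟩,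
    h4, k5, k6⟩
  simp only [sub_fst, sub_snd] at *
  have := h3 l hl
  split_ifs <;> omega

theorem mem_four {p' p'' : ℤ} {I : Finset (Fin r)} {g : Gz r} {i k : Fin r} (hi : i ∈ I)
    (hp : p' = p'' + 1) (hx : (I, g) ∈ cellset a B p' j₀ j₁)
    (hz : ((I.erase i).erase k, g) ∈ cellset a B p j₀ j₁) :
    (I.erase i, g) ∈ cellset a B p'' j₀ j₁ := by
  rw [mem_iff] at hx hz ⊢
  obtain ⟨⟨⟨h1, h2⟩, h3⟩, h4, h5, h6⟩ := hx
  obtain ⟨⟨⟨k1, k2⟩, k3⟩, k4, k5, k6⟩ := hz
  refine ⟨⟨⟨fun l hl => k1 l fun h => hl (Finset.mem_of_mem_erase h), h2⟩,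
    fun l hl => h3 l (Finset.mem_of_mem_erase hl)⟩, ?_, h5, h6⟩
  have := Finset.card_erase_add_one hi
  omega

/-! ### restriction to a window -/

section

variable {M : Type} [AddCommGroup M]

/-- restriction to a window. -/
def rs (a : Fin r → ℤ) (B p j₀ j₁ : ℤ) (u : UV r M) : ↥(cellset a B p j₀ j₁) → M :=
  fun x => u x.1.1 x.1.2

theorem xt_rs {u : UV r M} {I : Finset (Fin r)} {g : Gz r}
    (h : (I, g) ∉ cellset a B p j₀ j₁ → u I g = 0) : xt (rs a B p j₀ j₁ u) I g = u I g := by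
  by_cases hm : (I, g) ∈ cellset a B p j₀ j₁
  · rw [xt_of_mem _ hm]
    rfl
  · rw [xt_of_notMem _ hm, h hm]

theorem XU_apply (l : Fin (r + 1)) (u : UV r M) (I : Finset (Fin r)) (g : Gz r) :
    XU ℤ M r l u I g =
      ∑ L ∈ (Finset.univ : Finset (Fin r)).powersetCard l, u I (g - exz L) := rfl

theorem dU_apply (u : UV r M) (I : Finset (Fin r)) (g : Gz r) :
    dU ℤ M r u I g = ∑ i ∈ I, ksg i I • u (I.erase i) g := rfl

theorem XX (k l : Fin (r + 1)) (f : ↥(cellset a B p j₀ j₁) → M) (x : ↥(cellset a B p j₀ j₁)) :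
    XU ℤ M r k (xt (rs a B p j₀ j₁ (XU ℤ M r l (xt f)))) x.1.1 x.1.2 =
      XU ℤ M r k (XU ℤ M r l (xt f)) x.1.1 x.1.2 := by
  rw [XU_apply, XU_apply]
  refine Finset.sum_congr rfl fun K _ => ?_
  refine xt_rs fun h => ?_
  rw [XU_apply]
  exact Finset.sum_eq_zero fun L _ => xt_of_notMem f fun h' => h (mem_mid x.2 h')

theorem DX (l : Fin (r + 1)) {p' : ℤ} (f : ↥(cellset a B p j₀ j₁) → M)
    (x : ↥(cellset a B p' j₀ j₁)) :
    dU ℤ M r (xt (rs a B p j₀ j₁ (XU ℤ M r l (xt f)))) x.1.1 x.1.2 =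
      dU ℤ M r (XU ℤ M r l (xt f)) x.1.1 x.1.2 := by
  rw [dU_apply, dU_apply]
  refine Finset.sum_congr rfl fun i _ => congrArg _ ?_
  refine xt_rs fun h => ?_
  rw [XU_apply]
  exact Finset.sum_eq_zero fun L _ => xt_of_notMem f fun h' => h (mem_two x.2 h')

theorem XD (l : Fin (r + 1)) {p' : ℤ} (f : ↥(cellset a B p j₀ j₁) → M)
    (x : ↥(cellset a B p' j₀ j₁)) :
    XU ℤ M r l (xt (rs a B p' j₀ j₁ (dU ℤ M r (xt f)))) x.1.1 x.1.2 =
      XU ℤ M r l (dU ℤ M r (xt f)) x.1.1 x.1.2 := by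
  rw [XU_apply, XU_apply]
  refine Finset.sum_congr rfl fun K _ => ?_
  refine xt_rs fun h => ?_
  rw [dU_apply]
  refine Finset.sum_eq_zero fun i _ => ?_
  rw [xt_of_notMem f fun h' => h (mem_three x.2 h'), smul_zero]

theorem DD {p' p'' : ℤ} (hp : p' = p'' + 1) (f : ↥(cellset a B p j₀ j₁) → M)
    (x : ↥(cellset a B p' j₀ j₁)) :
    dU ℤ M r (xt (rs a B p'' j₀ j₁ (dU ℤ M r (xt f)))) x.1.1 x.1.2 =
      dU ℤ M r (dU ℤ M r (xt f)) x.1.1 x.1.2 := by
  rw [dU_apply, dU_apply]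
  refine Finset.sum_congr rfl fun i hi => congrArg _ ?_
  refine xt_rs fun h => ?_
  rw [dU_apply]
  refine Finset.sum_eq_zero fun k _ => ?_
  rw [xt_of_notMem f fun h' => h (mem_four hi hp x.2 h'), smul_zero]

/-! ### matrices through their actions -/

theorem mat_ext {α β : Type} [Fintype β] [DecidableEq β] {A A' : Matrix α β ℤ}
    (h : ∀ f : β → ℤ, za A ℤ ℤ f = za A' ℤ ℤ f) : A = A' := by
  ext i j
  have h1 := congrFun (h (Pi.single j 1)) i
  have h2 : ∀ C : Matrix α β ℤ, za C ℤ ℤ (Pi.single j 1) i = C i j := by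
    intro C
    show ∑ b, C i b • (Pi.single j (1 : ℤ) : β → ℤ) b = C i j
    rw [Finset.sum_eq_single j]
    · simp
    · intro b _ hb
      simp [Pi.single_eq_of_ne hb]
    · intro hn
      exact absurd (Finset.mem_univ _) hn
  rwa [h2, h2] at h1

theorem za_mul {α β γ : Type} [Fintype β] [Fintype γ] (A : Matrix α β ℤ) (A' : Matrix β γ ℤ)
    (f : γ → M) : za (A * A') ℤ M f = za A ℤ M (za A' ℤ M f) := by
  ext i
  show ∑ c, (A * A') i c • f c = ∑ b, A i b • ∑ c, A' b c • f c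
  simp only [Matrix.mul_apply, Finset.sum_smul, Finset.smul_sum, smul_smul]
  rw [Finset.sum_comm]

theorem za_X' (l : Fin (r + 1)) (f : ↥(cellset a B p j₀ j₁) → M) :
    za ((winRep a B p j₀ j₁).X l) ℤ M f = rs a B p j₀ j₁ (XU ℤ M r l (xt f)) :=
  funext fun x => za_X l f x

theorem za_D' (p : ℕ) (f : ↥(cellset a B p j₀ j₁) → M) :
    za ((winCx a B j₀ j₁).D p) ℤ M f = rs a B (p + 1 : ℕ) j₀ j₁ (dU ℤ M r (xt f)) :=
  funext fun x => za_D p f x

theorem za_XX (k l : Fin (r + 1)) (f : ↥(cellset a B p j₀ j₁) → M) :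
    za ((winRep a B p j₀ j₁).X k) ℤ M (za ((winRep a B p j₀ j₁).X l) ℤ M f) =
      rs a B p j₀ j₁ (XU ℤ M r k (XU ℤ M r l (xt f))) := by
  refine (za_X' k _).trans ?_
  rw [za_X' l f]
  exact funext fun x => XX k l f x

theorem za_DX (p : ℕ) (l : Fin (r + 1)) (f : ↥(cellset a B p j₀ j₁) → M) :
    za ((winCx a B j₀ j₁).D p) ℤ M (za ((winRep a B p j₀ j₁).X l) ℤ M f) =
      rs a B (p + 1 : ℕ) j₀ j₁ (dU ℤ M r (XU ℤ M r l (xt f))) := by
  refine (za_D' p _).trans ?_
  rw [za_X' l f]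
  exact funext fun x => DX l f x

theorem za_XD (p : ℕ) (l : Fin (r + 1)) (f : ↥(cellset a B p j₀ j₁) → M) :
    za ((winRep a B (p + 1 : ℕ) j₀ j₁).X l) ℤ M (za ((winCx a B j₀ j₁).D p) ℤ M f) =
      rs a B (p + 1 : ℕ) j₀ j₁ (XU ℤ M r l (dU ℤ M r (xt f))) := by
  refine (za_X' l _).trans ?_
  refine (congrArg (fun u => rs a B (p + 1 : ℕ) j₀ j₁ (XU ℤ M r l (xt u))) (za_D' p f)).trans ?_
  exact funext fun x => XD l f x

theorem za_DD (p : ℕ) (f : ↥(cellset a B p j₀ j₁) → M) :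
    za ((winCx a B j₀ j₁).D (p + 1)) ℤ M (za ((winCx a B j₀ j₁).D p) ℤ M f) = 0 := by
  refine (za_D' (p + 1) _).trans ?_
  refine (congrArg (fun u => rs a B (p + 1 + 1 : ℕ) j₀ j₁ (dU ℤ M r (xt u)))
    (za_D' p f)).trans ?_
  funext x
  refine (DD (by push_cast; ring) f x).trans ?_
  rw [dU_sq]
  rfl

/-- the third coordinate of a cell. -/
def cj (x : (winRep a B p j₀ j₁).ι) : ℤ := (show ↥(cellset a B p j₀ j₁) from x).1.2.2

theorem cj_X (l : Fin (r + 1)) (x y : (winRep a B p j₀ j₁).ι)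
    (h : (winRep a B p j₀ j₁).X l x y ≠ 0) : cj x = cj y + 1 := by
  classical
  obtain ⟨x', hx'⟩ : ∃ x' : ↥(cellset a B p j₀ j₁), x' = x := ⟨x, rfl⟩
  obtain ⟨y', hy'⟩ : ∃ y' : ↥(cellset a B p j₀ j₁), y' = y := ⟨y, rfl⟩
  subst hx' hy'
  have h' : (∑ L ∈ (Finset.univ : Finset (Fin r)).powersetCard l,
      if x'.1.1 = y'.1.1 ∧ x'.1.2 = y'.1.2 + exz L then (1 : ℤ) else 0) ≠ 0 := h
  obtain ⟨L, _, hL⟩ := Finset.exists_ne_zero_of_sum_ne_zero h'
  have h4 : x'.1.2 = y'.1.2 + exz L := by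
    by_contra hc
    exact hL (if_neg fun h => hc h.2)
  show x'.1.2.2 = y'.1.2.2 + 1
  rw [h4]
  rfl

theorem prod_deg (m : ℕ) (f : Fin m → Fin (r + 1)) (x z : (winRep a B p j₀ j₁).ι)
    (h : ((List.ofFn fun i => (winRep a B p j₀ j₁).X (f i)).prod) x z ≠ 0) :
    cj x = cj z + m := by
  induction m generalizing x with
  | zero =>
    rw [List.ofFn_zero, List.prod_nil] at h
    by_cases hxz : x = z
    · rw [hxz]; simp
    · exact absurd (Matrix.one_apply_ne hxz) h
  | succ m ih =>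
    rw [List.ofFn_succ, List.prod_cons, Matrix.mul_apply] at h
    obtain ⟨y, _, hy⟩ := Finset.exists_ne_zero_of_sum_ne_zero h
    have h1 := cj_X _ x y (left_ne_zero_of_mul hy)
    have h2 := ih (fun i => f i.succ) y (right_ne_zero_of_mul hy)
    rw [h1, h2]
    push_cast
    ring

/-! ### exactness -/

open Classical in
/-- the family supported on a window. -/
noncomputable def wfam (r : ℕ) (M : Type) [AddCommGroup M] (j₀ j₁ : ℤ) : ℤ → Gz r → Submodule ℤ M :=
  fun _ g => if j₀ ≤ g.2 ∧ g.2 < j₁ then ⊤ else ⊥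

theorem inF_erase {I : Finset (Fin r)} {g : Gz r} {i : Fin r} (h : inF B (I.erase i) g) :
    inF B I g := ⟨fun l hl => h.1 l fun h' => hl (Finset.mem_of_mem_erase h'), h.2⟩

theorem inG_erase {I : Finset (Fin r)} {g : Gz r} {i : Fin r} (h : inG a (I.erase i) g) :
    inG a I g := by
  obtain ⟨l, h1, h2⟩ := h
  exact ⟨l, Finset.mem_of_mem_erase h1, h2⟩

theorem ex_aux {pm pp : ℤ} (hm : pm = p - 1) (hp : pp = p + 1)
    (h : ∀ j, j₀ ≤ j → j < j₁ → (∃ l, a l + j = -1) ∨ (pj a j : ℤ) ≠ p)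
    (u : UV r M) (hu : ∀ I g, (I, g) ∉ cellset a B p j₀ j₁ → u I g = 0)
    (hd : ∀ I g, (I, g) ∈ cellset a B pp j₀ j₁ → dU ℤ M r u I g = 0) :
    ∃ w : UV r M, (∀ I g, ¬ inG a I g → (I, g) ∉ cellset a B pm j₀ j₁ → w I g = 0) ∧
      ∀ I g, (I, g) ∈ cellset a B p j₀ j₁ → dU ℤ M r w I g = u I g := by
  classical
  subst hm hp
  let v : KV r M := fun J I g => if J = ∅ then u I g else 0
  have hv0 : v ∅ = u := by funext I g; exact if_pos rfl
  have hv1 : ∀ J, J ≠ ∅ → v J = 0 := fun J hJ => by funext I g; exact if_neg hJ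
  have hv : v ∈ CF a B (wfam r M j₀ j₁) 0 p := by
    intro J I g
    by_cases hJ : J = ∅
    · subst hJ
      rw [hv0]
      by_cases hc : (I, g) ∈ cellset a B p j₀ j₁
      · obtain ⟨⟨hF, hG⟩, h3, h4, h5⟩ := hc
        unfold CV
        rw [if_pos ⟨by simp, h3, hF⟩, if_neg hG]
        unfold wfam
        rw [if_pos ⟨h4, h5⟩]
        exact Submodule.mem_top
      · rw [hu I g hc]
        exact Submodule.zero_mem _
    · rw [hv1 J hJ]
      exact Submodule.zero_mem _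
  have hdv : dK ℤ M r v ∈ CF a B (fun _ _ => (⊥ : Submodule ℤ M)) 0 (p + 1) := by
    intro J I g
    show dU ℤ M r (v J) I g ∈ _
    by_cases hJ : J = ∅
    · subst hJ
      rw [hv0]
      unfold CV
      by_cases hF : I.card = p + 1 ∧ inF B I g
      · rw [if_pos ⟨by simp, hF⟩]
        by_cases hG : inG a I g
        · rw [if_pos hG]
          exact Submodule.mem_top
        · rw [if_neg hG, Submodule.mem_bot]
          by_cases hj : j₀ ≤ g.2 ∧ g.2 < j₁
          · exact hd I g ⟨⟨hF.2, hG⟩, hF.1, hj.1, hj.2⟩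
          · rw [dU_apply]
            refine Finset.sum_eq_zero fun i _ => ?_
            rw [hu _ _ fun hc => hj ⟨hc.2.2.1, hc.2.2.2⟩, smul_zero]
      · have : dU ℤ M r u I g = 0 := by
          rw [dU_apply]
          refine Finset.sum_eq_zero fun i hi => ?_
          rw [hu, smul_zero]
          intro hc
          refine hF ⟨?_, inF_erase hc.1.1⟩
          have h1 : ((I.erase i).card : ℤ) = p := hc.2.1
          have h2 := Finset.card_erase_add_one hi
          omega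
        rw [this]
        exact Submodule.zero_mem _
    · rw [hv1 J hJ, map_zero]
      exact Submodule.zero_mem _
  have hrow : ∀ g : Gz r, (⊥ : Submodule ℤ M) = wfam r M j₀ j₁ 0 g ∨
      (∃ l, a l + g.2 = -1) ∨ (pj a g.2 : ℤ) ≠ p := fun g => by
    by_cases hj : j₀ ≤ g.2 ∧ g.2 < j₁
    · exact Or.inr (h g.2 hj.1 hj.2)
    · left
      unfold wfam
      rw [if_neg hj]
  have hex : Ex (dK ℤ M r) (CF a B (wfam r M j₀ j₁) 0) (CF a B (fun _ _ => (⊥ : Submodule ℤ M)) 0) p :=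
    row_exact a B (fun _ _ => ⊥) (wfam r M j₀ j₁) 0 p (fun _ => bot_le) hrow
  obtain ⟨y, hy, z, hz, hyz⟩ := Submodule.mem_sup.1 (hex ⟨hv, hdv⟩)
  obtain ⟨w, hw, rfl⟩ := hy
  refine ⟨w ∅, fun I g hG hc => ?_, fun I g hc => ?_⟩
  · have h1 := hw ∅ I g
    unfold CV at h1
    split_ifs at h1 with h2
    · unfold wfam at h1
      split_ifs at h1 with h3
      · exact absurd ⟨⟨h2.2.2, hG⟩, h2.2.1, h3.1, h3.2⟩ hc
      · exact (Submodule.mem_bot ℤ).1 h1
    · exact (Submodule.mem_bot ℤ).1 h1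
  · have h1 := hz ∅ I g
    unfold CV at h1
    rw [if_pos ⟨by simp, hc.2.1, hc.1.1⟩, if_neg hc.1.2, Submodule.mem_bot] at h1
    have h2 : dU ℤ M r (w ∅) I g + z ∅ I g = v ∅ I g :=
      congrFun (congrFun (congrFun hyz ∅) I) g
    rw [h1, add_zero, hv0] at h2
    exact h2

end

end WinCx

variable {r : ℕ} (a : Fin r → ℤ) (B : ℤ)

open WinCx in
theorem winCx_isCx (j₀ : ℤ) (q : ℕ) : (winCx a B j₀ (j₀ + q)).IsCx q where
  nil p := by
    refine ⟨fun k l => mat_ext fun f => ?_, fun f => ?_⟩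
    · rw [za_mul, za_mul]
      refine (za_XX k l f).trans ?_
      rw [XU_comm]
      exact (za_XX l k f).symm
    · ext x z
      by_contra hc
      have h := prod_deg q f x z hc
      have hx := (show ↥(cellset a B p j₀ (j₀ + q)) from x).2.2.2.2
      have hz := (show ↥(cellset a B p j₀ (j₀ + q)) from z).2.2.2.1
      unfold cj at h
      omega
  dd p := by
    refine mat_ext fun f => ?_
    rw [za_mul]
    refine (za_DD p f).trans ?_
    funext x
    show (0 : ℤ) = ∑ b, (0 : Matrix _ _ ℤ) x b • f b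
    simp
  comm p l := by
    refine mat_ext fun f => ?_
    rw [za_mul, za_mul]
    refine (za_DX p l f).trans ?_
    rw [dU_XU]
    exact (za_XD p l f).symm

theorem winCx_top (j₀ j₁ : ℤ) (p : ℕ) (hp : r + 1 ≤ p) : IsEmpty ((winCx a B j₀ j₁).W p).ι := by
  refine ⟨fun x => ?_⟩
  have h1 : ((x : ↥(cellset a B p j₀ j₁)).1.1.card : ℤ) = p := x.2.2.1
  have h2 := Finset.card_le_univ (x : ↥(cellset a B p j₀ j₁)).1.1
  rw [Fintype.card_fin] at h2
  omega

open WinCx in
theorem winCx_ex (j₀ j₁ : ℤ) (p : ℕ)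
    (h : ∀ j, j₀ ≤ j → j < j₁ → (∃ l, a l + j = -1) ∨ pj a j ≠ p) : (winCx a B j₀ j₁).ExAt p := by
  have h' : ∀ j, j₀ ≤ j → j < j₁ → (∃ l, a l + j = -1) ∨ (pj a j : ℤ) ≠ p := fun j h1 h2 =>
    (h j h1 h2).imp id fun h3 h4 => h3 (by exact_mod_cast h4)
  have key : ∀ (M : Type) [AddCommGroup M] (f : ↥(cellset a B p j₀ j₁) → M),
      za ((winCx a B j₀ j₁).D p) ℤ M f = 0 → ∃ w : UV r M,
        (∀ I g, ¬ inG a I g → (I, g) ∉ cellset a B ((p : ℤ) - 1) j₀ j₁ → w I g = 0) ∧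
        ∀ I g, (I, g) ∈ cellset a B p j₀ j₁ → dU ℤ M r w I g = xt f I g := by
    intro M _ f hf
    refine ex_aux (pp := ((p + 1 : ℕ) : ℤ)) rfl (by push_cast; ring) h' (xt f)
      (fun I g hc => xt_of_notMem f hc) fun I g hc => ?_
    have h1 := congrFun ((za_D' p f).symm.trans hf) ⟨(I, g), hc⟩
    exact h1
  cases p with
  | zero =>
    intro M _ f hf
    obtain ⟨w, h1, h2⟩ := key M f hf
    funext x
    obtain ⟨x', hx'⟩ : ∃ x' : ↥(cellset a B (0 : ℕ) j₀ j₁), x' = x := ⟨x, rfl⟩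
    subst hx'
    have h3 := h2 x'.1.1 x'.1.2 x'.2
    have h4 : x'.1.1 = ∅ := by
      have := x'.2.2.1
      rw [← Finset.card_eq_zero]
      exact_mod_cast this
    rw [dU_apply, h4, Finset.sum_empty] at h3
    have h5 : xt f x'.1.1 x'.1.2 = f x' := xt_of_mem (p := ((0 : ℕ) : ℤ)) f x'.2
    rw [h4] at h5
    exact (h3.trans h5).symm
  | succ p =>
    intro M _ f hf
    obtain ⟨w, h1, h2⟩ := key M f hf
    refine ⟨rs a B p j₀ j₁ w, ?_⟩
    refine (za_D' p _).trans ?_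
    funext x
    obtain ⟨x', hx'⟩ : ∃ x' : ↥(cellset a B (p + 1 : ℕ) j₀ j₁), x' = x := ⟨x, rfl⟩
    subst hx'
    have h5 : xt f x'.1.1 x'.1.2 = f x' := xt_of_mem (p := ((p + 1 : ℕ) : ℤ)) f x'.2
    refine Eq.trans ?_ ((h2 x'.1.1 x'.1.2 x'.2).trans h5)
    show dU ℤ M r (xt (rs a B p j₀ j₁ w)) x'.1.1 x'.1.2 = _
    rw [dU_apply, dU_apply]
    refine Finset.sum_congr rfl fun i _ => congrArg _ ?_
    refine xt_rs fun hc => h1 _ _ (fun hG => x'.2.1.2 (inG_erase hG)) ?_
    have h6 : ((p + 1 : ℕ) : ℤ) - 1 = p := by push_cast; ring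
    rw [h6]
    exact hc

end Vale.Agent.P202.Mix
end

section

/-!
P202-MIX, part GEO, task C5: the windows inside the cell model, boundary part.
-/

namespace Vale.Agent.P202.Mix

open Vale.Agent.P202.CharP
open scoped ENNReal

universe u

section Len

variable {R : Type u} [CommRing R] (L : AddLen R) {M N : Type u} [AddCommGroup M] [Module R M]
  [AddCommGroup N] [Module R N]

theorem wzz_len_congr (e : M ≃ₗ[R] N) : L.len M = L.len N := by
  have h := L.add (0 : PUnit.{u + 1} →ₗ[R] M) (e : M →ₗ[R] N)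
    (fun _ _ _ => Subsingleton.elim _ _) e.surjective (by
      intro y
      constructor
      · intro hy
        have : y = 0 := by simpa using hy
        exact ⟨PUnit.unit, by simp [this]⟩
      · rintro ⟨z, rfl⟩
        simp)
  rw [h, L.zero, zero_add]

theorem wzz_rl_eq (f : M →ₗ[R] N) (X Y : Submodule R M) (X' Y' : Submodule R N)
    (hY : Y.map f = Y') (h : ∀ y ∈ Y, f y ∈ X' ↔ y ∈ X) : L.rl X' Y' = L.rl X Y := by
  subst hY
  let φ : ↥Y →ₗ[R] (↥(Y.map f) ⧸ X'.submoduleOf (Y.map f)) :=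
    (X'.submoduleOf (Y.map f)).mkQ ∘ₗ
      (f.restrict (fun y hy => Submodule.mem_map_of_mem hy : ∀ y ∈ Y, f y ∈ Y.map f))
  have hsurj : Function.Surjective φ := by
    intro z
    obtain ⟨⟨w, hw⟩, rfl⟩ := Submodule.mkQ_surjective _ z
    obtain ⟨y, hy, rfl⟩ := Submodule.mem_map.1 hw
    exact ⟨⟨y, hy⟩, rfl⟩
  have hker : LinearMap.ker φ = X.submoduleOf Y := by
    ext ⟨y, hy⟩
    rw [LinearMap.mem_ker]
    simp only [φ, LinearMap.comp_apply, Submodule.mkQ_apply,
      Submodule.Quotient.mk_eq_zero]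
    exact h y hy
  have e : (↥Y ⧸ X.submoduleOf Y) ≃ₗ[R] (↥(Y.map f) ⧸ X'.submoduleOf (Y.map f)) :=
    (Submodule.quotEquivOfEq _ _ hker.symm).trans (φ.quotKerEquivOfSurjective hsurj)
  exact (wzz_len_congr L e).symm

end Len

section Win

variable {R : Type u} [CommRing R] {r : ℕ} {Q : Type u} [AddCommGroup Q]
  [Module R Q]

theorem wzz_mem_KG (a : Fin r → ℤ) (B j₀ i p : ℤ) (v : KV r Q) :
    v ∈ KG R Q a B j₀ i p ↔ ∀ J I g, v J I g ≠ 0 →
      (J.card : ℤ) = i ∧ (I.card : ℤ) = p ∧ inF B I g ∧ (inG a I g ∨ j₀ ≤ g.2) := by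
  change (∀ (J : Finset (Fin (r + 1))) (I : Finset (Fin r)) (g : Gz r),
    v J I g ∈ CV a B (fun _ g => if j₀ ≤ g.2 then ⊤ else ⊥) i p J I g) ↔ _
  refine forall_congr' fun J => forall_congr' fun I => forall_congr' fun g => ?_
  unfold CV
  by_cases h1 : (J.card : ℤ) = i ∧ (I.card : ℤ) = p ∧ inF B I g
  · rw [if_pos h1]
    by_cases h2 : inG a I g
    · rw [if_pos h2]
      exact ⟨fun _ _ => ⟨h1.1, h1.2.1, h1.2.2, Or.inl h2⟩, fun _ => Submodule.mem_top⟩
    · rw [if_neg h2]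
      change v J I g ∈ (if j₀ ≤ g.2 then (⊤ : Submodule R Q) else ⊥) ↔ _
      by_cases h3 : j₀ ≤ g.2
      · rw [if_pos h3]
        exact ⟨fun _ _ => ⟨h1.1, h1.2.1, h1.2.2, Or.inr h3⟩, fun _ => Submodule.mem_top⟩
      · rw [if_neg h3, Submodule.mem_bot]
        constructor
        · intro h h'
          exact absurd h h'
        · intro h
          by_contra h'
          obtain ⟨-, -, -, h4⟩ := h h'
          rcases h4 with h4 | h4
          · exact h2 h4
          · exact h3 h4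
  · rw [if_neg h1, Submodule.mem_bot]
    constructor
    · intro h h'
      exact absurd h h'
    · intro h
      by_contra h'
      obtain ⟨h5, h6, h7, -⟩ := h h'
      exact h1 ⟨h5, h6, h7⟩

/-- restriction to the valid cells of a window. -/
def wzz_rho (R : Type u) [CommRing R] (Q : Type u) [AddCommGroup Q] [Module R Q]
    (a : Fin r → ℤ) (B p j₀ j₁ : ℤ) :
    KV r Q →ₗ[R] (Finset (Fin (r + 1)) → ↥(cellset a B p j₀ j₁) → Q) where
  toFun v J c := v J c.1.1 c.1.2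
  map_add' _ _ := rfl
  map_smul' _ _ := rfl

variable (a : Fin r → ℤ) (B : ℤ)

theorem wzz_shift_G {I : Finset (Fin r)} {g : Gz r} {L : Finset (Fin r)}
    (h : inG a I (g - exz L)) : inG a I g := by
  obtain ⟨l, hl, h1⟩ := h
  refine ⟨l, hl, ?_⟩
  simp only [exz, Prod.fst_sub, Prod.snd_sub, Pi.sub_apply] at h1
  split_ifs at h1 <;> omega

theorem wzz_rho_eK (x : Fin (r + 1) → R) (i p j₀ j₁ : ℤ) (v : KV r Q)
    (hv : v ∈ KG R Q a B j₀ i p) :
    wzz_rho R Q a B p j₀ j₁ (eK Q x v) =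
      kz ((winRep a B p j₀ j₁).T Q x) (wzz_rho R Q a B p j₀ j₁ v) := by
  classical
  rw [wzz_mem_KG] at hv
  ext J c
  have e1 : wzz_rho R Q a B p j₀ j₁ (eK Q x v) J c = ∑ l ∈ Jᶜ, ksg l J •
      (XU R Q r l (v (insert l J)) c.1.1 c.1.2 - x l • v (insert l J) c.1.1 c.1.2) := by
    change (∑ l ∈ Jᶜ, ksg l J • (XU R Q r l - x l • (LinearMap.id : UV r Q →ₗ[R] UV r Q))
      (v (insert l J))) c.1.1 c.1.2 = _
    rw [Finset.sum_apply, Finset.sum_apply]
    rfl
  have e2 : kz ((winRep a B p j₀ j₁).T Q x) (wzz_rho R Q a B p j₀ j₁ v) J c = ∑ l ∈ Jᶜ, ksg l J •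
      (za ((winRep a B p j₀ j₁).X l) R Q (wzz_rho R Q a B p j₀ j₁ v (insert l J)) c -
        x l • v (insert l J) c.1.1 c.1.2) := by
    exact (Finset.sum_apply c _ _).trans rfl
  rw [e1, e2]
  refine Finset.sum_congr rfl fun l _ => ?_
  congr 2
  change ∑ L ∈ (Finset.univ : Finset (Fin r)).powersetCard l, v (insert l J) c.1.1 (c.1.2 - exz L) =
    ∑ b : ↥(cellset a B p j₀ j₁), (∑ L ∈ (Finset.univ : Finset (Fin r)).powersetCard l,
      if c.1.1 = b.1.1 ∧ c.1.2 = b.1.2 + exz L then (1 : ℤ) else 0) • v (insert l J) b.1.1 b.1.2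
  simp only [Finset.sum_smul, ite_smul, one_smul, zero_smul]
  rw [Finset.sum_comm]
  refine Finset.sum_congr rfl fun L _ => ?_
  obtain ⟨⟨I, g⟩, hc⟩ := c
  obtain ⟨⟨hF, hG⟩, hp, hj0, hj1⟩ := hc
  simp only at hF hG hp hj0 hj1 ⊢
  have hG' : ¬ inG a I (g - exz L) := fun h => hG (wzz_shift_G a h)
  by_cases hb : (I, g - exz L) ∈ cellset a B p j₀ j₁
  · rw [Finset.sum_eq_single (⟨(I, g - exz L), hb⟩ : ↥(cellset a B p j₀ j₁))]
    · rw [if_pos ⟨rfl, by simp⟩]
    · rintro ⟨⟨I', g'⟩, hb'⟩ - hne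
      rw [if_neg]
      rintro ⟨h1, h2⟩
      apply hne
      simp only at h1 h2
      subst h1
      rw [Subtype.mk.injEq, Prod.mk.injEq]
      exact ⟨rfl, by rw [h2]; simp⟩
    · intro h
      exact absurd (Finset.mem_univ _) h
  · rw [Finset.sum_eq_zero]
    · by_contra hne
      obtain ⟨-, h2, h3, h4⟩ := hv _ _ _ hne
      apply hb
      refine ⟨⟨h3, hG'⟩, h2, ?_, ?_⟩
      · rcases h4 with h4 | h4
        · exact absurd h4 hG'
        · exact h4
      · simp only [exz, Prod.snd_sub]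
        omega
    · rintro ⟨⟨I', g'⟩, hb'⟩ -
      rw [if_neg]
      rintro ⟨h1, h2⟩
      apply hb
      simp only at h1 h2
      subst h1
      have : g - exz L = g' := by rw [h2]; simp
      rw [this]
      exact hb'

theorem wzz_rho_dK (i j₀ j₁ : ℤ) (p : ℕ) (v : KV r Q)
    (hv : v ∈ KG R Q a B j₀ i p) :
    wzz_rho R Q a B ((p + 1 : ℕ) : ℤ) j₀ j₁ (dK R Q r v) =
      kmap (r + 1) (za ((winCx a B j₀ j₁).D p) R Q) (wzz_rho R Q a B p j₀ j₁ v) := by
  classical
  rw [wzz_mem_KG] at hv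
  ext J c
  change ∑ l ∈ c.1.1, ksg l c.1.1 • v J (c.1.1.erase l) c.1.2 =
    ∑ b : ↥(cellset a B (p : ℤ) j₀ j₁), (∑ l ∈ c.1.1,
      if b.1.1 = c.1.1.erase l ∧ b.1.2 = c.1.2 then ksg l c.1.1 else 0) • v J b.1.1 b.1.2
  simp only [Finset.sum_smul, ite_smul, zero_smul]
  rw [Finset.sum_comm]
  obtain ⟨⟨I, g⟩, hc⟩ := c
  obtain ⟨⟨hF, hG⟩, hp, hj0, hj1⟩ := hc
  simp only at hF hG hp hj0 hj1 ⊢
  refine Finset.sum_congr rfl fun l hl => ?_
  have hcard : ((I.erase l).card : ℤ) = p := by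
    rw [Finset.card_erase_of_mem hl]
    have := Finset.card_pos.2 ⟨l, hl⟩
    push_cast [Nat.cast_sub this] at hp ⊢
    omega
  have hG' : ¬ inG a (I.erase l) g := by
    rintro ⟨l', hl', h⟩
    exact hG ⟨l', Finset.mem_of_mem_erase hl', h⟩
  by_cases hb : (I.erase l, g) ∈ cellset a B (p : ℤ) j₀ j₁
  · rw [Finset.sum_eq_single (⟨(I.erase l, g), hb⟩ : ↥(cellset a B (p : ℤ) j₀ j₁))]
    · rw [if_pos ⟨rfl, rfl⟩]
    · rintro ⟨⟨I', g'⟩, hb'⟩ - hne
      rw [if_neg]
      rintro ⟨h1, h2⟩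
      apply hne
      simp only at h1 h2
      rw [Subtype.mk.injEq, Prod.mk.injEq]
      exact ⟨h1, h2⟩
    · intro h
      exact absurd (Finset.mem_univ _) h
  · rw [Finset.sum_eq_zero]
    · have : v J (I.erase l) g = 0 := by
        by_contra hne
        obtain ⟨-, h2, h3, h4⟩ := hv _ _ _ hne
        apply hb
        refine ⟨⟨h3, hG'⟩, h2, ?_, hj1⟩
        rcases h4 with h4 | h4
        · exact absurd h4 hG'
        · exact h4
      rw [this, smul_zero]
    · rintro ⟨⟨I', g'⟩, hb'⟩ -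
      rw [if_neg]
      rintro ⟨h1, h2⟩
      apply hb
      simp only at h1 h2
      rw [← h1, ← h2]
      exact hb'

theorem wzz_ker (i p j₀ j₁ : ℤ) (_hj : j₀ ≤ j₁) (v : KV r Q) (hv : v ∈ KG R Q a B j₀ i p) :
    wzz_rho R Q a B p j₀ j₁ v = 0 ↔ v ∈ KG R Q a B j₁ i p := by
  rw [wzz_mem_KG] at hv ⊢
  constructor
  · intro h J I g hne
    obtain ⟨h1, h2, h3, h4⟩ := hv J I g hne
    refine ⟨h1, h2, h3, ?_⟩
    by_contra hcon
    rw [not_or] at hcon
    rcases h4 with h4 | h4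
    · exact hcon.1 h4
    · have hc : (I, g) ∈ cellset a B p j₀ j₁ := ⟨⟨h3, hcon.1⟩, h2, h4, by
        have := hcon.2
        simp only
        omega⟩
      exact hne (congrFun (congrFun h J) ⟨(I, g), hc⟩)
  · intro h
    ext J c
    obtain ⟨⟨I, g⟩, hc⟩ := c
    obtain ⟨⟨hF, hG⟩, hp, hj0, hj1⟩ := hc
    change v J I g = 0
    by_contra hne
    obtain ⟨-, -, -, h4⟩ := h J I g hne
    rcases h4 with h4 | h4
    · exact hG h4
    · simp only at hj1
      omega

theorem wzz_map_KG (i p j₀ j₁ : ℤ) :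
    (KG R Q a B j₀ i p).map (wzz_rho R Q a B p j₀ j₁) =
      kgr R (↥(cellset a B p j₀ j₁) → Q) (r + 1) i := by
  classical
  apply le_antisymm
  · rintro w ⟨v, hv, rfl⟩ J hJ
    rw [SetLike.mem_coe, wzz_mem_KG] at hv
    by_contra hcard
    apply hJ
    ext c
    change v J c.1.1 c.1.2 = 0
    by_contra hne
    exact hcard (hv _ _ _ hne).1
  · intro w hw
    refine ⟨fun J I g => if h : (I, g) ∈ cellset a B p j₀ j₁ then w J ⟨(I, g), h⟩ else 0, ?_, ?_⟩
    · rw [SetLike.mem_coe, wzz_mem_KG]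
      intro J I g hne
      by_cases h : (I, g) ∈ cellset a B p j₀ j₁
      · simp only [h, dite_true] at hne
        obtain ⟨⟨hF, hG⟩, hp, hj0, hj1⟩ := h
        refine ⟨hw J ?_, hp, hF, Or.inr hj0⟩
        intro h0
        apply hne
        rw [h0]
        rfl
      · simp only [h, dite_false, ne_eq, not_true_eq_false] at hne
    · ext J c
      change (if h : (c.1.1, c.1.2) ∈ cellset a B p j₀ j₁ then w J ⟨(c.1.1, c.1.2), h⟩ else 0) =
        w J c
      rw [dif_pos c.2]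

theorem wzz_map_ZZF (x : Fin (r + 1) → R) (q : ℕ) (i p : ℤ) :
    (ZZF Q x a B q i p).map (wzz_rho R Q a B p (-i * q) ((1 - i) * q)) =
      kbd ((winRep a B p (-i * q) ((1 - i) * q)).T Q x) i := by
  have hj : -i * (q : ℤ) ≤ (1 - i) * q := by nlinarith [Int.natCast_nonneg q]
  rw [ZZF, Submodule.map_sup]
  have h0 : (KG R Q a B ((1 - i) * q) i p).map
      (wzz_rho R Q a B p (-i * q) ((1 - i) * q)) = ⊥ := by
    rw [eq_bot_iff]
    rintro w ⟨v, hv, rfl⟩
    rw [Submodule.mem_bot]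
    have hv' : v ∈ KG R Q a B (-i * q) i p := by
      rw [SetLike.mem_coe, wzz_mem_KG] at hv
      rw [wzz_mem_KG]
      intro J I g hne
      obtain ⟨h1, h2, h3, h4⟩ := hv J I g hne
      exact ⟨h1, h2, h3, h4.imp_right fun h => hj.trans h⟩
    exact (wzz_ker a B i p _ _ hj v hv').2 hv
  rw [h0, sup_bot_eq]
  unfold kbd
  have h1 := wzz_map_KG (R := R) (Q := Q) a B (i + 1) p (-i * q) ((1 - i) * q)
  change _ = Submodule.map (kz ((winRep a B p (-i * ↑q) ((1 - i) * ↑q)).T Q x))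
    (kgr R (↥(cellset a B p (-i * q) ((1 - i) * q)) → Q) (r + 1) (i + 1))
  rw [← h1]
  ext w
  constructor
  · rintro ⟨_, ⟨v, hv, rfl⟩, rfl⟩
    rw [wzz_rho_eK a B x (i + 1) p _ _ v hv]
    exact ⟨_, ⟨v, hv, rfl⟩, rfl⟩
  · rintro ⟨_, ⟨v, hv, rfl⟩, rfl⟩
    rw [← wzz_rho_eK a B x (i + 1) p _ _ v hv]
    exact ⟨_, ⟨v, hv, rfl⟩, rfl⟩

theorem wzz_ZZF_le (x : Fin (r + 1) → R) (q : ℕ) (i p : ℤ) :
    ZZF Q x a B q i p ≤ KG R Q a B (-i * q) i p := by
  have hj : -i * (q : ℤ) ≤ (1 - i) * q := by nlinarith [Int.natCast_nonneg q]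
  refine sup_le ?_ ?_
  · rintro _ ⟨v, hv, rfl⟩
    have := (bstab_KG (Q := Q) a B x (-i * q)).he (i + 1) p v hv
    simpa using this
  · intro v hv
    rw [wzz_mem_KG] at hv ⊢
    intro J I g hne
    obtain ⟨h1, h2, h3, h4⟩ := hv J I g hne
    exact ⟨h1, h2, h3, h4.imp_right fun h => hj.trans h⟩

theorem wzz_map_cz (x : Fin (r + 1) → R) (q : ℕ) (i : ℤ) (p : ℕ) :
    (cz (dK R Q r) (KG R Q a B (-i * q) i) (ZZF Q x a B q i) (p : ℤ)).map
        (wzz_rho R Q a B p (-i * q) ((1 - i) * q)) =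
      (kgr R (((winCx a B (-i * q) ((1 - i) * q)).W p).ι → Q) (r + 1) i ⊓
          (kbd (((winCx a B (-i * q) ((1 - i) * q)).W (p + 1)).T Q x) i).comap
            (kmap (r + 1) (za ((winCx a B (-i * q) ((1 - i) * q)).D p) R Q))) := by
  have hj : -i * (q : ℤ) ≤ (1 - i) * q := by nlinarith [Int.natCast_nonneg q]
  have hW : kbd (((winCx a B (-i * q) ((1 - i) * q)).W (p + 1)).T Q x) i =
      (ZZF Q x a B q i ((p + 1 : ℕ) : ℤ)).map
        (wzz_rho R Q a B ((p + 1 : ℕ) : ℤ) (-i * q) ((1 - i) * q)) :=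
    (wzz_map_ZZF a B x q i ((p + 1 : ℕ) : ℤ)).symm
  have hK : kgr R (((winCx a B (-i * q) ((1 - i) * q)).W p).ι → Q) (r + 1) i =
      (KG R Q a B (-i * q) i p).map (wzz_rho R Q a B p (-i * q) ((1 - i) * q)) :=
    (wzz_map_KG a B i p _ _).symm
  rw [hW, hK]
  have hd : ∀ v ∈ KG R Q a B (-i * q) i p, dK R Q r v ∈ KG R Q a B (-i * q) i ((p + 1 : ℕ) : ℤ) := by
    intro v hv
    have := (bstab_KG (Q := Q) a B (0 : Fin (r + 1) → R) (-i * q)).hd i p v hv
    rw [Nat.cast_add_one]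
    exact this
  apply le_antisymm
  · rintro _ ⟨v, ⟨hv1, hv2⟩, rfl⟩
    refine ⟨⟨v, hv1, rfl⟩, ?_⟩
    change kmap (r + 1) (za ((winCx a B (-i * q) ((1 - i) * q)).D p) R Q)
      (wzz_rho R Q a B p (-i * q) ((1 - i) * q) v) ∈ (ZZF Q x a B q i ((p + 1 : ℕ) : ℤ)).map
        (wzz_rho R Q a B ((p + 1 : ℕ) : ℤ) (-i * q) ((1 - i) * q))
    refine ⟨dK R Q r v, ?_, ?_⟩
    · rw [Nat.cast_add_one]
      exact hv2
    · exact wzz_rho_dK a B i _ _ p v hv1
  · rintro _ ⟨⟨v, hv, rfl⟩, hw⟩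
    have hw' : kmap (r + 1) (za ((winCx a B (-i * q) ((1 - i) * q)).D p) R Q)
      (wzz_rho R Q a B p (-i * q) ((1 - i) * q) v) ∈ (ZZF Q x a B q i ((p + 1 : ℕ) : ℤ)).map
        (wzz_rho R Q a B ((p + 1 : ℕ) : ℤ) (-i * q) ((1 - i) * q)) := hw
    refine ⟨v, ⟨hv, ?_⟩, rfl⟩
    change dK R Q r v ∈ ZZF Q x a B q i ((p : ℤ) + 1)
    obtain ⟨y, hy, hy'⟩ := hw'
    have hy' : wzz_rho R Q a B ((p + 1 : ℕ) : ℤ) (-i * q) ((1 - i) * q) y =
        wzz_rho R Q a B ((p + 1 : ℕ) : ℤ) (-i * q) ((1 - i) * q) (dK R Q r v) :=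
      hy'.trans (wzz_rho_dK a B i _ _ p v hv).symm
    have h1 : dK R Q r v - y ∈ KG R Q a B ((1 - i) * q) i ((p + 1 : ℕ) : ℤ) := by
      rw [← wzz_ker a B i _ _ _ hj _ (Submodule.sub_mem _ (hd v hv) (wzz_ZZF_le a B x q i _ hy)),
        map_sub, sub_eq_zero]
      exact hy'.symm
    have h2 : dK R Q r v = y + (dK R Q r v - y) := by abel
    rw [h2, ← Nat.cast_add_one]
    refine Submodule.add_mem _ hy ?_
    exact Submodule.mem_sup_right h1

variable (L : AddLen R) (x : Fin (r + 1) → R)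

theorem wzz_hc (q : ℕ) (i : ℤ) (p : ℕ)
    (X' : Submodule R (Finset (Fin (r + 1)) → ((winCx a B (-i * q) ((1 - i) * q)).W p).ι → Q))
    (hX : (cb (dK R Q r) (KG R Q a B (-i * q) i) (ZZF Q x a B q i) (p : ℤ)).map
        (wzz_rho R Q a B p (-i * q) ((1 - i) * q)) = X') :
    L.hc (dK R Q r) (KG R Q a B (-i * q) i) (ZZF Q x a B q i) (p : ℤ) =
      L.rl X' (kgr R (((winCx a B (-i * q) ((1 - i) * q)).W p).ι → Q) (r + 1) i ⊓
          (kbd (((winCx a B (-i * q) ((1 - i) * q)).W (p + 1)).T Q x) i).comap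
            (kmap (r + 1) (za ((winCx a B (-i * q) ((1 - i) * q)).D p) R Q))) := by
  have hj : -i * (q : ℤ) ≤ (1 - i) * q := by nlinarith [Int.natCast_nonneg q]
  symm
  refine wzz_rl_eq L (wzz_rho R Q a B p (-i * q) ((1 - i) * q)) _ _ _ _
    (wzz_map_cz a B x q i p) ?_
  intro y hy
  subst hX
  constructor
  · rintro ⟨b, hb, hb'⟩
    have hbK : b ∈ KG R Q a B (-i * q) i p := by
      have : cb (dK R Q r) (KG R Q a B (-i * q) i) (ZZF Q x a B q i) (p : ℤ) ≤
          KG R Q a B (-i * q) i p := by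
        refine sup_le ?_ (wzz_ZZF_le a B x q i p)
        rintro _ ⟨v, hv, rfl⟩
        have := (bstab_KG (Q := Q) a B (0 : Fin (r + 1) → R) (-i * q)).hd i (p - 1) v hv
        simpa using this
      exact this hb
    have h1 : y - b ∈ KG R Q a B ((1 - i) * q) i p := by
      rw [← wzz_ker a B i _ _ _ hj _ (Submodule.sub_mem _ hy.1 hbK), map_sub, sub_eq_zero]
      exact hb'.symm
    have h2 : y = b + (y - b) := by abel
    rw [h2]
    exact Submodule.add_mem _ hb (Submodule.mem_sup_right (Submodule.mem_sup_right h1))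
  · intro h
    exact ⟨y, h, rfl⟩

end Win

section Final

variable {R : Type u} [CommRing R] (L : AddLen R) {r : ℕ} (Q : Type u) [AddCommGroup Q]
  [Module R Q] (x : Fin (r + 1) → R) (a : Fin r → ℤ) (B : ℤ)

/-- the rows of `K_{≥ -iq} / Z''`. -/
theorem hc_KG_ZZF_zero (q : ℕ) (i : ℤ) :
    L.hc (dK R Q r) (KG R Q a B (-i * q) i) (ZZF Q x a B q i) 0 =
      L.rl (kbd (((winCx a B (-i * q) ((1 - i) * q)).W 0).T Q x) i)
        (kgr R (((winCx a B (-i * q) ((1 - i) * q)).W 0).ι → Q) (r + 1) i ⊓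
          (kbd (((winCx a B (-i * q) ((1 - i) * q)).W 1).T Q x) i).comap
            (kmap (r + 1) (za ((winCx a B (-i * q) ((1 - i) * q)).D 0) R Q))) := by
  refine wzz_hc a B L x q i 0 _ ?_
  rw [cb, Submodule.map_sup]
  have h0 : KG R Q a B (-i * q) i (((0 : ℕ) : ℤ) - 1) = ⊥ := by
    rw [eq_bot_iff]
    intro v hv
    rw [wzz_mem_KG] at hv
    rw [Submodule.mem_bot]
    ext J I g
    by_contra hne
    have := (hv J I g hne).2.1
    simp only [Nat.cast_zero, zero_sub] at this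
    omega
  rw [h0, Submodule.map_bot, Submodule.map_bot, bot_sup_eq]
  exact wzz_map_ZZF a B x q i _

theorem hc_KG_ZZF_succ (q : ℕ) (i : ℤ) (p : ℕ) :
    L.hc (dK R Q r) (KG R Q a B (-i * q) i) (ZZF Q x a B q i) ((p : ℤ) + 1) =
      L.rl ((kgr R (((winCx a B (-i * q) ((1 - i) * q)).W p).ι → Q) (r + 1) i).map
            (kmap (r + 1) (za ((winCx a B (-i * q) ((1 - i) * q)).D p) R Q)) ⊔
          kbd (((winCx a B (-i * q) ((1 - i) * q)).W (p + 1)).T Q x) i)
        (kgr R (((winCx a B (-i * q) ((1 - i) * q)).W (p + 1)).ι → Q) (r + 1) i ⊓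
          (kbd (((winCx a B (-i * q) ((1 - i) * q)).W (p + 2)).T Q x) i).comap
            (kmap (r + 1) (za ((winCx a B (-i * q) ((1 - i) * q)).D (p + 1)) R Q))) := by
  rw [← Nat.cast_add_one]
  refine wzz_hc a B L x q i (p + 1) _ ?_
  rw [cb, Submodule.map_sup]
  have h1 := wzz_map_ZZF (Q := Q) a B x q i ((p + 1 : ℕ) : ℤ)
  have h2 : ((KG R Q a B (-i * q) i (((p + 1 : ℕ) : ℤ) - 1)).map (dK R Q r)).map
      (wzz_rho R Q a B ((p + 1 : ℕ) : ℤ) (-i * q) ((1 - i) * q)) =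
      (kgr R (((winCx a B (-i * q) ((1 - i) * q)).W p).ι → Q) (r + 1) i).map
            (kmap (r + 1) (za ((winCx a B (-i * q) ((1 - i) * q)).D p) R Q)) := by
    have hp : (((p + 1 : ℕ) : ℤ) - 1) = p := by push_cast; ring
    rw [hp]
    have hK := wzz_map_KG (R := R) (Q := Q) a B i p (-i * q) ((1 - i) * q)
    ext w
    constructor
    · rintro ⟨_, ⟨v, hv, rfl⟩, rfl⟩
      rw [wzz_rho_dK a B i _ _ p v hv]
      refine ⟨wzz_rho R Q a B p (-i * q) ((1 - i) * q) v, ?_, rfl⟩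
      exact hK.le ⟨v, hv, rfl⟩
    · rintro ⟨y, hy, rfl⟩
      obtain ⟨v, hv, rfl⟩ := hK.ge hy
      exact ⟨_, ⟨v, hv, rfl⟩, wzz_rho_dK a B i _ _ p v hv⟩
  rw [h2, h1]
  rfl

end Final

end Vale.Agent.P202.Mix
end

section

/-!
P202-MIX, part GEO, task C4: the windows inside the cell model, cycle part.
-/

namespace Vale.Agent.P202.Mix

open Vale.Agent.P202.CharP
open scoped ENNReal

universe u

section Win

variable {R : Type u} [CommRing R] {r : ℕ} {Q : Type u} [AddCommGroup Q]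
  [Module R Q] (a : Fin r → ℤ) (B : ℤ) (x : Fin (r + 1) → R)

theorem wz_le (q : ℕ) (i : ℤ) : (1 - i) * (q : ℤ) ≤ (2 - i) * q := by
  nlinarith [Int.natCast_nonneg q]

theorem wz_KG_anti {j₀ j₁ : ℤ} (hj : j₀ ≤ j₁) (i p : ℤ) :
    KG R Q a B j₁ i p ≤ KG R Q a B j₀ i p := by
  intro v hv
  rw [wzz_mem_KG] at hv ⊢
  intro J I g hne
  obtain ⟨h1, h2, h3, h4⟩ := hv J I g hne
  exact ⟨h1, h2, h3, h4.imp_right fun h => hj.trans h⟩

theorem wz_eK_mem {j₀ i p : ℤ} {v : KV r Q} (hv : v ∈ KG R Q a B j₀ i p) :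
    eK Q x v ∈ KG R Q a B j₀ (i - 1) p :=
  (bstab_KG (Q := Q) a B x j₀).he i p v hv

theorem wz_dK_mem {j₀ i p : ℤ} {v : KV r Q} (hv : v ∈ KG R Q a B j₀ i p) :
    dK R Q r v ∈ KG R Q a B j₀ i (p + 1) :=
  (bstab_KG (Q := Q) a B (0 : Fin (r + 1) → R) j₀).hd i p v hv

/-- on `K_{≥ (1-i)q}`, membership in `Z` means that the restriction is a cycle -/
theorem wz_mem_ZF (q : ℕ) (i p : ℤ) (v : KV r Q) (hv : v ∈ KG R Q a B ((1 - i) * q) i p) :
    v ∈ ZF Q x a B q i p ↔
      wzz_rho R Q a B p ((1 - i) * q) ((2 - i) * q) v ∈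
        kcyc ((winRep a B p ((1 - i) * q) ((2 - i) * q)).T Q x) i := by
  have h1 : wzz_rho R Q a B p ((1 - i) * q) ((2 - i) * q) v ∈
      kgr R (↥(cellset a B p ((1 - i) * q) ((2 - i) * q)) → Q) (r + 1) i := by
    rw [← wzz_map_KG (R := R) (Q := Q) a B i p ((1 - i) * q) ((2 - i) * q)]
    exact ⟨v, hv, rfl⟩
  have h2 := wzz_rho_eK a B x i p ((1 - i) * q) ((2 - i) * q) v hv
  have h3 := wzz_ker a B (i - 1) p _ _ (wz_le q i) (eK Q x v) (wz_eK_mem a B x hv)
  constructor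
  · rintro ⟨-, h4⟩
    refine ⟨h1, ?_⟩
    change kz ((winRep a B p ((1 - i) * q) ((2 - i) * q)).T Q x)
      (wzz_rho R Q a B p ((1 - i) * q) ((2 - i) * q) v) = 0
    exact h2.symm.trans (h3.2 h4)
  · rintro ⟨-, h4⟩
    have h4' : kz ((winRep a B p ((1 - i) * q) ((2 - i) * q)).T Q x)
      (wzz_rho R Q a B p ((1 - i) * q) ((2 - i) * q) v) = 0 := h4
    exact ⟨hv, h3.1 (h2.trans h4')⟩

theorem wz_map_ZF (q : ℕ) (i p : ℤ) :
    (ZF Q x a B q i p).map (wzz_rho R Q a B p ((1 - i) * q) ((2 - i) * q)) =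
      kcyc ((winRep a B p ((1 - i) * q) ((2 - i) * q)).T Q x) i := by
  apply le_antisymm
  · rintro _ ⟨v, hv, rfl⟩
    exact (wz_mem_ZF a B x q i p v hv.1).1 hv
  · intro w hw
    have h1 : w ∈ (KG R Q a B ((1 - i) * q) i p).map
        (wzz_rho R Q a B p ((1 - i) * q) ((2 - i) * q)) := by
      rw [wzz_map_KG]
      exact hw.1
    obtain ⟨v, hv, rfl⟩ := h1
    exact ⟨v, (wz_mem_ZF a B x q i p v hv).2 hw, rfl⟩

theorem wz_KG_le_ZF (q : ℕ) (i p : ℤ) :
    KG R Q a B ((2 - i) * q) i p ≤ ZF Q x a B q i p := fun _ hv =>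
  ⟨wz_KG_anti a B (wz_le q i) i p hv, wz_eK_mem a B x hv⟩

end Win

section Final

variable {R : Type u} [CommRing R] (L : AddLen R) {r : ℕ} (Q : Type u) [AddCommGroup Q]
  [Module R Q] (x : Fin (r + 1) → R) (a : Fin r → ℤ) (B : ℤ)

/-- length of `Z / K_{≥ (2-i)q}`. -/
theorem rl_KG_ZF (q : ℕ) (i p : ℤ) :
    L.rl (KG R Q a B ((2 - i) * q) i p) (ZF Q x a B q i p) =
      L.len ↥(kcyc ((winRep a B p ((1 - i) * q) ((2 - i) * q)).T Q x) i) := by
  have h := wzz_rl_eq L (wzz_rho R Q a B p ((1 - i) * q) ((2 - i) * q))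
    (KG R Q a B ((2 - i) * q) i p) (ZF Q x a B q i p) ⊥ _ (wz_map_ZF a B x q i p) (by
      intro y hy
      rw [Submodule.mem_bot]
      exact wzz_ker a B i p _ _ (wz_le q i) y hy.1)
  rw [← h]
  exact rl_bot L _

/-- the rows of `Z / K_{≥ (2-i)q}`. -/
theorem hc_ZF_KG (q : ℕ) (i : ℤ) (p : ℕ) :
    L.hc (dK R Q r) (ZF Q x a B q i) (KG R Q a B ((2 - i) * q) i) ((p : ℤ) + 1) =
      L.rl ((kcyc (((winCx a B ((1 - i) * q) ((2 - i) * q)).W p).T Q x) i).map
          (kmap (r + 1) (za ((winCx a B ((1 - i) * q) ((2 - i) * q)).D p) R Q)))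
        (kcyc (((winCx a B ((1 - i) * q) ((2 - i) * q)).W (p + 1)).T Q x) i ⊓
          LinearMap.ker (kmap (r + 1)
            (za ((winCx a B ((1 - i) * q) ((2 - i) * q)).D (p + 1)) R Q))) := by
  rw [← Nat.cast_add_one]
  have hW : kcyc (((winCx a B ((1 - i) * q) ((2 - i) * q)).W (p + 1)).T Q x) i =
      (ZF Q x a B q i ((p + 1 : ℕ) : ℤ)).map
        (wzz_rho R Q a B ((p + 1 : ℕ) : ℤ) ((1 - i) * q) ((2 - i) * q)) :=
    (wz_map_ZF a B x q i ((p + 1 : ℕ) : ℤ)).symm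
  have hW0 : kcyc (((winCx a B ((1 - i) * q) ((2 - i) * q)).W p).T Q x) i =
      (ZF Q x a B q i (p : ℤ)).map
        (wzz_rho R Q a B (p : ℤ) ((1 - i) * q) ((2 - i) * q)) :=
    (wz_map_ZF a B x q i (p : ℤ)).symm
  rw [hW, hW0]
  symm
  refine wzz_rl_eq L (wzz_rho R Q a B ((p + 1 : ℕ) : ℤ) ((1 - i) * q) ((2 - i) * q)) _ _ _ _ ?_ ?_
  · -- the cycles
    apply le_antisymm
    · rintro _ ⟨v, ⟨hv1, hv2⟩, rfl⟩
      refine ⟨⟨v, hv1, rfl⟩, ?_⟩
      change kmap (r + 1) (za ((winCx a B ((1 - i) * q) ((2 - i) * q)).D (p + 1)) R Q)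
        (wzz_rho R Q a B ((p + 1 : ℕ) : ℤ) ((1 - i) * q) ((2 - i) * q) v) = 0
      have h1 := wzz_rho_dK a B i ((1 - i) * q) ((2 - i) * q) (p + 1) v hv1.1
      refine h1.symm.trans ?_
      have h2 := wz_dK_mem a B hv1.1
      rw [← Nat.cast_add_one (R := ℤ) (p + 1)] at h2
      have h3 : dK R Q r v ∈ KG R Q a B ((2 - i) * q) i (((p + 1 : ℕ) : ℤ) + 1) := hv2
      rw [← Nat.cast_add_one (R := ℤ) (p + 1)] at h3
      exact (wzz_ker a B i _ _ _ (wz_le q i) _ h2).2 h3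
    · rintro _ ⟨⟨v, hv, rfl⟩, hw⟩
      have hw' : kmap (r + 1) (za ((winCx a B ((1 - i) * q) ((2 - i) * q)).D (p + 1)) R Q)
        (wzz_rho R Q a B ((p + 1 : ℕ) : ℤ) ((1 - i) * q) ((2 - i) * q) v) = 0 := hw
      refine ⟨v, ⟨hv, ?_⟩, rfl⟩
      change dK R Q r v ∈ KG R Q a B ((2 - i) * q) i (((p + 1 : ℕ) : ℤ) + 1)
      have h1 := wzz_rho_dK a B i ((1 - i) * q) ((2 - i) * q) (p + 1) v hv.1
      have h2 := wz_dK_mem a B hv.1
      rw [← Nat.cast_add_one (R := ℤ) (p + 1)] at h2 ⊢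
      exact (wzz_ker a B i _ _ _ (wz_le q i) _ h2).1 (h1.trans hw')
  · -- the boundaries
    intro y hy
    have hp : (((p + 1 : ℕ) : ℤ) - 1) = p := by push_cast; ring
    constructor
    · rintro ⟨_, ⟨v, hv, rfl⟩, h1⟩
      have h1' : wzz_rho R Q a B ((p + 1 : ℕ) : ℤ) ((1 - i) * q) ((2 - i) * q) (dK R Q r v) =
          wzz_rho R Q a B ((p + 1 : ℕ) : ℤ) ((1 - i) * q) ((2 - i) * q) y :=
        (wzz_rho_dK a B i ((1 - i) * q) ((2 - i) * q) p v hv.1).trans h1
      have h2 := wz_dK_mem a B hv.1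
      rw [← Nat.cast_add_one (R := ℤ) p] at h2
      have h3 : y - dK R Q r v ∈ KG R Q a B ((2 - i) * q) i ((p + 1 : ℕ) : ℤ) := by
        rw [← wzz_ker a B i _ _ _ (wz_le q i) _ (Submodule.sub_mem _ hy.1.1 h2), map_sub,
          sub_eq_zero]
        exact h1'.symm
      have h4 : y = dK R Q r v + (y - dK R Q r v) := by abel
      rw [h4]
      refine Submodule.add_mem _ (Submodule.mem_sup_left ⟨v, ?_, rfl⟩)
        (Submodule.mem_sup_right h3)
      rw [hp]
      exact hv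
    · intro h
      obtain ⟨b, hb, c, hc, rfl⟩ := Submodule.mem_sup.1 h
      rw [hp] at hb
      obtain ⟨v, hv, rfl⟩ := hb
      refine ⟨wzz_rho R Q a B (p : ℤ) ((1 - i) * q) ((2 - i) * q) v, ⟨v, hv, rfl⟩, ?_⟩
      have h1 := wzz_rho_dK a B i ((1 - i) * q) ((2 - i) * q) p v hv.1
      refine h1.symm.trans ?_
      rw [map_add, (wzz_ker a B i _ _ _ (wz_le q i) c
        (wz_KG_anti a B (wz_le q i) i _ hc)).2 hc, add_zero]

end Final

end Vale.Agent.P202.Mix
end

section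

/-!
P202-MIX, part GEO, task C2b: the chains modulo the boundaries of an exact complex of
representations.
-/

namespace Vale.Agent.P202.Mix

open scoped ENNReal

universe u

/-! ### splittings over `ℤ` -/

section Split

/-- a map with saturated range has a generalized inverse. -/
theorem repbd_ginv {α β : Type} [Fintype α] [Fintype β]
    (f : (α → ℤ) →ₗ[ℤ] (β → ℤ))
    (hsat : ∀ (m : ℤ) (w : β → ℤ), m ≠ 0 → m • w ∈ LinearMap.range f → w ∈ LinearMap.range f) :
    ∃ S : (β → ℤ) →ₗ[ℤ] (α → ℤ), ∀ v, f (S (f v)) = f v := by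
  obtain ⟨s, hs⟩ := repcyc_section f
  have htf : Module.IsTorsionFree ℤ ((β → ℤ) ⧸ LinearMap.range f) := by
    rw [Module.isTorsionFree_iff_smul_eq_zero]
    intro m w hw
    obtain ⟨w, rfl⟩ := Submodule.mkQ_surjective _ w
    by_cases hm : m = 0
    · exact Or.inl hm
    · right
      rw [← map_smul, Submodule.mkQ_apply, Submodule.Quotient.mk_eq_zero] at hw
      rw [Submodule.mkQ_apply, Submodule.Quotient.mk_eq_zero]
      exact hsat m w hm hw
  obtain ⟨t, ht⟩ := Module.projective_lifting_property (LinearMap.range f).mkQ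
    (LinearMap.id : ((β → ℤ) ⧸ LinearMap.range f) →ₗ[ℤ] ((β → ℤ) ⧸ LinearMap.range f))
    (Submodule.mkQ_surjective _)
  have ht' : ∀ w, (LinearMap.range f).mkQ (t w) = w := fun w => LinearMap.congr_fun ht w
  let ρ : (β → ℤ) →ₗ[ℤ] LinearMap.range f :=
    LinearMap.codRestrict (LinearMap.range f) (LinearMap.id - t ∘ₗ (LinearMap.range f).mkQ) (by
      intro w
      rw [← Submodule.Quotient.mk_eq_zero, ← Submodule.mkQ_apply]
      show (LinearMap.range f).mkQ (w - t ((LinearMap.range f).mkQ w)) = 0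
      rw [map_sub, ht', sub_self])
  refine ⟨s ∘ₗ ρ, fun v => ?_⟩
  have h2 : f (s (ρ (f v))) = (ρ (f v) : β → ℤ) := congrArg Subtype.val (hs (ρ (f v)))
  have h3 : (ρ (f v) : β → ℤ) = f v - t ((LinearMap.range f).mkQ (f v)) := rfl
  have h4 : (LinearMap.range f).mkQ (f v) = 0 := by
    rw [Submodule.mkQ_apply, Submodule.Quotient.mk_eq_zero]
    exact ⟨v, rfl⟩
  rw [LinearMap.comp_apply, h2, h3, h4, map_zero, sub_zero]

/-- saturation from exactness with all coefficients. -/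
theorem repbd_ginv_mat {α β : Type} [Fintype α] [Fintype β] [DecidableEq α]
    [DecidableEq β] (A : Matrix β α ℤ)
    (hex : ∀ (m : ℕ) (w : α → ℤ), (∀ b, (m : ℤ) ∣ za A ℤ ℤ w b) →
      ∃ w' : α → ℤ, za A ℤ ℤ (w - (m : ℤ) • w') = 0) :
    ∃ S : Matrix α β ℤ, A * S * A = A := by
  obtain ⟨S, hS⟩ := repbd_ginv (za A ℤ ℤ) (by
    rintro m w hm ⟨v, hv⟩
    obtain ⟨w', hw'⟩ := hex m.natAbs v (fun b => by
      rw [hv]
      show (m.natAbs : ℤ) ∣ m • w b
      rw [smul_eq_mul]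
      exact Dvd.dvd.mul_right (Int.natAbs_dvd.mpr dvd_rfl) _)
    rw [map_sub, sub_eq_zero, hv, map_smul] at hw'
    rcases Int.natAbs_eq m with h | h
    · refine ⟨w', ?_⟩
      rw [← h] at hw'
      exact (smul_right_injective _ hm hw').symm
    · refine ⟨-w', ?_⟩
      have h5 : (m.natAbs : ℤ) = -m := by omega
      rw [h5, neg_smul] at hw'
      have h6 : m • w = m • (-za A ℤ ℤ w') := by rw [smul_neg]; exact hw'
      rw [map_neg]
      exact (smul_right_injective _ hm h6).symm)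
  refine ⟨LinearMap.toMatrix' S, ?_⟩
  apply Matrix.toLin'.injective
  rw [Matrix.toLin'_mul, Matrix.toLin'_mul, Matrix.toLin'_toMatrix', ← repcyc_za_toLin]
  exact LinearMap.ext hS

end Split

/-! ### relative lengths -/

section Rl

variable {R : Type u} [CommRing R] (L : AddLen R) {M N : Type u} [AddCommGroup M] [Module R M]
  [AddCommGroup N] [Module R N]

theorem repbd_rl_le (f : M →ₗ[R] N) (X₀ Y₀ : Submodule R M) (X Y : Submodule R N)
    (h1 : ∀ v ∈ X₀, f v ∈ X) (h2 : ∀ v ∈ Y₀, f v ∈ Y) (h3 : ∀ y ∈ Y, ∃ v ∈ Y₀, y - f v ∈ X) :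
    L.rl X Y ≤ L.rl X₀ Y₀ := by
  unfold AddLen.rl
  refine repcyc_len_le L (Submodule.mapQ (X₀.submoduleOf Y₀) (X.submoduleOf Y)
    (f.restrict h2) ?_) ?_
  · rintro ⟨y, hy⟩ hx
    exact h1 y hx
  · intro z
    obtain ⟨⟨y, hy⟩, rfl⟩ := Submodule.mkQ_surjective _ z
    obtain ⟨v, hv, hv'⟩ := h3 y hy
    refine ⟨Submodule.mkQ _ ⟨v, hv⟩, ?_⟩
    rw [Submodule.mkQ_apply, Submodule.mapQ_apply, Submodule.mkQ_apply, eq_comm,
      Submodule.Quotient.eq]
    exact hv'

end Rl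

section Rep

variable {R : Type u} [CommRing R] (L : AddLen R) {n q : ℕ} (Q : Type u) [AddCommGroup Q]
  [Module R Q] (x : Fin n → R)

theorem repbd_kmap_kgr {α β : Type} [Fintype α] (A : Matrix β α ℤ) (i : ℤ)
    (v : Finset (Fin n) → α → Q) (hv : v ∈ kgr R (α → Q) n i) :
    kmap n (za A R Q) v ∈ kgr R (β → Q) n i := by
  intro J hJ
  refine hv J fun h => hJ ?_
  show za A R Q (v J) = 0
  rw [h, map_zero]

theorem repbd_kz_kgr {V : Type u} [AddCommGroup V] [Module R V] (T : Fin n → V →ₗ[R] V) (i : ℤ)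
    (v : Finset (Fin n) → V) (hv : v ∈ kgr R V n (i + 1)) : kz T v ∈ kgr R V n i := by
  intro J hJ
  by_contra hJi
  apply hJ
  show ∑ l ∈ Jᶜ, ksg l J • T l (v (insert l J)) = 0
  refine Finset.sum_eq_zero fun l hl => ?_
  have h0 : v (insert l J) = 0 := by
    by_contra h
    have h1 := hv _ h
    rw [Finset.card_insert_of_notMem (Finset.mem_compl.mp hl)] at h1
    push_cast at h1
    apply hJi
    linarith
  rw [h0, map_zero, smul_zero]

/-- the main step: chains modulo boundaries of a map of representations with saturated image. -/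
theorem repbd_main (hCL : CLnull L n q Q x) (W' W : MRep n) (hW : W.IsNil q)
    (D : Matrix W.ι W'.ι ℤ) (hD : ∀ l, D * W'.X l = W.X l * D) (S : Matrix W'.ι W.ι ℤ)
    (hS : D * S * D = D) (i : ℤ) (X : Submodule R (Finset (Fin n) → W'.ι → Q))
    (hX1 : ∀ v ∈ kgr R (W'.ι → Q) n (i + 1), kz (W'.T Q x) v ∈ X)
    (hX2 : ∀ v ∈ kgr R (W'.ι → Q) n i, kmap n (za (1 - S * D) R Q) v ∈ X) :
    L.rl X (kgr R (W'.ι → Q) n i ⊓ (kbd (W.T Q x) i).comap (kmap n (za D R Q))) = 0 := by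
  have he : (1 - D * S) * (1 - D * S) = 1 - D * S := by
    have h1 : D * S * (D * S) = D * S := by
      rw [← Matrix.mul_assoc, hS]
    rw [Matrix.sub_mul, Matrix.mul_sub, Matrix.mul_sub, h1]
    simp
  obtain ⟨k, E, ρ, hEρ, hρE⟩ := repcyc_idem _ he
  have hρD : ρ * D = 0 := by
    have h1 : ρ * D = ρ * (E * ρ) * D := by
      rw [← Matrix.mul_assoc, hρE, Matrix.one_mul]
    rw [h1, hEρ, Matrix.mul_assoc, Matrix.sub_mul, Matrix.one_mul, hS, sub_self, Matrix.mul_zero]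
  let U : MRep n := { ι := Fin k, X := fun l => ρ * (W.X l * E) }
  have hXρ : ∀ l, ρ * W.X l = U.X l * ρ := by
    intro l
    show ρ * W.X l = ρ * (W.X l * E) * ρ
    rw [Matrix.mul_assoc, Matrix.mul_assoc, hEρ, Matrix.mul_sub, Matrix.mul_one, Matrix.mul_sub,
      ← Matrix.mul_assoc (W.X l), ← hD, Matrix.mul_assoc, ← Matrix.mul_assoc ρ D, hρD,
      Matrix.zero_mul, sub_zero]
  have hprod : ∀ s : List (Fin n), ρ * (s.map W.X).prod = (s.map U.X).prod * ρ := by
    intro s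
    induction s with
    | nil => simp [U]
    | cons l s ih =>
      rw [List.map_cons, List.prod_cons, List.map_cons, List.prod_cons]
      calc ρ * (W.X l * (s.map W.X).prod) = ρ * W.X l * (s.map W.X).prod :=
            (Matrix.mul_assoc _ _ _).symm
        _ = U.X l * ρ * (s.map W.X).prod := by rw [hXρ]
        _ = U.X l * (ρ * (s.map W.X).prod) := Matrix.mul_assoc _ _ _
        _ = U.X l * ((s.map U.X).prod * ρ) := by rw [ih]
        _ = _ := (Matrix.mul_assoc _ _ _).symm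
  have hinj : ∀ {κ : Type} (A B : Matrix κ (Fin k) ℤ), A * ρ = B * ρ → A = B := by
    intro κ A B h
    have := congrArg (fun Z => Z * E) h
    simpa only [Matrix.mul_assoc, hρE, Matrix.mul_one] using this
  have hU : U.IsNil q := by
    constructor
    · intro a b
      apply hinj
      have h2 : ∀ a b, U.X a * U.X b * ρ = ρ * (W.X a * W.X b) := fun a b => by
        calc U.X a * U.X b * ρ = U.X a * (U.X b * ρ) := Matrix.mul_assoc _ _ _
          _ = U.X a * (ρ * W.X b) := by rw [hXρ]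
          _ = U.X a * ρ * W.X b := (Matrix.mul_assoc _ _ _).symm
          _ = ρ * W.X a * W.X b := by rw [hXρ]
          _ = _ := Matrix.mul_assoc _ _ _
      rw [h2, h2, hW.comm]
    · intro f
      have h1 := hprod (List.ofFn f)
      have h2 := hW.nil f
      rw [List.map_ofFn, List.map_ofFn] at h1
      have h3 : (List.ofFn (W.X ∘ f)).prod = 0 := h2
      rw [h3, Matrix.mul_zero] at h1
      apply hinj
      show (List.ofFn (U.X ∘ f)).prod * ρ = (0 : Matrix (Fin k) (Fin k) ℤ) * ρ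
      rw [← h1, Matrix.zero_mul]
  let F : W.Surj U :=
    { P := ρ
      σ := E
      split := hρE
      comm := hXρ }
  have key : L.rl ((kcyc (W.T Q x) (i + 1)).map (kmap n (za ρ R Q))) (kcyc (U.T Q x) (i + 1)) = 0 :=
    hCL W U hW hU F (i + 1)
  -- the Koszul differentials
  have hρk : ∀ v, kmap n (za ρ R Q) (kz (W.T Q x) v) =
      kz (U.T Q x) (kmap n (za ρ R Q) v) := fun v =>
    repcyc_kz_kmap _ _ _ (fun l w => repcyc_za_T Q x (W := W) (W' := U) ρ l (hXρ l) w) v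
  have hDk : ∀ v, kmap n (za D R Q) (kz (W'.T Q x) v) =
      kz (W.T Q x) (kmap n (za D R Q) v) := fun v =>
    repcyc_kz_kmap _ _ _ (fun l w => repcyc_za_T Q x (W := W') (W' := W) D l (hD l) w) v
  have hsplit : ∀ v : Finset (Fin n) → W.ι → Q,
      v = kmap n (za D R Q) (kmap n (za S R Q) v) +
        kmap n (za E R Q) (kmap n (za ρ R Q) v) := by
    intro v
    refine funext fun J => ?_
    show v J = za D R Q (za S R Q (v J)) + za E R Q (za ρ R Q (v J))
    rw [← repcyc_za_mul, ← repcyc_za_mul, hEρ, repcyc_za_sub, repcyc_za_one, add_sub_cancel]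
  have hρE' : ∀ v : Finset (Fin n) → Fin k → Q,
      kmap n (za ρ R Q) (kmap n (za E R Q) v) = v := by
    intro v
    refine funext fun J => ?_
    show za ρ R Q (za E R Q (v J)) = v J
    rw [← repcyc_za_mul, hρE, repcyc_za_one]
  have hSD : ∀ v : Finset (Fin n) → W'.ι → Q,
      kmap n (za S R Q) (kmap n (za D R Q) v) = v - kmap n (za (1 - S * D) R Q) v := by
    intro v
    refine funext fun J => ?_
    show za S R Q (za D R Q (v J)) = v J - za (1 - S * D) R Q (v J)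
    rw [← repcyc_za_mul, repcyc_za_sub, repcyc_za_one, sub_sub_cancel]
  let g : (Finset (Fin n) → Fin k → Q) →ₗ[R] (Finset (Fin n) → W'.ι → Q) :=
    kmap n (za S R Q) ∘ₗ kz (W.T Q x) ∘ₗ kmap n (za E R Q)
  have hg : ∀ v, g v = kmap n (za S R Q) (kz (W.T Q x) (kmap n (za E R Q) v)) := fun v => rfl
  -- g modulo X
  have hgX : ∀ t ∈ kgr R (W.ι → Q) n (i + 1), ∀ y ∈ kgr R (W'.ι → Q) n i,
      kmap n (za D R Q) y = kz (W.T Q x) t → y - g (kmap n (za ρ R Q) t) ∈ X := by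
    intro t ht y hy hty
    have h1 : kmap n (za E R Q) (kmap n (za ρ R Q) t) =
        t - kmap n (za D R Q) (kmap n (za S R Q) t) := by
      rw [eq_sub_iff_add_eq, add_comm]
      exact (hsplit t).symm
    have hSt := repbd_kmap_kgr Q S (i + 1) t ht
    have h2 : g (kmap n (za ρ R Q) t) =
        (y - kz (W'.T Q x) (kmap n (za S R Q) t)) -
          kmap n (za (1 - S * D) R Q) (y - kz (W'.T Q x) (kmap n (za S R Q) t)) := by
      rw [hg, h1, map_sub (kz (W.T Q x)), ← hDk, ← hty, ← map_sub (kmap n (za D R Q)), hSD]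
    have h3 : y - kz (W'.T Q x) (kmap n (za S R Q) t) ∈ kgr R (W'.ι → Q) n i :=
      Submodule.sub_mem _ hy (repbd_kz_kgr _ i _ hSt)
    have h4 : y - g (kmap n (za ρ R Q) t) = kz (W'.T Q x) (kmap n (za S R Q) t) +
        kmap n (za (1 - S * D) R Q) (y - kz (W'.T Q x) (kmap n (za S R Q) t)) := by
      rw [h2]
      abel
    rw [h4]
    exact Submodule.add_mem _ (hX1 _ hSt) (hX2 _ h3)
  refine le_antisymm ((repbd_rl_le L g _ _ _ _ ?_ ?_ ?_).trans key.le) zero_le
  · rintro _ ⟨c, ⟨hc1, hc2⟩, rfl⟩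
    have hc2' : kz (W.T Q x) c = 0 := hc2
    have := hgX c hc1 0 (Submodule.zero_mem _) (by rw [map_zero, hc2'])
    rw [zero_sub] at this
    exact (Submodule.neg_mem_iff _).mp this
  · rintro v ⟨hv1, hv2⟩
    have hv2' : kz (U.T Q x) v = 0 := hv2
    have hEv := repbd_kmap_kgr Q E (i + 1) v hv1
    refine ⟨repbd_kmap_kgr Q S i _ (repbd_kz_kgr _ i _ hEv), ?_⟩
    refine ⟨kmap n (za E R Q) v, hEv, ?_⟩
    have h1 := hsplit (kz (W.T Q x) (kmap n (za E R Q) v))
    rw [hρk, hρE', hv2', map_zero, add_zero] at h1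
    exact h1
  · rintro y ⟨hy1, ⟨t, ht, hty⟩⟩
    refine ⟨kmap n (za ρ R Q) t, ⟨repbd_kmap_kgr Q ρ (i + 1) t ht, ?_⟩, hgX t ht y hy1 hty.symm⟩
    show kz (U.T Q x) (kmap n (za ρ R Q) t) = 0
    rw [← hρk, hty]
    refine funext fun J => ?_
    show za ρ R Q (za D R Q (y J)) = 0
    rw [← repcyc_za_mul, hρD, repcyc_za_zero]

/-- reduction modulo `m` and exactness. -/
theorem repbd_cast {α β : Type} [Fintype α] (A : Matrix β α ℤ) (m : ℕ) (w : α → ℤ)
    (h : ∀ b, (m : ℤ) ∣ za A ℤ ℤ w b) :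
    za A ℤ (ZMod m) (fun a => ((w a : ℤ) : ZMod m)) = 0 := by
  refine funext fun b => ?_
  have h1 := (ZMod.intCast_zmod_eq_zero_iff_dvd (za A ℤ ℤ w b) m).mpr (h b)
  rw [Pi.zero_apply, ← h1]
  show ∑ a, A b a • ((w a : ℤ) : ZMod m) = ((∑ a, A b a • w a : ℤ) : ZMod m)
  rw [Int.cast_sum]
  refine Finset.sum_congr rfl fun a _ => ?_
  rw [zsmul_eq_mul, smul_eq_mul, Int.cast_mul]

theorem repbd_lift {α : Type} (m : ℕ) (w : α → ℤ)
    (h : (fun a => ((w a : ℤ) : ZMod m)) = 0) : ∃ w' : α → ℤ, w = (m : ℤ) • w' := by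
  have h1 : ∀ a, ∃ c, w a = (m : ℤ) * c := fun a =>
    (ZMod.intCast_zmod_eq_zero_iff_dvd (w a) m).mp (congrFun h a)
  choose w' hw' using h1
  exact ⟨w', funext fun a => by rw [Pi.smul_apply, smul_eq_mul]; exact hw' a⟩

/-- the chains modulo the boundaries. -/
theorem bd_null_zero (hCL : CLnull L n q Q x) (C : MCx n) (hC : C.IsCx q) (top : ℕ)
    (htop : ∀ p, top ≤ p → IsEmpty (C.W p).ι) (p₀ : ℕ) (hex : ∀ p, p ≠ p₀ → C.ExAt p)
    (hp : p₀ ≠ 0) (i : ℤ) :
    L.rl (kbd ((C.W 0).T Q x) i)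
      (kgr R ((C.W 0).ι → Q) n i ⊓
        (kbd ((C.W 1).T Q x) i).comap (kmap n (za (C.D 0) R Q))) = 0 := by
  have hex0 : ∀ (M : Type) [AddCommGroup M] (f : (C.W 0).ι → M), za (C.D 0) ℤ M f = 0 → f = 0 :=
    hex 0 (Ne.symm hp)
  obtain ⟨S, hS⟩ := repbd_ginv_mat (C.D 0) (by
    intro m w hw
    obtain ⟨w', hw'⟩ := repbd_lift m w (hex0 (ZMod m) _ (repbd_cast (C.D 0) m w hw))
    refine ⟨w', ?_⟩
    rw [← hw', sub_self, map_zero])
  have hSD : S * C.D 0 = 1 := by
    have h1 : ∀ A B : Matrix (C.W 0).ι (C.W 0).ι ℤ, C.D 0 * A = C.D 0 * B → A = B := by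
      intro A B h
      ext a b
      have h2 := hex0 ℤ (fun a => A a b - B a b) (by
        refine funext fun c => ?_
        have h3 : (C.D 0 * A) c b = (C.D 0 * B) c b := by rw [h]
        show ∑ a, C.D 0 c a • (A a b - B a b) = 0
        simp only [Matrix.mul_apply] at h3
        simp only [smul_eq_mul, mul_sub, Finset.sum_sub_distrib]
        rw [h3, sub_self])
      exact sub_eq_zero.mp (congrFun h2 a)
    apply h1
    rw [← Matrix.mul_assoc, hS, Matrix.mul_one]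
  refine repbd_main L Q x hCL (C.W 0) (C.W 1) (hC.nil 1) (C.D 0) (hC.comm 0) S hS i _ ?_ ?_
  · intro v hv
    exact ⟨v, hv, rfl⟩
  · intro v _
    have h1 : kmap n (za (1 - S * C.D 0) R Q) v = 0 := by
      refine funext fun J => ?_
      show za (1 - S * C.D 0) R Q (v J) = 0
      rw [hSD, sub_self, repcyc_za_zero]
    rw [h1]
    exact Submodule.zero_mem _

theorem bd_null_succ (hCL : CLnull L n q Q x) (C : MCx n) (hC : C.IsCx q) (top : ℕ)
    (htop : ∀ p, top ≤ p → IsEmpty (C.W p).ι) (p₀ : ℕ) (hex : ∀ p, p ≠ p₀ → C.ExAt p) (p : ℕ)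
    (hp : p₀ ≠ p + 1) (i : ℤ) :
    L.rl ((kgr R ((C.W p).ι → Q) n i).map (kmap n (za (C.D p) R Q)) ⊔
        kbd ((C.W (p + 1)).T Q x) i)
      (kgr R ((C.W (p + 1)).ι → Q) n i ⊓
        (kbd ((C.W (p + 2)).T Q x) i).comap (kmap n (za (C.D (p + 1)) R Q))) = 0 := by
  have hex1 : ∀ (M : Type) [AddCommGroup M] (f : (C.W (p + 1)).ι → M),
      za (C.D (p + 1)) ℤ M f = 0 → ∃ g, za (C.D p) ℤ M g = f := hex (p + 1) (Ne.symm hp)
  obtain ⟨S, hS⟩ := repbd_ginv_mat (C.D (p + 1)) (by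
    intro m w hw
    obtain ⟨g, hg⟩ := hex1 (ZMod m) _ (repbd_cast (C.D (p + 1)) m w hw)
    have h1 : ∀ a, ∃ c : ℤ, ((c : ℤ) : ZMod m) = g a := fun a => ZMod.intCast_surjective (g a)
    choose g' hg' using h1
    have h2 : (fun a => (((w - za (C.D p) ℤ ℤ g') a : ℤ) : ZMod m)) = 0 := by
      refine funext fun a => ?_
      show ((w a - ∑ b, C.D p a b • g' b : ℤ) : ZMod m) = 0
      rw [Int.cast_sub, sub_eq_zero, Int.cast_sum, ← congrFun hg a]
      show ∑ b, C.D p a b • g b = _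
      refine Finset.sum_congr rfl fun b _ => ?_
      rw [zsmul_eq_mul, smul_eq_mul, Int.cast_mul, hg']
    obtain ⟨w', hw'⟩ := repbd_lift m _ h2
    refine ⟨w', ?_⟩
    rw [← hw', sub_sub_cancel, ← repcyc_za_mul, hC.dd, repcyc_za_zero])
  obtain ⟨G, hG⟩ : ∃ G : Matrix (C.W p).ι (C.W (p + 1)).ι ℤ,
      C.D p * G = 1 - S * C.D (p + 1) := by
    have h : ∀ b : (C.W (p + 1)).ι, ∃ v, za (C.D p) ℤ ℤ v =
        fun a => (1 - S * C.D (p + 1) : Matrix (C.W (p + 1)).ι (C.W (p + 1)).ι ℤ) a b := by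
      intro b
      refine hex1 ℤ _ (funext fun c => ?_)
      have h1 : C.D (p + 1) * (1 - S * C.D (p + 1)) = 0 := by
        rw [Matrix.mul_sub, Matrix.mul_one, ← Matrix.mul_assoc, hS, sub_self]
      exact congrFun (congrFun h1 c) b
    choose v hv using h
    refine ⟨Matrix.of fun a b => v b a, ?_⟩
    ext a b
    exact congrFun (hv b) a
  refine repbd_main L Q x hCL (C.W (p + 1)) (C.W (p + 2)) (hC.nil (p + 2)) (C.D (p + 1))
    (hC.comm (p + 1)) S hS i _ ?_ ?_
  · intro v hv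
    exact Submodule.mem_sup_right ⟨v, hv, rfl⟩
  · intro v hv
    refine Submodule.mem_sup_left ⟨kmap n (za G R Q) v, repbd_kmap_kgr Q G i v hv, ?_⟩
    refine funext fun J => ?_
    show za (C.D p) R Q (za G R Q (v J)) = za (1 - S * C.D (p + 1)) R Q (v J)
    rw [← repcyc_za_mul, hG]

end Rep

end Vale.Agent.P202.Mix
end

section

/-!
P202-MIX, part GEO, D1: position of the cohomology of the windows.
-/

namespace Vale.Agent.P202.Mix

variable {r : ℕ}

/-- the indices different from `m`, through `succAbove`. -/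
theorem winpos_filter (m : Fin (r + 1)) (k : ℤ) :
    (Finset.univ.filter fun i : Fin (r + 1) => i ≠ m ∧ (i : ℤ) + k < 0) =
      (Finset.univ.filter fun l : Fin r => ((m.succAbove l : Fin (r + 1)) : ℤ) + k < 0).map
        m.succAboveEmb := by
  ext i
  simp only [Finset.mem_filter, Finset.mem_univ, true_and, Finset.mem_map, Fin.coe_succAboveEmb]
  constructor
  · rintro ⟨h1, h2⟩
    obtain ⟨l, rfl⟩ := Fin.exists_succAbove_eq h1
    exact ⟨l, h2, rfl⟩
  · rintro ⟨l, h, rfl⟩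
    exact ⟨Fin.succAbove_ne m l, h⟩

/-- number of negative factors in the window `k` (twist `m`). -/
theorem pj_tw (q : ℕ) (hq : 1 ≤ q) (m : Fin (r + 1)) (k j : ℤ) (h1 : k * q ≤ j)
    (h2 : j < (k + 1) * q) :
    (∃ l, tw r q m l + j = -1) ∨
      pj (tw r q m) j = (Finset.univ.filter fun i : Fin (r + 1) => i ≠ m ∧ (i : ℤ) + k < 0).card := by
  by_cases hex : ∃ l, tw r q m l + j = -1
  · exact Or.inl hex
  · right
    push Not at hex
    rw [winpos_filter, Finset.card_map, pj]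
    congr 1
    refine Finset.filter_congr fun l _ => ?_
    have hq' : (1 : ℤ) ≤ q := by exact_mod_cast hq
    have hne := hex l
    unfold tw at hne ⊢
    by_cases hl : (l : ℕ) < m
    · have hs : m.succAbove l = l.castSucc := Fin.succAbove_of_castSucc_lt _ _ (by
        rw [Fin.lt_def]
        exact hl)
      rw [if_pos hl, hs, Fin.val_castSucc]
      constructor
      · intro h
        by_contra hc
        push Not at hc
        have : 0 ≤ ((l : ℕ) + k : ℤ) * q := mul_nonneg hc (by omega)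
        nlinarith
      · intro h
        have : ((l : ℕ) + k + 1 : ℤ) * q ≤ 0 := mul_nonpos_of_nonpos_of_nonneg (by omega) (by omega)
        nlinarith
    · have hs : m.succAbove l = l.succ := Fin.succAbove_of_le_castSucc _ _ (by
        rw [Fin.le_def]
        exact not_lt.mp hl)
      rw [if_neg hl] at hne ⊢
      rw [hs, Fin.val_succ]
      push_cast
      constructor
      · intro h
        by_contra hc
        push Not at hc
        have h3 : 0 ≤ ((l : ℕ) + 1 + k : ℤ) * q := mul_nonneg hc (by omega)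
        have h4 : -1 ≤ ((l : ℕ) + 1 : ℤ) * q - 1 + j := by nlinarith
        omega
      · intro h
        have h3 : ((l : ℕ) + 1 + k + 1 : ℤ) * q ≤ 0 :=
          mul_nonpos_of_nonpos_of_nonneg (by omega) (by omega)
        nlinarith

theorem pk_upper (m : Fin (r + 1)) (k : ℤ) (i : ℕ) (h : 1 - (i : ℤ) ≤ k) :
    (Finset.univ.filter fun i : Fin (r + 1) => i ≠ m ∧ (i : ℤ) + k < 0).card ≤ i := by
  have h1 : (Finset.univ.filter fun i : Fin (r + 1) => i ≠ m ∧ (i : ℤ) + k < 0).card ≤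
      (Finset.range i).card := by
    refine Finset.card_le_card_of_injOn (fun l : Fin (r + 1) => (l : ℕ)) (fun l hl => ?_)
      (fun a _ b _ hab => Fin.ext hab)
    have hl' := (Finset.mem_filter.mp (Finset.mem_coe.mp hl)).2.2
    simp only [Finset.coe_range, Set.mem_Iio]
    omega
  rwa [Finset.card_range] at h1

theorem pk_lower (m : Fin (r + 1)) (k : ℤ) (i : ℕ) (h : k ≤ -(i : ℤ)) (hi : i ≤ r + 1) :
    i ≤ (Finset.univ.filter fun i : Fin (r + 1) => i ≠ m ∧ (i : ℤ) + k < 0).card + 1 := by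
  have h1 : (Finset.univ.filter fun l : Fin (r + 1) => (l : ℕ) < i).card = i := by
    rw [Fin.card_filter_val_lt]
    exact min_eq_right hi
  have h2 : ((Finset.univ.filter fun l : Fin (r + 1) => (l : ℕ) < i).erase m) ⊆
      (Finset.univ.filter fun i : Fin (r + 1) => i ≠ m ∧ (i : ℤ) + k < 0) := by
    intro l hl
    rw [Finset.mem_erase, Finset.mem_filter] at hl
    rw [Finset.mem_filter]
    refine ⟨Finset.mem_univ _, hl.1, ?_⟩
    have := hl.2.2
    omega
  have h3 := Finset.card_le_card h2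
  have h4 := Finset.pred_card_le_card_erase
    (s := Finset.univ.filter fun l : Fin (r + 1) => (l : ℕ) < i) (a := m)
  omega

end Vale.Agent.P202.Mix
end

section

/-!
P202-MIX, part GEO, tasks D2, D3: the homology of `Z / Y_w` outside degree zero is null.
-/

namespace Vale.Agent.P202.Mix

open Vale.Agent.P202.CharP
open scoped ENNReal

universe u

section Aux

variable {R : Type u} [CommRing R] (L : AddLen R)

theorem homz_hc_of_ex {M : Type u} [AddCommGroup M] [Module R M] (d : M →ₗ[R] M)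
    (Y X : ℤ → Submodule R M) (p : ℤ) (h : Ex d Y X p) : L.hc d Y X p = 0 :=
  rl_eq_zero_of_le L h

/-- the window containing `j`. -/
theorem homz_win (q : ℕ) (hq : 1 ≤ q) (j : ℤ) :
    (j / q) * q ≤ j ∧ j < (j / q + 1) * q := by
  have hq' : (0 : ℤ) < q := by exact_mod_cast hq
  have h1 := Int.emod_nonneg j hq'.ne'
  have h2 := Int.emod_lt_of_pos j hq'
  have h3 := Int.emod_add_mul_ediv j q
  constructor <;> nlinarith

end Aux

section Win

variable {R : Type u} [CommRing R] (L : AddLen R) {r : ℕ} (Q : Type u) [AddCommGroup Q]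
  [Module R Q] (x : Fin (r + 1) → R) (a : Fin r → ℤ) (B : ℤ)

/-- the windows `k` have cohomology in one degree only. -/
theorem homz_winCx_ex (q : ℕ) (hq : 1 ≤ q) (m : Fin (r + 1)) (k j₀ j₁ : ℤ) (hj₀ : j₀ = k * q)
    (hj₁ : j₁ = (k + 1) * q) (p : ℕ)
    (hp : p ≠ (Finset.univ.filter fun i : Fin (r + 1) => i ≠ m ∧ (i : ℤ) + k < 0).card) :
    (winCx (tw r q m) B j₀ j₁).ExAt p := by
  subst hj₀ hj₁
  refine winCx_ex _ _ _ _ _ fun j h1 h2 => ?_
  rcases pj_tw q hq m k j h1 h2 with h | h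
  · exact Or.inl h
  · right
    rw [h]
    exact fun h' => hp h'.symm

theorem homz_winCx_isCx (q : ℕ) (j₀ j₁ : ℤ) (h : j₁ = j₀ + q) :
    (winCx a B j₀ j₁).IsCx q := by
  subst h
  exact winCx_isCx a B j₀ q

variable (q : ℕ) (hq : 1 ≤ q) (m : Fin (r + 1)) (hCL : CLnull L (r + 1) q Q x) (N : ℕ)
  (hN : xpw Q x N = ⊥) (w : ℤ) (hw : 2 * (q : ℤ) + r + 1 + N ≤ w)
  (hB : ((r : ℤ) + 1) * q + 2 * r + 2 + N ≤ B) (hB' : ∀ l, tw r q m l ≤ B)

include hq hCL hN hw hB hB'

/-- D2. -/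
theorem ZF_YF_neg (δ : ℤ) (hδ : δ < 0) :
    L.hh (totD (dK R Q r) (eK Q x)) (TT (ZF Q x (tw r q m) B q))
      (TT (YF Q x (tw r q m) B w)) δ = 0 := by
  have hq' : (1 : ℤ) ≤ q := by exact_mod_cast hq
  refine row_null L (r + 1) (dK R Q r) (eK Q x) (dK_sq) (eK_sq x) (dK_eK x) _ _
    (bstab_YF _ B x w) (bstab_ZF _ B x q) (YF_le_ZF _ B x q N hN w hw) ?_ δ ?_
  · intro i p hi
    refine le_bot_iff.1 (inf_le_left.trans ?_)
    exact (CF_box _ _ _ i p hi).le
  intro i hi0 hi1'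
  have hi1 : (i : ℤ) ≤ r + 1 := by exact_mod_cast hi1'
  -- `Y_w ≤ K_{≥ (2-i)q} ≤ Z`
  have hYK : ∀ p, YF Q x (tw r q m) B w (i : ℤ) p ≤
      KG R Q (tw r q m) B ((2 - (i : ℤ)) * q) (i : ℤ) p := by
    intro p
    refine CF_mono _ B _ _ _ p fun g => ?_
    split_ifs with h
    · exact le_top
    · have h1 : ((2 : ℤ) - i) * q ≤ 2 * q := by nlinarith
      have h2 : (N : ℤ) ≤ w - i - g.2 := by omega
      refine le_trans (Submodule.smul_mono_left (Ideal.pow_le_pow_right ?_)) hN.le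
      omega
  have hKZ : ∀ p, KG R Q (tw r q m) B ((2 - (i : ℤ)) * q) (i : ℤ) p ≤
      ZF Q x (tw r q m) B q (i : ℤ) p := wz_KG_le_ZF (tw r q m) B x q (i : ℤ)
  refine le_antisymm ((hc_le_add L (dK R Q r) dK_sq _
    (KG R Q (tw r q m) B ((2 - (i : ℤ)) * q) (i : ℤ)) _
    (fun p v hv => (bstab_YF _ B x w).hd _ _ _ hv) (fun p v hv => (bstab_KG _ B x _).hd _ _ _ hv)
    (fun p v hv => (bstab_ZF _ B x q).hd _ _ _ hv) hYK hKZ _).trans ?_) zero_le
  obtain ⟨p, hp⟩ : ∃ p : ℕ, (i : ℤ) - δ = p + 1 :=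
    ⟨((i : ℤ) - δ - 1).toNat, by omega⟩
  rw [hp]
  have e1 : L.hc (dK R Q r) (ZF Q x (tw r q m) B q (i : ℤ))
      (KG R Q (tw r q m) B ((2 - (i : ℤ)) * q) (i : ℤ)) ((p : ℤ) + 1) = 0 := by
    rw [hc_ZF_KG]
    refine cyc_null L Q x hCL _ (homz_winCx_isCx _ _ _ _ _ (by ring)) (r + 1)
      (fun p hp => winCx_top _ _ _ _ _ hp)
      (Finset.univ.filter fun i' : Fin (r + 1) => i' ≠ m ∧ (i' : ℤ) + (1 - i) < 0).card
      (fun p hp => homz_winCx_ex B q hq m (1 - i) _ _ rfl (by ring) p hp) p ?_ _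
    have := pk_upper m (1 - i) i le_rfl
    omega
  have e2 : L.hc (dK R Q r) (KG R Q (tw r q m) B ((2 - (i : ℤ)) * q) (i : ℤ))
      (YF Q x (tw r q m) B w (i : ℤ)) ((p : ℤ) + 1) = 0 := by
    refine homz_hc_of_ex L _ _ _ _ ?_
    refine row_exact _ B _ _ _ _ ?_ ?_
    · intro g
      split_ifs with h
      · exact le_top
      · have h1 : ((2 : ℤ) - i) * q ≤ 2 * q := by nlinarith
        have h2 : (N : ℤ) ≤ w - i - g.2 := by omega
        refine le_trans (Submodule.smul_mono_left (Ideal.pow_le_pow_right ?_)) hN.le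
        omega
    · intro g
      by_cases h : (2 - (i : ℤ)) * q ≤ g.2
      · right
        obtain ⟨h1, h2⟩ := homz_win q hq g.2
        rcases pj_tw q hq m _ _ h1 h2 with h3 | h3
        · exact Or.inl h3
        · right
          rw [h3]
          have h4 : 1 - (i : ℤ) ≤ g.2 / q := by
            by_contra h5
            have : g.2 / q + 1 ≤ 1 - i := by omega
            nlinarith
          have h5 := pk_upper m _ i h4
          omega
      · left
        rw [if_neg h]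
        have h1 : ((2 : ℤ) - i) * q ≤ 2 * q := by nlinarith
        have h2 : (N : ℤ) ≤ w - i - g.2 := by omega
        refine le_bot_iff.1 (le_trans (Submodule.smul_mono_left (Ideal.pow_le_pow_right ?_)) hN.le)
        omega
  rw [e1, e2, add_zero]

/-- D3a: the columns of `Z'' / Z` are exact. -/
theorem ZZF_ZF (δ : ℤ) :
    L.hh (totD (dK R Q r) (eK Q x)) (TT (ZZF Q x (tw r q m) B q))
      (TT (ZF Q x (tw r q m) B q)) δ = 0 := by
  refine col_null L (r + 1) (dK R Q r) (eK Q x) (dK_sq) (eK_sq x) (dK_eK x) _ _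
    (bstab_ZF _ B x q) (bstab_ZZF _ B x q) (ZF_le_ZZF _ B x q) ?_ δ ?_
  · intro i p hi
    refine le_bot_iff.1 ((wzz_ZZF_le _ B x q i p).trans ?_)
    exact (CF_box _ _ _ i p hi).le
  intro i hi0 hi1
  refine rl_eq_zero_of_le L ?_
  rintro z ⟨hz1, hz2⟩
  obtain ⟨_, ⟨y, hy, rfl⟩, k, hk, rfl⟩ := Submodule.mem_sup.1 hz1
  have hz2' : eK Q x (eK Q x y + k) ∈ ZF Q x (tw r q m) B q (i - 1) (i - δ) := hz2
  rw [map_add, eK_sq, zero_add] at hz2'
  refine Submodule.add_mem_sup ⟨y, ?_, rfl⟩ ?_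
  · change y ∈ ZZF Q x (tw r q m) B q (i + 1) (i - δ)
    refine Submodule.mem_sup_right ?_
    have : (1 - (i + 1)) * (q : ℤ) = -i * q := by ring
    rw [this]
    exact hy
  · change k ∈ ZF Q x (tw r q m) B q i (i - δ)
    refine ⟨hk, ?_⟩
    have h1 := hz2'.1
    have : (1 - (i - 1)) * (q : ℤ) = (2 - i) * q := by ring
    rw [this] at h1
    exact h1

/-- D3b. -/
theorem YF_ZZF (δ : ℤ) (hδ : 2 ≤ δ) :
    L.hh (totD (dK R Q r) (eK Q x)) (TT (YF Q x (tw r q m) B (-((r : ℤ) + 1) * q)))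
      (TT (ZZF Q x (tw r q m) B q)) δ = 0 := by
  have hq' : (1 : ℤ) ≤ q := by exact_mod_cast hq
  refine row_null L (r + 1) (dK R Q r) (eK Q x) (dK_sq) (eK_sq x) (dK_eK x) _ _
    (bstab_ZZF _ B x q) (bstab_YF _ B x _) (ZZF_le_YF _ B x q hq) (CF_box _ _ _) δ ?_
  intro i hi0 hi1'
  have hi1 : (i : ℤ) ≤ r + 1 := by exact_mod_cast hi1'
  have hle : ∀ g : Gz r, (if -(i : ℤ) * q ≤ g.2 then (⊤ : Submodule R Q) else ⊥) ≤
      xpw Q x (-((r : ℤ) + 1) * q - i - g.2) := by
    intro g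
    split_ifs with h
    · have h1 : -((r : ℤ) + 1) * q - i - g.2 ≤ 0 := by
        nlinarith
      unfold xpw
      rw [Int.toNat_of_nonpos h1, pow_zero, Ideal.one_eq_top, Submodule.top_smul]
    · exact bot_le
  refine le_antisymm ((hc_le_add L (dK R Q r) dK_sq _
    (KG R Q (tw r q m) B (-(i : ℤ) * q) (i : ℤ)) _
    (fun p v hv => (bstab_ZZF _ B x q).hd _ _ _ hv) (fun p v hv => (bstab_KG _ B x _).hd _ _ _ hv)
    (fun p v hv => (bstab_YF _ B x _).hd _ _ _ hv) (wzz_ZZF_le _ B x q (i : ℤ))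
    (fun p => CF_mono _ B _ _ _ p fun g => hle g) _).trans ?_) zero_le
  have e2 : L.hc (dK R Q r) (YF Q x (tw r q m) B (-((r : ℤ) + 1) * q) (i : ℤ))
      (KG R Q (tw r q m) B (-(i : ℤ) * q) (i : ℤ)) ((i : ℤ) - δ) = 0 := by
    refine homz_hc_of_ex L _ _ _ _ ?_
    refine row_exact _ B _ _ _ _ (fun g => hle g) ?_
    intro g
    by_cases h : -(i : ℤ) * q ≤ g.2
    · left
      refine le_antisymm (hle g) ?_
      rw [if_pos h]
      exact le_top
    · right
      obtain ⟨h1, h2⟩ := homz_win q hq g.2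
      rcases pj_tw q hq m _ _ h1 h2 with h3 | h3
      · exact Or.inl h3
      · right
        rw [h3]
        have h4 : g.2 / q ≤ -(i : ℤ) := by
          by_contra h5
          have : -(i : ℤ) + 1 ≤ g.2 / q := by omega
          nlinarith
        have h5 := pk_lower m _ i h4 hi1'
        omega
  have hlow := pk_lower m (-(i : ℤ)) i le_rfl hi1'
  have e1 : L.hc (dK R Q r) (KG R Q (tw r q m) B (-(i : ℤ) * q) (i : ℤ))
      (ZZF Q x (tw r q m) B q (i : ℤ)) ((i : ℤ) - δ) = 0 := by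
    rcases lt_or_ge ((i : ℤ) - δ) 0 with hneg | hnn
    · refine rl_eq_zero_of_le L (inf_le_left.trans ?_)
      rw [show KG R Q (tw r q m) B (-(i : ℤ) * q) (i : ℤ) ((i : ℤ) - δ) = ⊥ from
        CF_out _ _ _ _ _ (Or.inl hneg)]
      exact bot_le
    · have hex : ∀ p : ℕ, p ≠ (Finset.univ.filter fun i' : Fin (r + 1) =>
          i' ≠ m ∧ (i' : ℤ) + (-(i : ℤ)) < 0).card →
          (winCx (tw r q m) B (-(i : ℤ) * q) ((1 - (i : ℤ)) * q)).ExAt p :=
        fun p hp => homz_winCx_ex B q hq m (-(i : ℤ)) _ _ rfl (by ring) p hp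
      rcases hnn.eq_or_lt with h0 | hpos
      · rw [← h0, hc_KG_ZZF_zero]
        refine bd_null_zero L Q x hCL _ (homz_winCx_isCx _ _ _ _ _ (by ring)) (r + 1)
          (fun p hp => winCx_top _ _ _ _ _ hp) _ hex ?_ _
        omega
      · obtain ⟨p, hp⟩ : ∃ p : ℕ, (i : ℤ) - δ = p + 1 :=
          ⟨((i : ℤ) - δ - 1).toNat, by omega⟩
        rw [hp, hc_KG_ZZF_succ]
        refine bd_null_succ L Q x hCL _ (homz_winCx_isCx _ _ _ _ _ (by ring)) (r + 1)
          (fun p hp => winCx_top _ _ _ _ _ hp) _ hex p ?_ _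
        omega
  rw [e1, e2, add_zero]

end Win

end Vale.Agent.P202.Mix
end
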