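import Vale.Agent.P202.MathlibUsed
import Vale.Agent.P202.Bdl.B3
import Vale.Agent.P202.Bdl.B9
import Vale.Agent.P202.Bdl.B13
import Vale.Agent.P202.Bdl.B11
import Vale.Agent.P202.Bdl.B1
import Vale.Agent.P202.Bdl.B4
import Vale.Agent.P202.Bdl.B12
import Vale.Agent.P202.Bdl.B10
import Vale.Agent.P202.Bdl.B8
attribute [-instance] DenselyNormedField.toNontriviallyNormedField DenselyNormedField.toNormedField NontriviallyNormedField.toNormedField RCLike.toDenselyNormedField NormedField.toField NormedField.toNormedDivisionRing NormedDivisionRing.toDivisionRing IdemCommSemiring.toIdemSemiring KleeneAlgebra.toIdemSemiring LieAlgebra.toModule NormedSpace.toModule SemiRingCat.instSemiringObjForgetRingHomCarrier DivisionRing.toDivisionSemiring CommSemiRingCat.instCommSemiringObjForgetRingHomCarrier NormedField.toNormedCommRing NormedCommRing.toSeminormedCommRing NormedCommRing.toNormedRing NormedDivisionRing.toNormedRing NormedRing.toSeminormedRing SeminormedCommRing.toSeminormedRing AbsoluteValue.funLike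 EuclideanDomain.toCommRing NormedCommRing.toCommRing SeminormedCommRing.toCommRing SemimoduleCat.isAddCommMonoid Pi.nonUnitalNonAssocSemiring NormedRing.toRing SeminormedRing.toRing Pi.nonAssocSemiring LinearOrderedAddCommGroupWithTop.instLinearOrderedAddCommMonoidWithTop CommSemiring.toNonAssocCommSemiring NonAssocCommRing.toNonAssocCommSemiring NonAssocCommSemiring.toNonAssocSemiring NonAssocRing.toNonAssocSemiring LinearOrderedAddCommGroupWithTop.toAddCommMonoid CommRing.toAddCommGroupWithOne NonAssocRing.toAddCommGroupWithOne NormedCommRing.toNonUnitalNormedCommRing NonUnitalNormedCommRing.toNonUnitalNormedRing NormedRing.toNonUnitalNormedRing AddCommGroupWithOne.toAddCommMonoidWithOne NonUnitalNormedCommRing.toNonUnitalSeminormedCommRing SeminormedCommRing.toNonUnitalSeminormedCommRing NonUnitalNormedRing.toNonUnitalSeminormedRing NonUnitalSeminormedCommRing.toNonUnitalSeminormedRing SeminormedRing.toNonUnitalSeminormedRing NonUnitalNormedCommRing.toNonUnitalCommRing NonUnitalSeminormedCommRing.toNonUnitalCommRing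 NonUnitalCommRing.toNonUnitalRing NonUnitalNormedRing.toNonUnitalRing NonUnitalSeminormedRing.toNonUnitalRing Ring.toNonUnitalRing NonAssocCommRing.toNonUnitalNonAssocCommRing NonUnitalRing.toNonUnitalNonAssocRing NonUnitalRing.toNonUnitalSemiring Semiring.toNonUnitalSemiring instCoeT NonAssocCommSemiring.toNonUnitalNonAssocCommSemiring NonUnitalNonAssocCommSemiring.toNonUnitalNonAssocSemiring NonUnitalSemiring.toNonUnitalNonAssocSemiring ModuleCat.isModule AddCommMonoidWithOne.toAddCommMonoid Filter.instMembership TwoSidedIdeal.instIsTwoSidedCoeOrderHomIdealAsIdeal AddMonCat.addMonoidObj instCoeTOfCoeDep Std.DTreeMap.Raw.instSingletonSigma RingCat.instRingObjForgetRingHomCarrier Pi.seminormedAddCommGroup TopologicalSpace.Compacts.instSetLike MonCat.monoidObj LieRing.toAddCommGroup MulSemiringAction.toDistribMulAction LinearOrderedAddCommGroupWithTop.toSubNegMonoid AddCommGroupWithOne.toAddGroupWithOne Pi.addZeroClass NormedCommGroup.toNormedGroup OrderRingHom.instRingHomClass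 NormedCommGroup.toSeminormedCommGroup NormedGroup.toSeminormedGroup SeminormedCommGroup.toSeminormedGroup Pi.mulZeroOneClass instNonUnitalAlgHomClassOfNonUnitalAlgEquivClass CommGroup.toGroup NormedCommGroup.toCommGroup NormedGroup.toGroup SeminormedCommGroup.toCommGroup SeminormedGroup.toGroup PerfectClosure.instField instDistribSMul NonUnitalNonAssocSemiring.toDistribSMul NormedAlgebra.toAlgebra Pi.instZero instSMulZeroClass LinearOrderedCommGroupWithZero.toLinearOrderedCommMonoidWithZero NormedAlgebra.id CompleteAtomicBooleanAlgebra.toCompleteBooleanAlgebra AbsoluteValue.mulHomClass instCoeTC instCoeTCOfCoe instCoeTCOfCoe_1 CompleteAtomicBooleanAlgebra.toCompletelyDistribLattice CompleteBooleanAlgebra.toBooleanAlgebra instCoeHTC instCoeHTCT Pi.nonUnitalSemiring AlgEquivClass.toAlgHomClass LinearOrderedCommGroupWithZero.toCommGroupWithZero Semifield.toCommGroupWithZero CompleteBooleanAlgebra.toCompleteDistribLattice CompletelyDistribLattice.toCompleteDistribLattice NonUnitalNormedRing.toNormedAddCommGroup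 Pi.mulOneClass AddOpposite.instAddZero CommGroupWithZero.toCommMonoidWithZero LinearOrderedCommMonoidWithZero.toCommMonoidWithZero CompleteBooleanAlgebra.toCompleteLattice MulOpposite.instMulOne Pi.instOne ValuationClass.toMonoidWithZeroHomClass BooleanAlgebra.toBiheytingAlgebra CompleteDistribLattice.toBiheytingAlgebra CompleteDistribLattice.toCoframe CompleteDistribLattice.toFrame CompleteLinearOrder.toBiheytingAlgebra CompleteLinearOrder.toLinearOrder CompletelyDistribLattice.toBiheytingAlgebra ConditionallyCompleteLinearOrder.toLinearOrder LinearOrderedAddCommGroupWithTop.toLinearOrder LinearOrderedAddCommMonoidWithTop.toLinearOrder LinearOrderedCommMonoidWithZero.toLinearOrder NonUnitalSeminormedRing.toSeminormedAddCommGroup NormedAddCommGroup.toSeminormedAddCommGroup PerfectClosure.instDivisionRing CommGroupWithZero.toGroupWithZero DivisionSemiring.toGroupWithZero AddGrpCat.str BooleanAlgebra.toGeneralizedBooleanAlgebra Monoid.End.instMonoidHomClass OrderAddMonoidHom.instAddMonoidHomClass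 BiheytingAlgebra.toCoheytingAlgebra BiheytingAlgebra.toHeytingAlgebra CompleteLinearOrder.toCompleteLattice Order.Coframe.toCoheytingAlgebra Order.Coframe.toCompleteLattice Order.Frame.toCompleteLattice Order.Frame.toHeytingAlgebra GroupWithZero.toMonoidWithZero OrderDual.instDivisionRing NonUnitalAlgHomClass.toNonUnitalRingHomClass NonUnitalAlgSemiHomClass.toMulHomClass RingEquivClass.toNonUnitalRingHomClass MonoidWithZero.toSemigroupWithZero NonUnitalNonAssocSemiring.toMulZeroClass SemigroupWithZero.toMulZeroClass ContinuousAddMonoidHom.instCoeOutOfAddMonoidHomClassOfContinuousMapClass ContinuousMonoidHom.instCoeOutOfMonoidHomClassOfContinuousMapClass HomeomorphClass.instCoeOutHomeomorph IsometryClass.instCoeOutIsometryEquiv AlgHomClass.linearMapClass CoheytingAlgebra.toGeneralizedCoheytingAlgebra ContinuousSemilinearEquivClass.continuousSemilinearMapClass ContinuousSemilinearMapClass.toSemilinearMapClass GeneralizedBooleanAlgebra.toGeneralizedCoheytingAlgebra HeytingAlgebra.toGeneralizedHeytingAlgebra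 NonUnitalAlgHomClass.instLinearMapClass NonUnitalAlgHomClass.instSemilinearMapClassOfNonUnitalAlgSemiHomClassToMonoidHomRingHom RingHomClass.toLinearMapClassNNRat RingHomClass.toLinearMapClassRat SemilinearIsometryClass.toContinuousSemilinearMapClass SemilinearIsometryClass.toSemilinearMapClass boolToProp MulSemiringActionSemiHomClass.toDistribMulActionSemiHomClass MulCharClass.toMonoidHomClass MulDistribMulActionSemiHomClass.toMonoidHomClass OrderDual.instDivisionSemiring Torsor.toMulAction GradedMonoid.GradeZero.mulAction instConditionallyCompletePartialOrderSup ConditionallyCompletePartialOrder.toConditionallyCompletePartialOrderSup instDistribLatticeOfLinearOrder BooleanAlgebra.toDistribLattice ChainCompletePartialOrder.instOfCompleteLattice ChainCompletePartialOrder.instOmegaCompletePartialOrder ChainCompletePartialOrder.toPartialOrder CompleteLattice.toPartialOrder' CompletePartialOrder.toOmegaCompletePartialOrder CompleteSemilatticeInf.toPartialOrder ConditionallyCompletePartialOrderInf.toPartialOrder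 ConditionallyCompletePartialOrderSup.toPartialOrder DistribLattice.toLattice GeneralizedBooleanAlgebra.toDistribLattice GeneralizedCoheytingAlgebra.toDistribLattice GeneralizedCoheytingAlgebra.toLattice GeneralizedHeytingAlgebra.toDistribLattice GeneralizedHeytingAlgebra.toLattice Lattice.toSemilatticeInf LinearOrder.toLattice OmegaCompletePartialOrder.toPartialOrder SemilatticeInf.toPartialOrder Order.Coframe.toDistribLattice Order.Frame.toDistribLattice Pi.commMagma Pi.instMaxForall_mathlib AbsoluteValue.zeroHomClass OneHom.oneHomClass Std.DTreeMap.Raw.instInsertSigma Pi.distribMulAction' FloorSemiring.instCharZero IsStrictOrderedRing.toCharZero NumberField.to_charZero RCLike.charZero_rclike Invertible.toNeZero LinearOrderedCommMonoidWithZero.toIsBotZeroClass NeZero.of_gt' Nat.AtLeastTwo.toNeZero OrderDual.instPow_1 NormedAddCommGroup.toNormedAddGroup Pi.instSemilatticeSup Pi.mulZeroClass MonomialOrder.orderBot Pi.subtractionMonoid Pi.instBotForall Algebra.Extension.commRing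 NormedAddGroup.toSeminormedAddGroup SeminormedAddCommGroup.toSeminormedAddGroup ModuleCat.instAddCommGroupCarrierMkOfSMul' Nat.instAtLeastTwoHAddOfNat Pi.semigroup Nat.instNontrivial Nat.Prime.one_lt' CommMonCat.str instIsDedekindDomainOfIsDomainOfIsDedekindRing instIsDomain DivisionRing.isDomain EuclideanDomain.instIsDomain Field.isDomain IsDedekindDomain.toIsDomain IsDedekindDomainDvr.isDedekindDomain IsStrictOrderedRing.isDomain Fin.completeLinearOrder forall_prop_decidable Array.instDecidableForallForallMemOfDecidablePred Finset.decidableDforallFinset Fintype.decidableForallFintype Multiset.decidableDforallMultiset Option.decidableForallMem Vector.instDecidableForallForallMemOfDecidablePred Algebra.TensorProduct.instNonAssocRing Algebra.TensorProduct.instNonUnitalRing SubfieldClass.toSubringClass Pi.commMonoidWithZero coePNatNat Nat.Primes.coeNat Nat.Primes.coePNat Pi.partialOrder AddCommGroupWithOne.toAddCommGroup NormedAddCommGroup.toAddCommGroup SeminormedAddCommGroup.toAddCommGroup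 instSubsingleton IsEmpty.instSubsingleton Unique.instSubsingleton BooleanAlgebra.toBot EMetricSpace.toPseudoEMetricSpace GeneralizedBooleanAlgebra.toBot MetricSpace.toEMetricSpace MetricSpace.toPseudoMetricSpace NonUnitalNormedRing.toMetricSpace NonUnitalSeminormedRing.toPseudoMetricSpace NormedAddCommGroup.toMetricSpace NormedAddGroup.toMetricSpace NormedCommGroup.toMetricSpace NormedDivisionRing.toMetricSpace NormedField.toMetricSpace NormedGroup.toMetricSpace NormedRing.toMetricSpace PseudoEMetricSpace.toUniformSpace PseudoMetricSpace.toPseudoEMetricSpace PseudoMetricSpace.toUniformSpace SeminormedAddCommGroup.toPseudoMetricSpace SeminormedAddGroup.toPseudoMetricSpace SeminormedCommGroup.toPseudoMetricSpace SeminormedGroup.toPseudoMetricSpace SeminormedRing.toPseudoMetricSpace UniformSpace.toTopologicalSpace Valued.toUniformSpace WithIdeal.instTopologicalSpace WithIdeal.instUniformSpace instSMulCommClassOfIsScalarTower SubringClass.toNegMemClass NormedAddGroup.toAddGroup Pi.preorder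 SeminormedAddGroup.toAddGroup AddSubmonoid.instAddSubmonoidClass Pi.subNegZeroMonoid instMonadLiftT instMonadLiftTOfMonadLift decidableEq_of_subsingleton LinearOrder.toDecidableEq RCLike.toDecidableEq instOfNatAtLeastTwo Pi.instTopForall IsRegularLocalRing.instOfIsLocalRingOfIsDomainOfIsPrincipalIdealRing IsRegularLocalRing.toIsLocalRing AddHom.addHomClass CompTriple.instComp_id CompTriple.instId_comp MulEquivClass.toMonoidWithZeroHomClass MulRingSeminormClass.toMonoidWithZeroHomClass Pi.smulZeroClass' Algebra.TensorProduct.instNonUnitalNonAssocRing Fin.instBiheytingAlgebra Pi.nonAssocRing IsOrderedRing.toIsStrictOrderedRing SemilinearIsometryEquivClass.toSemilinearIsometryClass -- iprune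

set_option linter.all false

section

/-!
P202, mixed characteristic, M9a, M4c-1, M4c-2: colon ideals and flat base change; `t` is a
nonzerodivisor and the variables form a regular sequence on the covers.
-/

namespace Vale.Agent.P202.Mix

universe u

variable {p : ℕ} [Fact p.Prime] {k : Type u} [Field k] [CharP k p] {r : ℕ}

/-- M9a: colon ideals and flat base change. -/
theorem colon_flat {E E' : Type u} [CommRing E] [CommRing E'] [Algebra E E'] [Module.Flat E E']
    (K K' : Ideal E) (a h : E) (H : ∀ x, a * x ∈ K → h * x ∈ K') (x : E')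
    (hx : algebraMap E E' a * x ∈ K.map (algebraMap E E')) :
    algebraMap E E' h * x ∈ K'.map (algebraMap E E') := by
  rw [Ideal.map, Ideal.span, Submodule.mem_span_set'] at hx
  obtain ⟨n, f, g, hfg⟩ := hx
  choose y hyK hy using fun i => (g i).2
  -- the relation `a x - ∑ y_i f_i = 0`
  have hrel : ∑ i : Option (Fin n), (Option.elim i a fun i => -y i) •
      (Option.elim i x f : E') = 0 := by
    rw [Fintype.sum_option]
    simp only [Option.elim_none, Option.elim_some, Algebra.smul_def, map_neg]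
    rw [← hfg, ← Finset.sum_add_distrib]
    refine Finset.sum_eq_zero fun i _ => ?_
    rw [← hy i, smul_eq_mul]
    ring
  obtain ⟨m, b, z, hz, hb⟩ := Module.Flat.isTrivialRelation_of_sum_smul_eq_zero
    (R := E) (M := E') (ι := Option (Fin n)) (f := fun i => Option.elim i a fun i => -y i)
    (x := fun i => Option.elim i x f) hrel
  have hx0 : x = ∑ j, b none j • z j := hz none
  rw [hx0, Finset.mul_sum]
  refine Ideal.sum_mem _ fun j _ => ?_
  rw [Algebra.smul_def, ← mul_assoc, ← map_mul]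
  refine Ideal.mul_mem_right _ _ (Ideal.mem_map_of_mem _ (H _ ?_))
  have h1 := hb j
  rw [Fintype.sum_option] at h1
  simp only [Option.elim_none, Option.elim_some] at h1
  rw [eq_neg_of_add_eq_zero_left h1]
  refine neg_mem (Ideal.sum_mem _ fun i _ => ?_)
  exact Ideal.mul_mem_right _ _ (neg_mem (hyK i))

section VarReg

/-- `t` is a nonzerodivisor on the covers. -/
theorem tC_mem_nonZeroDivisors {r0 : ℕ} (d : PExt.{u} p k r r0) :
    tC p k r d.C ∈ nonZeroDivisors d.C := by
  rw [mem_nonZeroDivisors_iff_right]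
  intro y hy
  have := d.flat
  have h1 := colon_flat (E := Rp p k r) (E' := d.C) ⊥ ⊥ (xp p k r 0) 1 (fun x hx => by
    rw [Ideal.mem_bot] at hx ⊢
    rw [one_mul]
    exact (mem_nonZeroDivisors_iff_right.1 (xp_mem_nonZeroDivisors p k r 0)) x
      (by rw [mul_comm]; exact hx)) y (by
      rw [Ideal.map_bot, Ideal.mem_bot, mul_comm]
      exact hy)
  rwa [Ideal.map_bot, Ideal.mem_bot, map_one, one_mul] at h1

/-- the variables form a regular sequence on `k[[x]]`. -/
theorem reg_R0 (i : Fin (r + 1)) (f : R0 k r)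
    (h : (MvPowerSeries.X i : R0 k r) * f ∈
      Ideal.span ((fun l => (MvPowerSeries.X l : R0 k r)) '' {l | l < i})) :
    f ∈ Ideal.span ((fun l => (MvPowerSeries.X l : R0 k r)) '' {l | l < i}) := by
  classical
  have hid : Ideal.span ((fun l => (MvPowerSeries.X l : R0 k r)) '' {l | l < i}) =
      Ideal.span ((fun l : Fin (r + 1) => (MvPowerSeries.X l : R0 k r) ^ 1) ''
        {l | (l : ℕ) < i}) := by
    simp only [pow_one, Fin.val_fin_lt]
  rw [hid, CharP.ArbK.mem_span_X_pow_iff] at h ⊢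
  intro d hd
  have h1 := h (d + Finsupp.single i 1) (by
    intro j hj
    have hne : i ≠ j := by
      rintro rfl
      exact lt_irrefl _ hj
    rw [Finsupp.add_apply, Finsupp.single_eq_of_ne hne.symm, add_zero]
    exact hd j hj)
  rw [← pow_one (MvPowerSeries.X i : R0 k r), MvPowerSeries.X_pow_eq,
    MvPowerSeries.coeff_monomial_mul] at h1
  have hle : Finsupp.single i 1 ≤ d + Finsupp.single i 1 := le_add_self
  rw [if_pos hle, add_tsub_cancel_right, one_mul] at h1
  exact h1

/-- the variables form a regular sequence on the covers. -/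
theorem variables_regular {r0 : ℕ} (d : PExt.{u} p k r r0) (i : Fin (r + 1)) (y : d.C)
    (h : algebraMap (Rp p k r) d.C (xp p k r i) * y ∈
      Ideal.span ((fun l => algebraMap (Rp p k r) d.C (xp p k r l)) '' {l | l < i})) :
    y ∈ Ideal.span ((fun l => algebraMap (Rp p k r) d.C (xp p k r l)) '' {l | l < i}) := by
  have hRp : ∀ z : Rp p k r, xp p k r i * z ∈ Ideal.span (xp p k r '' {l | l < i}) →
      1 * z ∈ Ideal.span (xp p k r '' {l | l < i}) := by
    let := (PerfectClosure.of (R0 k r) p).toAlgebra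
    have := flat_perfectClosure p k r
    intro z hz
    have hm : (Ideal.span ((fun l => (MvPowerSeries.X l : R0 k r)) '' {l | l < i})).map
        (algebraMap (R0 k r) (Rp p k r)) = Ideal.span (xp p k r '' {l | l < i}) := by
      rw [Ideal.map_span, Set.image_image]
      rfl
    have h1 := colon_flat (E := R0 k r) (E' := Rp p k r)
      (Ideal.span ((fun l => (MvPowerSeries.X l : R0 k r)) '' {l | l < i}))
      (Ideal.span ((fun l => (MvPowerSeries.X l : R0 k r)) '' {l | l < i}))
      (MvPowerSeries.X i) 1 (fun x hx => by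
        rw [one_mul]
        exact reg_R0 i x hx) z (by
        rw [hm]
        exact hz)
    rwa [map_one, hm] at h1
  have := d.flat
  have hm : (Ideal.span (xp p k r '' {l | l < i})).map (algebraMap (Rp p k r) d.C) =
      Ideal.span ((fun l => algebraMap (Rp p k r) d.C (xp p k r l)) '' {l | l < i}) := by
    rw [Ideal.map_span, Set.image_image]
  have h1 := colon_flat (E := Rp p k r) (E' := d.C) _ _ (xp p k r i) 1 hRp y (by
    rw [hm]
    exact h)
  rwa [map_one, one_mul, hm] at h1

end VarReg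

end Vale.Agent.P202.Mix
end

section

/-!
P202, mixed characteristic, M9: colon ideals and flat base change, regularity of `p, u_1, .., u_r`
on `B/p^N`, the homomorphisms `φ_π : A ⊗ B/p^N → (B/p^N)/Ann([δ_π^(1/q)])`.
-/

namespace Vale.Agent.P202.Mix

open Polynomial TensorProduct

universe u

variable {p : ℕ} [Fact p.Prime] {k : Type u} [Field k] [CharP k p] {r : ℕ}
variable {Λ : Type u} [CommRing Λ] {u : Fin r → Λ} {ψ : Λ →+* WittVector p (Rp p k r)}
  {red : Λ →+* R0 k r ⧸ Ideal.span {(MvPowerSeries.X 0 : R0 k r)}}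

section Lift

variable (C : Type u) [CommRing C] [Algebra (Rp p k r) C] (N : ℕ)

theorem mkN_surjective : Function.Surjective (mkN ψ C N) := Ideal.Quotient.mk_surjective

theorem mkN_eq_zero_iff {x : Bt p C (tC p k r C)} :
    mkN ψ C N x = 0 ↔ x ∈ Ideal.span {(p : Bt p C (tC p k r C)) ^ N} :=
  Ideal.Quotient.eq_zero_iff_mem

theorem algebraMap_BN (l : Λ) : algebraMap Λ (BN ψ C N) l = mkN ψ C N (laB ψ C l) := rfl

/-- membership in an ideal of `B/p^N` -/
theorem mkN_mem_map {J : Ideal (Bt p C (tC p k r C))} {x : Bt p C (tC p k r C)}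
    (h : mkN ψ C N x ∈ J.map (mkN ψ C N)) :
    x ∈ J ⊔ Ideal.span {(p : Bt p C (tC p k r C)) ^ N} := by
  rw [Ideal.mem_map_iff_of_surjective _ (mkN_surjective C N)] at h
  obtain ⟨y, hy, hyx⟩ := h
  rw [eq_comm, ← sub_eq_zero, ← map_sub, mkN_eq_zero_iff] at hyx
  rw [← add_sub_cancel y x]
  exact Ideal.add_mem _ (Ideal.mem_sup_left hy) (Ideal.mem_sup_right hyx)

end Lift

/-- M9b: regularity of `p` on `B/p^N`. -/
theorem BN_p {r0 : ℕ} (d : PExt.{u} p k r r0) (N : ℕ) (b : BN ψ d.C N)
    (h : (p : BN ψ d.C N) * b = 0) :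
    b ∈ Ideal.span {(p : BN ψ d.C N) ^ (N - 1)} := by
  obtain ⟨β, rfl⟩ := mkN_surjective d.C N b
  rcases Nat.eq_zero_or_pos N with hN | hN
  · subst hN
    simp
  have h1 : mkN ψ d.C N ((p : Bt p d.C (tC p k r d.C)) * β) = 0 := by
    rw [map_mul, map_natCast]
    exact h
  rw [mkN_eq_zero_iff, Ideal.mem_span_singleton'] at h1
  obtain ⟨γ, hγ⟩ := h1
  have h2 : (p : Bt p d.C (tC p k r d.C)) * (β - (p : Bt p d.C (tC p k r d.C)) ^ (N - 1) * γ) = 0 := by
    obtain ⟨M, rfl⟩ : ∃ M, N = M + 1 := ⟨N - 1, by omega⟩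
    rw [mul_sub, ← hγ, Nat.add_sub_cancel, pow_succ]
    ring
  have h3 := p_mul_eq_zero p d.C _ (tC_mem_nonZeroDivisors d) _ h2
  rw [sub_eq_zero] at h3
  rw [h3, Ideal.mem_span_singleton', map_mul, map_pow, map_natCast]
  exact ⟨mkN ψ d.C N γ, mul_comm _ _⟩

/-- `Λ → B` maps `u_i` to `[u_i]` -/
theorem laB_u (hb : IsBase p k r Λ u ψ red) (C : Type u) [CommRing C] [Algebra (Rp p k r) C]
    (i : Fin r) : laB ψ C (u i) = te p C (tC p k r C) (algebraMap (Rp p k r) C (xp p k r i.succ)) := by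
  unfold laB te
  rw [RingHom.comp_apply, RingHom.comp_apply, hb.psi_u, WittVector.map_teichmuller]

/-- M9c: regularity of the `u_i` on `B/p^N` modulo `p, u_1, .., u_(i-1)`. -/
theorem BN_u {r0 : ℕ} (hb : IsBase p k r Λ u ψ red) (d : PExt.{u} p k r r0) (N : ℕ) (hN : 1 ≤ N)
    (i : Fin r) (b : BN ψ d.C N)
    (h : algebraMap Λ (BN ψ d.C N) (u i) * b ∈ Ideal.span (insert (p : BN ψ d.C N)
      ((fun l => algebraMap Λ (BN ψ d.C N) (u l)) '' {l | l < i}))) :
    b ∈ Ideal.span (insert (p : BN ψ d.C N)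
      ((fun l => algebraMap Λ (BN ψ d.C N) (u l)) '' {l | l < i})) := by
  set J : Ideal (Bt p d.C (tC p k r d.C)) :=
    Ideal.span (insert (p : Bt p d.C (tC p k r d.C)) ((fun l => laB ψ d.C (u l)) '' {l | l < i}))
    with hJ
  have hJmap : J.map (mkN ψ d.C N) = Ideal.span (insert (p : BN ψ d.C N)
      ((fun l => algebraMap Λ (BN ψ d.C N) (u l)) '' {l | l < i})) := by
    rw [hJ, Ideal.map_span, Set.image_insert_eq, map_natCast, Set.image_image]
    rfl
  rw [← hJmap] at h ⊢
  obtain ⟨β, rfl⟩ := mkN_surjective d.C N b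
  refine Ideal.mem_map_of_mem _ ?_
  rw [algebraMap_BN, ← map_mul] at h
  have h1 := mkN_mem_map d.C N h
  have hpJ : (p : Bt p d.C (tC p k r d.C)) ∈ J := Ideal.subset_span (Set.mem_insert _ _)
  have hle : Ideal.span {(p : Bt p d.C (tC p k r d.C)) ^ N} ≤ J := by
    rw [Ideal.span_singleton_le_iff_mem]
    exact Ideal.pow_mem_of_mem _ hpJ _ (by omega)
  rw [sup_eq_left.2 hle] at h1
  -- reduce modulo `p`
  obtain ⟨q, hq1, hq2, hq3⟩ := exists_proj p d.C (tC p k r d.C)
  have hqte : ∀ c, q (te p d.C (tC p k r d.C) c) = Ideal.Quotient.mk _ c := by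
    intro c
    unfold te
    rw [hq1, WittVector.teichmuller_coeff_zero]
  set x : Fin (r + 1) → d.C := fun l => algebraMap (Rp p k r) d.C (xp p k r l) with hx
  set L : Ideal d.C := Ideal.span (x '' {l | l < i.succ}) with hL
  have hLt : Ideal.span {tC p k r d.C} ≤ L := by
    rw [Ideal.span_singleton_le_iff_mem]
    exact Ideal.subset_span ⟨0, Fin.succ_pos i, rfl⟩
  have hqp : q (p : Bt p d.C (tC p k r d.C)) = 0 := by
    rw [← RingHom.mem_ker, hq3]
    exact Ideal.mem_span_singleton_self _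
  have hJq : J = (L.map (Ideal.Quotient.mk (Ideal.span {tC p k r d.C}))).comap q := by
    apply le_antisymm
    · rw [hJ, Ideal.span_le]
      rintro y (rfl | ⟨l, hl, rfl⟩)
      · rw [SetLike.mem_coe, Ideal.mem_comap, hqp]
        exact zero_mem _
      · rw [SetLike.mem_coe, Ideal.mem_comap]
        simp only
        rw [laB_u hb, hqte]
        exact Ideal.mem_map_of_mem _ (Ideal.subset_span ⟨l.succ, Fin.succ_lt_succ_iff.2 hl, rfl⟩)
    · intro y hy
      have h4 : (L.map (Ideal.Quotient.mk (Ideal.span {tC p k r d.C}))) ≤ J.map q := by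
        rw [hL, Ideal.map_span, Ideal.span_le]
        rintro _ ⟨_, ⟨l, hl, rfl⟩, rfl⟩
        rw [SetLike.mem_coe]
        rcases Fin.eq_zero_or_eq_succ l with rfl | ⟨l', rfl⟩
        · have h5 : Ideal.Quotient.mk (Ideal.span {tC p k r d.C}) (x 0) = 0 :=
            Ideal.Quotient.eq_zero_iff_mem.2 (Ideal.mem_span_singleton_self _)
          rw [h5]
          exact zero_mem _
        · rw [hx]
          simp only
          rw [← hqte, ← laB_u hb]
          exact Ideal.mem_map_of_mem _ (Ideal.subset_span (Set.mem_insert_of_mem _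
            ⟨l', Fin.succ_lt_succ_iff.1 hl, rfl⟩))
      have h6 : q y ∈ J.map q := h4 hy
      rw [Ideal.mem_map_iff_of_surjective _ hq2] at h6
      obtain ⟨z, hz, hzy⟩ := h6
      rw [eq_comm, ← sub_eq_zero, ← map_sub, ← RingHom.mem_ker, hq3] at hzy
      rw [← add_sub_cancel z y]
      refine Ideal.add_mem _ hz ?_
      exact (Ideal.span_singleton_le_iff_mem _).2 hpJ hzy
  obtain ⟨c, hc⟩ := Ideal.Quotient.mk_surjective (q β)
  have hLmk : ∀ y : d.C, Ideal.Quotient.mk (Ideal.span {tC p k r d.C}) y ∈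
      L.map (Ideal.Quotient.mk (Ideal.span {tC p k r d.C})) → y ∈ L := by
    intro y hy
    rw [Ideal.mem_map_iff_of_surjective _ Ideal.Quotient.mk_surjective] at hy
    obtain ⟨z, hz, hzy⟩ := hy
    rw [Ideal.Quotient.eq] at hzy
    rw [← sub_sub_cancel z y]
    exact Ideal.sub_mem _ hz (hLt hzy)
  rw [hJq, Ideal.mem_comap, map_mul, laB_u hb, hqte, ← hc, ← map_mul] at h1
  rw [hJq, Ideal.mem_comap, ← hc]
  exact Ideal.mem_map_of_mem _ (variables_regular d i.succ c (hLmk _ h1))

variable {A : Type u} [CommRing A] [Algebra Λ A] {s D : ℕ} {a : Fin s → A}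
  {F : Fin s → Λ[X]} {E : MvPolynomial (Fin s) Λ} {g : Λ} {I r0 : ℕ}

/-- the evaluation at the Teichmueller representatives of the roots kills `(F_j(T_j))` modulo
`p^(I+1)` -/
theorem eval_mem_of_mem (d : CData.{u} ψ (D := D) F E g I r0) (π : Fin s → Fin D)
    {f : MvPolynomial (Fin s) Λ}
    (hf : f ∈ Ideal.span (Set.range fun j => Polynomial.toMvPolynomial j (F j))) :
    MvPolynomial.eval₂ (laB ψ d.C) (fun j => te p d.C (tC p k r d.C) (d.c j (π j))) f ∈
      Ideal.span {(p : Bt p d.C (tC p k r d.C)) ^ (I + 1)} := by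
  set ev : MvPolynomial (Fin s) Λ →+* Bt p d.C (tC p k r d.C) :=
    MvPolynomial.eval₂Hom (laB ψ d.C) (fun j => te p d.C (tC p k r d.C) (d.c j (π j))) with hev
  change ev f ∈ _
  have hle : Ideal.span (Set.range fun j => Polynomial.toMvPolynomial j (F j)) ≤
      (Ideal.span {(p : Bt p d.C (tC p k r d.C)) ^ (I + 1)}).comap ev := by
    rw [Ideal.span_le]
    rintro _ ⟨j, rfl⟩
    rw [SetLike.mem_coe, Ideal.mem_comap]
    simp only
    have h1 : ev (Polynomial.toMvPolynomial j (F j)) =
        eval₂ (laB ψ d.C) (te p d.C (tC p k r d.C) (d.c j (π j))) (F j) := by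
      rw [Polynomial.toMvPolynomial, hev]
      change (MvPolynomial.eval₂Hom _ _) (aeval (MvPolynomial.X j) (F j)) = _
      rw [aeval_def, hom_eval₂, MvPolynomial.coe_eval₂Hom, MvPolynomial.eval₂_X]
      congr 1
      ext l
      change MvPolynomial.eval₂ _ _ (MvPolynomial.C l) = _
      rw [MvPolynomial.eval₂_C]
    set t0 := te p d.C (tC p k r d.C) (d.c j (π j)) with ht0
    have h2 : eval₂ (laB ψ d.C) t0 (F j) = eval t0 ((F j).map (laB ψ d.C) -
        ∏ i, (X - C (te p d.C (tC p k r d.C) (d.c j i)))) := by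
      rw [eval_sub, eval_map, eval_prod, Finset.prod_eq_zero (Finset.mem_univ (π j)), sub_zero]
      rw [eval_sub, eval_X, eval_C, ← ht0, sub_self]
    rw [h1, h2, eval_eq_sum]
    exact Ideal.sum_mem _ fun n _ => Ideal.mul_mem_right _ _ (d.split j n)
  exact hle hf

omit [Algebra Λ A] in
/-- an element whose `q`-th power is divisible by `p^(I+1)` vanishes in `B/p^N` -/
theorem mkN_eq_zero_of_pow {C : Type u} [CommRing C] [CharP C p] [PerfectRing C p]
    [Algebra (Rp p k r) C] (ht : tC p k r C ∈ nonZeroDivisors C) (e N I : ℕ)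
    (hN : p ^ e * N ≤ I + 1) (b : Bt p C (tC p k r C))
    (h : b ^ (p ^ e) ∈ Ideal.span {(p : Bt p C (tC p k r C)) ^ (I + 1)}) :
    mkN ψ C N b = 0 := by
  rw [mkN_eq_zero_iff]
  refine root_closed p C _ ht e N b ?_
  exact Ideal.span_singleton_le_span_singleton.mpr (pow_dvd_pow _ hN) h

theorem te_rt_pow {C : Type u} [CommRing C] [CharP C p] [PerfectRing C p] (t : C) (e : ℕ) (c : C) :
    te p C t (rt p e c) ^ p ^ e = te p C t c := by
  rw [← te_pow, nm_rt_pow]

/-- M9d: polynomials vanishing at `a` kill `[δ^(1/q)]`. -/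
theorem eval_mul_dq (d : CData.{u} ψ (D := D) F E g I r0)
    (hE : ∀ f : MvPolynomial (Fin s) Λ, MvPolynomial.aeval a f = 0 →
      E * f ∈ Ideal.span (Set.range fun j => Polynomial.toMvPolynomial j (F j)))
    (e N : ℕ) (hN : p ^ e * N ≤ I + 1) (π : Fin s → Fin D) (f : MvPolynomial (Fin s) Λ)
    (hf : MvPolynomial.aeval a f = 0) :
    MvPolynomial.eval₂ (algebraMap Λ (BN ψ d.C N)) (fun j => teN ψ d.C N (d.c j (π j))) f *
      dq d e N π = 0 := by
  set f0 := MvPolynomial.eval₂ (laB ψ d.C) (fun j => te p d.C (tC p k r d.C) (d.c j (π j))) f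
    with hf0
  set E0 := MvPolynomial.eval₂ (laB ψ d.C) (fun j => te p d.C (tC p k r d.C) (d.c j (π j))) E
    with hE0
  have h1 : MvPolynomial.eval₂ (algebraMap Λ (BN ψ d.C N)) (fun j => teN ψ d.C N (d.c j (π j))) f =
      mkN ψ d.C N f0 := by
    rw [hf0, MvPolynomial.eval₂_comp_left]
    rfl
  have h2 : E0 * f0 ∈ Ideal.span {(p : Bt p d.C (tC p k r d.C)) ^ (I + 1)} := by
    rw [hE0, hf0, ← MvPolynomial.eval₂_mul]
    exact eval_mem_of_mem d π (hE f hf)
  have h3 : te p d.C (tC p k r d.C) (d.δ π) * f0 ∈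
      Ideal.span {(p : Bt p d.C (tC p k r d.C)) ^ (I + 1)} := by
    have h4 := Ideal.add_mem _ (Ideal.mul_mem_right f0 _ (d.hδ π)) h2
    rwa [sub_mul, sub_add_cancel] at h4
  rw [h1, dq, teN, ← map_mul]
  refine mkN_eq_zero_of_pow (tC_mem_nonZeroDivisors d.toPExt) e N I hN _ ?_
  rw [mul_pow, te_rt_pow]
  have hpe : 1 ≤ p ^ e := Nat.one_le_pow _ _ (Fact.out : p.Prime).pos
  obtain ⟨m, hm⟩ : ∃ m, p ^ e = m + 1 := ⟨p ^ e - 1, by omega⟩
  have h5 : f0 ^ p ^ e * te p d.C (tC p k r d.C) (d.δ π) =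
      f0 ^ m * (te p d.C (tC p k r d.C) (d.δ π) * f0) := by
    rw [hm]
    ring
  rw [h5]
  exact Ideal.mul_mem_left _ _ h3

/-- M9f: `[δ^(1/q)] [δ'^(1/q)] = 0` in `B/p^N`. -/
theorem dq_mul_dq' (d : CData.{u} ψ (D := D) F E g I r0)
    (hEg : MvPolynomial.aeval a E = algebraMap Λ A g)
    (hE : ∀ f : MvPolynomial (Fin s) Λ, MvPolynomial.aeval a f = 0 →
      E * f ∈ Ideal.span (Set.range fun j => Polynomial.toMvPolynomial j (F j)))
    (e N : ℕ) (hN : p ^ e * N ≤ I + 1) (π : Fin s → Fin D) :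
    dq d e N π * teN ψ d.C N (rt p e (d.δ' π)) = 0 := by
  have hf : MvPolynomial.aeval a (MvPolynomial.C g - E) = 0 := by
    rw [map_sub, hEg, MvPolynomial.aeval_C, sub_self]
  have h1 := eval_mem_of_mem d π (hE _ hf)
  set E0 := MvPolynomial.eval₂ (laB ψ d.C) (fun j => te p d.C (tC p k r d.C) (d.c j (π j))) E
    with hE0
  rw [MvPolynomial.eval₂_mul, MvPolynomial.eval₂_sub, MvPolynomial.eval₂_C, ← hE0] at h1
  have h2 : te p d.C (tC p k r d.C) (d.δ π) * te p d.C (tC p k r d.C) (d.δ' π) ∈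
      Ideal.span {(p : Bt p d.C (tC p k r d.C)) ^ (I + 1)} := by
    have h3 := Ideal.mul_mem_right (te p d.C (tC p k r d.C) (d.δ' π)) _ (d.hδ π)
    have h4 := Ideal.mul_mem_left _ E0 (d.hδ' π)
    rw [← hE0] at h3 h4
    have h5 := Ideal.add_mem _ (Ideal.add_mem _ h3 h4) h1
    convert h5 using 1
    ring
  rw [dq, teN, teN, ← map_mul]
  refine mkN_eq_zero_of_pow (tC_mem_nonZeroDivisors d.toPExt) e N I hN _ ?_
  rw [mul_pow, te_rt_pow, te_rt_pow]
  exact h2

/-- M9e: the homomorphism `A ⊗ B/p^N → (B/p^N)/Ann([δ^(1/q)])`, `a_j ↦ [c_(j,π j)]`. -/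
theorem exists_phi (d : CData.{u} ψ (D := D) F E g I r0)
    (ha : Function.Surjective (MvPolynomial.aeval a : MvPolynomial (Fin s) Λ →ₐ[Λ] A))
    (hE : ∀ f : MvPolynomial (Fin s) Λ, MvPolynomial.aeval a f = 0 →
      E * f ∈ Ideal.span (Set.range fun j => Polynomial.toMvPolynomial j (F j)))
    (e N : ℕ) (hN : p ^ e * N ≤ I + 1) (π : Fin s → Fin D) :
    ∃ φ : A ⊗[Λ] BN ψ d.C N →+* BN ψ d.C N ⧸ annI (dq d e N π),
      (∀ b, φ (1 ⊗ₜ b) = Ideal.Quotient.mk _ b) ∧
      ∀ j, φ (a j ⊗ₜ 1) = Ideal.Quotient.mk _ (teN ψ d.C N (d.c j (π j))) := by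
  set Q := BN ψ d.C N ⧸ annI (dq d e N π) with hQ
  let ev : MvPolynomial (Fin s) Λ →ₐ[Λ] Q :=
    (Ideal.Quotient.mkₐ Λ (annI (dq d e N π))).comp
      (MvPolynomial.aeval fun j => teN ψ d.C N (d.c j (π j)))
  have hev : ∀ f, MvPolynomial.aeval a f = 0 → ev f = 0 := by
    intro f hf
    change Ideal.Quotient.mk _ (MvPolynomial.aeval _ f) = 0
    rw [Ideal.Quotient.eq_zero_iff_mem, mem_annI, MvPolynomial.aeval_def]
    exact eval_mul_dq d hE e N hN π f hf
  let αA : A →ₐ[Λ] Q := AlgHom.liftOfSurjective (MvPolynomial.aeval a) ha ev (by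
    intro f hf
    exact hev f hf)
  have hαA : ∀ f, αA (MvPolynomial.aeval a f) = ev f := by
    intro f
    exact AlgHom.liftOfSurjective_apply _ ha ev _ f
  refine ⟨(Algebra.TensorProduct.productMap αA (Ideal.Quotient.mkₐ Λ (annI (dq d e N π))) :
    A ⊗[Λ] BN ψ d.C N →ₐ[Λ] Q), ?_, ?_⟩
  · intro b
    change Algebra.TensorProduct.productMap αA _ (1 ⊗ₜ b) = _
    rw [Algebra.TensorProduct.productMap_apply_tmul, map_one, one_mul]
    rfl
  · intro j
    change Algebra.TensorProduct.productMap αA _ (a j ⊗ₜ 1) = _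
    rw [Algebra.TensorProduct.productMap_apply_tmul, map_one, mul_one]
    have h1 := hαA (MvPolynomial.X j)
    rw [MvPolynomial.aeval_X] at h1
    rw [h1]
    change Ideal.Quotient.mk _ (MvPolynomial.aeval _ (MvPolynomial.X j)) = _
    rw [MvPolynomial.aeval_X]

end Vale.Agent.P202.Mix
end

section

/-!
P202 MIX, task M8a: the reduction in characteristic `p` over the perfection.
-/

namespace Vale.Agent.P202.Mix

open IsLocalRing

universe u

/-- pigeonhole: high powers of `(ζ_i)` lie in powers of `(ζ_i ^ w)` -/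
theorem span_pow_round {C ι : Type*} [CommRing C] [DecidableEq ι] (ζ : ι → C) (w : ℕ)
    (hw : 1 ≤ w) (s : Finset ι) : ∀ j m : ℕ, w * j + s.card * (w - 1) + 1 ≤ m →
    Ideal.span (ζ '' s) ^ m ≤ Ideal.span ((fun i => ζ i ^ w) '' s) ^ (j + 1) := by
  induction s using Finset.induction_on with
  | empty =>
    intro j m hm
    have : m ≠ 0 := by omega
    simp [this]
  | insert a s ha ih =>
    intro j m hm
    rw [Finset.card_insert_of_notMem ha] at hm
    rw [Finset.coe_insert, Set.image_insert_eq, Ideal.span_insert, Set.image_insert_eq,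
      Ideal.span_insert]
    set I := Ideal.span {ζ a} with hI
    set J := Ideal.span (ζ '' (s : Set ι)) with hJ
    set I' := Ideal.span {ζ a ^ w} with hI'
    set J' := Ideal.span ((fun i => ζ i ^ w) '' (s : Set ι)) with hJ'
    rw [← Ideal.add_eq_sup, add_pow]
    rw [Ideal.sum_eq_sup]
    refine Finset.sup_le ?_
    intro k hk
    have hk' : k ≤ m := by
      have := Finset.mem_range.mp hk
      omega
    refine Ideal.mul_le_left.trans ?_
    have hIk : I ^ k ≤ (I' ⊔ J') ^ (k / w) := by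
      have h1 : I ^ k ≤ I ^ (w * (k / w)) := Ideal.pow_le_pow_right (Nat.mul_div_le k w)
      refine h1.trans ?_
      rw [pow_mul, hI, Ideal.span_singleton_pow]
      exact Ideal.pow_right_mono le_sup_left _
    by_cases hcase : j + 1 ≤ k / w
    · exact (Ideal.mul_le_left.trans hIk).trans (Ideal.pow_le_pow_right hcase)
    · push Not at hcase
      have hdiv := Nat.div_add_mod k w
      have hmod := Nat.mod_lt k (by omega : 0 < w)
      obtain ⟨j', hj'⟩ : ∃ j', j = k / w + j' := ⟨j - k / w, by omega⟩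
      have hmul : w * j = w * (k / w) + w * j' := by rw [hj', Nat.mul_add]
      have hcm : (s.card + 1) * (w - 1) = s.card * (w - 1) + (w - 1) := by ring
      have h2 := ih j' (m - k) (by omega)
      have h3 : J ^ (m - k) ≤ (I' ⊔ J') ^ (j' + 1) :=
        h2.trans (Ideal.pow_right_mono le_sup_right _)
      refine (Ideal.mul_mono hIk h3).trans ?_
      rw [← pow_add]
      exact Ideal.pow_le_pow_right (by omega)

theorem core_local {R A : Type u} [CommRing R] [IsLocalRing R]
    [Infinite (ResidueField R)] [CommRing A] [Nontrivial A] [Algebra R A] [Module.Finite R A]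
    [IsNoetherianRing A] {n : ℕ} (X : Fin n → R)
    (hX : Ideal.span (Set.range X) = maximalIdeal R) {ι : Type} (cA : ι → A)
    (hcP : ∀ P : Ideal A, P.IsPrime → (∀ l, algebraMap R A (X l) ∈ P) → ∀ i, cA i ∈ P)
    (hconst : ∀ a : A, ∃ x : R, a - algebraMap R A x ∈
      Ideal.span ((Set.range fun l => algebraMap R A (X l)) ∪ Set.range cA)) :
    ∃ z : Fin n → A, ∃ s0 : ℕ, (∀ l, z l ∈
      Ideal.span ((Set.range fun l => algebraMap R A (X l)) ∪ Set.range cA)) ∧
      ∀ j : ℕ, Ideal.span ((Set.range fun l => algebraMap R A (X l)) ∪ Set.range cA) ^ (j + s0) ≤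
        Ideal.span (Set.range z) ^ j := by
  classical
  let XA : Fin n → A := fun l => algebraMap R A (X l)
  have hXm : ∀ l, X l ∈ maximalIdeal R := fun l => hX ▸ Ideal.subset_span ⟨l, rfl⟩
  set J : Ideal A := Ideal.span (Set.range XA ∪ Set.range cA) with hJ
  have hJle : ∀ P : Ideal A, P.IsPrime → (∀ l, XA l ∈ P) → J ≤ P := by
    intro P hP hXP
    rw [hJ, Ideal.span_le]
    rintro _ (⟨l, rfl⟩ | ⟨i, rfl⟩)
    · exact hXP l
    · exact hcP P hP hXP i
  have hPJ : ∀ P : Ideal A, P.IsPrime → (∀ l, XA l ∈ P) → P = J := by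
    intro P hP hXP
    refine le_antisymm ?_ (hJle P hP hXP)
    intro a ha
    obtain ⟨x, hx⟩ := hconst a
    have h1 : algebraMap R A x ∈ P := by
      have := P.sub_mem ha (hJle P hP hXP hx)
      simpa using this
    have h2 : x ∈ maximalIdeal R := by
      rw [mem_maximalIdeal, mem_nonunits_iff]
      intro hu
      exact hP.ne_top (Ideal.eq_top_of_isUnit_mem _ h1 (hu.map _))
    have h3 : algebraMap R A x ∈ J := by
      have h4 : Ideal.map (algebraMap R A) (maximalIdeal R) ≤ J := by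
        rw [← hX, Ideal.map_span, Ideal.span_le]
        rintro _ ⟨_, ⟨l, rfl⟩, rfl⟩
        exact Ideal.subset_span (Or.inl ⟨l, rfl⟩)
      exact h4 (Ideal.mem_map_of_mem _ h2)
    have := J.add_mem hx h3
    simpa using this
  have hmaxX : ∀ P : Ideal A, P.IsMaximal → ∀ l, XA l ∈ P := by
    intro P hP l
    have h1 : (P.comap (algebraMap R A)).IsMaximal :=
      Ideal.isMaximal_comap_of_isIntegral_of_isMaximal P
    have h2 := eq_maximalIdeal h1
    have h3 := hXm l
    rw [← h2] at h3
    exact h3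
  obtain ⟨P0, hP0⟩ := Ideal.exists_maximal A
  have hJmax : J.IsMaximal := by
    rw [← hPJ P0 hP0.isPrime (hmaxX P0 hP0)]
    exact hP0
  have hloc : IsLocalRing A := IsLocalRing.of_unique_max_ideal
    ⟨J, hJmax, fun P hP => hPJ P hP.isPrime (hmaxX P hP)⟩
  have hmaxJ : maximalIdeal A = J := (eq_maximalIdeal hJmax).symm
  -- the residue field
  have hlh : IsLocalHom (algebraMap R A) := by
    refine ⟨fun x hx => ?_⟩
    by_contra hu
    have h2 : x ∈ maximalIdeal R := hu
    have h3 : algebraMap R A x ∈ J := by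
      have h4 : Ideal.map (algebraMap R A) (maximalIdeal R) ≤ J := by
        rw [← hX, Ideal.map_span, Ideal.span_le]
        rintro _ ⟨_, ⟨l, rfl⟩, rfl⟩
        exact Ideal.subset_span (Or.inl ⟨l, rfl⟩)
      exact h4 (Ideal.mem_map_of_mem _ h2)
    exact hJmax.ne_top (Ideal.eq_top_of_isUnit_mem _ h3 hx)
  have hinfA : Infinite (ResidueField A) :=
    Infinite.of_injective (ResidueField.map (algebraMap R A))
      (ResidueField.map (algebraMap R A)).injective
  -- the dimension
  have hheight : J.height ≤ (n : ℕ∞) := by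
    have hmin : J ∈ (Ideal.span (Set.range XA)).minimalPrimes := by
      refine ⟨⟨hJmax.isPrime, Ideal.span_mono Set.subset_union_left⟩, ?_⟩
      rintro Q ⟨hQ, hXQ⟩ _
      exact hJle Q hQ (fun l => hXQ (Ideal.subset_span ⟨l, rfl⟩))
    refine (Ideal.height_le_spanRank_toENat_of_mem_minimalPrimes _ J hmin).trans ?_
    rw [Submodule.spanRank_toENat_eq_iInf_finset_card]
    have hsp : Submodule.span A ((Finset.univ.image XA : Finset A) : Set A)
        = Ideal.span (Set.range XA) := by
      rw [Finset.coe_image, Finset.coe_univ, Set.image_univ]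
    have hcard : (Finset.univ.image XA).card ≤ n := by
      refine Finset.card_image_le.trans ?_
      simp
    refine (iInf_le _ ⟨Finset.univ.image XA, hsp⟩).trans ?_
    exact_mod_cast hcard
  obtain ⟨d, hd, hdn⟩ : ∃ d : ℕ, ringKrullDim A = d ∧ d ≤ n := by
    rw [← IsLocalRing.maximalIdeal_height_eq_ringKrullDim, hmaxJ]
    have hne : J.height ≠ ⊤ := fun h => by
      rw [h] at hheight
      exact absurd hheight (by simp)
    refine ⟨J.height.toNat, ?_, ?_⟩
    · have h1 := ENat.natCast_toNat hne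
      conv_lhs => rw [← h1]
      rfl
    · have h1 := ENat.natCast_toNat hne
      rw [← h1] at hheight
      exact_mod_cast hheight
  obtain ⟨z, hz, s0, hs0⟩ := exists_reduction_max (A := A) d hd
  have hpow : ∀ j, maximalIdeal A ^ (s0 + j) ≤
      Ideal.span (Set.range z) ^ j * maximalIdeal A ^ s0 := by
    intro j
    induction j with
    | zero => simp
    | succ j ih =>
      calc maximalIdeal A ^ (s0 + (j + 1)) = maximalIdeal A ^ (s0 + j) * maximalIdeal A := by
            rw [← add_assoc, pow_succ]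
        _ ≤ (Ideal.span (Set.range z) ^ j * maximalIdeal A ^ s0) * maximalIdeal A :=
            Ideal.mul_mono_left ih
        _ = Ideal.span (Set.range z) ^ j * maximalIdeal A ^ (s0 + 1) := by
            rw [pow_succ]; ring
        _ ≤ Ideal.span (Set.range z) ^ j *
            (Ideal.span (Set.range z) * maximalIdeal A ^ s0) := Ideal.mul_mono_right hs0
        _ = _ := by rw [pow_succ]; ring
  refine ⟨fun l => if h : (l : ℕ) < d then z ⟨l, h⟩ else 0, s0, ?_, ?_⟩
  · intro l
    dsimp only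
    split_ifs with h
    · have h1 := hz ⟨l, h⟩
      rw [hmaxJ] at h1
      exact h1
    · exact Ideal.zero_mem _
  · intro j
    have h2 := hpow j
    rw [hmaxJ, add_comm] at h2
    refine h2.trans (Ideal.mul_le_left.trans (Ideal.pow_right_mono ?_ j))
    rw [Ideal.span_le]
    rintro _ ⟨i, rfl⟩
    refine Ideal.subset_span ⟨⟨i, lt_of_lt_of_le i.2 hdn⟩, ?_⟩
    dsimp only
    rw [dif_pos i.2]

theorem reduction_core {R C : Type u} [CommRing R] [IsLocalRing R] [IsNoetherianRing R]
    [Infinite (ResidueField R)] [CommRing C] [Algebra R C] [Algebra.IsIntegral R C]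
    (hinj : Function.Injective (algebraMap R C)) {n : ℕ} (X : Fin n → R)
    (hX : Ideal.span (Set.range X) = maximalIdeal R) {ι : Type} [Finite ι] (c : ι → C)
    (hc : ∀ i, ∃ M : ℕ, c i ^ M ∈ Ideal.span (Set.range fun l => algebraMap R C (X l))) :
    ∃ ξ : Fin n → C,
      (∀ l, ξ l ∈ Ideal.span ((Set.range fun l => algebraMap R C (X l)) ∪ Set.range c)) ∧
      ∃ s0 : ℕ, ∀ j : ℕ, ∀ α ∈ (Set.range fun l => algebraMap R C (X l)) ∪ Set.range c,
        α ^ (j + s0) ∈ Ideal.span (Set.range ξ) ^ j := by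
  classical
  have hCn : Nontrivial C := hinj.nontrivial
  set A := Algebra.adjoin R (Set.range c) with hA
  have hfin : Module.Finite R A := Algebra.finite_adjoin_of_finite_of_isIntegral
    (Set.finite_range c) (fun x _ => Algebra.IsIntegral.isIntegral x)
  have hnoeth : IsNoetherianRing A := IsNoetherianRing.of_finite R A
  have hintA : Algebra.IsIntegral R A := Algebra.IsIntegral.of_finite R A
  have hintC : Algebra.IsIntegral A C := Algebra.IsIntegral.tower_top R
  have hAinj : Function.Injective (algebraMap A C) := Subtype.val_injective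
  let cA : ι → A := fun i => ⟨c i, Algebra.subset_adjoin ⟨i, rfl⟩⟩
  let XA : Fin n → A := fun l => algebraMap R A (X l)
  -- primes of `A` containing the `X_l` contain the `c_i`
  have hcP : ∀ P : Ideal A, P.IsPrime → (∀ l, XA l ∈ P) → ∀ i, cA i ∈ P := by
    intro P hP hXP i
    obtain ⟨Q, -, hQp, hQ⟩ := Ideal.exists_ideal_over_prime_of_isIntegral P (⊥ : Ideal C) (by
      intro a ha
      have h1 : algebraMap A C a = 0 := by simpa using ha
      rw [hAinj (h1.trans (map_zero _).symm)]
      exact P.zero_mem)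
    obtain ⟨M, hM⟩ := hc i
    have h1 : Ideal.span (Set.range fun l => algebraMap R C (X l)) ≤ Q := by
      rw [Ideal.span_le]
      rintro _ ⟨l, rfl⟩
      have h2 := hXP l
      rw [← hQ] at h2
      exact h2
    have h3 : c i ∈ Q := hQp.mem_of_pow_mem M (h1 hM)
    rw [← hQ]
    exact h3
  set J : Ideal A := Ideal.span (Set.range XA ∪ Set.range cA) with hJ
  -- every element is congruent to a constant
  have hconst : ∀ a : A, ∃ x : R, a - algebraMap R A x ∈ J := by
    rintro ⟨a, ha⟩
    induction ha using Algebra.adjoin_induction with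
    | mem y hy =>
      obtain ⟨i, rfl⟩ := hy
      refine ⟨0, ?_⟩
      rw [map_zero, sub_zero]
      exact Ideal.subset_span (Or.inr ⟨i, rfl⟩)
    | algebraMap x =>
      refine ⟨x, ?_⟩
      have : (⟨algebraMap R C x, by exact Subalgebra.algebraMap_mem _ x⟩ : A) - algebraMap R A x
          = 0 := by
        ext
        simp
      rw [this]
      exact J.zero_mem
    | add y z hy hz ihy ihz =>
      obtain ⟨x1, h1⟩ := ihy
      obtain ⟨x2, h2⟩ := ihz
      refine ⟨x1 + x2, ?_⟩
      have := J.add_mem h1 h2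
      rw [map_add]
      convert this using 1
      ext
      simp
      ring
    | mul y z hy hz ihy ihz =>
      obtain ⟨x1, h1⟩ := ihy
      obtain ⟨x2, h2⟩ := ihz
      refine ⟨x1 * x2, ?_⟩
      have := J.add_mem (J.mul_mem_right (⟨z, hz⟩ : A) h1)
        (J.mul_mem_left (algebraMap R A x1) h2)
      rw [map_mul]
      convert this using 1
      ext
      simp
      ring
  obtain ⟨z, s0, hz, hpow⟩ := core_local X hX cA hcP hconst
  refine ⟨fun l => (z l : C), ?_, s0, ?_⟩
  · intro l
    have h2 := Ideal.mem_map_of_mem (algebraMap A C) (hz l)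
    rw [Ideal.map_span] at h2
    refine Ideal.span_mono ?_ h2
    rintro _ ⟨_, (⟨m, rfl⟩ | ⟨i, rfl⟩), rfl⟩
    · exact Or.inl ⟨m, rfl⟩
    · exact Or.inr ⟨i, rfl⟩
  · intro j α hα
    obtain ⟨a, haJ, rfl⟩ : ∃ a : A, a ∈ J ∧ algebraMap A C a = α := by
      rcases hα with ⟨l, rfl⟩ | ⟨i, rfl⟩
      · exact ⟨XA l, Ideal.subset_span (Or.inl ⟨l, rfl⟩), rfl⟩
      · exact ⟨cA i, Ideal.subset_span (Or.inr ⟨i, rfl⟩), rfl⟩
    have h1 : a ^ (j + s0) ∈ Ideal.span (Set.range z) ^ j :=
      hpow j (Ideal.pow_mem_pow haJ _)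
    have h3 := Ideal.mem_map_of_mem (algebraMap A C) h1
    rw [map_pow, Ideal.map_pow, Ideal.map_span] at h3
    refine Ideal.pow_right_mono (Ideal.span_mono ?_) j h3
    rintro _ ⟨_, ⟨i, rfl⟩, rfl⟩
    exact ⟨i, rfl⟩

section

variable (p : ℕ) [Fact p.Prime]

theorem mem_span_rt {C : Type u} [CommRing C] [CharP C p] [PerfectRing C p] {n : ℕ} (e m : ℕ)
    (ξ : Fin n → C) (α : C) (h : α ^ p ^ e ∈ Ideal.span (Set.range ξ) ^ m) :
    α ∈ Ideal.span (Set.range fun l => rt p e (ξ l)) ^ m := by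
  have h1 := Ideal.mem_map_of_mem (iterateFrobeniusEquiv C p e).symm h
  rw [← iterateFrobeniusEquiv_def, RingEquiv.symm_apply_apply, Ideal.map_pow,
    Ideal.map_span] at h1
  refine Ideal.pow_right_mono (Ideal.span_mono ?_) m h1
  rintro _ ⟨_, ⟨l, rfl⟩, rfl⟩
  exact ⟨l, rfl⟩

theorem rt_add_pow {C : Type u} [CommRing C] [CharP C p] [PerfectRing C p] (b v : ℕ) (x : C) :
    rt p (v + b) x ^ p ^ v = rt p b x := by
  unfold rt
  rw [iterateFrobeniusEquiv_symm_add_apply, ← iterateFrobeniusEquiv_def,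
    RingEquiv.apply_symm_apply]

theorem of_injective (k : Type u) [Field k] [CharP k p] (r : ℕ) :
    Function.Injective (PerfectClosure.of (R0 k r) p) := by
  intro x y h
  rw [PerfectClosure.of_apply, PerfectClosure.of_apply, PerfectClosure.eq_iff] at h
  simpa using h

theorem of_isIntegral (k : Type u) [Field k] [CharP k p] (r : ℕ) :
    (PerfectClosure.of (R0 k r) p).IsIntegral := by
  intro y
  obtain ⟨⟨n, x⟩, rfl⟩ := PerfectClosure.mk_surjective (R0 k r) p y
  let _ : Algebra (R0 k r) (Rp p k r) := (PerfectClosure.of (R0 k r) p).toAlgebra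
  have hpos : 0 < p ^ n := Nat.pow_pos (Fact.out : p.Prime).pos
  have h1 : (PerfectClosure.mk (R0 k r) p (n, x)) ^ p ^ n = algebraMap (R0 k r) (Rp p k r) x := by
    rw [← iterateFrobenius_def, coe_iterateFrobenius]
    exact PerfectClosure.iterate_frobenius_mk (R0 k r) p n x
  have h2 : IsIntegral (R0 k r) ((PerfectClosure.mk (R0 k r) p (n, x)) ^ p ^ n) := by
    rw [h1]
    exact isIntegral_algebraMap
  exact IsIntegral.of_pow hpos h2

theorem reduction_charP (k : Type u) [Field k] [Infinite k] [CharP k p] (r : ℕ)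
    (C : Type u) [CommRing C] [CharP C p] [PerfectRing C p] [Algebra (Rp p k r) C]
    (hinj : Function.Injective (algebraMap (Rp p k r) C)) [Algebra.IsIntegral (Rp p k r) C]
    {ι : Type} [Finite ι] (c : ι → C)
    (hc : ∀ i, ∃ M : ℕ, c i ^ M ∈
      Ideal.span (Set.range fun l => algebraMap (Rp p k r) C (xp p k r l))) :
    ∃ ξ : Fin (r + 1) → C,
      (∀ l, ξ l ∈ Ideal.span
        ((Set.range fun l => algebraMap (Rp p k r) C (xp p k r l)) ∪ Set.range c)) ∧
      ∀ b : ℕ, ∀ α ∈ (Set.range fun l => algebraMap (Rp p k r) C (xp p k r l)) ∪ Set.range c,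
        α ∈ Ideal.span (Set.range fun l => rt p b (ξ l)) ^ (p ^ b - (r + 1) - 1) := by
  let _ : Algebra (R0 k r) C :=
    ((algebraMap (Rp p k r) C).comp (PerfectClosure.of (R0 k r) p)).toAlgebra
  have hinj' : Function.Injective (algebraMap (R0 k r) C) :=
    hinj.comp (of_injective p k r)
  have : Algebra.IsIntegral (R0 k r) C := ⟨fun y => RingHom.IsIntegral.trans _ _
    (of_isIntegral p k r) (algebraMap_isIntegral_iff.mpr inferInstance) y⟩
  have : Infinite (ResidueField (R0 k r)) :=
    Infinite.of_injective ((residue (R0 k r)).comp (MvPowerSeries.C : k →+* R0 k r))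
      (RingHom.injective _)
  have hX : Ideal.span (Set.range fun l : Fin (r + 1) => (MvPowerSeries.X l : R0 k r)) =
      maximalIdeal (R0 k r) := (CZ.maximalIdeal_eq).symm
  obtain ⟨ξ, h1, s0, h2⟩ := reduction_core hinj' (fun l => (MvPowerSeries.X l : R0 k r)) hX c hc
  refine ⟨ξ, h1, ?_⟩
  intro b α hα
  obtain ⟨v, hv⟩ : ∃ v : ℕ, s0 ≤ p ^ v :=
    ⟨s0, (Nat.lt_pow_self (Fact.out : p.Prime).one_lt).le⟩
  have hw : 1 ≤ p ^ v := Nat.pow_pos (Fact.out : p.Prime).pos
  have hb : 1 ≤ p ^ b := Nat.pow_pos (Fact.out : p.Prime).pos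
  have hpe : p ^ (v + b) = p ^ v * p ^ b := pow_add _ _ _
  have hle : s0 ≤ p ^ (v + b) := by
    rw [hpe]
    calc s0 ≤ p ^ v * 1 := by omega
      _ ≤ _ := Nat.mul_le_mul_left _ hb
  have h3 := h2 (p ^ (v + b) - s0) α hα
  rw [Nat.sub_add_cancel hle] at h3
  have h4 := mem_span_rt p _ _ ξ α h3
  rcases Nat.eq_zero_or_pos (p ^ b - (r + 1) - 1) with h0 | hpos
  · rw [h0, pow_zero, Ideal.one_eq_top]
    trivial
  · obtain ⟨j, hj⟩ : ∃ j, p ^ b - (r + 1) - 1 = j + 1 := ⟨p ^ b - (r + 1) - 1 - 1, by omega⟩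
    rw [hj]
    have hpb : p ^ b = j + (r + 1) + 2 := by omega
    have h5 := span_pow_round (fun l => rt p (v + b) (ξ l)) (p ^ v) hw Finset.univ j
      (p ^ (v + b) - s0) (by
        rw [hpe, hpb, Finset.card_univ, Fintype.card_fin]
        have h6 : (r + 1) * (p ^ v - 1) ≤ (r + 1) * p ^ v :=
          Nat.mul_le_mul_left _ (Nat.sub_le _ _)
        have h7 : p ^ v * (j + (r + 1) + 2) = p ^ v * j + (r + 1) * p ^ v + 2 * p ^ v := by
          ring
        omega)
    rw [Finset.coe_univ, Set.image_univ, Set.image_univ] at h5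
    have h6 := h5 h4
    have h7 : (fun i => rt p (v + b) (ξ i) ^ p ^ v) = fun l => rt p b (ξ l) := by
      funext l
      exact rt_add_pow p b v (ξ l)
    rw [h7] at h6
    exact h6

end

end Vale.Agent.P202.Mix
end

section

/-!
P202, mixed characteristic, M11: the reduction of `(p, u, a_j)` in `B/p^N`.
-/

namespace Vale.Agent.P202.Mix

open Polynomial TensorProduct

universe u

theorem te_mem_span_sup (p : ℕ) [Fact p.Prime] (C : Type u) [CommRing C] [CharP C p]
    [PerfectRing C p] (t : C) (T : Set C) (α : C) (hα : α ∈ Ideal.span T) :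
    te p C t α ∈ Ideal.span (te p C t '' T) ⊔ Ideal.span {(p : Bt p C t)} := by
  have h1 : redB_redHom p C t α ∈ (Ideal.span T).map (redB_redHom p C t) :=
    Ideal.mem_map_of_mem _ hα
  rw [Ideal.map_span] at h1
  have h2 : Ideal.span (redB_redHom p C t '' T) =
      (Ideal.span (te p C t '' T)).map (Ideal.Quotient.mk (Ideal.span {(p : Bt p C t)})) := by
    rw [Ideal.map_span, ← Set.image_comp]
    rfl
  rw [h2] at h1
  have h3 : Ideal.Quotient.mk (Ideal.span {(p : Bt p C t)}) (te p C t α) ∈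
      (Ideal.span (te p C t '' T)).map (Ideal.Quotient.mk (Ideal.span {(p : Bt p C t)})) := h1
  exact (Ideal.mem_quotient_iff_mem_sup).1 h3

/-- Nakayama: a nilpotent element in `J + (x²)` lies in `J`. -/
theorem mem_of_mem_sup_sq {R : Type*} [CommRing R] (J : Ideal R) (x : R) (hx : IsNilpotent x)
    (h : x ∈ J ⊔ Ideal.span {x ^ 2}) : x ∈ J := by
  obtain ⟨j, hj, y, hy, hxy⟩ := Submodule.mem_sup.1 h
  obtain ⟨c, rfl⟩ := Ideal.mem_span_singleton'.1 hy
  have h1 : IsUnit (1 - c * x) := by
    have : IsNilpotent (c * x) := (Commute.all c x).isNilpotent_mul_left hx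
    exact this.isUnit_one_sub
  have h2 : (1 - c * x) * x = j := by linear_combination -hxy
  rw [← h1.unit_spec] at h2
  have h3 : x = ↑h1.unit⁻¹ * j := by
    rw [← h2, ← mul_assoc, Units.inv_mul, one_mul]
  rw [h3]
  exact J.mul_mem_left _ hj

variable {p : ℕ} [Fact p.Prime] {k : Type u} [Field k] [CharP k p] {r : ℕ}
variable {Λ : Type u} [CommRing Λ] {u : Fin r → Λ} {ψ : Λ →+* WittVector p (Rp p k r)}
  {red : Λ →+* R0 k r ⧸ Ideal.span {(MvPowerSeries.X 0 : R0 k r)}}
variable {s D : ℕ} {F : Fin s → Λ[X]} {E : MvPolynomial (Fin s) Λ} {g : Λ} {I r0 : ℕ}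

/-- the roots are nilpotent modulo the variables. -/
theorem root_pow_mem (hb : IsBase p k r Λ u ψ red) (d : CData.{u} ψ (D := D) F E g I r0)
    (hFm : ∀ j, (F j).Monic) (hFD : ∀ j, (F j).natDegree = D)
    (hFc : ∀ j, ∀ i < D, (F j).coeff i ∈ Ideal.span (insert (p : Λ) (Set.range u)))
    (j : Fin s) (i : Fin D) :
    d.c j i ^ D ∈ Ideal.span (Set.range fun l => algebraMap (Rp p k r) d.C (xp p k r l)) := by
  set J : Ideal d.C := Ideal.span (Set.range fun l => algebraMap (Rp p k r) d.C (xp p k r l)) with hJ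
  obtain ⟨π, hπ, -, hk⟩ := exists_proj p d.C (tC p k r d.C)
  have htJ : Ideal.span {tC p k r d.C} ≤ J := by
    rw [Ideal.span_singleton_le_iff_mem]
    exact Ideal.subset_span ⟨0, rfl⟩
  let h : Bt p d.C (tC p k r d.C) →+* d.C ⧸ J := (Ideal.Quotient.factor htJ).comp π
  have hte : ∀ c, h (te p d.C (tC p k r d.C) c) = Ideal.Quotient.mk J c := by
    intro c
    change Ideal.Quotient.factor htJ (π (toB p d.C (tC p k r d.C) _)) = _
    rw [hπ, WittVector.teichmuller_coeff_zero]
    rfl
  have hp : h (p : Bt p d.C (tC p k r d.C)) = 0 := by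
    have h1 : π (p : Bt p d.C (tC p k r d.C)) = 0 := by
      have : (p : Bt p d.C (tC p k r d.C)) ∈ RingHom.ker π := by
        rw [hk]
        exact Ideal.mem_span_singleton_self _
      exact this
    change Ideal.Quotient.factor htJ (π _) = 0
    rw [h1, map_zero]
  have hker : Ideal.span (insert (p : Λ) (Set.range u)) ≤ RingHom.ker (h.comp (laB ψ d.C)) := by
    rw [Ideal.span_le]
    intro x hx
    rw [SetLike.mem_coe, RingHom.mem_ker, RingHom.comp_apply]
    rcases hx with rfl | ⟨l, rfl⟩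
    · rw [map_natCast, hp]
    · rw [laB_u hb, hte, Ideal.Quotient.eq_zero_iff_mem]
      exact Ideal.subset_span ⟨l.succ, rfl⟩
  have hmap : (F j).map (h.comp (laB ψ d.C)) = X ^ D := by
    ext n
    rw [coeff_map, coeff_X_pow]
    rcases lt_trichotomy n D with hn | hn | hn
    · rw [if_neg hn.ne]
      exact hker (hFc j n hn)
    · rw [if_pos hn, hn]
      have h1 := (hFm j).coeff_natDegree
      rw [hFD j] at h1
      rw [h1, map_one]
    · rw [if_neg hn.ne', coeff_eq_zero_of_natDegree_lt (by rw [hFD j]; exact hn), map_zero]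
  set t0 := te p d.C (tC p k r d.C) (d.c j i) with ht0
  have h2 : eval₂ (laB ψ d.C) t0 (F j) ∈ Ideal.span {(p : Bt p d.C (tC p k r d.C)) ^ (I + 1)} := by
    have h3 : eval₂ (laB ψ d.C) t0 (F j) = eval t0 ((F j).map (laB ψ d.C) -
        ∏ i, (X - C (te p d.C (tC p k r d.C) (d.c j i)))) := by
      rw [eval_sub, eval_map, eval_prod, Finset.prod_eq_zero (Finset.mem_univ i), sub_zero]
      rw [eval_sub, eval_X, eval_C, ← ht0, sub_self]
    rw [h3, eval_eq_sum]
    exact Ideal.sum_mem _ fun n _ => Ideal.mul_mem_right _ _ (d.split j n)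
  have h4 : h (eval₂ (laB ψ d.C) t0 (F j)) = 0 := by
    obtain ⟨y, hy⟩ := Ideal.mem_span_singleton'.1 h2
    rw [← hy, map_mul, map_pow, hp, zero_pow (Nat.succ_ne_zero I), mul_zero]
  rw [hom_eval₂, ← eval_map, hmap, eval_pow, eval_X, hte, ← map_pow,
    Ideal.Quotient.eq_zero_iff_mem] at h4
  exact h4

/-- the reduction in `B/p^N`. -/
theorem red_BN [Infinite k] (hb : IsBase p k r Λ u ψ red) (d : CData.{u} ψ (D := D) F E g I r0)
    (hFm : ∀ j, (F j).Monic) (hFD : ∀ j, (F j).natDegree = D)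
    (hFc : ∀ j, ∀ i < D, (F j).coeff i ∈ Ideal.span (insert (p : Λ) (Set.range u)))
    (N b : ℕ) (π : Fin s → Fin D) :
    ∃ ξ : Fin (r + 1) → d.C,
      (∀ j, teN ψ d.C N (d.c j (π j)) ∈
        Ideal.span (Set.range fun l => teN ψ d.C N (rt p b (ξ l))) ^
          (p ^ b - (r + 1) - 1 - (r + 1))) ∧
      ∀ l, teN ψ d.C N (rt p b (ξ l)) ^ p ^ b ∈
        Ideal.span (insert (p : BN ψ d.C N) ((Set.range fun i => algebraMap Λ (BN ψ d.C N) (u i)) ∪
          Set.range fun j => teN ψ d.C N (d.c j (π j)))) := by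
  have := d.integral
  obtain ⟨ξ, h1, h2⟩ := reduction_charP p k r d.C d.inj (fun j => d.c j (π j))
    (fun j => ⟨D, root_pow_mem hb d hFm hFD hFc j (π j)⟩)
  refine ⟨ξ, fun j => ?_, fun l => ?_⟩
  · set m := p ^ b - (r + 1) - 1 with hm
    set Z : Ideal (Bt p d.C (tC p k r d.C)) :=
      Ideal.span (Set.range fun l => te p d.C (tC p k r d.C) (rt p b (ξ l))) with hZ
    have hZm : Z.map (mkN ψ d.C N) = Ideal.span (Set.range fun l => teN ψ d.C N (rt p b (ξ l))) := by
      rw [hZ, Ideal.map_span, ← Set.range_comp]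
      rfl
    have e1 := te_mem_pow_sup p d.C (tC p k r d.C) (fun l => rt p b (ξ l)) m (d.c j (π j))
      (h2 b _ (Or.inr ⟨j, rfl⟩))
    have e2 := p_mem_pow_sup p d.C (tC p k r d.C) (fun l => rt p b (ξ l)) m
      (h2 b _ (Or.inl ⟨0, rfl⟩))
    have e3 := Ideal.mem_map_of_mem (mkN ψ d.C N) e2
    rw [Ideal.map_sup, Ideal.map_pow, ← hZ, hZm, Ideal.map_span, Set.image_singleton, map_natCast,
      map_pow, map_natCast] at e3
    have hnil : IsNilpotent (p : BN ψ d.C N) := by
      refine ⟨N, ?_⟩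
      have : mkN ψ d.C N ((p : Bt p d.C (tC p k r d.C)) ^ N) = 0 :=
        Ideal.Quotient.eq_zero_iff_mem.mpr (Ideal.mem_span_singleton_self _)
      rwa [map_pow, map_natCast] at this
    have e4 := mem_of_mem_sup_sq _ _ hnil e3
    have e5 := Ideal.mem_map_of_mem (mkN ψ d.C N) e1
    rw [Ideal.map_sup, Ideal.map_pow, ← hZ, hZm, Ideal.map_span, Set.image_singleton,
      map_natCast] at e5
    refine (show _ ≤ _ from sup_le (Ideal.pow_le_pow_right (Nat.sub_le _ _)) ?_ :
      _ ⊔ _ ≤ Ideal.span (Set.range fun l => teN ψ d.C N (rt p b (ξ l))) ^ (m - (r + 1))) e5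
    rw [Ideal.span_singleton_le_iff_mem]
    exact e4
  · have e1 : teN ψ d.C N (rt p b (ξ l)) ^ p ^ b = teN ψ d.C N (ξ l) := by
      rw [nm_teN_pow, nm_rt_pow]
    rw [e1]
    have e2 := te_mem_span_sup p d.C (tC p k r d.C) _ _ (h1 l)
    have e3 := Ideal.mem_map_of_mem (mkN ψ d.C N) e2
    rw [Ideal.map_sup, Ideal.map_span, Ideal.map_span, Set.image_singleton, map_natCast] at e3
    refine (show _ ≤ _ from sup_le ?_ ?_ : _ ⊔ _ ≤
      Ideal.span (insert (p : BN ψ d.C N) ((Set.range fun i => algebraMap Λ (BN ψ d.C N) (u i)) ∪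
          Set.range fun j => teN ψ d.C N (d.c j (π j))))) e3
    · rw [Ideal.span_le]
      rintro _ ⟨_, ⟨α, hα, rfl⟩, rfl⟩
      rcases hα with ⟨i, rfl⟩ | ⟨j, rfl⟩
      · refine Fin.cases ?_ (fun i => ?_) i
        · refine Ideal.subset_span (Or.inl ?_)
          change mkN ψ d.C N (te p d.C (tC p k r d.C) (tC p k r d.C)) = _
          rw [te_t, map_natCast]
        · refine Ideal.subset_span (Or.inr (Or.inl ⟨i, ?_⟩))
          change mkN ψ d.C N (laB ψ d.C (u i)) = _
          rw [laB_u hb]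
      · exact Ideal.subset_span (Or.inr (Or.inr ⟨j, rfl⟩))
    · rw [Ideal.span_singleton_le_iff_mem]
      exact Ideal.subset_span (Set.mem_insert _ _)

/-- the fields `hz`, `hz'` of the package. -/
theorem exists_z [Infinite k] (hb : IsBase p k r Λ u ψ red)
    {A : Type u} [CommRing A] [Algebra Λ A] {a : Fin s → A}
    (d : CData.{u} ψ (D := D) F E g I r0)
    (hFm : ∀ j, (F j).Monic) (hFD : ∀ j, (F j).natDegree = D)
    (hFc : ∀ j, ∀ i < D, (F j).coeff i ∈ Ideal.span (insert (p : Λ) (Set.range u)))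
    (hp : (p : A) ∈ Ideal.span (Set.range a))
    (hu : ∀ i, algebraMap Λ A (u i) ∈ Ideal.span (Set.range a))
    (N b : ℕ) (π : Fin s → Fin D) :
    ∃ ζ : Fin (r + 1) → BN ψ d.C N, ∀ {Q : Type u} [CommRing Q] (φ : A ⊗[Λ] BN ψ d.C N →+* Q)
      (_ : ∀ j, φ (a j ⊗ₜ 1) = φ (1 ⊗ₜ teN ψ d.C N (d.c j (π j)))),
      (Ideal.span (Set.range a)).map (algebraMap A (A ⊗[Λ] BN ψ d.C N)) ≤
        Ideal.span (Set.range fun l => (1 : A) ⊗ₜ[Λ] ζ l) ^
          (p ^ b - (r + 1) - 1 - (r + 1)) ⊔ RingHom.ker φ ∧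
      ∀ l, ((1 : A) ⊗ₜ[Λ] ζ l) ^ p ^ b ∈
        (Ideal.span (Set.range a)).map (algebraMap A (A ⊗[Λ] BN ψ d.C N)) ⊔ RingHom.ker φ := by
  obtain ⟨ξ, h1, h2⟩ := red_BN hb d hFm hFD hFc N b π
  set iB : BN ψ d.C N →+* A ⊗[Λ] BN ψ d.C N :=
    (Algebra.TensorProduct.includeRight (R := Λ) (A := A) (B := BN ψ d.C N)).toRingHom with hiB
  have hiBa : ∀ y, iB y = 1 ⊗ₜ y := fun y => rfl
  have hA : ∀ y : A, algebraMap A (A ⊗[Λ] BN ψ d.C N) y = y ⊗ₜ 1 := fun y => rfl
  have hΛ : ∀ l : Λ, iB (algebraMap Λ (BN ψ d.C N) l) =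
      algebraMap A (A ⊗[Λ] BN ψ d.C N) (algebraMap Λ A l) := by
    intro l
    rw [hiBa, hA]
    exact (Algebra.TensorProduct.tmul_one_eq_one_tmul l).symm
  refine ⟨fun l => teN ψ d.C N (rt p b (ξ l)), fun {Q} _ φ hφ => ?_⟩
  have hk : ∀ j, a j ⊗ₜ[Λ] (1 : BN ψ d.C N) - 1 ⊗ₜ teN ψ d.C N (d.c j (π j)) ∈ RingHom.ker φ := by
    intro j
    rw [RingHom.mem_ker, map_sub, hφ, sub_self]
  refine ⟨?_, fun l => ?_⟩
  · rw [Ideal.map_span, Ideal.span_le]
    rintro _ ⟨_, ⟨j, rfl⟩, rfl⟩
    have e1 := Ideal.mem_map_of_mem iB (h1 j)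
    rw [Ideal.map_pow, Ideal.map_span, ← Set.range_comp] at e1
    have e2 : algebraMap A (A ⊗[Λ] BN ψ d.C N) (a j) =
        iB (teN ψ d.C N (d.c j (π j))) +
          (a j ⊗ₜ[Λ] (1 : BN ψ d.C N) - 1 ⊗ₜ teN ψ d.C N (d.c j (π j))) := by
      rw [hA, hiBa]
      ring
    rw [SetLike.mem_coe, e2]
    exact Submodule.add_mem_sup e1 (hk j)
  · have e1 := Ideal.mem_map_of_mem iB (h2 l)
    rw [map_pow, Ideal.map_span] at e1
    refine (Ideal.span_le.2 ?_) e1
    rintro _ ⟨y, hy, rfl⟩
    rcases hy with rfl | ⟨i, rfl⟩ | ⟨j, rfl⟩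
    · refine Ideal.mem_sup_left ?_
      have e3 := Ideal.mem_map_of_mem (algebraMap A (A ⊗[Λ] BN ψ d.C N)) hp
      rw [map_natCast] at e3
      rw [map_natCast]
      exact e3
    · refine Ideal.mem_sup_left ?_
      have e3 := Ideal.mem_map_of_mem (algebraMap A (A ⊗[Λ] BN ψ d.C N)) (hu i)
      change iB (algebraMap Λ (BN ψ d.C N) (u i)) ∈ _
      rw [hΛ]
      exact e3
    · have e3 : iB (teN ψ d.C N (d.c j (π j))) = algebraMap A (A ⊗[Λ] BN ψ d.C N) (a j) +
          -(a j ⊗ₜ[Λ] (1 : BN ψ d.C N) - 1 ⊗ₜ teN ψ d.C N (d.c j (π j))) := by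
        rw [hA, hiBa]
        ring
      change iB (teN ψ d.C N (d.c j (π j))) ∈ _
      rw [e3]
      exact Submodule.add_mem_sup (Ideal.mem_map_of_mem _ (Ideal.subset_span ⟨j, rfl⟩))
        (neg_mem (hk j))

end Vale.Agent.P202.Mix
end

section

/-!
P202, mixed characteristic, M11b: base change of the package along a flat homomorphism.
-/

namespace Vale.Agent.P202.Mix

open TensorProduct

universe u

/-- colon ideals and flat base change, for ring homomorphisms. -/
theorem colon_flat_hom {E E' : Type u} [CommRing E] [CommRing E'] (f : E →+* E') (hf : f.Flat)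
    (K K' : Ideal E) (a h : E) (H : ∀ x, a * x ∈ K → h * x ∈ K') (x : E')
    (hx : f a * x ∈ K.map f) : f h * x ∈ K'.map f := by
  let _ : Algebra E E' := f.toAlgebra
  have : Module.Flat E E' := hf
  exact colon_flat K K' a h H x hx

theorem flat_includeRight {A : Type u} [CommRing A] (S E : Type u) [CommRing S] [Algebra A S]
    [CommRing E] [Algebra A E] [Module.Flat A S] :
    ((Algebra.TensorProduct.includeRight (R := A) (A := S) (B := E)).toRingHom).Flat := by
  have h1 : (algebraMap E (E ⊗[A] S)).Flat := RingHom.flat_algebraMap_iff.mpr inferInstance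
  have h2 : ((Algebra.TensorProduct.comm A E S).toRingEquiv.toRingHom).Flat :=
    RingHom.Flat.of_bijective (Algebra.TensorProduct.comm A E S).bijective
  have h3 := RingHom.Flat.comp h1 h2
  have h4 : (Algebra.TensorProduct.includeRight (R := A) (A := S) (B := E)).toRingHom =
      ((Algebra.TensorProduct.comm A E S).toRingEquiv.toRingHom).comp
        (algebraMap E (E ⊗[A] S)) := by
    ext x
    rfl
  rw [h4]
  exact h3

/-- M11b: base change of the package along a flat `A → S`. -/
theorem apkg_baseChange {A : Type u} [CommRing A] {m : Ideal A} {n : ℕ} {x : Fin n → A}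
    {P : Type} [Fintype P] {g0 g1 : A} {p w w' N : ℕ} {E : Type u} [CommRing E] [Algebra A E]
    (Pk : APkg p m x P g0 g1 w w' N E) (S : Type u) [CommRing S] [Algebra A S] [Module.Flat A S] :
    ∃ Q : APkg (A := S) p (m.map (algebraMap A S)) (fun i => algebraMap A S (x i)) P
      (algebraMap A S g0) (algebraMap A S g1) w w' N (S ⊗[A] E),
      (∀ π, Q.h π = 1 ⊗ₜ Pk.h π) ∧ (∀ π l, Q.z π l = 1 ⊗ₜ Pk.z π l) ∧
      (∀ π, Q.K π = (Pk.K π).map (Algebra.TensorProduct.includeRight (R := A) (A := S) (B := E))) := by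
  set f : E →+* S ⊗[A] E :=
    (Algebra.TensorProduct.includeRight (R := A) (A := S) (B := E)).toRingHom with hf
  have hfl : f.Flat := flat_includeRight S E
  have hfa : ∀ y : E, (1 : S) ⊗ₜ[A] y = f y := fun y => rfl
  have hA : ∀ y : A, algebraMap S (S ⊗[A] E) (algebraMap A S y) = f (algebraMap A E y) := by
    intro y
    rw [hf]
    change (algebraMap A S y) ⊗ₜ[A] (1 : E) = (1 : S) ⊗ₜ[A] algebraMap A E y
    rw [Algebra.algebraMap_eq_smul_one, Algebra.algebraMap_eq_smul_one, smul_tmul]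
  have hmap : ∀ I : Ideal A, (I.map (algebraMap A S)).map (algebraMap S (S ⊗[A] E)) =
      (I.map (algebraMap A E)).map f := by
    intro I
    rw [Ideal.map_map, Ideal.map_map]
    congr 1
    ext y
    exact hA y
  have hK : ∀ K : Ideal E, K.map (Algebra.TensorProduct.includeRight (R := A) (A := S) (B := E)) =
      K.map f := fun K => rfl
  have hp : ((p : S) : S) = algebraMap A S (p : A) := by rw [map_natCast]
  refine ⟨{
    K := fun π => (Pk.K π).map f
    h := fun π => f (Pk.h π)
    z := fun π l => f (Pk.z π l)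
    η := fun π => f (Pk.η π)
    θ := fun π => f (Pk.θ π)
    hη := ?_
    hη' := ?_
    hθ := ?_
    hθ' := ?_
    hz := ?_
    hz' := ?_
    hp := ?_
    regp := ?_
    regu := ?_ }, ?_, ?_, ?_⟩
  · intro π y hy
    induction hy using Submodule.span_induction with
    | mem y hy =>
      obtain ⟨z, hz, rfl⟩ := hy
      rw [← map_mul, Pk.hη π z hz, map_zero]
    | zero => rw [zero_mul]
    | add a b _ _ ha hb => rw [add_mul, ha, hb, add_zero]
    | smul c a _ ha => rw [smul_eq_mul, mul_assoc, ha, mul_zero]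
  · rw [hA]
    have h1 := Ideal.mem_map_of_mem f Pk.hη'
    rw [Ideal.map_span, ← Set.range_comp] at h1
    exact h1
  · intro π π' h
    exact Ideal.mem_map_of_mem f (Pk.hθ π π' h)
  · intro π
    rw [hA, ← map_sub]
    exact Ideal.mem_map_of_mem f (Pk.hθ' π)
  · intro π
    rw [hmap]
    refine (Ideal.map_mono (Pk.hz π)).trans ?_
    rw [Ideal.map_sup, Ideal.map_pow, Ideal.map_span, ← Set.range_comp]
    exact le_rfl
  · intro π l
    rw [hmap, ← Ideal.map_sup, ← map_pow]
    exact Ideal.mem_map_of_mem f (Pk.hz' π l)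
  · rw [hp, hA, ← map_pow, Pk.hp, map_zero]
  · intro π y hy
    rw [hp, hA] at hy ⊢
    have h1 := colon_flat_hom f hfl _ _ _ _ (Pk.regp π) y hy
    rw [Ideal.map_sup, Ideal.map_span, Set.image_singleton, map_pow] at h1
    exact h1
  · intro π i hi y hy
    have himg : (fun l => algebraMap S (S ⊗[A] E) (algebraMap A S (x l))) '' {l | l < i} =
        f '' ((fun l => algebraMap A E (x l)) '' {l | l < i}) := by
      rw [Set.image_image]
      exact Set.image_congr fun l _ => hA (x l)
    rw [hA, himg, ← Ideal.map_span, ← Ideal.map_sup] at hy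
    rw [himg, ← Ideal.map_span, ← Ideal.map_sup]
    exact colon_flat_hom f hfl _ _ _ _ (Pk.regu π i hi) y hy
  · intro π
    rfl
  · intro π l
    rfl
  · intro π
    rfl

end Vale.Agent.P202.Mix
end

section

/-!
P202 MIX, task M12, part B: length estimates, towers, a universal property (helper677).
-/

namespace Vale.Agent.P202.Mix.UL

open TensorProduct IsLocalRing
open scoped ENNReal

universe u v w

section len

variable {S : Type u} [CommRing S] [IsLocalRing S] {N : Type v} [AddCommGroup N] [Module S N]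

theorem length_residue : Module.length S (S ⧸ maximalIdeal S) = 1 := by
  have h : IsSimpleModule S (S ⧸ maximalIdeal S) :=
    isSimpleModule_iff_isCoatom.mpr (maximalIdeal.isMaximal S).out
  exact Module.length_eq_one S _

/-- lower bound by linearly independent elements. -/
theorem length_ge {J : Type*} [Fintype J] (w : J → N) (Y : Submodule S N) (hw : ∀ j, w j ∈ Y)
    (h : ∀ c : J → S, ∑ j, c j • w j = 0 → ∀ j, c j ∈ maximalIdeal S) :
    (Fintype.card J : ℕ∞) ≤ Module.length S Y := by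
  let φ : (J → S) →ₗ[S] N := ∑ j, (LinearMap.toSpanSingleton S N (w j)) ∘ₗ LinearMap.proj j
  have hφ : ∀ c, φ c = ∑ j, c j • w j := by
    intro c
    simp [φ]
  let ψ : (J → S) →ₗ[S] (J → S ⧸ maximalIdeal S) :=
    LinearMap.pi fun j => (maximalIdeal S).mkQ ∘ₗ LinearMap.proj j
  have hψs : Function.Surjective ψ := by
    intro c
    choose y hy using fun j => (maximalIdeal S).mkQ_surjective (c j)
    exact ⟨y, funext hy⟩
  have hker : LinearMap.ker φ ≤ LinearMap.ker ψ := by
    intro c hc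
    rw [LinearMap.mem_ker, hφ] at hc
    rw [LinearMap.mem_ker]
    funext j
    exact (Submodule.Quotient.mk_eq_zero _).mpr (h c hc j)
  have hle : LinearMap.range φ ≤ Y := by
    rintro _ ⟨c, rfl⟩
    rw [hφ]
    exact sum_mem fun j _ => Y.smul_mem _ (hw j)
  have e1 := φ.quotKerEquivRange.length_eq
  have e2 := (ψ.quotKerEquivOfSurjective hψs).length_eq
  have h3 : Module.length S (J → S ⧸ maximalIdeal S) ≤ Module.length S (LinearMap.range φ) := by
    rw [← e1, ← e2]
    exact Module.length_le_of_surjective (Submodule.factor hker) (Submodule.factor_surjective hker)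
  rw [Module.length_pi_of_fintype, Finset.sum_const, Finset.card_univ, length_residue,
    nsmul_eq_mul, mul_one] at h3
  exact h3.trans (len_mono hle)

/-- upper bound by generators. -/
theorem length_le (hN : ∀ s ∈ maximalIdeal S, ∀ x : N, s • x = 0) {J : Type*} [Fintype J]
    (g : J → N) (Y : Submodule S N) (hY : Y ≤ Submodule.span S (Set.range g)) :
    Module.length S Y ≤ Fintype.card J := by
  classical
  let f : (J → S ⧸ maximalIdeal S) →ₗ[S] N := ∑ j, ((maximalIdeal S).liftQ
    (LinearMap.toSpanSingleton S N (g j)) (fun a ha => by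
      rw [LinearMap.mem_ker, LinearMap.toSpanSingleton_apply]
      exact hN a ha _)) ∘ₗ LinearMap.proj j
  have hf : ∀ z, f z = ∑ j, ((maximalIdeal S).liftQ (LinearMap.toSpanSingleton S N (g j))
    (fun a ha => by
      rw [LinearMap.mem_ker, LinearMap.toSpanSingleton_apply]
      exact hN a ha _)) (z j) := by
    intro z
    simp [f]
  have hle : Y ≤ LinearMap.range f := by
    refine hY.trans (Submodule.span_le.mpr ?_)
    rintro _ ⟨j, rfl⟩
    refine ⟨Pi.single j (Ideal.Quotient.mk _ 1), ?_⟩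
    rw [hf, Finset.sum_eq_single j]
    · rw [Pi.single_eq_same]
      exact one_smul S (g j)
    · intro b _ hb
      rw [Pi.single_eq_of_ne hb, map_zero]
    · intro h'
      exact absurd (Finset.mem_univ _) h'
  refine (len_mono hle).trans ((Module.length_le_of_surjective f.rangeRestrict
    f.surjective_rangeRestrict).trans (le_of_eq ?_))
  rw [Module.length_pi_of_fintype, Finset.sum_const, Finset.card_univ, length_residue,
    nsmul_eq_mul, mul_one]

end len

section tower

variable {S : Type u} [CommRing S] [IsLocalRing S] {R : Type v} [CommRing R] [Algebra S R]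
  {I : Type*} [Preorder I] [IsDirectedOrder I] (T : Tower S R I)
  {N : Type w} [AddCommGroup N] [Module S N] [Module R N] [IsScalarTower S R N]

omit [IsDirectedOrder I] in
/-- the normalized length of a module generated by `m` elements over the algebra of the tower. -/
theorem nlen_le (hN : ∀ s ∈ maximalIdeal S, ∀ x : N, s • x = 0) (i0 : I) (h0 : ∀ i, i0 ≤ i)
    (hb : T.sub i0 = ⊥) (hr : T.rank i0 = 1) {m : ℕ} (v : Fin m → N) (i : I) :
    T.nlen i (Submodule.span S (Set.range v)) ≤ m := by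
  obtain ⟨n, e, hn, he, hg⟩ := T.gen i0 i (h0 i)
  rw [hr, mul_one] at hn
  have h1 : ext (T.sub i) (Submodule.span S (Set.range v)) ≤
      Submodule.span S (Set.range fun x : Fin n × Fin m => e x.1 • v x.2) := by
    refine ext_le fun b hb' x hx => ?_
    obtain ⟨c, hc, rfl⟩ := hg b hb'
    have hc' : ∀ k, ∃ s : S, algebraMap S R s = c k := fun k => by
      have := hc k
      rwa [hb, Algebra.mem_bot] at this
    choose s hs using hc'
    induction hx using Submodule.span_induction with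
    | mem x hx =>
      obtain ⟨j, rfl⟩ := hx
      rw [Finset.sum_smul]
      refine sum_mem fun k _ => ?_
      rw [← hs k, mul_comm, mul_smul, algebraMap_smul]
      exact Submodule.smul_mem _ _ (Submodule.subset_span ⟨(k, j), rfl⟩)
    | zero => rw [smul_zero]; exact zero_mem _
    | add x y _ _ hx hy => rw [smul_add]; exact add_mem hx hy
    | smul a x _ hx =>
      rw [← algebraMap_smul R a x, smul_comm, algebraMap_smul]
      exact Submodule.smul_mem _ _ hx
  have h2 : T.len i (Submodule.span S (Set.range v)) ≤ (n * m : ℕ) := by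
    have := length_le hN _ _ h1
    rwa [Fintype.card_prod, Fintype.card_fin, Fintype.card_fin] at this
  rw [Tower.nlen, ← hn]
  have h3 : ((T.len i (Submodule.span S (Set.range v)) : ℕ∞) : ENNReal) ≤ ((n * m : ℕ) : ENNReal) := by
    have := (ENat.toENNReal_le).mpr h2
    rwa [ENat.toENNReal_coe] at this
  have hn0 : (n : ENNReal) ≠ 0 := by
    rw [hn]
    exact T.rank_ne_zero i
  rw [ENNReal.div_le_iff hn0 (ENNReal.natCast_ne_top n)]
  refine h3.trans (le_of_eq ?_)
  rw [Nat.cast_mul, mul_comm]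

/-- upper bound for `lam`. -/
theorem lam_le_of_cover (hN : ∀ s ∈ maximalIdeal S, ∀ x : N, s • x = 0) (i0 : I)
    (h0 : ∀ i, i0 ≤ i) (hb : T.sub i0 = ⊥) (hr : T.rank i0 = 1) (m : ℕ)
    (H : ∀ X : Submodule S N, X.FG → ∃ v : Fin m → N,
      X ≤ (Submodule.span R (Set.range v)).restrictScalars S) : T.lam N ≤ m := by
  refine T.lam_le fun X hX => ?_
  obtain ⟨v, hv⟩ := H X hX
  have key : ∀ x ∈ Submodule.span R (Set.range v), ∃ i,
      x ∈ ext (T.sub i) (Submodule.span S (Set.range v)) := by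
    intro x hx
    induction hx using Submodule.span_induction with
    | mem x hx => exact ⟨i0, le_ext _ _ (Submodule.subset_span hx)⟩
    | zero => exact ⟨i0, zero_mem _⟩
    | add x y _ _ hx hy =>
      obtain ⟨i, hi⟩ := hx
      obtain ⟨j, hj⟩ := hy
      obtain ⟨l, hil, hjl⟩ := exists_ge_ge i j
      exact ⟨l, add_mem (ext_mono (T.mono hil) le_rfl hi) (ext_mono (T.mono hjl) le_rfl hj)⟩
    | smul a x _ hx =>
      obtain ⟨i, hi⟩ := hx
      obtain ⟨j, hj⟩ := T.cover a
      obtain ⟨l, hil, hjl⟩ := exists_ge_ge i j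
      exact ⟨l, smul_ext_mem (T.mono hjl hj) (ext_mono (T.mono hil) le_rfl hi)⟩
  obtain ⟨i, hi⟩ : ∃ i, X ≤ ext (T.sub i) (Submodule.span S (Set.range v)) := by
    classical
    obtain ⟨s, rfl⟩ := hX
    have h1 : ∀ x ∈ s, ∃ i, x ∈ ext (T.sub i) (Submodule.span S (Set.range v)) :=
      fun x hx => key x (hv (Submodule.subset_span hx))
    have h2 : ∃ i, ∀ x ∈ s, x ∈ ext (T.sub i) (Submodule.span S (Set.range v)) := by
      clear hv
      induction s using Finset.induction_on with
      | empty => exact ⟨i0, by simp⟩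
      | insert x s _ ih =>
        obtain ⟨i, hi⟩ := ih fun y hy => h1 y (Finset.mem_insert_of_mem hy)
        obtain ⟨j, hj⟩ := h1 x (Finset.mem_insert_self x s)
        obtain ⟨l, hil, hjl⟩ := exists_ge_ge i j
        refine ⟨l, fun y hy => ?_⟩
        rcases Finset.mem_insert.mp hy with rfl | hy
        · exact ext_mono (T.mono hjl) le_rfl hj
        · exact ext_mono (T.mono hil) le_rfl (hi y hy)
    obtain ⟨i, hi⟩ := h2
    exact ⟨i, Submodule.span_le.mpr hi⟩
  refine (T.lamX_le_nlen i X).trans ?_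
  have h3 : T.nlen i X ≤ T.nlen i (Submodule.span S (Set.range v)) := by
    refine ENNReal.div_le_div_right ?_ _
    rw [ENat.toENNReal_le, Tower.len, Tower.len, ← ext_ext (le_refl (T.sub i))
      (Submodule.span S (Set.range v))]
    exact len_mono (ext_mono le_rfl hi)
  exact h3.trans (nlen_le T hN i0 h0 hb hr v i)

omit [IsDirectedOrder I] in
/-- lower bound for `lam`. -/
theorem one_le_lam (x : N) (H : ∀ i : I, ∃ (J : Type u) (_ : Fintype J) (w : J → R),
    Fintype.card J = T.rank i ∧ (∀ j, w j ∈ T.sub i) ∧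
      ∀ c : J → S, ∑ j, c j • w j • x = 0 → ∀ j, c j ∈ maximalIdeal S) : 1 ≤ T.lam N := by
  refine le_trans ?_ (T.lamX_le_lam (X := Submodule.span S {x}) (Submodule.fg_span_singleton x))
  refine le_iInf fun i => ?_
  obtain ⟨J, _, w, hJ, hw, h⟩ := H i
  have h1 := length_ge (fun j => w j • x) (ext (T.sub i) (Submodule.span S {x}))
    (fun j => smul_mem_ext (hw j) (Submodule.mem_span_singleton_self x)) h
  rw [Tower.nlen, ENNReal.le_div_iff_mul_le (Or.inl (T.rank_ne_zero i))
    (Or.inl (ENNReal.natCast_ne_top _)), one_mul, ← hJ]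
  have := (ENat.toENNReal_le).mpr h1
  rwa [ENat.toENNReal_coe] at this

end tower

section univ

theorem exists_theta {Λ A S B Q : Type*} [CommRing Λ] [CommRing A] [CommRing S] [CommRing B]
    [CommRing Q] [Algebra Λ A] [Algebra A S] [Algebra Λ B] (i1 : S →+* Q) (i2 : B →+* Q)
    (h : ∀ x : Λ, i1 (algebraMap A S (algebraMap Λ A x)) = i2 (algebraMap Λ B x)) :
    ∃ Θ : S ⊗[A] (A ⊗[Λ] B) →+* Q, (∀ s, Θ (algebraMap S _ s) = i1 s) ∧
      ∀ b, Θ (1 ⊗ₜ (1 ⊗ₜ b)) = i2 b := by
  let _ : Algebra A Q := (i1.comp (algebraMap A S)).toAlgebra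
  let _ : Algebra S Q := i1.toAlgebra
  let _ : Algebra Λ Q := ((i1.comp (algebraMap A S)).comp (algebraMap Λ A)).toAlgebra
  have t1 : IsScalarTower Λ A Q := IsScalarTower.of_algebraMap_eq fun _ => rfl
  have t2 : IsScalarTower A S Q := IsScalarTower.of_algebraMap_eq fun _ => rfl
  let j2 : B →ₐ[Λ] Q := { i2 with commutes' := fun x => (h x).symm }
  let g1 : A ⊗[Λ] B →ₐ[A] Q := Algebra.TensorProduct.lift (Algebra.ofId A Q) j2
    (fun _ _ => Commute.all _ _)
  let Θ : S ⊗[A] (A ⊗[Λ] B) →ₐ[S] Q := Algebra.TensorProduct.lift (Algebra.ofId S Q) g1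
    (fun _ _ => Commute.all _ _)
  refine ⟨Θ.toRingHom, fun s => ?_, fun b => ?_⟩
  · exact Θ.commutes s
  · change Θ (1 ⊗ₜ (1 ⊗ₜ b)) = i2 b
    rw [Algebra.TensorProduct.lift_tmul, map_one, one_mul, Algebra.TensorProduct.lift_tmul,
      map_one, one_mul]
    rfl

end univ

end Vale.Agent.P202.Mix.UL
end

section

/-!
P202, mixed characteristic, M4c-3: `B/p^N` is flat over `Λ/p^N` (M4c-1, M4c-2 are in VarReg).
-/

namespace Vale.Agent.P202.Mix

open Polynomial TensorProduct

universe u

section Gen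

/-- change of rings along a surjection. -/
theorem fb_rTensor {Λ R M M' B : Type u} [CommRing Λ] [CommRing R] [Algebra Λ R]
    (hs : Function.Surjective (algebraMap Λ R)) [AddCommGroup M] [AddCommGroup M'] [AddCommGroup B]
    [Module Λ M] [Module Λ M'] [Module Λ B] [Module R M] [Module R M'] [Module R B]
    [IsScalarTower Λ R M] [IsScalarTower Λ R M'] [IsScalarTower Λ R B] [Module.Flat R B]
    (f : M →ₗ[Λ] M') (hf : Function.Injective f) : Function.Injective (f.rTensor B) := by
  have hc1 : TensorProduct.CompatibleSMul Λ R M B := ⟨fun r x b => by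
    obtain ⟨l, rfl⟩ := hs r
    rw [algebraMap_smul, algebraMap_smul, TensorProduct.smul_tmul]⟩
  have hc2 : TensorProduct.CompatibleSMul Λ R M' B := ⟨fun r x b => by
    obtain ⟨l, rfl⟩ := hs r
    rw [algebraMap_smul, algebraMap_smul, TensorProduct.smul_tmul]⟩
  let g : M →ₗ[R] M' :=
    { toFun := f
      map_add' := map_add f
      map_smul' := fun r x => by
        obtain ⟨l, rfl⟩ := hs r
        simp [algebraMap_smul] }
  have h1 : Function.Injective (g.rTensor B) :=
    Module.Flat.rTensor_preserves_injective_linearMap g hf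
  let e : M ⊗[Λ] B ≃ₗ[Λ] M ⊗[R] B := TensorProduct.equivOfCompatibleSMul R Λ Λ M B
  let e' : M' ⊗[Λ] B ≃ₗ[Λ] M' ⊗[R] B := TensorProduct.equivOfCompatibleSMul R Λ Λ M' B
  have h2 : ∀ z, e' (f.rTensor B z) = g.rTensor B (e z) := by
    intro z
    induction z with
    | zero => simp
    | tmul x y => rfl
    | add x y hx hy => simp only [map_add, hx, hy]
  intro x y hxy
  apply e.injective
  apply h1
  rw [← h2, ← h2, hxy]

/-- base change of a flat homomorphism to the quotient by an element. -/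
theorem fb_flat_quot {R S : Type u} [CommRing R] [CommRing S] (g : R →+* S) (hg : g.Flat) (t : R)
    (ρ : R ⧸ Ideal.span {t} →+* S ⧸ Ideal.span {g t})
    (hρ : ∀ x, ρ (Ideal.Quotient.mk _ x) = Ideal.Quotient.mk _ (g x)) : ρ.Flat := by
  let := g.toAlgebra
  let := ρ.toAlgebra
  have hgf : Module.Flat R S := hg
  show Module.Flat (R ⧸ Ideal.span {t}) (S ⧸ Ideal.span {g t})
  refine Module.Flat.of_forall_isTrivialRelation ?_
  intro l f x h
  choose F hF using fun i => Ideal.Quotient.mk_surjective (f i)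
  choose X hX using fun i => Ideal.Quotient.mk_surjective (x i)
  have h1 : ∑ i, g (F i) * X i ∈ Ideal.span {g t} := by
    rw [← Ideal.Quotient.eq_zero_iff_mem, map_sum, ← h]
    refine Finset.sum_congr rfl fun i _ => ?_
    rw [map_mul, ← hρ, hF, hX]
    rfl
  rw [Ideal.mem_span_singleton'] at h1
  obtain ⟨c, hc⟩ := h1
  have h2 : ∑ i : Option (Fin l), (Option.elim i t F) • (Option.elim i (-c) X : S) = 0 := by
    rw [Fintype.sum_option]
    simp only [Option.elim_none, Option.elim_some]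
    have h3 : ∀ i, F i • X i = g (F i) * X i := fun i => rfl
    have h4 : t • (-c) = -(c * g t) := by
      rw [Algebra.smul_def]
      show g t * -c = _
      ring
    simp only [h3]
    rw [h4, hc]
    ring
  obtain ⟨m, a, y, hy, ha⟩ := Module.Flat.isTrivialRelation_of_sum_smul_eq_zero
    (R := R) (M := S) (ι := Option (Fin l)) (f := fun i => Option.elim i t F)
    (x := fun i => Option.elim i (-c) X) h2
  refine ⟨m, fun i j => Ideal.Quotient.mk _ (a (some i) j), fun j => Ideal.Quotient.mk _ (y j),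
    fun i => ?_, fun j => ?_⟩
  · have h5 : X i = ∑ j, a (some i) j • y j := hy (some i)
    rw [← hX i, h5, map_sum]
    refine Finset.sum_congr rfl fun j _ => ?_
    show Ideal.Quotient.mk _ (g (a (some i) j) * y j) = ρ (Ideal.Quotient.mk _ (a (some i) j)) *
      Ideal.Quotient.mk _ (y j)
    rw [hρ, map_mul]
  · have h6 := ha j
    rw [Fintype.sum_option] at h6
    simp only [Option.elim_none, Option.elim_some] at h6
    have h7 : ∑ i, F i * a (some i) j ∈ Ideal.span {t} := by
      rw [Ideal.mem_span_singleton']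
      exact ⟨-(a none j), by linear_combination -h6⟩
    rw [← Ideal.Quotient.eq_zero_iff_mem, map_sum] at h7
    rw [← h7]
    refine Finset.sum_congr rfl fun i _ => ?_
    rw [map_mul, hF]

/-- the equational criterion modulo `a`, from a flat homomorphism `Λ/a → B/a`. -/
theorem fb_gen {Λ B Q : Type u} [CommRing Λ] [CommRing B] [Algebra Λ B] [CommRing Q] (a : Λ)
    (q : B →+* Q) (hqs : Function.Surjective q) (hqk : ∀ z, q z = 0 → ∃ z', z = a • z')
    (hqp : ∀ z, q (a • z) = 0) (θ : Λ ⧸ Ideal.span {a} →+* Q) (hθ : θ.Flat)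
    (key : ∀ l, q (algebraMap Λ B l) = θ (Ideal.Quotient.mk _ l)) : FlatMod a 1 (0 : B) := by
  intro ι _ b m he
  obtain ⟨e, he⟩ := he
  let := θ.toAlgebra
  have hfl : Module.Flat (Λ ⧸ Ideal.span {a}) Q := hθ
  have hsm : ∀ (l : Λ) (z : B), (Ideal.Quotient.mk (Ideal.span {a}) l) • q z = q (l • z) := by
    intro l z
    rw [Algebra.smul_def (R := Λ), map_mul, key]
    rfl
  have h0 : ∑ i, (Ideal.Quotient.mk (Ideal.span {a}) (b i)) • q (m i) = 0 := by
    rw [Finset.sum_congr rfl fun i _ => hsm (b i) (m i), ← map_sum, he, pow_one, hqp]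
  have h00 := Module.Flat.isTrivialRelation_of_sum_smul_eq_zero (R := Λ ⧸ Ideal.span {a}) (M := Q)
    (f := fun i => Ideal.Quotient.mk (Ideal.span {a}) (b i)) (x := fun i => q (m i)) h0
  obtain ⟨κ, A, y, h1, h2⟩ := h00
  choose s hs using fun i j => Ideal.Quotient.mk_surjective (A i j)
  choose n hn using fun j => hqs (y j)
  have h3 : ∀ i, ∃ z, m i - ∑ j, s i j • n j = a • z := by
    intro i
    refine hqk _ ?_
    rw [map_sub, map_sum, sub_eq_zero]
    have h4 : q (m i) = ∑ j, A i j • y j := h1 i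
    rw [h4]
    refine Finset.sum_congr rfl fun j _ => ?_
    rw [← hsm, hs, hn]
  choose m' hm' using h3
  have h5 : ∀ j, ∃ c, ∑ i, b i * s i j = a * c := by
    intro j
    have h6 : ∑ i, b i * s i j ∈ Ideal.span {a} := by
      rw [← Ideal.Quotient.eq_zero_iff_mem, map_sum, ← h2 j]
      refine Finset.sum_congr rfl fun i _ => ?_
      rw [map_mul, hs]
    rw [Ideal.mem_span_singleton'] at h6
    obtain ⟨c, hc⟩ := h6
    exact ⟨c, by rw [← hc, mul_comm]⟩
  choose c hc using h5
  refine ⟨Fin κ, inferInstance, s, n, m', c, fun i => ?_, fun j => ?_⟩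
  · rw [pow_one, ← hm' i]
    abel
  · rw [pow_one]
    exact hc j

end Gen

variable {p : ℕ} [Fact p.Prime] {k : Type u} [Field k] [CharP k p] {r : ℕ}
variable {Λ : Type u} [CommRing Λ] {u : Fin r → Λ} {ψ : Λ →+* WittVector p (Rp p k r)}
  {red : Λ →+* R0 k r ⧸ Ideal.span {(MvPowerSeries.X 0 : R0 k r)}}

section M4c

/-- the projection `B/p^N → C/t`. -/
theorem fb_q {r0 : ℕ} (ψ : Λ →+* WittVector p (Rp p k r)) (d : PExt.{u} p k r r0) (N : ℕ)
    (hN : 1 ≤ N) : ∃ q : BN ψ d.C N →+* d.C ⧸ Ideal.span {tC p k r d.C},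
      Function.Surjective q ∧ (∀ z, q z = 0 → ∃ z', z = (p : Λ) • z') ∧
      (∀ z, q ((p : Λ) • z) = 0) ∧
      ∀ l : Λ, q (algebraMap Λ (BN ψ d.C N) l) =
        Ideal.Quotient.mk _ (algebraMap (Rp p k r) d.C ((ψ l).coeff 0)) := by
  obtain ⟨π, hπ, hπs, hπk⟩ := exists_proj p d.C (tC p k r d.C)
  have hπp : π (p : Bt p d.C (tC p k r d.C)) = 0 := by
    rw [← RingHom.mem_ker, hπk]
    exact Ideal.mem_span_singleton_self _
  obtain ⟨q, hq⟩ : ∃ q : BN ψ d.C N →+* d.C ⧸ Ideal.span {tC p k r d.C},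
      ∀ x, q (mkN ψ d.C N x) = π x :=
    ⟨Ideal.Quotient.lift _ π fun a ha => by
      rw [Ideal.mem_span_singleton'] at ha
      obtain ⟨c, rfl⟩ := ha
      rw [map_mul, map_pow, hπp, zero_pow (by omega), mul_zero],
      fun x => Ideal.Quotient.lift_mk _ _ _⟩
  refine ⟨q, fun z => ?_, fun z hz => ?_, fun z => ?_, fun l => ?_⟩
  · obtain ⟨x, rfl⟩ := hπs z
    exact ⟨mkN ψ d.C N x, hq x⟩
  · obtain ⟨x, rfl⟩ := mkN_surjective d.C N z
    rw [hq, ← RingHom.mem_ker, hπk, Ideal.mem_span_singleton'] at hz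
    obtain ⟨c, rfl⟩ := hz
    refine ⟨mkN ψ d.C N c, ?_⟩
    rw [Algebra.smul_def, map_natCast, map_mul, map_natCast, mul_comm]
  · rw [Algebra.smul_def, map_natCast, map_mul, map_natCast]
    have h1 : ((p : ℕ) : d.C ⧸ Ideal.span {tC p k r d.C}) = 0 := by
      rw [← map_natCast π, hπp]
    rw [h1, zero_mul]
  · have h3 : q (algebraMap Λ (BN ψ d.C N) l) = π (laB ψ d.C l) := hq _
    have h4 : π (laB ψ d.C l) = Ideal.Quotient.mk _
        ((WittVector.map (algebraMap (Rp p k r) d.C) (ψ l)).coeff 0) := hπ _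
    rw [h3, h4, WittVector.map_coeff]

/-- the flat homomorphism `R0/t → C/t`. -/
theorem fb_rho {r0 : ℕ} (d : PExt.{u} p k r r0) :
    ∃ ρ : R0 k r ⧸ Ideal.span {(MvPowerSeries.X 0 : R0 k r)} →+*
      d.C ⧸ Ideal.span {tC p k r d.C}, ρ.Flat ∧
      ∀ x, ρ (Ideal.Quotient.mk _ x) =
        Ideal.Quotient.mk _ (algebraMap (Rp p k r) d.C (PerfectClosure.of (R0 k r) p x)) := by
  obtain ⟨g, hg⟩ : ∃ g : R0 k r →+* d.C,
    g = (algebraMap (Rp p k r) d.C).comp (PerfectClosure.of (R0 k r) p) := ⟨_, rfl⟩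
  have hgf : g.Flat := by
    rw [hg]
    refine RingHom.Flat.comp ?_ ?_
    · exact flat_perfectClosure p k r
    · exact RingHom.flat_algebraMap_iff.2 d.flat
  have hg0 : g (MvPowerSeries.X 0) = tC p k r d.C := by rw [hg]; rfl
  have h1 : ∃ ρ : R0 k r ⧸ Ideal.span {(MvPowerSeries.X 0 : R0 k r)} →+*
      d.C ⧸ Ideal.span {g (MvPowerSeries.X 0)}, ρ.Flat ∧
      ∀ x, ρ (Ideal.Quotient.mk _ x) = Ideal.Quotient.mk _ (g x) := by
    obtain ⟨ρ, hρ⟩ : ∃ ρ : R0 k r ⧸ Ideal.span {(MvPowerSeries.X 0 : R0 k r)} →+*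
        d.C ⧸ Ideal.span {g (MvPowerSeries.X 0)},
        ∀ x, ρ (Ideal.Quotient.mk _ x) = Ideal.Quotient.mk _ (g x) :=
      ⟨Ideal.Quotient.lift _ ((Ideal.Quotient.mk _).comp g) fun a ha => by
        rw [Ideal.mem_span_singleton'] at ha
        obtain ⟨c, rfl⟩ := ha
        rw [RingHom.comp_apply, map_mul]
        exact Ideal.Quotient.eq_zero_iff_mem.2
          (Ideal.mul_mem_left _ _ (Ideal.mem_span_singleton_self _)),
        fun x => Ideal.Quotient.lift_mk _ _ _⟩
    exact ⟨ρ, fb_flat_quot g hgf (MvPowerSeries.X 0) ρ hρ, hρ⟩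
  rw [hg0] at h1
  obtain ⟨ρ, hρf, hρ⟩ := h1
  refine ⟨ρ, hρf, fun x => ?_⟩
  rw [hρ, hg]
  rfl

/-- the equational criterion modulo `p` for `B/p^N`. -/
theorem fb_flatMod_one {r0 : ℕ} (hb : IsBase p k r Λ u ψ red) (d : PExt.{u} p k r r0) (N : ℕ)
    (hN : 1 ≤ N) : FlatMod (p : Λ) 1 (0 : BN ψ d.C N) := by
  obtain ⟨q, hqs, hqk, hqp, hql⟩ := fb_q ψ d N hN
  obtain ⟨ρ, hρf, hρ⟩ := fb_rho d
  have hcomp := RingHom.Flat.comp hb.red_flat hρf
  have key : ∀ l : Λ, q (algebraMap Λ (BN ψ d.C N) l) = ρ (red l) := by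
    intro l
    obtain ⟨g', y, h1, h2⟩ := hb.red_coeff l
    rw [hql, h1, hρ, h2, map_add, map_mul, map_add, map_mul]
    have h5 : Ideal.Quotient.mk (Ideal.span {tC p k r d.C})
        (algebraMap (Rp p k r) d.C (xp p k r 0)) = 0 :=
      Ideal.Quotient.eq_zero_iff_mem.2 (Ideal.mem_span_singleton_self _)
    rw [h5, zero_mul, add_zero]
  exact fb_gen (p : Λ) q hqs hqk hqp _ hcomp key

/-- the equational criterion modulo `p^N` for `B/p^N`. -/
theorem fb_flatMod {r0 : ℕ} (hb : IsBase p k r Λ u ψ red) (d : PExt.{u} p k r r0) (N : ℕ)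
    (hN : 1 ≤ N) : FlatMod (p : Λ) N (0 : BN ψ d.C N) := by
  have h1 := fb_flatMod_one hb d N hN
  have htor : ∀ m : BN ψ d.C N, (p : Λ) • m = 0 → ∃ m' : BN ψ d.C N, m = (p : Λ) ^ (N - 1) • m' := by
    intro m hm
    rw [Algebra.smul_def, map_natCast] at hm
    have h2 := BN_p d N m hm
    rw [Ideal.mem_span_singleton'] at h2
    obtain ⟨c, hc⟩ := h2
    refine ⟨c, ?_⟩
    rw [Algebra.smul_def, map_pow, map_natCast, ← hc, mul_comm]
  have hk : ∀ j, j + 1 ≤ N → FlatMod (p : Λ) (j + 1) (0 : BN ψ d.C N) := by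
    intro j
    induction j with
    | zero => intro _; exact h1
    | succ j ih => intro hj; exact flatMod_succ _ N htor 0 h1 (j + 1) hj (ih (by omega))
  have := hk (N - 1) (by omega)
  rwa [Nat.sub_add_cancel hN] at this

/-- TASK M4c-3: `B/p^N` is flat over `Λ/p^N`, in the form that tensoring with `B/p^N` preserves
injections of `Λ`-modules killed by `p^N`. Proof: `flat_of_nilpotent` (M4a) for `R = Λ/p^N`,
`M = B/p^N`, `a = p`; `M/pM = C/t` is flat over `Λ/p` (`red_flat`, `C/t` flat over `R0/t` by base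
change, as `C` is flat over `Rp` and `Rp` over `R0` (M4b)); `(0 : p) = p^(N-1)` by M1. -/
theorem lTensor_BN_injective {r0 : ℕ} (hb : IsBase p k r Λ u ψ red) (d : PExt.{u} p k r r0) (N : ℕ)
    {M M' : Type u} [AddCommGroup M] [Module Λ M] [AddCommGroup M'] [Module Λ M']
    (f : M →ₗ[Λ] M') (hf : Function.Injective f) (hM' : ∀ m : M', (p : Λ) ^ N • m = 0) :
    Function.Injective (f.rTensor (BN ψ d.C N)) := by
  rcases Nat.eq_zero_or_pos N with hN | hN
  · subst hN
    have h1 : ∀ m : M, m = 0 := fun m => hf (by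
      rw [map_zero]
      have := hM' (f m)
      rwa [pow_zero, one_smul] at this)
    have h2 : ∀ z : M ⊗[Λ] BN ψ d.C 0, z = 0 := by
      intro z
      induction z with
      | zero => rfl
      | tmul x y => rw [h1 x, TensorProduct.zero_tmul]
      | add x y hx hy => rw [hx, hy, add_zero]
    intro x y _
    rw [h2 x, h2 y]
  have hM : ∀ m : M, (p : Λ) ^ N • m = 0 := fun m => hf (by rw [map_smul, hM', map_zero])
  have hBN : ∀ z : BN ψ d.C N, (p : Λ) ^ N • z = 0 := by
    intro z
    rw [Algebra.smul_def, map_pow, map_natCast]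
    have : ((p : ℕ) : BN ψ d.C N) ^ N = mkN ψ d.C N ((p : Bt p d.C (tC p k r d.C)) ^ N) := by
      rw [map_pow, map_natCast]
    rw [this, (mkN_eq_zero_iff d.C N).2 (Ideal.mem_span_singleton_self _), zero_mul]
  have tor : ∀ (X : Type u) [AddCommGroup X] [Module Λ X], (∀ m : X, (p : Λ) ^ N • m = 0) →
      Module.IsTorsionBySet Λ X (Ideal.span {(p : Λ) ^ N} : Ideal Λ) := by
    intro X _ _ hX m a
    obtain ⟨a, ha⟩ := a
    rw [SetLike.mem_coe, Ideal.mem_span_singleton'] at ha
    obtain ⟨c, rfl⟩ := ha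
    show (c * (p : Λ) ^ N) • m = 0
    rw [mul_smul, hX, smul_zero]
  let i1 : Module (Λ ⧸ Ideal.span {(p : Λ) ^ N}) M := (tor M hM).module
  let i2 : Module (Λ ⧸ Ideal.span {(p : Λ) ^ N}) M' := (tor M' hM').module
  let i3 : Module (Λ ⧸ Ideal.span {(p : Λ) ^ N}) (BN ψ d.C N) := (tor _ hBN).module
  have hsmul : ∀ (a : Λ) (z : BN ψ d.C N),
      (Ideal.Quotient.mk (Ideal.span {(p : Λ) ^ N}) a) • z = a • z := fun a z => rfl
  have t1 : IsScalarTower Λ (Λ ⧸ Ideal.span {(p : Λ) ^ N}) M := (tor M hM).isScalarTower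
  have t2 : IsScalarTower Λ (Λ ⧸ Ideal.span {(p : Λ) ^ N}) M' := (tor M' hM').isScalarTower
  have t3 : IsScalarTower Λ (Λ ⧸ Ideal.span {(p : Λ) ^ N}) (BN ψ d.C N) :=
    (tor _ hBN).isScalarTower
  have hflat : Module.Flat (Λ ⧸ Ideal.span {(p : Λ) ^ N}) (BN ψ d.C N) := by
    refine Module.Flat.of_forall_isTrivialRelation ?_
    intro l g x h
    choose G hG using fun i => Ideal.Quotient.mk_surjective (g i)
    have h0 : ∑ i, G i • x i = (p : Λ) ^ N • (0 : BN ψ d.C N) := by
      rw [smul_zero, ← h]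
      refine Finset.sum_congr rfl fun i _ => ?_
      rw [← hG i, hsmul]
    obtain ⟨κ, _, s, n, m', c, hm, hs⟩ := fb_flatMod hb d N hN (Fin l) G x ⟨0, h0⟩
    refine ⟨Fintype.card κ, fun i j => Ideal.Quotient.mk _ (s i ((Fintype.equivFin κ).symm j)),
      fun j => n ((Fintype.equivFin κ).symm j), fun i => ?_, fun j => ?_⟩
    · rw [hm i, hBN, add_zero]
      exact (Equiv.sum_comp (Fintype.equivFin κ).symm fun j => s i j • n j).symm
    · have h2 : ∑ i, g i * Ideal.Quotient.mk (Ideal.span {(p : Λ) ^ N})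
          (s i ((Fintype.equivFin κ).symm j)) =
          Ideal.Quotient.mk _ (∑ i, G i * s i ((Fintype.equivFin κ).symm j)) := by
        rw [map_sum]
        refine Finset.sum_congr rfl fun i _ => ?_
        rw [map_mul, hG]
      rw [h2, hs, Ideal.Quotient.eq_zero_iff_mem, Ideal.mem_span_singleton']
      exact ⟨_, mul_comm _ _⟩
  exact fb_rTensor (R := Λ ⧸ Ideal.span {(p : Λ) ^ N}) Ideal.Quotient.mk_surjective f hf

end M4c

end Vale.Agent.P202.Mix
end

section

/-!
P202 MIX, TASK M13: `L(E/𝔟E) = l(S/𝔟)`.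
-/

namespace Vale.Agent.P202.Mix

open Polynomial TensorProduct IsLocalRing
open scoped ENNReal

universe u

section M13

variable {p : ℕ} [Fact p.Prime] {k : Type u} [Field k] [CharP k p] {r : ℕ}
variable {Λ : Type u} [CommRing Λ] {u : Fin r → Λ}
  {ψ : Λ →+* WittVector p (Rp p k r)}
  {red : Λ →+* R0 k r ⧸ Ideal.span {(MvPowerSeries.X 0 : R0 k r)}}
variable {A S : Type u} [CommRing A] [CommRing S] [IsLocalRing S]
  [IsNoetherianRing S] [Algebra Λ A] [Algebra A S]

/-- M13: `L(E/𝔟E) = l(S/𝔟)` if `p^N ∈ 𝔟`. -/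
theorem len_quot_eq (hb : IsBase p k r Λ u ψ red) {r0 : ℕ} (d : PExt.{u} p k r r0) (N : ℕ)
    (L : AddLen (ES ψ A S d.C N))
    (hL : L.len (ES ψ A S d.C N ⧸ (maximalIdeal S).map (algebraMap S (ES ψ A S d.C N))) = 1)
    (𝔟 : Ideal S) (hp : (p : S) ^ N ∈ 𝔟) (hfin : Module.length S (S ⧸ 𝔟) ≠ ⊤) :
    L.len (ES ψ A S d.C N ⧸ 𝔟.map (algebraMap S (ES ψ A S d.C N))) =
      ENat.toENNReal (Module.length S (S ⧸ 𝔟)) := by
  rw [len_quot_of_inj L (Ideal.span {(p : S) ^ N}) 𝔟 ((Ideal.span_singleton_le_iff_mem _).2 hp)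
    ?_ hfin, hL, mul_one]
  intro M M' _ _ _ _ f hM' hf
  refine lTensor_ES_injective d.C N ?_ f hf fun m =>
    hM' _ (Ideal.mem_span_singleton_self _) m
  intro M M' _ _ _ _ f hf hM'
  exact lTensor_BN_injective hb d N f hf hM'

end M13

end Vale.Agent.P202.Mix
end

section

/-!
P202-CHARP, task N: normalization of the Euler characteristics of the modules `N_a`.
-/

namespace Vale.Agent.P202.CharP

open Submodule TensorProduct IsLocalRing

section gen

end gen

section F

variable {κ : Type*} [Field κ] {r : ℕ} {A A' S : Type*} [CommRing A] [CommRing A'] [CommRing S]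
  [Algebra (PP κ r) A'] [Algebra A A'] [Algebra A S]

variable [IsLocalRing A] [IsNoetherianRing A] [IsLocalRing S] [IsNoetherianRing S]
    [IsLocalHom (algebraMap A S)]
    [Module.Finite A A'] [Module.Flat (PP κ r) A'] [Module.Flat A S]

end F

end Vale.Agent.P202.CharP
end
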