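import Vale.Agent.P202.MathlibUsed
import Vale.Agent.P202.Bdl.B1
import Vale.Agent.P202.Bdl.B9
import Vale.Agent.P202.Bdl.B10
import Vale.Agent.P202.Bdl.B8
import Vale.Agent.P202.Bdl.B12
import Vale.Agent.P202.Bdl.B4
import Vale.Agent.P202.Bdl.B2
import Vale.Agent.P202.Bdl.B13
import Vale.Agent.P202.Bdl.B11
import Vale.Agent.P202.Bdl.B5
import Vale.Agent.P202.Bdl.B3
import Vale.Agent.P202.Bdl.B7
attribute [-instance] DenselyNormedField.toNontriviallyNormedField DenselyNormedField.toNormedField NontriviallyNormedField.toNormedField RCLike.toDenselyNormedField NormedField.toField KleeneAlgebra.toIdemSemiring SemiRingCat.instSemiringObjForgetRingHomCarrier CommSemiRingCat.instCommSemiringObjForgetRingHomCarrier AbsoluteValue.funLike instCoeT Pi.preorder instCoeTOfCoeDep SemimoduleCat.isAddCommMonoid NormedField.toNormedCommRing LinearOrderedAddCommGroupWithTop.toAddCommMonoid LinearOrderedAddCommGroupWithTop.instLinearOrderedAddCommMonoidWithTop NormedCommRing.toNormedRing NormedDivisionRing.toNormedRing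 NormedRing.toSeminormedRing EuclideanDomain.toCommRing NormedCommRing.toCommRing SeminormedCommRing.toCommRing RingCat.instRingObjForgetRingHomCarrier NormedRing.toRing SeminormedRing.toRing NormedCommRing.toNonUnitalNormedCommRing NonUnitalNormedCommRing.toNonUnitalNormedRing NormedRing.toNonUnitalNormedRing MonCat.monoidObj NonUnitalNormedCommRing.toNonUnitalSeminormedCommRing NonUnitalNormedRing.toNonUnitalSeminormedRing SeminormedRing.toNonUnitalSeminormedRing CommRing.toAddCommGroupWithOne NonAssocRing.toAddCommGroupWithOne Pi.nonUnitalNonAssocSemiring CommSemiring.toNonAssocCommSemiring NonAssocCommRing.toNonAssocCommSemiring NonAssocCommSemiring.toNonAssocSemiring NonUnitalNormedCommRing.toNonUnitalCommRing NonUnitalSeminormedCommRing.toNonUnitalCommRing NonAssocCommRing.toNonUnitalNonAssocCommRing NonAssocRing.toNonUnitalNonAssocRing NonUnitalCommRing.toNonUnitalRing NonUnitalNormedRing.toNonUnitalRing NonUnitalRing.toNonUnitalNonAssocRing NonUnitalSeminormedRing.toNonUnitalRing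 Ring.toNonUnitalRing AddCommGroupWithOne.toAddCommMonoidWithOne NonAssocCommSemiring.toNonUnitalNonAssocCommSemiring NonUnitalRing.toNonUnitalSemiring Semiring.toNonUnitalSemiring AddCommMonoidWithOne.toAddCommMonoid ModuleCat.isModule LieRing.toAddCommGroup Pi.instTopForall Pi.addMonoidWithOne TopologicalSpace.Compacts.instSetLike LieAlgebra.toModule Pi.nonAssocSemiring AddMonCat.addMonoidObj Pi.monoidWithZero ModuleCat.instAddCommGroupCarrierMkOfSMul' CompleteAtomicBooleanAlgebra.toCompleteBooleanAlgebra CompleteAtomicBooleanAlgebra.toCompletelyDistribLattice MulSemiringAction.toDistribMulAction CompleteBooleanAlgebra.toCompleteLattice Filter.instMembership NormedCommGroup.toSeminormedCommGroup NormedCommGroup.toCommGroup SeminormedCommGroup.toCommGroup NormedCommGroup.toNormedGroup Std.DTreeMap.Raw.instSingletonSigma NormedGroup.toSeminormedGroup SeminormedCommGroup.toSeminormedGroup CommGroup.toGroup NormedGroup.toGroup SeminormedGroup.toGroup Pi.topologicalSpace Pi.seminormedAddCommGroup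 Torsor.toMulAction GradedMonoid.GradeZero.mulAction LinearOrderedCommGroupWithZero.toLinearOrderedCommMonoidWithZero OrderRingHom.instRingHomClass instRingHomSurjectiveForallEvalRingHom Pi.addZeroClass instNonUnitalAlgHomClassOfNonUnitalAlgEquivClass AlgHom.instNonUnitalAlgHomClassOfAlgHomClass instCoeHTC instCoeHTCT TwoSidedIdeal.instIsTwoSidedCoeOrderHomIdealAsIdeal LinearOrderedAddCommGroupWithTop.toSubNegMonoid AddCommGroupWithOne.toAddGroupWithOne CompleteBooleanAlgebra.toCompleteDistribLattice CompletelyDistribLattice.toCompleteDistribLattice instCoeTC instCoeTCOfCoe NumberField.to_charZero CompleteDistribLattice.toCoframe CompleteDistribLattice.toFrame Valued.toUniformSpace AddGrpCat.str NormedAlgebra.toAlgebra CompleteLinearOrder.toCompleteLattice Order.Coframe.toCompleteLattice Order.Frame.toCompleteLattice ENat.instPow Pi.partialOrder Std.DTreeMap.Raw.instInsertSigma CompleteLinearOrder.toConditionallyCompleteLinearOrderBot NonUnitalNormedRing.toNormedAddCommGroup ChainCompletePartialOrder.instOfCompleteLattice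 ChainCompletePartialOrder.instOmegaCompletePartialOrder ChainCompletePartialOrder.toPartialOrder CompletePartialOrder.toOmegaCompletePartialOrder OmegaCompletePartialOrder.toPartialOrder Vector.instHMul ConditionallyCompleteLinearOrderBot.toConditionallyCompleteLinearOrder AlgEquivClass.toAlgHomClass Invertible.toNeZero NeZero.of_gt' Nat.AtLeastTwo.toNeZero NormedAddCommGroup.toSeminormedAddCommGroup CompleteBooleanAlgebra.toBooleanAlgebra ContinuousAddMonoidHom.instCoeOutOfAddMonoidHomClassOfContinuousMapClass ContinuousMonoidHom.instCoeOutOfMonoidHomClassOfContinuousMapClass HomeomorphClass.instCoeOutHomeomorph IsometryClass.instCoeOutIsometryEquiv OrderAddMonoidHom.instAddMonoidHomClass instDistribSMul CompleteLinearOrder.toLinearOrder ConditionallyCompleteLinearOrder.toLinearOrder LinearOrderedAddCommGroupWithTop.toLinearOrder LinearOrderedAddCommMonoidWithTop.toLinearOrder LinearOrderedCommMonoidWithZero.toLinearOrder instSubsingleton IsEmpty.instSubsingleton Unique.instSubsingleton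 instSMulZeroClass LinearOrderedCommGroupWithZero.toCommGroupWithZero BooleanAlgebra.toBiheytingAlgebra CompleteDistribLattice.toBiheytingAlgebra CompleteLinearOrder.toBiheytingAlgebra CompletelyDistribLattice.toBiheytingAlgebra boolToProp AddOpposite.instAddZero Pi.nonUnitalSemiring Pi.subtractionMonoid Algebra.Extension.commRing NormedAlgebra.id Nat.instNontrivial Nat.instOne Nat.Prime.one_lt' Pi.instMaxForall_mathlib Pi.mulZeroClass MulSemiringActionSemiHomClass.toDistribMulActionSemiHomClass NonUnitalAlgSemiHomClass.toDistribMulActionSemiHomClass BiheytingAlgebra.toCoheytingAlgebra BiheytingAlgebra.toHeytingAlgebra BooleanAlgebra.toGeneralizedBooleanAlgebra Order.Coframe.toCoheytingAlgebra Order.Frame.toHeytingAlgebra Pi.mulZeroOneClass CommGroupWithZero.toCommMonoidWithZero CommMonoidWithZero.toMonoidWithZero CommSemiring.toCommMonoidWithZero LinearOrderedCommMonoidWithZero.toCommMonoidWithZero MonoidWithZero.toSemigroupWithZero NonUnitalNonAssocSemiring.toMulZeroClass SemigroupWithZero.toMulZeroClass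 Pi.instOrderTop CoheytingAlgebra.toGeneralizedCoheytingAlgebra GeneralizedBooleanAlgebra.toGeneralizedCoheytingAlgebra HeytingAlgebra.toGeneralizedHeytingAlgebra AlgHomClass.linearMapClass ContinuousSemilinearEquivClass.continuousSemilinearMapClass ContinuousSemilinearMapClass.toSemilinearMapClass NonUnitalAlgHomClass.instLinearMapClass NonUnitalAlgHomClass.instSemilinearMapClassOfNonUnitalAlgSemiHomClassToMonoidHomRingHom RingHomClass.toLinearMapClassNNRat RingHomClass.toLinearMapClassRat SemilinearEquivClass.instSemilinearMapClass SemilinearIsometryClass.toContinuousSemilinearMapClass SemilinearIsometryClass.toSemilinearMapClass NormedAddCommGroup.toNormedAddGroup SubfieldClass.toNormedField AbsoluteValue.mulHomClass instConditionallyCompletePartialOrderSup CompleteLattice.toCompleteSemilatticeInf CompleteLattice.toCompleteSemilatticeSup ConditionallyCompletePartialOrder.toConditionallyCompletePartialOrderInf Pi.mulOneClass SubfieldClass.toField MonoidWithZero.toMulActionWithZero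 ValuationClass.toMonoidWithZeroHomClass OrderDual.instDivisionSemiring BooleanAlgebra.toDistribLattice CompleteLattice.toLattice CompleteLattice.toPartialOrder' CompleteSemilatticeInf.toPartialOrder CompleteSemilatticeSup.toPartialOrder ConditionallyCompletePartialOrderInf.toPartialOrder GeneralizedBooleanAlgebra.toDistribLattice GeneralizedCoheytingAlgebra.toDistribLattice GeneralizedCoheytingAlgebra.toLattice GeneralizedHeytingAlgebra.toDistribLattice GeneralizedHeytingAlgebra.toLattice LinearOrder.toLattice Order.Coframe.toDistribLattice Order.Frame.toDistribLattice AbsoluteValue.zeroHomClass NormedAddGroup.toSeminormedAddGroup SeminormedAddCommGroup.toSeminormedAddGroup Pi.semigroup SubfieldClass.toDivisionRing instNontrivialCarrierObjModuleCatOfFullOfFaithful Pi.nonAssocRing OrderDual.instPow_1 AddCommGroupWithOne.toAddCommGroup NormedAddCommGroup.toAddCommGroup NormedAddGroup.toAddGroup SeminormedAddGroup.toAddGroup SetLike.GradeZero.instCommSemiring OrderDual.instDivisionRing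 Fin.completeLinearOrder NonUnitalAlgHomClass.toNonUnitalRingHomClass Pi.instSemilatticeSup NonUnitalAlgSemiHomClass.toMulHomClass Set.instAddRightMono IdemSemiring.toMulLeftMono IsOrderedCancelMonoid.toIsOrderedMonoid IsOrderedMonoid.toIsOrderedCancelMonoid IsOrderedMonoid.toMulLeftMono LinearOrderedCommMonoidWithZero.toIsOrderedMonoid Set.instAddLeftMono NumberField.instFiniteDimensional SetLike.GradeZero.instSemiring instIsDedekindDomainOfIsDomainOfIsDedekindRing IsDedekindDomainDvr.isDedekindDomain Ordinal.leftDistribClass SubringClass.toNormedCommRing MulZeroClass.toSMulWithZero LinOrd.str instFiniteProp instMonadLiftT instMonadLiftTOfMonadLift IsStrictOrderedRing.toCharZero RCLike.charZero_rclike IdemSemiring.toCanonicallyOrderedAdd AlgHomClass.toRingHomClass MulSemiringActionSemiHomClass.toRingHomClass SubringClass.toCommRing SubringClass.toSeminormedCommRing SetLike.GradeZero.instCommRing instIsSimpleModule Fin.instBiheytingAlgebra Pi.subNegZeroMonoid LieAlgebra.ofAssociativeAlgebra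 MulActionWithZero.toMulAction MulDistribMulAction.toMulAction MulSemiringAction.toMulDistribMulAction Pi.instMinForall_mathlib instAlgEquivClassOfNonUnitalAlgEquivClass ContinuousAlgEquivClass.toAlgEquivClass SubalgebraClass.normedRing SubringClass.toNormedRing instIsDomain DivisionRing.isDomain EuclideanDomain.instIsDomain Field.isDomain IsDedekindDomain.toIsDomain IsStrictOrderedRing.isDomain Module.Finite.tensorProduct ENormedAddCommMonoid.toESeminormedAddCommMonoid NormedAddCommGroup.toENormedAddCommMonoid Pi.instBotForall Submodule.instIdemCommSemiring Pi.isOrderedRing CommMonCat.str FiniteDimensional.finiteDimensional_submodule Pi.addSemigroup Part.ofOptionDecidable Pi.distribSMul' instNonemptyOfMonad Pi.instLattice Monoid.End.instMonoidHomClass Filter.comap_eval_neBot instIsNoetherianRingOfIsArtinianRing FiniteDimensional.finiteDimensional_quotient IsDedekindDomainDvr.toIsNoetherian IsDedekindRing.toIsNoetherian IsRegularLocalRing.toIsNoetherian IsSimpleModule.instIsNoetherian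 SubalgebraClass.seminormedRing SubringClass.toRing SubringClass.toSeminormedRing Ring.HasFiniteQuotients.instIsNoetherianRing SetLike.GradeZero.instRing Pi.commMagma Pi.instCanonicallyOrderedAddForall AddCancelCommMonoid.toAddCancelMonoid AddCancelCommMonoid.toAddCommMonoid AddCancelCommMonoid.toAddLeftCancelMonoid AddCancelMonoid.toAddLeftCancelMonoid AddCommGroup.toAddCancelCommMonoid AddLeftCancelMonoid.toAddMonoid AddRightCancelMonoid.toAddMonoid ENormedAddCommMonoid.toENormedAddMonoid ENormedAddMonoid.toESeminormedAddMonoid ESeminormedAddCommMonoid.toAddCommMonoid ESeminormedAddCommMonoid.toESeminormedAddMonoid ESeminormedAddMonoid.toAddMonoid Field.instIsLocalRing IsDiscreteValuationRing.toIsLocalRing IsStrictOrderedRing.noZeroDivisors LinearOrderedAddCommGroupWithTop.toSubtractionMonoid MulCharClass.toMonoidHomClass MulDistribMulActionSemiHomClass.toMonoidHomClass NormMulClass.toNoZeroDivisors NormedAddGroup.toENormedAddMonoid Preorder.smallCategory ValuationRing.isLocalRing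 CategoryTheory.Groupoid.toCategory CategoryTheory.StrictBicategory.category EMetricSpace.toPseudoEMetricSpace MetricSpace.toPseudoMetricSpace NonUnitalNormedRing.toMetricSpace NonUnitalSeminormedRing.toPseudoMetricSpace NormedAddCommGroup.toMetricSpace NormedAddGroup.toMetricSpace NormedCommGroup.toMetricSpace NormedDivisionRing.toMetricSpace NormedField.toMetricSpace NormedGroup.toMetricSpace NormedRing.toMetricSpace PseudoEMetricSpace.toUniformSpace PseudoMetricSpace.toPseudoEMetricSpace SeminormedAddCommGroup.toPseudoMetricSpace SeminormedAddGroup.toPseudoMetricSpace SeminormedCommGroup.toPseudoMetricSpace SeminormedGroup.toPseudoMetricSpace SeminormedRing.toPseudoMetricSpace WithIdeal.instTopologicalSpace WithIdeal.instUniformSpace SubfieldClass.toSubringClass instFiniteOfFinitePresentation instFinitePresentation Algebra.instFiniteOfIsQuadraticExtension FiniteDimensional.finiteDimensional_self Algebra.IsFiniteSplit.instFinitePresentation Module.Finite.self Module.FinitePresentation.of_subsingleton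 RingHom.Finite.instFinite Ideal.Quotient.instIsPrimeQuotientMapRingHomAlgebraMapMkOfLiesOver CategoryTheory.instFinCategoryOfFintypeOfIsThin RCLike.toDecidableEq SetLike.instFintype Unique.fintype Algebra.IsFiniteSplit.instOfIsSepClosedOfEssFiniteTypeOfFormallyEtale CategoryTheory.FinCategory.fintypeObj coePNatNat instCoeHTCOfCoeHeadOfCoeOTC instCoeHTCTOfCoeTailOfCoeHTC instCoeOutOfCoeFun instCoeTailIntOfIntCast instCoeTailNatOfNatCast instCoeTailRatOfRatCast instNatCastNat AddGroupWithOne.toIntCast DivisionRing.toNNRatCast DivisionRing.toRatCast DivisionSemiring.toNNRatCast LinearMapClass.instCoeToLinearMap NNRatCast.toCoeTail NonUnitalStarRingHomClass.instCoeHeadNonUnitalStarRingHom SemilinearMapClass.instCoeToSemilinearMap StarAlgEquivClass.instCoeHead StarRingEquivClass.instCoeHead Nat.Primes.coeNat Nat.Primes.coePNat Pi.instSubtractionCommMonoid Pi.nonUnitalNonAssocRing AddHom.addHomClass Fin.instCoheytingAlgebra Fin.instHeytingAlgebra ENormedCommMonoid.toESeminormedCommMonoid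 NormedCommGroup.toENormedCommMonoid IsAlgClosed.instInfinite WithTop.instIsBotZeroClass Pi.t2Space instPosMulMonoWithZeroOfMulLeftMono instCoeLieSubalgebraSubmodule LieSubalgebra.lieRing decidableEq_of_subsingleton IsDedekindDomain.isDedekindDomainDvr IsDedekindDomain.toIsDedekindRing instNontrivialOfCharZero CancelCommMonoid.toCancelMonoid CommGroup.toCancelCommMonoid DivisionRing.toNontrivial Group.toCancelMonoid IsOrderedRing.toIsStrictOrderedRing IsSimpleOrder.toNontrivial IsSimpleRing.instMulOpposite LinearOrderedAddCommGroupWithTop.toNontrivial OrderDual.noTopOrder instFloorSemiringNat -- iprune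

set_option linter.all false

section

/-!
P202-CHARP, GEN: from Theorem B (`t₀ e(A) ≤ χ(y; S)` for complete `A`) to Lech's inequality for all
Noetherian local rings of characteristic `p` with `F`-finite residue field.
-/

namespace Vale.Agent.P202.CharP

open IsLocalRing Finset Filter Topology

universe u v

section

variable {B : Type u} [CommRing B] [IsLocalRing B] [IsNoetherianRing B]

theorem PF.kchi_le_length : ∀ {n : ℕ} {y : Fin n → B} {M : Type v} [AddCommGroup M] [Module B M]
    [Module.Finite B M], PF y M →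
    kchi y M ≤ ((Module.length B (M ⧸ (Ideal.span (Set.range y) • (⊤ : Submodule B M)))).toNat :
      ℤ) := by
  intro n
  induction n with
  | zero =>
    intro y M _ _ _ _
    unfold kchi
    rw [zero_add, Finset.sum_range_one, pow_zero, one_mul, Nat.cast_zero, kk_zero]
  | succ n ih =>
    intro y M _ _ _ h
    rw [_root_.Vale.Agent.P202.CharP.kchi_succ y M h.length_ne_top]
    have h1 := h.tail_ker.kchi_nonneg
    have h2 := ih h.tail_coker
    refine (sub_le_self _ h1).trans (h2.trans ?_)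
    have h3 : Module.length B ((M ⧸ LinearMap.range (LinearMap.lsmul B M (y 0))) ⧸
        (Ideal.span (Set.range fun i : Fin n => y i.succ) •
          (⊤ : Submodule B (M ⧸ LinearMap.range (LinearMap.lsmul B M (y 0)))))) ≤
        Module.length B (M ⧸ (Ideal.span (Set.range y) • (⊤ : Submodule B M))) := by
      let f : M →ₗ[B] ((M ⧸ LinearMap.range (LinearMap.lsmul B M (y 0))) ⧸
        (Ideal.span (Set.range fun i : Fin n => y i.succ) •
          (⊤ : Submodule B (M ⧸ LinearMap.range (LinearMap.lsmul B M (y 0)))))) :=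
        (Submodule.mkQ _).comp (Submodule.mkQ _)
      have hf : Function.Surjective f :=
        (Submodule.mkQ_surjective _).comp (Submodule.mkQ_surjective _)
      have hle : Ideal.span (Set.range y) • (⊤ : Submodule B M) ≤ LinearMap.ker f := by
        rw [Submodule.smul_le]
        intro a ha m _
        have key : ∀ i, ∀ m : M, f (y i • m) = 0 := by
          intro i m
          refine Fin.cases ?_ (fun j => ?_) i
          · have h4 : (Submodule.mkQ (LinearMap.range (LinearMap.lsmul B M (y 0)))) (y 0 • m) =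
                0 := by
              rw [Submodule.mkQ_apply, Submodule.Quotient.mk_eq_zero]
              exact ⟨m, rfl⟩
            change (Submodule.mkQ _) ((Submodule.mkQ _) (y 0 • m)) = 0
            rw [h4, map_zero]
          · change (Submodule.mkQ _) ((Submodule.mkQ _) (y j.succ • m)) = 0
            rw [map_smul, Submodule.mkQ_apply, Submodule.Quotient.mk_eq_zero]
            exact Submodule.smul_mem_smul (Ideal.subset_span ⟨j, rfl⟩) trivial
        induction ha using Submodule.span_induction with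
        | mem a ha =>
          obtain ⟨i, rfl⟩ := ha
          exact key i m
        | zero => rw [zero_smul]; exact Submodule.zero_mem _
        | add a b _ _ h4 h5 => rw [add_smul]; exact Submodule.add_mem _ h4 h5
        | smul c a _ h4 => rw [smul_assoc]; exact Submodule.smul_mem _ _ h4
      exact Module.length_le_of_surjective (Submodule.liftQ _ f hle) (by
        intro z
        obtain ⟨m, rfl⟩ := hf z
        exact ⟨Submodule.Quotient.mk m, rfl⟩)
    have h4 := h.length_ne_top
    exact_mod_cast ENat.toNat_le_toNat h3 h4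

/-- the Euler characteristic is at most the colength. -/
theorem kchi_le_ell {n : ℕ} (y : Fin n → B)
    (hyl : ell (Ideal.span (Set.range y)) ≠ ⊤) :
    kchi y B ≤ ((ell (Ideal.span (Set.range y))).toNat : ℤ) := by
  have e : (Ideal.span (Set.range y) • (⊤ : Submodule B B)) = Ideal.span (Set.range y) := by
    rw [smul_eq_mul, Ideal.mul_top]
  have h1 : Module.length B (B ⧸ (Ideal.span (Set.range y) • (⊤ : Submodule B B))) ≠ ⊤ := by
    rw [e]
    exact hyl
  have h2 := (pf_of_length_ne_top h1).kchi_le_length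
  rw [e] at h2
  exact h2

/-- the Euler characteristic is at most the minimal length of the graded pieces. -/
theorem kchi_le_emin {n : ℕ} (hn : 0 < n) (y : Fin n → B) (hy : ∀ i, y i ∈ maximalIdeal B)
    (hyl : ell (Ideal.span (Set.range y)) ≠ ⊤) :
    ((kchi y B).toNat : ℕ∞) ≤ emin y := by
  obtain ⟨E, hE⟩ := ENat.ne_top_iff_exists.mp (emin_ne_top hyl)
  obtain ⟨K, hK⟩ := ENat.ne_top_iff_exists.mp (errB_ne_top hyl)
  have hyl' : Module.length B (B ⧸ (Ideal.span (Set.range y) • (⊤ : Submodule B B))) ≠ ⊤ := by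
    have h1 : (Ideal.span (Set.range y) • (⊤ : Submodule B B)) = Ideal.span (Set.range y) := by
      rw [smul_eq_mul, Ideal.mul_top]
    rw [h1]
    exact hyl
  have h0 := kchi_nonneg y hy B hyl'
  obtain ⟨L, hL⟩ := Int.eq_ofNat_of_zero_le h0
  have key : L ≤ E := le_of_forall_pow_le (d := n) hn L E K 0 fun q hq => by
    have hfin : ell (Ideal.span (Set.range fun i => y i ^ q)) ≠ ⊤ := by
      refine ne_top_of_le_ne_top ?_ (ell_span_pow_le y q)
      rw [← hE, ← hK]
      exact WithTop.coe_ne_top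
        (a := (q ^ Fintype.card (Fin n) * E + K * q ^ (Fintype.card (Fin n) - 1) : ℕ))
    obtain ⟨L', hL'⟩ := ENat.ne_top_iff_exists.mp hfin
    have h1 := kchi_pow y hy q hq B hyl'
    have h2 := kchi_le_ell (fun i => y i ^ q) hfin
    have h3 := ell_span_pow_le y q
    rw [← hE, ← hK, ← hL', Fintype.card_fin] at h3
    rw [h1, hL, ← hL', ENat.toNat_natCast] at h2
    have h4 : L' ≤ q ^ n * E + K * q ^ (n - 1) := by exact_mod_cast h3
    have h5 : q ^ n * L ≤ L' := by exact_mod_cast h2
    rw [add_zero]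
    calc L * q ^ n = q ^ n * L := mul_comm _ _
      _ ≤ L' := h5
      _ ≤ q ^ n * E + K * q ^ (n - 1) := h4
      _ = E * q ^ n + K * q ^ (n - 1) := by ring
  rw [hL, ← hE]
  exact_mod_cast key

end

/-- The statement of Theorem B: `t₀ e(A) ≤ χ(y; S)`, with `e(A)` in the form `emin x` for a
reduction `x` of the maximal ideal. -/
def TheoremB (p : ℕ) [Fact p.Prime] : Prop :=
  ∀ {A S : Type u} [CommRing A] [IsLocalRing A] [IsNoetherianRing A] [CharP A p]
    [CharP (ResidueField A) p] [IsAdicComplete (maximalIdeal A) A]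
    [Infinite (ResidueField A)]
    (_ : fdeg p (ResidueField A) 1 ≠ ⊤)
    [CommRing S] [IsLocalRing S] [IsNoetherianRing S] [Algebra A S]
    [IsLocalHom (algebraMap A S)] [Module.Flat A S] {r : ℕ} (_ : ringKrullDim A = (r + 1 : ℕ))
    (_ : ringKrullDim S = (r + 1 : ℕ))
    (x : Fin (r + 1) → A) (_ : ∀ i, x i ∈ maximalIdeal A) (s : ℕ)
    (_ : ∀ j, maximalIdeal A ^ (j + s) ≤ Ideal.span (Set.range x) ^ j)
    (y : Fin (r + 1) → S) (_ : ∀ i, y i ∈ maximalIdeal S)
    (_ : Module.length S (S ⧸ Ideal.span (Set.range y)) ≠ ⊤) (t0 lam : ℕ)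
    (_ : Module.length S (S ⧸ ((maximalIdeal A).map (algebraMap A S) ⊔
      Ideal.span (Set.range y))) = t0)
    (_ : emin x = lam),
    (t0 : ℤ) * lam ≤ kchi y S

end Vale.Agent.P202.CharP
end

section

/-!
Assembly relative to a class of base rings; here both rings are complete in the complete case.
-/

set_option linter.unusedSectionVars false

namespace Vale.Agent.P202

open Ideal IsLocalRing Finset Filter Topology Polynomial

universe u

/-- The inequality for equal dimensions. -/
def EqDimCls (C : RCls.{u}) (d κ : ℕ) : Prop :=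
  ∀ (R S : Type u) [CommRing R] [IsLocalRing R] [IsNoetherianRing R]
    [CommRing S] [IsLocalRing S] [IsNoetherianRing S] [Algebra R S]
    [IsLocalHom (algebraMap R S)] [Module.Flat R S],
    C R → ringKrullDim R = d → ringKrullDim S = d → ∀ eR eS : ℕ,
    Tendsto (hsSeq R d) atTop (𝓝 (eR : ℝ)) → Tendsto (hsSeq S d) atTop (𝓝 (eS : ℝ)) →
    eR ≤ κ * eS

/-- The statement for complete rings (both complete) of the class and equal dimensions. -/
def CompleteCaseCls2 (C : RCls.{u}) (d κ : ℕ) : Prop :=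
  ∀ (R S : Type u) [CommRing R] [IsLocalRing R] [IsNoetherianRing R]
    [IsAdicComplete (maximalIdeal R) R] [Infinite (ResidueField R)]
    [CommRing S] [IsLocalRing S] [IsNoetherianRing S] [IsAdicComplete (maximalIdeal S) S]
    [Algebra R S] [IsLocalHom (algebraMap R S)] [Module.Flat R S],
    C R → ringKrullDim R = d → ringKrullDim S = d →
    ∃ c K : ℕ, ∀ N : ℕ, (d.factorial : ℕ∞) * ell (maximalIdeal R ^ N) ≤
      (κ : ℕ∞) * ((d.factorial : ℕ∞) * ell (maximalIdeal S ^ (N + c))) +
        (K : ℕ∞) * ((N : ℕ∞) + 1) ^ (d - 1)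

/-- Equal dimensions. -/
theorem eqDim_of_completeCase2 {C : RCls.{u}} (hC : RStable C) {d κ : ℕ} (hd : 0 < d)
    (H : CompleteCaseCls2.{u} C d κ) : EqDimCls.{u} C d κ := by
  intro R S _ _ _ _ _ _ _ _ _ hCR hR hS eR eS heR heS
  obtain ⟨R1, S1, _, _, _, _, _, _, _, _, _, hinf, hlR, hlS, hdR, hdS, hC1⟩ :=
    exists_infinite_residue_cls (R := R) (S := S) hC hCR
  obtain ⟨R2, S2, _, _, _, _, _, _, _, _, _, _, _, hlR2, hlS2, hdR2, hdS2, hinf2, hC2⟩ :=
    exists_completion_cls (R := R1) (S := S1) hC hC1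
  have := hinf2 hinf
  obtain ⟨c, K, hN⟩ := H R2 S2 hC2 (hdR2.trans (hdR.trans hR)) (hdS2.trans (hdS.trans hS))
  have key : (eR : ℝ) ≤ κ * eS := by
    refine le_of_growth hd κ c K (fun N => (Module.length R2 (R2 ⧸ maximalIdeal R2 ^ N)).toNat)
      (fun N => (Module.length S2 (S2 ⧸ maximalIdeal S2 ^ N)).toNat)
      (fun N => growth_toNat d κ c K N (hN N)) eR eS ?_ ?_
    · simp only [hlR2, hlR]
      exact heR
    · simp only [hlS2, hlS]
      exact heS
  exact_mod_cast key

/-- All flat local homomorphisms. -/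
theorem lech_all_of_eqDim {C : RCls.{u}} (hC : RStable C) {d κ : ℕ} (hd : 0 < d)
    (E : EqDimCls.{u} C d κ) (n : ℕ) : ∀ {R S : Type u}
    [CommRing R] [IsLocalRing R] [IsNoetherianRing R]
    [CommRing S] [IsLocalRing S] [IsNoetherianRing S] [Algebra R S]
    [IsLocalHom (algebraMap R S)] [Module.Flat R S] (_ : C R)
    (_ : ringKrullDim R = d) (_ : ringKrullDim S = (d + n : ℕ)) (eR eS : ℕ)
    (_ : Tendsto (hsSeq R d) atTop (𝓝 (eR : ℝ)))
    (_ : Tendsto (hsSeq S (d + n)) atTop (𝓝 (eS : ℝ))),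
    eR ≤ κ * eS := by
  induction n with
  | zero =>
    intro R S _ _ _ _ _ _ _ _ _ hCR hR hS eR eS heR heS
    exact E R S hCR hR (by simpa using hS) eR eS heR (by simpa using heS)
  | succ n ih =>
    intro R S _ _ _ _ _ _ _ _ _ hCR hR hS eR eS heR heS
    obtain ⟨R2, S2, _, _, _, _, _, _, _, _, _, _, _, hlR2, hlS2, hdR2, hdS2, -, hC2⟩ :=
      exists_completion_cls (R := R) (S := S) hC hCR
    have hR2 : ringKrullDim R2 = d := hdR2.trans hR
    have hS2 : ringKrullDim S2 = (d + n : ℕ) + 1 := by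
      rw [hdS2, hS]
      push_cast
      rw [add_assoc]
    obtain ⟨Q, _, hmQ, hQ1, hQs⟩ := exists_prime_dim_one (R := R2) (S := S2) (d + n) hS2 (by
      rw [hR2, hS2]
      have : (d : WithBot ℕ∞) < ((d + n + 1 : ℕ) : WithBot ℕ∞) := by
        exact_mod_cast (by omega : d < d + n + 1)
      refine this.trans_le (le_of_eq ?_)
      push_cast
      rfl)
    have heR2 : Tendsto (hsSeq R2 d) atTop (𝓝 (eR : ℝ)) := by
      have : hsSeq R2 d = hsSeq R d := by
        funext N
        simp only [hsSeq, hlR2]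
      rw [this]; exact heR
    have heS2 : Tendsto (hsSeq S2 (d + n + 1)) atTop (𝓝 (eS : ℝ)) := by
      have : hsSeq S2 (d + n + 1) = hsSeq S (d + (n + 1)) := by
        funext N
        simp only [hsSeq, hlS2, add_assoc]
      rw [this]; exact heS
    have hflat : Module.Flat R2 (Localization.AtPrime Q) := Module.Flat.trans R2 S2 _
    have hloc : IsLocalHom (algebraMap R2 (Localization.AtPrime Q)) := by
      refine ⟨fun a ha => ?_⟩
      by_contra hna
      have h1 : algebraMap R2 S2 a ∈ Q :=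
        hmQ (Ideal.mem_map_of_mem _ ((IsLocalRing.mem_maximalIdeal _).mpr hna))
      rw [IsScalarTower.algebraMap_apply R2 S2 (Localization.AtPrime Q),
        IsLocalization.AtPrime.isUnit_to_map_iff (Localization.AtPrime Q) Q] at ha
      exact ha h1
    obtain ⟨eQ, heQ⟩ := exists_mult (A := Localization.AtPrime Q) (d := d + n) (by omega) hQs
    have h1 : eR ≤ κ * eQ :=
      ih (R := R2) (S := Localization.AtPrime Q) hC2 hR2 hQs eR eQ heR2 heQ
    have h2 : eQ ≤ eS := mult_localization Q hQ1 heQ heS2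
    exact h1.trans (Nat.mul_le_mul_left _ h2)

/-- All flat local homomorphisms, with the multiplicities given. -/
theorem lech_of_eqDim {C : RCls.{u}} (hC : RStable C) {d κ : ℕ} (hd : 0 < d)
    (E : EqDimCls.{u} C d κ) {R S : Type u}
    [CommRing R] [IsLocalRing R] [IsNoetherianRing R]
    [CommRing S] [IsLocalRing S] [IsNoetherianRing S] [Algebra R S]
    [IsLocalHom (algebraMap R S)] [Module.Flat R S] (hCR : C R) (hR : ringKrullDim R = d)
    {s : ℕ} (hS : ringKrullDim S = s) (eR eS : ℕ)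
    (heR : Tendsto (hsSeq R d) atTop (𝓝 (eR : ℝ)))
    (heS : Tendsto (hsSeq S s) atTop (𝓝 (eS : ℝ))) : eR ≤ κ * eS := by
  have hle : d ≤ s := by
    have h1 := Ideal.height_eq_height_add_of_liesOver_of_hasGoingDown (maximalIdeal R)
      (maximalIdeal S)
    have h2 : (maximalIdeal R).height ≤ (maximalIdeal S).height := by
      rw [h1]; exact le_self_add
    have hR' := hR
    have hS' := hS
    rw [← IsLocalRing.maximalIdeal_height_eq_ringKrullDim] at hR' hS'
    have h3 : (maximalIdeal R).height = d := by exact_mod_cast hR'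
    have h4 : (maximalIdeal S).height = s := by exact_mod_cast hS'
    rw [h3, h4] at h2
    exact_mod_cast h2
  obtain ⟨n, rfl⟩ := Nat.exists_eq_add_of_le hle
  exact lech_all_of_eqDim hC hd E n hCR hR hS eR eS heR heS

end Vale.Agent.P202
end

section

/-!
The specialization theorem.
-/

namespace Vale.Agent.P202.CZ

open MvPowerSeries IsLocalRing TensorProduct

universe u

/-- Base change of an algebra with a compatible augmentation. -/
theorem exists_base_change {A C L : Type u} {k : Type*} [CommRing A] [CommRing C] [CommRing L]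
    [Field k] [Algebra A C] (θ : A →+* L) (ε : L →+* k) (εC : C →+* k)
    (hε : ∀ a, εC (algebraMap A C a) = ε (θ a)) :
    ∃ (C' : Type u) (_ : CommRing C') (_ : Algebra L C') (ρ : C →+* C') (ε' : C' →+* k),
      (∀ a, ρ (algebraMap A C a) = algebraMap L C' (θ a)) ∧
      (∀ z, z ∈ Submodule.span L (Set.range ρ)) ∧
      (∀ f, ε' (algebraMap L C' f) = ε f) ∧ (∀ z, ε' (ρ z) = εC z) ∧
      (Module.Finite A C → Module.Finite L C') ∧
      (∀ (t : ℕ), Module.Basis (Fin t) A C → Module.Free L C' ∧ Module.Finite L C') ∧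
      (∀ (_ : IsDomain A) (_ : IsDomain L) (_ : Module.Finite A C) (r : ℕ) (e : Fin r → C),
        LinearIndependent A e → ∃ e' : Fin r → C', LinearIndependent L e') := by
  let _ : Algebra A L := θ.toAlgebra
  let _ : Algebra A k := (ε.comp θ).toAlgebra
  let f : L →ₐ[A] k := { ε with commutes' := fun a => rfl }
  let g : C →ₐ[A] k := { εC with commutes' := fun a => hε a }
  refine ⟨L ⊗[A] C, inferInstance, inferInstance,
    (Algebra.TensorProduct.includeRight : C →ₐ[A] L ⊗[A] C).toRingHom,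
    (Algebra.TensorProduct.productMap f g).toRingHom, ?_, ?_, ?_, ?_, ?_, ?_, ?_⟩
  · intro a
    change (Algebra.TensorProduct.includeRight : C →ₐ[A] L ⊗[A] C) (algebraMap A C a) = _
    rw [AlgHom.commutes, IsScalarTower.algebraMap_apply A L]
    rfl
  · intro z
    induction z using TensorProduct.induction_on with
    | zero => exact Submodule.zero_mem _
    | tmul x y =>
      have : x ⊗ₜ[A] y = x • ((1 : L) ⊗ₜ[A] y) := by
        rw [TensorProduct.smul_tmul', smul_eq_mul, mul_one]
      rw [this]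
      exact Submodule.smul_mem _ _ (Submodule.subset_span ⟨y, rfl⟩)
    | add x y hx hy => exact Submodule.add_mem _ hx hy
  · intro x
    exact Algebra.TensorProduct.productMap_left_apply f g x
  · intro x
    exact Algebra.TensorProduct.productMap_right_apply f g x
  · intro h
    infer_instance
  · intro t v
    have h1 := Module.Free.of_basis (Algebra.TensorProduct.basis L v)
    have h2 := Module.Finite.of_basis (Algebra.TensorProduct.basis L v)
    exact ⟨h1, h2⟩
  · intro _ _ _ r e he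
    exact rank_base_change e he

/-- D9: specialization.  The rings `E ⊗ k[[x]]` and `S ⊗ k[[x]]` are local, and prime
characteristic gives the inequality. -/
theorem specialize (Hp : CharPLech.{u}) {p : ℕ} (hp : p.Prime) {k : Type u} [Field k] [CharP k p]
    [Finite k] {d : ℕ} (hd : 0 < d) {B : Type u} [CommRing B] [IsDomain B]
    (x : Fin d → B) (θ : B →+* MvPowerSeries (Fin d) k) (hθ : ∀ i, θ (x i) = X i)
    {E S : Type u} [CommRing E] [CommRing S] [Algebra B E] [Algebra E S] [Module.Finite B E]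
    {t : ℕ} (v : Module.Basis (Fin t) E S)
    {r : ℕ} (e : Fin r → E) (he : LinearIndependent B e)
    (J : Ideal E) (hJ : ∀ z : E, ∃ b : B, z - algebraMap B E b ∈ J)
    (hJx : ∀ i, algebraMap B E (x i) ∈ J)
    (εE : E →+* k) (hεE : ∀ b, εE (algebraMap B E b) = constantCoeff (θ b))
    (hεJ : ∀ z ∈ J, εE z = 0)
    {s : ℕ} (hJs : J ^ (s + 1) ≤
      Ideal.span (Set.range fun i => algebraMap B E (x i)) * J ^ s)
    (n : Ideal S) (hn : ∀ z : S, ∃ b : B, z - algebraMap E S (algebraMap B E b) ∈ n)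
    (hJn : J.map (algebraMap E S) ≤ n)
    (εS : S →+* k) (hεS : ∀ z : E, εS (algebraMap E S z) = εE z) (hεn : ∀ z ∈ n, εS z = 0)
    {M : ℕ} (hnM : n ^ M ≤
      Ideal.span (Set.range fun i => algebraMap E S (algebraMap B E (x i))))
    (y : Fin d → S) (hy : ∀ i, y i ∈ n) {j c : ℕ} (hj : 0 < j)
    (hc : Ideal.span (Set.range fun i => algebraMap E S (algebraMap B E (x i))) ^ c ≤
      Ideal.span (Set.range y) ^ j)
    {l : ℕ} (b : Fin l → S)
    (hb1 : ∀ z : S, ∃ β : Fin l → B,
      z - ∑ q, algebraMap E S (algebraMap B E (β q)) * b q ∈ Ideal.span (Set.range y) ^ j)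
    (hb2 : ∀ i q, ∃ β : Fin l → B,
      (∀ q', θ (β q') - C (constantCoeff (θ (β q'))) ∈ mm (Fin d) k ^ c) ∧
      algebraMap E S (algebraMap B E (x i)) * b q -
        ∑ q', algebraMap E S (algebraMap B E (β q')) * b q' ∈ Ideal.span (Set.range y) ^ j) :
    r * tc d j ≤ l := by
  obtain ⟨R', _, _, ρE, εR, hρE, hspanE, hεR1, hεR2, hfinE, -, hrankE⟩ :=
    exists_base_change θ (constantCoeff (σ := Fin d) (R := k)) εE hεE
  obtain ⟨S', _, _, ρS, εS', hρS, hspanS, hεS1, hεS2, -, hfreeS, -⟩ :=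
    exists_base_change ρE εR εS (fun z => by rw [hεS, hεR2])
  have hfinE' := hfinE inferInstance
  obtain ⟨hfree, hfin⟩ := hfreeS t v
  let _ : Algebra (MvPowerSeries (Fin d) k) S' :=
    ((algebraMap R' S').comp (algebraMap (MvPowerSeries (Fin d) k) R')).toAlgebra
  have htower : IsScalarTower (MvPowerSeries (Fin d) k) R' S' :=
    IsScalarTower.of_algebraMap_eq fun _ => rfl
  have hfinS : Module.Finite (MvPowerSeries (Fin d) k) S' := Module.Finite.trans R' S'
  have hρS' : ∀ β : B, algebraMap (MvPowerSeries (Fin d) k) S' (θ β) =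
      ρS (algebraMap E S (algebraMap B E β)) := by
    intro β
    rw [IsScalarTower.algebraMap_apply (MvPowerSeries (Fin d) k) R' S', ← hρE, ← hρS]
  have hXE : ∀ i, algebraMap (MvPowerSeries (Fin d) k) R' (X i) = ρE (algebraMap B E (x i)) := by
    intro i
    rw [hρE, hθ]
  have hXS : ∀ i, algebraMap (MvPowerSeries (Fin d) k) S' (X i) =
      ρS (algebraMap E S (algebraMap B E (x i))) := by
    intro i
    rw [← hρS', hθ]
  -- the span of `S` over the power series ring
  have hspanLS : ∀ z : S', z ∈ Submodule.span (MvPowerSeries (Fin d) k) (Set.range ρS) := by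
    have h1 : ∀ (c : R') (w : S), c • ρS w ∈
        Submodule.span (MvPowerSeries (Fin d) k) (Set.range ρS) := by
      intro c w
      induction hspanE c using Submodule.span_induction with
      | mem c hc =>
        obtain ⟨c, rfl⟩ := hc
        rw [Algebra.smul_def, ← hρS, ← map_mul]
        exact Submodule.subset_span ⟨_, rfl⟩
      | zero => rw [zero_smul]; exact Submodule.zero_mem _
      | add c c' _ _ h h' => rw [add_smul]; exact Submodule.add_mem _ h h'
      | smul a c _ h => rw [smul_assoc]; exact Submodule.smul_mem _ _ h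
    have h2 : ∀ (c : R') (w : S'), w ∈ Submodule.span (MvPowerSeries (Fin d) k) (Set.range ρS) →
        c • w ∈ Submodule.span (MvPowerSeries (Fin d) k) (Set.range ρS) := by
      intro c w hw
      induction hw using Submodule.span_induction with
      | mem w hw =>
        obtain ⟨w, rfl⟩ := hw
        exact h1 c w
      | zero => rw [smul_zero]; exact Submodule.zero_mem _
      | add w w' _ _ h h' => rw [smul_add]; exact Submodule.add_mem _ h h'
      | smul a w _ h => rw [smul_comm]; exact Submodule.smul_mem _ _ h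
    intro z
    induction hspanS z using Submodule.span_induction with
    | mem w hw => exact Submodule.subset_span hw
    | zero => exact Submodule.zero_mem _
    | add w w' _ _ h h' => exact Submodule.add_mem _ h h'
    | smul a w _ h => exact h2 a w h
  -- the local ring `R'`
  have hspX : (Ideal.span (Set.range fun i => algebraMap B E (x i))).map ρE =
      Ideal.span (Set.range fun i => algebraMap (MvPowerSeries (Fin d) k) R' (X i)) := by
    rw [Ideal.map_span, ← Set.range_comp]
    congr 2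
    funext i
    exact (hXE i).symm
  have hmR : ∀ z : R', ∃ f : MvPowerSeries (Fin d) k, z - algebraMap _ R' f ∈ J.map ρE := by
    intro z
    induction hspanE z using Submodule.span_induction with
    | mem z hz =>
      obtain ⟨z, rfl⟩ := hz
      obtain ⟨β, hβ⟩ := hJ z
      refine ⟨θ β, ?_⟩
      rw [← hρE, ← map_sub]
      exact Ideal.mem_map_of_mem _ hβ
    | zero => exact ⟨0, by rw [map_zero, sub_zero]; exact Ideal.zero_mem _⟩
    | add z z' _ _ h h' =>
      obtain ⟨f, hf⟩ := h
      obtain ⟨f', hf'⟩ := h'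
      refine ⟨f + f', ?_⟩
      rw [map_add, add_sub_add_comm]
      exact Ideal.add_mem _ hf hf'
    | smul a z _ h =>
      obtain ⟨f, hf⟩ := h
      refine ⟨a * f, ?_⟩
      rw [map_mul, Algebra.smul_def, ← mul_sub]
      exact Ideal.mul_mem_left _ _ hf
  have hXmR : ∀ i, algebraMap (MvPowerSeries (Fin d) k) R' (X i) ∈ J.map ρE := by
    intro i
    rw [hXE]
    exact Ideal.mem_map_of_mem _ (hJx i)
  have hmRs : (J.map ρE) ^ (s + 1) ≤
      Ideal.span (Set.range fun i => algebraMap (MvPowerSeries (Fin d) k) R' (X i)) *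
        (J.map ρE) ^ s := by
    rw [← hspX, ← Ideal.map_pow, ← Ideal.map_pow, ← Ideal.map_mul]
    exact Ideal.map_mono hJs
  obtain ⟨hkerR, hlocR, hmaxR⟩ := local_of_data (J.map ρE) εR hεR1
    (fun z hz => (Ideal.map_le_iff_le_comap (K := RingHom.ker εR)).mpr
      (fun w hw => by
        rw [Ideal.mem_comap, RingHom.mem_ker, hεR2]
        exact hεJ w hw) hz) hmR hXmR (hmRs.trans Ideal.mul_le_left)
  -- the local ring `S'`
  have hspXS : (Ideal.span (Set.range fun i => algebraMap E S (algebraMap B E (x i)))).map ρS =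
      Ideal.span (Set.range fun i => algebraMap (MvPowerSeries (Fin d) k) S' (X i)) := by
    rw [Ideal.map_span, ← Set.range_comp]
    congr 2
    funext i
    exact (hXS i).symm
  have hmS : ∀ z : S', ∃ f : MvPowerSeries (Fin d) k, z - algebraMap _ S' f ∈ n.map ρS := by
    intro z
    induction hspanLS z using Submodule.span_induction with
    | mem z hz =>
      obtain ⟨z, rfl⟩ := hz
      obtain ⟨β, hβ⟩ := hn z
      refine ⟨θ β, ?_⟩
      rw [hρS', ← map_sub]
      exact Ideal.mem_map_of_mem _ hβ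
    | zero => exact ⟨0, by rw [map_zero, sub_zero]; exact Ideal.zero_mem _⟩
    | add z z' _ _ h h' =>
      obtain ⟨f, hf⟩ := h
      obtain ⟨f', hf'⟩ := h'
      refine ⟨f + f', ?_⟩
      rw [map_add, add_sub_add_comm]
      exact Ideal.add_mem _ hf hf'
    | smul a z _ h =>
      obtain ⟨f, hf⟩ := h
      refine ⟨a * f, ?_⟩
      rw [map_mul, Algebra.smul_def, ← mul_sub]
      exact Ideal.mul_mem_left _ _ hf
  have hXmS : ∀ i, algebraMap (MvPowerSeries (Fin d) k) S' (X i) ∈ n.map ρS := by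
    intro i
    rw [hXS]
    exact Ideal.mem_map_of_mem _ (hJn (Ideal.mem_map_of_mem _ (hJx i)))
  have hmSM : (n.map ρS) ^ M ≤
      Ideal.span (Set.range fun i => algebraMap (MvPowerSeries (Fin d) k) S' (X i)) := by
    rw [← hspXS, ← Ideal.map_pow]
    exact Ideal.map_mono hnM
  obtain ⟨hkerS, hlocS, hmaxS⟩ := local_of_data (n.map ρS) εS'
    (fun f => by rw [IsScalarTower.algebraMap_apply (MvPowerSeries (Fin d) k) R' S', hεS1, hεR1])
    (fun z hz => (Ideal.map_le_iff_le_comap (K := RingHom.ker εS')).mpr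
      (fun w hw => by
        rw [Ideal.mem_comap, RingHom.mem_ker, hεS2]
        exact hεn w hw) hz) hmS hXmS hmSM
  have hnoethR : IsNoetherianRing R' := IsNoetherianRing.of_finite (MvPowerSeries (Fin d) k) R'
  have hnoethS : IsNoetherianRing S' := IsNoetherianRing.of_finite (MvPowerSeries (Fin d) k) S'
  have hlocal : IsLocalHom (algebraMap R' S') := by
    refine ⟨fun z hz => ?_⟩
    by_contra hz'
    have h1 : z ∈ J.map ρE := by
      rw [← hmaxR]
      exact (mem_maximalIdeal z).mpr hz'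
    rw [hkerR, RingHom.mem_ker, ← hεS1] at h1
    exact (hz.map εS').ne_zero h1
  have hchar : CharP R' p :=
    charP_of_injective_ringHom (f := (algebraMap (MvPowerSeries (Fin d) k) R').comp C)
      (RingHom.injective _) p
  have hfinres : Finite (ResidueField R') := by
    have h1 : ∀ z ∈ maximalIdeal R', εR z = 0 := by
      intro z hz
      rw [hmaxR, hkerR] at hz
      exact hz
    let f : ResidueField R' →+* k := Ideal.Quotient.lift (maximalIdeal R') εR h1
    exact Finite.of_injective f (RingHom.injective f)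
  obtain ⟨dR, hdR, -⟩ := exists_dim_le
    (fun i => algebraMap (MvPowerSeries (Fin d) k) R' (X i)) (fun i => by rw [hmaxR]; exact hXmR i)
    (M := s + 1) (by rw [hmaxR]; exact hmRs.trans Ideal.mul_le_left)
  obtain ⟨dS, hdS, hdSle⟩ := exists_dim_le
    (fun i => algebraMap (MvPowerSeries (Fin d) k) S' (X i)) (fun i => by rw [hmaxS]; exact hXmS i)
    (M := M) (by rw [hmaxS]; exact hmSM)
  obtain ⟨e', he'⟩ := hrankE inferInstance (NoZeroDivisors.to_isDomain _) inferInstance r e he
  obtain ⟨a, ha⟩ := lower_of_data (s := s) (by rw [hmaxR]; exact hmR)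
    (by rw [hmaxR]; exact hXmR) (by rw [hmaxR]; exact hmRs) e' he'
  have hspy : (Ideal.span (Set.range y)).map ρS = Ideal.span (Set.range fun i => ρS (y i)) := by
    rw [Ideal.map_span, ← Set.range_comp]
    rfl
  have hcS : Ideal.span (Set.range fun i => algebraMap (MvPowerSeries (Fin d) k) S' (X i)) ^ c ≤
      Ideal.span (Set.range fun i => ρS (y i)) ^ j := by
    rw [← hspXS, ← hspy, ← Ideal.map_pow, ← Ideal.map_pow]
    exact Ideal.map_mono hc
  have hmemI : ∀ z ∈ Ideal.span (Set.range y) ^ j,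
      ρS z ∈ Ideal.span (Set.range fun i => ρS (y i)) ^ j := by
    intro z hz
    rw [← hspy, ← Ideal.map_pow]
    exact Ideal.mem_map_of_mem _ hz
  refine final_ineq Hp hp (R := R') (S := S') hd hdR hdS hdSle hj ha (fun i => ρS (y i))
    (fun i => by rw [hmaxS]; exact Ideal.mem_map_of_mem _ (hy i)) ?_
  refine upper_of_data _ (fun q => ρS (b q)) hcS ?_ ?_
  · intro z
    induction hspanLS z using Submodule.span_induction with
    | mem z hz =>
      obtain ⟨z, rfl⟩ := hz
      obtain ⟨β, hβ⟩ := hb1 z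
      refine ⟨fun q => θ (β q), ?_⟩
      have := hmemI _ hβ
      rw [map_sub, map_sum] at this
      simpa only [map_mul, ← hρS'] using this
    | zero => exact ⟨0, by simp⟩
    | add z z' _ _ h h' =>
      obtain ⟨f, hf⟩ := h
      obtain ⟨f', hf'⟩ := h'
      refine ⟨f + f', ?_⟩
      have := Ideal.add_mem _ hf hf'
      rw [← add_sub_add_comm, ← Finset.sum_add_distrib] at this
      simpa only [Pi.add_apply, map_add, add_mul] using this
    | smul a z _ h =>
      obtain ⟨f, hf⟩ := h
      refine ⟨fun q => a * f q, ?_⟩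
      have := Ideal.mul_mem_left _ (algebraMap _ S' a) hf
      rw [mul_sub, Finset.mul_sum, ← Algebra.smul_def] at this
      simpa only [map_mul, mul_assoc] using this
  · intro i q
    obtain ⟨β, hβ, hβ'⟩ := hb2 i q
    refine ⟨fun q' => constantCoeff (θ (β q')), ?_⟩
    have h1 := hmemI _ hβ'
    rw [map_sub, map_sum] at h1
    simp only [map_mul, ← hρS'] at h1
    rw [hθ] at h1
    have h2 : ∑ q', algebraMap _ S' (θ (β q') - C (constantCoeff (θ (β q')))) * ρS (b q') ∈
        Ideal.span (Set.range fun i => ρS (y i)) ^ j := by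
      refine Ideal.sum_mem _ fun q' _ => Ideal.mul_mem_right _ _ (hcS ?_)
      rw [← map_mm_pow]
      exact Ideal.mem_map_of_mem _ (hβ q')
    have h3 := Ideal.add_mem _ h1 h2
    simp only [map_sub, sub_mul, Finset.sum_sub_distrib] at h3
    rwa [sub_add_sub_cancel] at h3

end Vale.Agent.P202.CZ
end

section

/-!
From a model over a finitely generated ring of power series to the inequality.
-/

namespace Vale.Agent.P202.CZ

open MvPowerSeries IsLocalRing

universe u

lemma finiteType_closure {K : Type*} [Field K] (s : Finset K) :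
    Algebra.FiniteType ℤ (Subring.closure (s : Set K)) := by
  have h1 : Algebra.FiniteType ℤ (Algebra.adjoin ℤ (s : Set K)) := by
    rw [← Subalgebra.fg_iff_finiteType]
    exact ⟨s, rfl⟩
  rw [Algebra.adjoin_int] at h1
  exact h1

theorem le_of_model' (Hp : CharPLech.{u}) {K : Type u} [Field K] [CharZero K] {d r j c l : ℕ}
    (hd : 0 < d) (hj : 0 < j) (Mo : Model K d r j c l) : r * tc d j ≤ l := by
  obtain ⟨T, hT, E, S, t, v, e, he, J, hJ, hJx, εE, hεE, hεJ, s, hJs, n, hn, hJn, εS, hεS, hεn,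
    M, hnM, y, hy, hc, b, hb1, hb2⟩ := Mo
  obtain ⟨s0, ψ, hψ, hψX⟩ := approx_ringHom T (max c 1)
  have hconst : ∀ b : Subring.closure (T : Set (MvPowerSeries (Fin d) K)),
      constantCoeff (b : MvPowerSeries (Fin d) K) =
        ((constantCoeff (ψ b) : Subring.closure (s0 : Set K)) : K) := by
    intro b
    have h1 := hψ b
    have h2 : mm (Fin d) K ^ (max c 1) ≤ mm (Fin d) K :=
      Ideal.pow_le_self (by omega)
    have h3 := mem_mm_iff.mp (h2 h1)
    rw [map_sub, sub_eq_zero, MvPowerSeries.constantCoeff_map] at h3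
    exact h3.symm
  have := finiteType_closure s0
  obtain ⟨𝔐, h𝔐, p, hp, hchar, hfinq⟩ := exists_charP_quotient (D := Subring.closure (s0 : Set K))
  obtain ⟨k, _, _, _, π, -⟩ : ∃ (k : Type u) (_ : Field k) (_ : CharP k p) (_ : Finite k)
      (_ : Subring.closure (s0 : Set K) →+* k), True :=
    ⟨Subring.closure (s0 : Set K) ⧸ 𝔐, Ideal.Quotient.field 𝔐, hchar, hfinq,
      Ideal.Quotient.mk 𝔐, trivial⟩
  clear hchar hfinq
  generalize hD : Subring.closure (s0 : Set K) = D at *
  let θ : Subring.closure (T : Set (MvPowerSeries (Fin d) K)) →+* MvPowerSeries (Fin d) k :=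
    (MvPowerSeries.map π).comp ψ
  have hεEmem : ∀ z, εE z ∈ D := by
    intro z
    obtain ⟨b, hb⟩ := hJ z
    have h1 := hεJ _ hb
    rw [map_sub, sub_eq_zero] at h1
    rw [h1, hεE, hconst]
    exact Subtype.coe_prop _
  have hεSmem : ∀ z, εS z ∈ D := by
    intro z
    obtain ⟨b, hb⟩ := hn z
    have h1 := hεn _ hb
    rw [map_sub, sub_eq_zero] at h1
    rw [h1, hεS]
    exact hεEmem _
  have hdom : IsDomain (MvPowerSeries (Fin d) K) := NoZeroDivisors.to_isDomain _
  have hS1 : ∀ z : E, (π.comp (εS.codRestrict _ hεSmem)) (algebraMap E S z) =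
      (π.comp (εE.codRestrict _ hεEmem)) z := by
    intro z
    simp only [RingHom.comp_apply]
    congr 1
    exact Subtype.ext (hεS z)
  have hS2 : ∀ z ∈ n, (π.comp (εS.codRestrict _ hεSmem)) z = 0 := by
    intro z hz
    have : εS.codRestrict _ hεSmem z = 0 := Subtype.ext (hεn z hz)
    rw [RingHom.comp_apply, this, map_zero]
  have hE2 : ∀ z ∈ J, (π.comp (εE.codRestrict _ hεEmem)) z = 0 := by
    intro z hz
    have : εE.codRestrict _ hεEmem z = 0 := Subtype.ext (hεJ z hz)
    rw [RingHom.comp_apply, this, map_zero]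
  have hE1 : ∀ b, (π.comp (εE.codRestrict _ hεEmem)) (algebraMap _ E b) =
      constantCoeff (θ b) := by
    intro b
    simp only [θ, RingHom.comp_apply, MvPowerSeries.constantCoeff_map]
    congr 1
    apply Subtype.ext
    change εE _ = _
    rw [hεE, hconst]
  have hθX : ∀ i, θ ⟨X i, hT i⟩ = X i := by
    intro i
    simp only [θ, RingHom.comp_apply, hψX, MvPowerSeries.map_X]
  have key := @specialize Hp p hp k _ _ _ d hd
    (Subring.closure (T : Set (MvPowerSeries (Fin d) K))) _ _ (fun i => ⟨X i, hT i⟩) θ hθX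
    E S _ _ _ _ _ t v r e he J hJ hJx (π.comp (εE.codRestrict _ hεEmem)) hE1 hE2 s hJs n hn hJn
    (π.comp (εS.codRestrict _ hεSmem)) hS1 hS2 M hnM y hy j c hj hc l b hb1
  refine key ?_
  · intro i q
    obtain ⟨β, hβ, hβ'⟩ := hb2 i q
    refine ⟨β, fun q' => ?_, hβ'⟩
    obtain ⟨a, ha⟩ := hβ q'
    rw [mem_mm_pow_iff]
    intro D hD
    by_cases hD0 : D = 0
    · subst hD0
      rw [map_sub, coeff_zero_eq_constantCoeff_apply, coeff_zero_eq_constantCoeff_apply,
        constantCoeff_C, sub_self]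
    · classical
      have h1 := hψ (β q')
      rw [mem_mm_pow_iff] at h1
      have h2 := h1 D (lt_of_lt_of_le hD (le_max_left _ _))
      rw [map_sub, ha, coeff_C, if_neg hD0, sub_zero, coeff_map] at h2
      have h3 : coeff D (ψ (β q')) = 0 := Subtype.ext h2
      rw [map_sub, coeff_C, if_neg hD0, sub_zero]
      simp only [θ, RingHom.comp_apply, coeff_map, h3, map_zero]

end Vale.Agent.P202.CZ
end

section

/-!
The equal characteristic zero case for complete rings of the same dimension.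
-/

set_option linter.unusedSectionVars false

namespace Vale.Agent.P202.CZ

open MvPowerSeries IsLocalRing Filter Topology

universe u

/-- the maximal number of linearly independent elements of a finite module. -/
lemma exists_max_linearIndependent {L M : Type*} [CommRing L] [Nontrivial L] [AddCommGroup M]
    [Module L M] [Module.Finite L M] :
    ∃ r : ℕ, (∃ e : Fin r → M, LinearIndependent L e) ∧
      ∀ e : Fin (r + 1) → M, ¬ LinearIndependent L e := by
  classical
  obtain ⟨s, hs⟩ := (Module.Finite.fg_top : (⊤ : Submodule L M).FG)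
  have hbound : ∀ (n : ℕ) (e : Fin n → M), LinearIndependent L e → n ≤ s.card := by
    intro n e he
    have := linearIndependent_le_span' e he (s : Set M) (by rw [hs]; exact fun _ _ => trivial)
    simpa using this
  have hex : ∃ r : ℕ, ∀ e : Fin (r + 1) → M, ¬ LinearIndependent L e := by
    refine ⟨s.card, fun e he => ?_⟩
    have := hbound _ e he
    omega
  refine ⟨Nat.find hex, ?_, Nat.find_spec hex⟩
  rcases Nat.eq_zero_or_pos (Nat.find hex) with h | h
  · rw [h]
    exact ⟨Fin.elim0, linearIndependent_empty_type⟩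
  · obtain ⟨m, hm⟩ : ∃ m, Nat.find hex = m + 1 := ⟨Nat.find hex - 1, by omega⟩
    have h1 := Nat.find_min hex (m := m) (by omega)
    push Not at h1
    rw [hm]
    exact h1

/-- a spanning family of `S / I` over a coefficient field. -/
lemma exists_span_family {K S : Type*} [Field K] [CommRing S] [IsLocalRing S] (σ : K →+* S)
    (hK : ∀ z : S, ∃ a : K, z - σ a ∈ maximalIdeal S) (I : Ideal S) {m : ℕ}
    (hm : ell I = m) :
    ∃ (l : ℕ) (b : Fin l → S), l ≤ m ∧
      ∀ z : S, ∃ a : Fin l → K, z - ∑ q, σ (a q) * b q ∈ I := by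
  let _ : Algebra K S := σ.toAlgebra
  have h1 : Module.length K (S ⧸ I) ≤ Module.length S (S ⧸ I) := by
    refine length_le_of_residue (A := K) (R := S) hK ?_
    rw [Ideal.map_le_iff_le_comap]
    intro a ha
    have : a = 0 := by
      by_contra h0
      exact (mem_maximalIdeal a).mp ha (IsUnit.mk0 a h0)
    rw [this]
    exact Ideal.zero_mem _
  have h2 : Module.length S (S ⧸ I) = m := hm
  rw [h2] at h1
  have h3 : Module.length K (S ⧸ I) ≠ ⊤ := ne_top_of_le_ne_top (ENat.natCast_ne_top m) h1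
  have hfin : Module.Finite K (S ⧸ I) := by
    have := Module.length_ne_top_iff.mp h3
    have := (isFiniteLength_iff_isNoetherian_isArtinian.mp this).1
    infer_instance
  have h4 : (Module.finrank K (S ⧸ I) : ℕ∞) ≤ m := by
    rw [← Module.length_eq_finrank]
    exact h1
  let B := Module.finBasis K (S ⧸ I)
  choose b hb using fun q => Ideal.Quotient.mk_surjective (I := I) (B q)
  refine ⟨Module.finrank K (S ⧸ I), b, by exact_mod_cast h4, fun z => ?_⟩
  refine ⟨fun q => B.repr (Ideal.Quotient.mk I z) q, ?_⟩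
  rw [← Ideal.Quotient.eq_zero_iff_mem, map_sub, map_sum, sub_eq_zero]
  conv_lhs => rw [← B.sum_repr (Ideal.Quotient.mk I z)]
  refine Finset.sum_congr rfl fun q _ => ?_
  rw [map_mul, hb, Algebra.smul_def]
  rfl

lemma length_quot_pow_le {L E : Type*} [CommRing L] [CommRing E] [Algebra L E] (m : Ideal L)
    (J : Ideal E) (h : m.map (algebraMap L E) ≤ J) (N : ℕ) :
    Module.length L (E ⧸ J ^ N) ≤ Module.length L (E ⧸ (m ^ N • (⊤ : Submodule L E))) := by
  have h1 : (m ^ N • (⊤ : Submodule L E)) ≤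
      LinearMap.ker (Ideal.Quotient.mkₐ L (J ^ N)).toLinearMap := by
    rw [Submodule.smul_le]
    intro g hg z _
    rw [LinearMap.mem_ker, Algebra.smul_def]
    refine Ideal.Quotient.eq_zero_iff_mem.mpr ?_
    refine (J ^ N).mul_mem_right _ ?_
    refine Ideal.pow_right_mono h N ?_
    rw [← Ideal.map_pow]
    exact Ideal.mem_map_of_mem _ hg
  refine Module.length_le_of_surjective
    (Submodule.liftQ _ (Ideal.Quotient.mkₐ L (J ^ N)).toLinearMap h1) ?_
  intro z
  obtain ⟨z, rfl⟩ := Ideal.Quotient.mk_surjective z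
  exact ⟨Submodule.Quotient.mk z, rfl⟩

theorem complete_growth (Hp : CharPLech.{u}) {R S : Type u}
    [CommRing R] [IsLocalRing R] [IsNoetherianRing R] [IsAdicComplete (maximalIdeal R) R]
    [CommRing S] [IsLocalRing S] [IsNoetherianRing S] [IsAdicComplete (maximalIdeal S) S]
    [Algebra R S] [IsLocalHom (algebraMap R S)] [Module.Flat R S] [Algebra ℚ R]
    {d : ℕ} (hd : 0 < d) (hR : ringKrullDim R = d) (hS : ringKrullDim S = d) :
    ∃ c B : ℕ, ∀ N : ℕ, ell (maximalIdeal R ^ N) ≤
      ell (maximalIdeal S ^ (N + c)) + (B : ℕ∞) * ((N : ℕ∞) + 1) ^ (d - 1) := by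
  classical
  have hmS : ∀ z ∈ maximalIdeal R, algebraMap R S z ∈ maximalIdeal S := by
    intro z hz
    exact (mem_maximalIdeal _).mpr fun h =>
      (mem_maximalIdeal _).mp hz (isUnit_of_map_unit (algebraMap R S) z h)
  have hchR : CharZero (ResidueField R) := algebraRat.charZero _
  have hchS : CharZero (ResidueField S) :=
    charZero_of_injective_algebraMap (R := ResidueField R) (RingHom.injective _)
  have hinfR : Infinite (ResidueField R) := inferInstance
  have hinfS : Infinite (ResidueField S) := inferInstance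
  obtain ⟨σR, σS, hσR, hσS, hRS⟩ := exists_coefficient_fields (R := R) (S := S)
  obtain ⟨x, hx, s, hs⟩ := exists_reduction_max (A := R) d hR
  obtain ⟨φ, hφC, hφX⟩ := exists_powerSeries_hom (maximalIdeal S) σS
    (fun i => algebraMap R S (x i)) (fun i => hmS _ (hx i))
  let _ : Algebra (MvPowerSeries (Fin d) (ResidueField S)) S := φ.toAlgebra
  have hkS : ∀ z : S, ∃ a : ResidueField S, z - σS a ∈ maximalIdeal S := by
    intro z
    refine ⟨residue S z, ?_⟩
    rw [← residue_eq_zero_iff, map_sub, hσS, sub_self]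
  have hkR : ∀ z : R, ∃ a : ResidueField R, z - σR a ∈ maximalIdeal R := by
    intro z
    refine ⟨residue R z, ?_⟩
    rw [← residue_eq_zero_iff, map_sub, hσR, sub_self]
  have hC : ∀ a, algebraMap (MvPowerSeries (Fin d) (ResidueField S)) S (C a) = σS a := hφC
  have hX : ∀ i, algebraMap (MvPowerSeries (Fin d) (ResidueField S)) S (X i) =
      algebraMap R S (x i) := hφX
  -- the closed fibre
  obtain ⟨M0, hM0⟩ := exists_pow_le_of_ell_ne_top
    (ell_fibre_ne_top (R := R) (S := S) (by rw [hR, hS]))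
  have hxspan : (Ideal.span (Set.range x)).map (algebraMap R S) =
      Ideal.span (Set.range fun i =>
        algebraMap (MvPowerSeries (Fin d) (ResidueField S)) S (X i)) := by
    rw [Ideal.map_span, ← Set.range_comp]
    congr 2
    funext i
    exact (hX i).symm
  have hM : maximalIdeal S ^ (M0 * (s + 1)) ≤ Ideal.span (Set.range fun i =>
      algebraMap (MvPowerSeries (Fin d) (ResidueField S)) S (X i)) := by
    rw [pow_mul, ← hxspan]
    refine (Ideal.pow_right_mono hM0 _).trans ?_
    rw [← Ideal.map_pow]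
    exact Ideal.map_mono (hs.trans Ideal.mul_le_left)
  have hfin : Module.Finite (MvPowerSeries (Fin d) (ResidueField S)) S :=
    finite_over_powerSeries (by simpa only [hC] using hkS)
      (fun i => by rw [hX]; exact hmS _ (hx i)) hM
  obtain ⟨E, t, v, J, hfinE, hJ, hJ1, hJx, hJs, hJmap, hlen⟩ :=
    exists_free_model σR σS (ResidueField.map (algebraMap R S)) hRS hkR hkS hC x hx hX hs
  have hdom : IsDomain (MvPowerSeries (Fin d) (ResidueField S)) := NoZeroDivisors.to_isDomain _
  obtain ⟨r, ⟨e, he⟩, hr⟩ := exists_max_linearIndependent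
    (L := MvPowerSeries (Fin d) (ResidueField S)) (M := E)
  obtain ⟨B, hB⟩ := upper_growth hd hr
  -- the reduction of the maximal ideal of `S`
  obtain ⟨y, hy, u, hu⟩ := exists_reduction_max (A := S) d hS
  have hred : IsRed (Ideal.span (Set.range y)) (maximalIdeal S) := by
    refine ⟨?_, u, hu⟩
    rw [Ideal.span_le]
    rintro _ ⟨i, rfl⟩
    exact hy i
  obtain ⟨a, ha⟩ := hred.exists_pow_le
  refine ⟨a, B, fun N => ?_⟩
  -- upper bound
  have h1 : ell (maximalIdeal R ^ N) ≤ (r : ℕ∞) * (tc d N : ℕ∞) +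
      (B : ℕ∞) * ((N : ℕ∞) + 1) ^ (d - 1) := by
    refine (hlen N).trans (le_trans ?_ (hB N))
    refine length_quot_pow_le _ _ ?_ N
    rw [mm, Ideal.map_span, Ideal.span_le]
    rintro _ ⟨_, ⟨i, rfl⟩, rfl⟩
    exact hJx i
  refine h1.trans ?_
  refine add_le_add_left ?_ _
  rcases Nat.eq_zero_or_pos N with rfl | hN
  · have : tc d 0 = 0 := by
      have : tri (Fin d) 0 = ∅ := by ext u; simp [mem_tri]
      rw [tc, this, Finset.card_empty]
    rw [this]
    simp
  -- lower bound
  have hle : maximalIdeal S ^ (N + a) ≤ Ideal.span (Set.range y) ^ N := ha N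
  have hne : ell (Ideal.span (Set.range y) ^ N) ≠ ⊤ := ell_ne_top_of_pow_le hle
  obtain ⟨m, hm⟩ := ENat.ne_top_iff_exists.mp hne
  obtain ⟨l, b, hlm, hb⟩ := exists_span_family σS hkS (Ideal.span (Set.range y) ^ N) hm.symm
  obtain ⟨Mo⟩ := exists_model (K := ResidueField S) (E := E) (S := S) v e he J hJ hJ1 hJx hJs
    (maximalIdeal S) (by
      intro z
      obtain ⟨a, ha⟩ := hkS z
      refine ⟨a, ?_⟩
      rw [← hC] at ha
      exact ha)
    (fun h => (Ideal.ne_top_iff_one _).mp (maximalIdeal.isMaximal S).ne_top h)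
    (by
      rw [hJmap, Ideal.map_le_iff_le_comap]
      exact hmS) (M := M0 * (s + 1)) hM y hy (j := N) (c := N + a)
    ((Ideal.pow_right_mono (by
      rw [Ideal.span_le]
      rintro _ ⟨i, rfl⟩
      change algebraMap (MvPowerSeries (Fin d) (ResidueField S)) S (X i) ∈ _
      rw [hX]
      exact hmS _ (hx i)) _).trans hle) b
    (by
      intro z
      obtain ⟨a, ha⟩ := hb z
      refine ⟨a, ?_⟩
      simp only [← hC] at ha
      exact ha)
  have h3 := le_of_model' Hp hd hN Mo
  calc (r : ℕ∞) * (tc d N : ℕ∞) = ((r * tc d N : ℕ) : ℕ∞) := by push_cast; rfl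
    _ ≤ (l : ℕ∞) := by exact_mod_cast h3
    _ ≤ (m : ℕ∞) := by exact_mod_cast hlm
    _ = ell (Ideal.span (Set.range y) ^ N) := hm
    _ ≤ ell (maximalIdeal S ^ (N + a)) := ell_mono hle

/-- the conclusion for complete rings. -/
theorem complete_char_zero (Hp : CharPLech.{u}) {R S : Type u}
    [CommRing R] [IsLocalRing R] [IsNoetherianRing R] [IsAdicComplete (maximalIdeal R) R]
    [CommRing S] [IsLocalRing S] [IsNoetherianRing S] [IsAdicComplete (maximalIdeal S) S]
    [Algebra R S] [IsLocalHom (algebraMap R S)] [Module.Flat R S] [Algebra ℚ R]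
    {d : ℕ} (hd : 0 < d) (hR : ringKrullDim R = d) (hS : ringKrullDim S = d) (eR eS : ℕ)
    (heR : Tendsto (hsSeq R d) atTop (𝓝 (eR : ℝ)))
    (heS : Tendsto (hsSeq S d) atTop (𝓝 (eS : ℝ))) : eR ≤ eS := by
  obtain ⟨c, B, h⟩ := complete_growth Hp hd hR hS
  have key : (eR : ℝ) ≤ (1 : ℕ) * (eS : ℝ) := by
    refine le_of_growth (d := d) hd 1 c (d.factorial * B)
      (fun N => (Module.length R (R ⧸ maximalIdeal R ^ N)).toNat)
      (fun N => (Module.length S (S ⧸ maximalIdeal S ^ N)).toNat)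
      (fun N => growth_toNat d 1 c (d.factorial * B) N ?_) eR eS heR heS
    rw [Nat.cast_one, one_mul]
    calc (d.factorial : ℕ∞) * ell (maximalIdeal R ^ N) ≤ (d.factorial : ℕ∞) *
          (ell (maximalIdeal S ^ (N + c)) + (B : ℕ∞) * ((N : ℕ∞) + 1) ^ (d - 1)) := by
          gcongr
          exact h N
      _ = _ := by
          rw [mul_add]
          push_cast
          ring
  rw [Nat.cast_one, one_mul] at key
  exact_mod_cast key

end Vale.Agent.P202.CZ
end

section

/-!
From complete rings of the same dimension to all flat local maps, in equal characteristic zero.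
-/

namespace Vale.Agent.P202.CZ

open Ideal IsLocalRing Filter Topology

universe u

/-- The inequality for complete rings of the same dimension containing the rationals. -/
def CompleteCZ : Prop :=
  ∀ {R S : Type u} [CommRing R] [IsLocalRing R] [IsNoetherianRing R]
    [IsAdicComplete (maximalIdeal R) R]
    [CommRing S] [IsLocalRing S] [IsNoetherianRing S] [IsAdicComplete (maximalIdeal S) S]
    [Algebra R S] [IsLocalHom (algebraMap R S)] [Module.Flat R S] [Algebra ℚ R]
    {d : ℕ} (_ : 0 < d) (_ : ringKrullDim R = d) (_ : ringKrullDim S = d) (eR eS : ℕ)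
    (_ : Tendsto (hsSeq R d) atTop (𝓝 (eR : ℝ)))
    (_ : Tendsto (hsSeq S d) atTop (𝓝 (eS : ℝ))), eR ≤ eS

/-- Completion of a flat local homomorphism, with the map from the first ring. -/
theorem exists_completion_hom {R S : Type u} [CommRing R] [IsLocalRing R] [IsNoetherianRing R]
    [CommRing S] [IsLocalRing S] [IsNoetherianRing S] [Algebra R S]
    [IsLocalHom (algebraMap R S)] [Module.Flat R S] :
    ∃ (R' S' : Type u) (_ : CommRing R') (_ : IsLocalRing R') (_ : IsNoetherianRing R')
      (_ : CommRing S') (_ : IsLocalRing S') (_ : IsNoetherianRing S') (_ : Algebra R' S')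
      (_ : IsLocalHom (algebraMap R' S')) (_ : Module.Flat R' S')
      (_ : IsAdicComplete (maximalIdeal R') R') (_ : IsAdicComplete (maximalIdeal S') S')
      (_ : R →+* R'),
      (∀ j, Module.length R' (R' ⧸ maximalIdeal R' ^ j) =
        Module.length R (R ⧸ maximalIdeal R ^ j)) ∧
      (∀ j, Module.length S' (S' ⧸ maximalIdeal S' ^ j) =
        Module.length S (S ⧸ maximalIdeal S ^ j)) ∧
      ringKrullDim R' = ringKrullDim R ∧ ringKrullDim S' = ringKrullDim S := by
  have nR : IsNoetherianRing (AdicCompletion (maximalIdeal R) R) :=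
    isNoetherianRing_adicCompletion _
  have nS : IsNoetherianRing (AdicCompletion (maximalIdeal S) S) :=
    isNoetherianRing_adicCompletion _
  have hRS : (maximalIdeal R).map (algebraMap R S) ≤ maximalIdeal S :=
    (((IsLocalRing.local_hom_TFAE (algebraMap R S)).out 0 2) :
      IsLocalHom (algebraMap R S) ↔ _).mp inferInstance
  obtain ⟨Φ, hΦ⟩ := exists_complHom (algebraMap R S) hRS
  let algR'S' : Algebra (AdicCompletion (maximalIdeal R) R) (AdicCompletion (maximalIdeal S) S) :=
    Φ.toAlgebra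
  have st1 : IsScalarTower R (AdicCompletion (maximalIdeal R) R)
      (AdicCompletion (maximalIdeal S) S) := IsScalarTower.of_algebraMap_eq fun x => by
    rw [IsScalarTower.algebraMap_apply R S (AdicCompletion (maximalIdeal S) S)]
    exact (hΦ x).symm
  obtain ⟨loc, fl, hpack⟩ := completion_package (R := R) (S := S)
    (R' := AdicCompletion (maximalIdeal R) R) (S' := AdicCompletion (maximalIdeal S) S)
    AdicCompletion.maximalIdeal_eq_map AdicCompletion.maximalIdeal_eq_map adicCompletion_dense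
    (AdicCompletion.residueField_map_bijective R) (AdicCompletion.residueField_map_bijective S)
  exact ⟨_, _, inferInstance, inferInstance, nR, inferInstance, inferInstance, nS, algR'S',
    loc, fl, inferInstance, inferInstance, algebraMap R (AdicCompletion (maximalIdeal R) R),
    hpack.1, hpack.2.1, hpack.2.2.1, hpack.2.2.2.1⟩

/-- Induction on the difference of the dimensions. -/
theorem lech_char_zero_aux (H : CompleteCZ.{u}) {d : ℕ} (hd : 0 < d) (n : ℕ) :
    ∀ {R S : Type u} [CommRing R] [IsLocalRing R] [IsNoetherianRing R]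
    [CommRing S] [IsLocalRing S] [IsNoetherianRing S] [Algebra R S]
    [IsLocalHom (algebraMap R S)] [Module.Flat R S] [Algebra ℚ R]
    (_ : ringKrullDim R = d) (_ : ringKrullDim S = (d + n : ℕ)) (eR eS : ℕ)
    (_ : Tendsto (hsSeq R d) atTop (𝓝 (eR : ℝ)))
    (_ : Tendsto (hsSeq S (d + n)) atTop (𝓝 (eS : ℝ))),
    eR ≤ eS := by
  induction n with
  | zero =>
    intro R S _ _ _ _ _ _ _ _ _ _ hR hS eR eS heR heS
    obtain ⟨R2, S2, _, _, _, _, _, _, _, _, _, _, _, g, hlR2, hlS2, hdR2, hdS2⟩ :=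
      exists_completion_hom (R := R) (S := S)
    let _ : Algebra ℚ R2 := (g.comp (algebraMap ℚ R)).toAlgebra
    have heR2 : Tendsto (hsSeq R2 d) atTop (𝓝 (eR : ℝ)) := by
      have : hsSeq R2 d = hsSeq R d := by
        funext N
        simp only [hsSeq, hlR2]
      rw [this]; exact heR
    have heS2 : Tendsto (hsSeq S2 d) atTop (𝓝 (eS : ℝ)) := by
      have : hsSeq S2 d = hsSeq S (d + 0) := by
        funext N
        simp only [hsSeq, hlS2, add_zero]
      rw [this]; exact heS
    exact H hd (hdR2.trans hR) (hdS2.trans (by simpa using hS)) eR eS heR2 heS2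
  | succ n ih =>
    intro R S _ _ _ _ _ _ _ _ _ _ hR hS eR eS heR heS
    obtain ⟨R2, S2, _, _, _, _, _, _, _, _, _, _, _, g, hlR2, hlS2, hdR2, hdS2⟩ :=
      exists_completion_hom (R := R) (S := S)
    let _ : Algebra ℚ R2 := (g.comp (algebraMap ℚ R)).toAlgebra
    have hR2 : ringKrullDim R2 = d := hdR2.trans hR
    have hS2 : ringKrullDim S2 = (d + n : ℕ) + 1 := by
      rw [hdS2, hS]
      push_cast
      rw [add_assoc]
    obtain ⟨Q, _, hmQ, hQ1, hQs⟩ := exists_prime_dim_one (R := R2) (S := S2) (d + n) hS2 (by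
      rw [hR2, hS2]
      have : (d : WithBot ℕ∞) < ((d + n + 1 : ℕ) : WithBot ℕ∞) := by
        exact_mod_cast (by omega : d < d + n + 1)
      refine this.trans_le (le_of_eq ?_)
      push_cast
      rfl)
    have heR2 : Tendsto (hsSeq R2 d) atTop (𝓝 (eR : ℝ)) := by
      have : hsSeq R2 d = hsSeq R d := by
        funext N
        simp only [hsSeq, hlR2]
      rw [this]; exact heR
    have heS2 : Tendsto (hsSeq S2 (d + n + 1)) atTop (𝓝 (eS : ℝ)) := by
      have : hsSeq S2 (d + n + 1) = hsSeq S (d + (n + 1)) := by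
        funext N
        simp only [hsSeq, hlS2, add_assoc]
      rw [this]; exact heS
    have hflat : Module.Flat R2 (Localization.AtPrime Q) := Module.Flat.trans R2 S2 _
    have hloc : IsLocalHom (algebraMap R2 (Localization.AtPrime Q)) := by
      refine ⟨fun a ha => ?_⟩
      by_contra hna
      have h1 : algebraMap R2 S2 a ∈ Q :=
        hmQ (Ideal.mem_map_of_mem _ ((IsLocalRing.mem_maximalIdeal _).mpr hna))
      rw [IsScalarTower.algebraMap_apply R2 S2 (Localization.AtPrime Q),
        IsLocalization.AtPrime.isUnit_to_map_iff (Localization.AtPrime Q) Q] at ha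
      exact ha h1
    obtain ⟨eQ, heQ⟩ := exists_mult (A := Localization.AtPrime Q) (d := d + n) (by omega) hQs
    have h1 : eR ≤ eQ := ih (R := R2) (S := Localization.AtPrime Q) hR2 hQs eR eQ heR2 heQ
    have h2 : eQ ≤ eS := mult_localization Q hQ1 heQ heS2
    exact h1.trans h2

/-- The final statement in characteristic zero, from the complete case. -/
theorem lech_char_zero_of (H : CompleteCZ.{u}) {R S : Type u}
    [CommRing R] [IsLocalRing R] [IsNoetherianRing R]
    [CommRing S] [IsLocalRing S] [IsNoetherianRing S]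
    [Algebra R S] [IsLocalHom (algebraMap R S)] [Module.Flat R S] [Algebra ℚ R]
    {d s : ℕ} (hd : 0 < d) (hR : ringKrullDim R = d) (hS : ringKrullDim S = s) (eR eS : ℕ)
    (heR : Tendsto (hsSeq R d) atTop (𝓝 (eR : ℝ)))
    (heS : Tendsto (hsSeq S s) atTop (𝓝 (eS : ℝ))) : eR ≤ eS := by
  have hle : d ≤ s := by
    have h1 := Ideal.height_eq_height_add_of_liesOver_of_hasGoingDown (maximalIdeal R)
      (maximalIdeal S)
    have h2 : (maximalIdeal R).height ≤ (maximalIdeal S).height := by
      rw [h1]; exact le_self_add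
    have hR' := hR
    have hS' := hS
    rw [← IsLocalRing.maximalIdeal_height_eq_ringKrullDim] at hR' hS'
    have h3 : (maximalIdeal R).height = d := by exact_mod_cast hR'
    have h4 : (maximalIdeal S).height = s := by exact_mod_cast hS'
    rw [h3, h4] at h2
    exact_mod_cast h2
  obtain ⟨n, rfl⟩ := Nat.exists_eq_add_of_le hle
  exact lech_char_zero_aux H hd n hR hS eR eS heR heS

end Vale.Agent.P202.CZ
end

section

/-!
P202: Lech's inequality in equal characteristic from Theorem B: characteristic zero through the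
theorem of helper505 (reduction to finite residue fields of prime characteristic).
-/

namespace Vale.Agent.P202

open IsLocalRing Filter Topology

universe u

end Vale.Agent.P202
end

section

/-!
The SL2 theorem.
-/

namespace Vale.Agent.P202

open IsLocalRing

section
variable {A : Type*} [CommRing A] {V : Type*} [AddCommGroup V] [Module A V]

/-- cancellation of powers of `x1` in a submodule on which `x1, x2` is regular. -/
lemma mem_pow_smul_of_pow_smul {x1 x2 : A} (W : Submodule A V)
    (r1 : ∀ v ∈ W, x1 • v = 0 → v = 0)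
    (r2 : ∀ v ∈ W, ∀ w ∈ W, x2 • v = x1 • w → ∃ u ∈ W, v = x1 • u) (p n : ℕ) {u : V}
    (hu : u ∈ W) (h : x1 ^ p • u ∈ Ideal.span {x1, x2} ^ (n + p) • W) :
    u ∈ Ideal.span {x1, x2} ^ n • W := by
  have hmap : ∀ k : ℕ, (qPow (Ideal.span {x1, x2}) W k).map W.subtype =
      Ideal.span {x1, x2} ^ k • W := by
    intro k
    rw [qPow, Submodule.map_smul'', Submodule.map_top, Submodule.range_subtype]
  have r1' : ∀ v : W, x1 • v = 0 → v = 0 := by
    intro v hv
    exact Subtype.ext (r1 v v.2 (congrArg Subtype.val hv))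
  have r2' : ∀ v w : W, x2 • v = x1 • w → ∃ u : W, v = x1 • u := by
    intro v w hvw
    obtain ⟨u, hu, huv⟩ := r2 v v.2 w w.2 (congrArg Subtype.val hvw)
    exact ⟨⟨u, hu⟩, Subtype.ext huv⟩
  have key : ∀ p : ℕ, ∀ v : W, x1 ^ p • v ∈ qPow (Ideal.span {x1, x2}) W (n + p) →
      v ∈ qPow (Ideal.span {x1, x2}) W n := by
    intro p
    induction p with
    | zero => intro v hv; simpa using hv
    | succ p ih =>
      intro v hv
      rw [pow_succ', mul_smul] at hv
      exact ih v (mem_qPow_of_x1_smul r1' r2' hv)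
  rw [← hmap] at h ⊢
  obtain ⟨w, hw, hwu⟩ := h
  refine ⟨⟨u, hu⟩, key p _ ?_, rfl⟩
  have : w = x1 ^ p • (⟨u, hu⟩ : W) := Subtype.ext hwu
  rwa [← this]

/-- finite length modules over a local ring are killed by a power of the maximal ideal. -/
lemma exists_pow_smul_le_of_rl [IsLocalRing A] (J : Submodule A V) (hJ : rl J ⊤ ≠ ⊤) :
    ∃ p : ℕ, maximalIdeal A ^ p • (⊤ : Submodule A V) ≤ J := by
  rw [rl_top] at hJ
  obtain ⟨hNo, hAr⟩ := isFiniteLength_iff_isNoetherian_isArtinian.mp (Module.length_ne_top_iff.mp hJ)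
  obtain ⟨k, hk⟩ : ∃ k : ℕ, maximalIdeal A ^ k • (⊤ : Submodule A (V ⧸ J)) = ⊥ := by
    let f : ℕ →o (Submodule A (V ⧸ J))ᵒᵈ :=
      ⟨fun k => OrderDual.toDual (maximalIdeal A ^ k • ⊤), fun a b hab =>
        Submodule.smul_mono_left (Ideal.pow_le_pow_right hab)⟩
    obtain ⟨k, hk⟩ := IsArtinian.monotone_stabilizes f
    refine ⟨k, ?_⟩
    have h1 : maximalIdeal A ^ k • (⊤ : Submodule A (V ⧸ J))
        = maximalIdeal A ^ (k + 1) • ⊤ := hk (k + 1) (Nat.le_succ k)
    refine Submodule.eq_bot_of_le_smul_of_le_jacobson_bot (maximalIdeal A) _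
      (IsNoetherian.noetherian _) ?_ (IsLocalRing.maximalIdeal_le_jacobson _)
    rw [← mul_smul, ← pow_succ']
    exact h1.le
  refine ⟨k, ?_⟩
  have h2 : (maximalIdeal A ^ k • (⊤ : Submodule A V)).map J.mkQ = ⊥ := by
    rw [Submodule.map_smul'', Submodule.map_top, Submodule.range_mkQ, hk]
  intro v hv
  have h3 : J.mkQ v ∈ (maximalIdeal A ^ k • (⊤ : Submodule A V)).map J.mkQ := ⟨v, hv, rfl⟩
  rw [h2, Submodule.mem_bot, Submodule.mkQ_apply, Submodule.Quotient.mk_eq_zero] at h3
  exact h3

lemma pow_add_le_pow {m q : Ideal A} {r : ℕ} (hr : m ^ (r + 1) ≤ q * m ^ r) (s : ℕ) :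
    m ^ (r + s) ≤ q ^ s := by
  have h1 : ∀ s : ℕ, m ^ (r + s) ≤ q ^ s * m ^ r := by
    intro s
    induction s with
    | zero => simp
    | succ s ih =>
      calc m ^ (r + (s + 1)) = m ^ (r + s) * m := by rw [← add_assoc, pow_succ]
        _ ≤ (q ^ s * m ^ r) * m := Ideal.mul_mono_left ih
        _ = q ^ s * m ^ (r + 1) := by rw [mul_assoc, ← pow_succ]
        _ ≤ q ^ s * (q * m ^ r) := Ideal.mul_mono_right hr
        _ = q ^ (s + 1) * m ^ r := by rw [← mul_assoc, ← pow_succ]
  exact (h1 s).trans Ideal.mul_le_left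

end

/-- a finite module killed by an ideal of finite colength has finite length. -/
lemma length_quotient_smul_ne_top {S : Type*} [CommRing S] [IsNoetherianRing S] (J : Ideal S)
    (hJ : Module.length S (S ⧸ J) ≠ ⊤) {N : Type*} [AddCommGroup N] [Module S N]
    [Module.Finite S N] : Module.length S (N ⧸ (J • (⊤ : Submodule S N))) ≠ ⊤ := by
  obtain ⟨hNo, hAr⟩ := isFiniteLength_iff_isNoetherian_isArtinian.mp (Module.length_ne_top_iff.mp hJ)
  have : IsArtinianRing (S ⧸ J) := isArtinian_of_tower S hAr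
  have : Module.Finite (S ⧸ J) (N ⧸ (J • (⊤ : Submodule S N))) :=
    Module.Finite.of_restrictScalars_finite S _ _
  have : IsArtinian (S ⧸ J) (N ⧸ (J • (⊤ : Submodule S N))) := inferInstance
  have : IsArtinian S (N ⧸ (J • (⊤ : Submodule S N))) :=
    isArtinian_of_surjective_algebraMap (R := S ⧸ J) (S := S)
      (Ideal.Quotient.mk_surjective)
  have : IsNoetherian S (N ⧸ (J • (⊤ : Submodule S N))) := inferInstance
  exact Module.length_ne_top


end Vale.Agent.P202
end

section

/-!
Version of SL2 with lengths over `S` (finite residue field extension).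
-/

namespace Vale.Agent.P202

open IsLocalRing

end Vale.Agent.P202
end

section

/-!
Version of SL2 with lengths over `S`, for arbitrary residue field extensions.
-/

namespace Vale.Agent.P202

open IsLocalRing

/-- colengths of products of powers of `I` and an ideal. -/
lemma rl_pow_mul_ne_top' {A : Type*} [CommRing A] {V : Type*} [AddCommGroup V] [Module A V]
    [IsNoetherianRing A] {I : Ideal A}
    (hV : rl (I • (⊤ : Submodule A V)) ⊤ ≠ ⊤) (C : Ideal A) (n : ℕ) :
    rl ((I ^ n * C) • (⊤ : Submodule A V)) (C • (⊤ : Submodule A V)) ≠ ⊤ := by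
  induction n with
  | zero => simp
  | succ n ih =>
    have h1 : (I ^ (n + 1) * C) ≤ (I ^ n * C) :=
      Ideal.mul_mono_left (Ideal.pow_le_pow_right (Nat.le_succ n))
    have h2 : (I ^ n * C) ≤ C := Ideal.mul_le_right
    rw [rl_add (Submodule.smul_mono_left h1) (Submodule.smul_mono_left h2)]
    intro h
    rcases WithTop.add_eq_top.mp h with h3 | h3
    · refine rl_smul_ne_top hV (IsNoetherian.noetherian (I ^ n * C)) _ ?_ h3
      rw [← Submodule.mul_smul]
      refine Submodule.smul_mono_left ?_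
      rw [pow_succ, mul_assoc, mul_assoc, mul_comm C]
    · exact ih h3

theorem SL2G {D S : Type*} [CommRing D] [IsLocalRing D] [IsNoetherianRing D]
    [CommRing S] [IsLocalRing S] [IsNoetherianRing S] [Algebra D S]
    [IsLocalHom (algebraMap D S)] [Module.Flat D S]
    (hT : Module.length S (S ⧸ (maximalIdeal D).map (algebraMap D S)) ≠ ⊤)
    (C : Ideal D) (x1 x2 : D) (hx1 : x1 ∈ maximalIdeal D) (hx2 : x2 ∈ maximalIdeal D)
    (r1 : ∀ v ∈ C, x1 * v = 0 → v = 0)
    (r2 : ∀ v ∈ C, ∀ w ∈ C, x2 * v = x1 * w → ∃ u ∈ C, v = x1 * u)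
    (r : ℕ) (hr : maximalIdeal D ^ (r + 1) ≤ Ideal.span {x1, x2} * maximalIdeal D ^ r)
    (y1 y2 : S) (hy1 : y1 ∈ maximalIdeal S) (hy2 : y2 ∈ maximalIdeal S)
    (hfin : Module.length S (S ⧸ Ideal.span {y1, y2}) ≠ ⊤) (c : ℕ)
    (hc : Module.length S (S ⧸ ((maximalIdeal D).map (algebraMap D S) ⊔ Ideal.span {y1, y2}))
      = (c : ℕ∞)) :
    (c : ℕ∞) * rl (Ideal.span {x1, x2} * C) C ≤
      rl (Ideal.span {y1, y2} * C.map (algebraMap D S)) (C.map (algebraMap D S)) := by
  set q : Ideal D := Ideal.span {x1, x2} with hq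
  set m : Ideal D := maximalIdeal D with hm
  have hqm : q ≤ m := by
    rw [hq, Ideal.span_le]
    rintro x (rfl | hx)
    · exact hx1
    · rw [Set.mem_singleton_iff] at hx; rw [hx]; exact hx2
  -- Step 0: the module `C`
  have r1' : ∀ v : C, x1 • v = 0 → v = 0 := by
    intro v hv
    exact Subtype.ext (r1 v v.2 (congrArg Subtype.val hv))
  have r2' : ∀ v w : C, x2 • v = x1 • w → ∃ u : C, v = x1 • u := by
    intro v w hvw
    obtain ⟨u, hu, huv⟩ := r2 v v.2 w w.2 (congrArg Subtype.val hvw)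
    exact ⟨⟨u, hu⟩, Subtype.ext huv⟩
  obtain ⟨F, F1, F2, F3, F4, F5, F6, F7⟩ := init_fil (M := C) x1 x2 hx1 hx2 r1' r2' r hr
  obtain ⟨hFil, ⟨lo, hi, hPr⟩, e, c0, he⟩ := base_pr F x1 x2 hx1 hx2 F1 F2 F3 F4 F5
  obtain ⟨G, t, l, c', hG, hGF, hFG, hPrG, heG⟩ := exists_balanced hFil hPr he
  have hinj : Function.Injective C.subtype := Submodule.subtype_injective C
  -- stability
  obtain ⟨j₁, hj₁⟩ := BaseAux.stable_of_le m F G F1 F2
    (by
      obtain ⟨b, hb⟩ := F4
      exact ⟨b, fun j hj => (hb j hj).trans (Submodule.smul_mono_left hqm)⟩)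
    hG.anti hG.smul hGF
  -- the ideals
  let G' : ℕ → Ideal D := fun j => (G j).map C.subtype
  have hG' : Fil m G' := hG.mapInj C.subtype hinj
  have hPrG' : Pr m G' l (l + 1) := hPrG.mapInj C.subtype hinj
  have heG' : EvLin (fun j => rl (G' (j + 1)) (G' j)) e c' :=
    heG.congrB 0 (fun j _ => (rl_map_of_injective C.subtype hinj _ _).symm)
  have hstG' : ∃ j₀, ∀ j, j₀ ≤ j → G' (j + 1) ≤ m * G' j := by
    refine ⟨j₁, fun j hj => ?_⟩
    have h1 : (G (j + 1)).map C.subtype ≤ (m • G j).map C.subtype := Submodule.map_mono (hj₁ j hj)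
    rw [Submodule.map_smul''] at h1
    exact h1
  have hmapC : ∀ I : Ideal D, (I • (⊤ : Submodule D C)).map C.subtype = I * C := by
    intro I
    rw [Submodule.map_smul'', Submodule.map_top, Submodule.range_subtype, smul_eq_mul]
  have ha : ∀ j, G' j ≤ q ^ j * C := by
    intro j
    rw [← hmapC]
    exact Submodule.map_mono ((hGF j).trans (F6 j))
  have hb : ∀ j, q ^ (j + t + r) * C ≤ G' j := by
    intro j
    rw [← hmapC]
    exact Submodule.map_mono ((F7 (j + t)).trans (hFG j))
  -- the ideals of `S`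
  let φ : D →+* S := algebraMap D S
  let n : Ideal S := maximalIdeal S
  let M : Ideal S := m.map φ
  let Q : Ideal S := q.map φ
  let H : ℕ → Ideal S := fun j => (G' j).map φ
  let W : Ideal S := C.map φ
  have hMn : M ≤ n := map_maximalIdeal_le
  have hQn : Q ≤ n := (Ideal.map_mono hqm).trans hMn
  have htop : ∀ I : Ideal S, I • (⊤ : Submodule S S) = I := by
    intro I
    rw [smul_eq_mul, Ideal.mul_top]
  have ha' : ∀ j, H j ≤ Q ^ j * W := by
    intro j
    have := Ideal.map_mono (f := φ) (ha j)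
    rwa [Ideal.map_mul, Ideal.map_pow] at this
  have hb' : ∀ j, Q ^ (j + t + r) * W ≤ H j := by
    intro j
    have := Ideal.map_mono (f := φ) (hb j)
    rwa [Ideal.map_mul, Ideal.map_pow] at this
  have hGC : ∀ j, G' j ≤ C := fun j => (ha j).trans Ideal.mul_le_right
  have hNW : ∀ j, H j ≤ W := fun j => Ideal.map_mono (hGC j)
  -- multiplication maps
  let Y1 : S →ₗ[S] S := LinearMap.mulLeft S y1
  let Y2 : S →ₗ[S] S := LinearMap.mulLeft S y2
  let J : Ideal S := Ideal.span {y1, y2}
  have hJ : rl J ⊤ ≠ ⊤ := by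
    rw [rl_top]
    exact hfin
  obtain ⟨p, hp⟩ := exists_pow_smul_le_of_rl J hJ
  rw [htop] at hp
  -- `I J` is contained in the sum of the images
  have hIJ : ∀ I : Ideal S, I • J ≤ Submodule.map Y1 I ⊔ Submodule.map Y2 I := by
    intro I
    rw [Submodule.smul_le]
    intro g hg u hu
    obtain ⟨a, b, rfl⟩ := Ideal.mem_span_pair.mp (show u ∈ Ideal.span {y1, y2} from hu)
    rw [smul_add]
    refine Submodule.add_mem_sup ?_ ?_
    · exact ⟨g * a, Ideal.mul_mem_right _ _ hg, by
        simp only [Y1, LinearMap.mulLeft_apply, smul_eq_mul]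
        ring⟩
    · exact ⟨g * b, Ideal.mul_mem_right _ _ hg, by
        simp only [Y2, LinearMap.mulLeft_apply, smul_eq_mul]
        ring⟩
  -- Step 7
  let s : ℕ := t + r + p
  have S1 : ∀ j, H (j + s) • (⊤ : Submodule S S) ≤
      Submodule.map Y1 (H j • ⊤) ⊔ Submodule.map Y2 (H j • ⊤) := by
    intro j
    rw [htop, htop]
    refine le_trans ?_ (hIJ (H j))
    refine (ha' (j + s)).trans ?_
    have h1 : Q ^ (j + s) = Q ^ p * Q ^ (j + t + r) := by
      rw [← pow_add]; congr 1; simp only [s]; omega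
    rw [h1, mul_assoc]
    calc Q ^ p * (Q ^ (j + t + r) * W) ≤ n ^ p * H j :=
          Ideal.mul_mono (Ideal.pow_right_mono hQn p) (hb' j)
      _ = H j * n ^ p := mul_comm _ _
      _ ≤ H j * J := Ideal.mul_mono_right hp
  -- regularity on `W`
  have hWD : ∀ v : S, v ∈ C • (⊤ : Submodule D S) ↔ v ∈ W := by
    intro v
    rw [Ideal.smul_top_eq_map]
    exact Iff.rfl
  have w1 : ∀ v ∈ W, φ x1 • v = 0 → v = 0 := by
    intro v hv h
    refine flat_r1 r1 v ((hWD v).mpr hv) ?_
    rw [← algebraMap_smul S x1 v]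
    exact h
  have w2 : ∀ v ∈ W, ∀ w ∈ W, φ x2 • v = φ x1 • w → ∃ u ∈ W, v = φ x1 • u := by
    intro v hv w hw h
    obtain ⟨u, hu, huv⟩ := flat_r2 r2 v ((hWD v).mpr hv) w ((hWD w).mpr hw) (by
      rw [← algebraMap_smul S x2 v, ← algebraMap_smul S x1 w]
      exact h)
    refine ⟨u, (hWD u).mp hu, ?_⟩
    rw [huv, ← algebraMap_smul S x1 u]
  have hQspan : Q = Ideal.span {φ x1, φ x2} := by
    simp only [Q, hq]
    rw [Ideal.map_span, Set.image_pair]
  -- Step 8
  let X : ℕ → Submodule S S := fun j =>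
    W ⊓ Submodule.comap Y1 (H j • ⊤) ⊓ Submodule.comap Y2 (H j • ⊤)
  have S2 : ∀ j, X (j + s) ≤ H j • (⊤ : Submodule S S) := by
    intro j v hv
    obtain ⟨⟨hvW, hv1⟩, hv2⟩ := hv
    rw [htop] at hv1 hv2 ⊢
    have hv1' : y1 * v ∈ H (j + s) := hv1
    have hv2' : y2 * v ∈ H (j + s) := hv2
    have h1 : φ x1 ^ p ∈ J :=
      hp (Ideal.pow_mem_pow (hMn (Ideal.mem_map_of_mem φ hx1)) p)
    obtain ⟨a, b, hab⟩ := Ideal.mem_span_pair.mp
      (show φ x1 ^ p ∈ Ideal.span {y1, y2} from h1)
    have h2 : φ x1 ^ p • v = a * (y1 * v) + b * (y2 * v) := by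
      rw [smul_eq_mul, ← hab]; ring
    have h3 : φ x1 ^ p • v ∈ H (j + s) := by
      rw [h2]
      exact Ideal.add_mem _ (Ideal.mul_mem_left _ _ hv1') (Ideal.mul_mem_left _ _ hv2')
    have h4 := ha' (j + s) h3
    have h5 : Q ^ (j + s) = Q ^ ((j + t + r) + p) := by
      congr 1; simp only [s]; omega
    rw [h5, hQspan] at h4
    have h6 := mem_pow_smul_of_pow_smul W w1 w2 p _ hvW h4
    rw [← hQspan] at h6
    exact hb' j h6
  -- finiteness
  have hTm : rl (M • (⊤ : Submodule S S)) ⊤ ≠ ⊤ := by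
    rw [htop, rl_top]; exact hT
  have hfinN : ∀ j, rl (H j) W ≠ ⊤ := by
    intro j
    have h1 := rl_pow_mul_ne_top' hTm W (r + (j + t + r))
    rw [htop, htop] at h1
    have h2 : M ^ (r + (j + t + r)) * W ≤ H j := by
      have h3 : (m ^ (r + (j + t + r)) * C) ≤ G' j :=
        (Ideal.mul_mono_left (pow_add_le_pow hr _)).trans (hb j)
      have := Ideal.map_mono (f := φ) h3
      rwa [Ideal.map_mul, Ideal.map_pow] at this
    intro h3
    exact h1 (top_le_iff.mp (h3 ▸ rl_anti_left h2))
  have hI1 : ∀ I : Ideal S, Submodule.map Y1 I ≤ I := by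
    rintro I _ ⟨v, hv, rfl⟩
    exact Ideal.mul_mem_left _ _ hv
  have hI2 : ∀ I : Ideal S, Submodule.map Y2 I ≤ I := by
    rintro I _ ⟨v, hv, rfl⟩
    exact Ideal.mul_mem_left _ _ hv
  have hΘfin : rl (Submodule.map Y1 W ⊔ Submodule.map Y2 W) W ≠ ⊤ := by
    have h := rl_smul_ne_top (V := S) hJ (IsNoetherian.noetherian W) _ (hIJ W)
    rwa [htop] at h
  obtain ⟨Θ, hΘ⟩ := ENat.ne_top_iff_exists.mp hΘfin
  -- Step 11: `y1, y2` is regular on `W`
  have hreg := regular_of_finite_length (S := S) (N := W) (φ x1) (φ x2)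
    (hMn (Ideal.mem_map_of_mem φ hx1)) (hMn (Ideal.mem_map_of_mem φ hx2))
    (by
      intro v hv
      exact Subtype.ext (w1 v v.2 (congrArg Subtype.val hv)))
    (by
      intro v w hvw
      obtain ⟨u, hu, huv⟩ := w2 v v.2 w w.2 (congrArg Subtype.val hvw)
      exact ⟨⟨u, hu⟩, Subtype.ext huv⟩)
    y1 y2 hy1 hy2 (length_quotient_smul_ne_top J hfin)
  obtain ⟨g1, g2⟩ := hreg
  have k1 : ∀ v ∈ W, Y1 v = 0 → v = 0 := by
    intro v hv h
    exact congrArg Subtype.val (g1 ⟨v, hv⟩ (Subtype.ext h))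
  have k2 : ∀ v ∈ W, ∀ w ∈ W, Y2 v = Y1 w → ∃ u ∈ W, v = Y1 u := by
    intro v hv w hw h
    obtain ⟨u, hu⟩ := g2 ⟨v, hv⟩ ⟨w, hw⟩ (Subtype.ext h)
    exact ⟨u, u.2, congrArg Subtype.val hu⟩
  have hYY : Y1 ∘ₗ Y2 = Y2 ∘ₗ Y1 := by
    ext
    simp only [Y1, Y2, LinearMap.comp_apply, LinearMap.mulLeft_apply]
    ring
  have S3 : ∀ j, rl (Submodule.map Y1 (H j • ⊤) ⊔ Submodule.map Y2 (H j • ⊤))
      (H j • (⊤ : Submodule S S)) = (Θ : ℕ∞) + rl (H j • (⊤ : Submodule S S)) (X j) := by
    intro j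
    have h := koszul_identity Y1 Y2 hYY W (H j) (hNW j) (hfinN j) (hI1 W) (hI2 W)
      (hI1 _) (hI2 _) k1 k2 hΘfin
    simp only [X, htop]
    rw [h, ← hΘ]
  -- Step 12
  have hcc : Module.length S (S ⧸ ((M • (⊤ : Submodule S S)) ⊔
      (LinearMap.range Y1 ⊔ LinearMap.range Y2))) = (c : ℕ∞) := by
    rw [← hc]
    have h1 : ((M • (⊤ : Submodule S S)) ⊔ (LinearMap.range Y1 ⊔ LinearMap.range Y2)) =
        (m.map (algebraMap D S) ⊔ Ideal.span {y1, y2}) := by
      rw [htop]
      congr 1
      ext v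
      simp only [Submodule.mem_sup, LinearMap.mem_range]
      constructor
      · rintro ⟨_, ⟨b, rfl⟩, _, ⟨d, rfl⟩, rfl⟩
        refine Ideal.mem_span_pair.mpr ⟨b, d, ?_⟩
        simp only [Y1, Y2, LinearMap.mulLeft_apply]
        ring
      · intro hz
        obtain ⟨b, d, rfl⟩ := Ideal.mem_span_pair.mp hz
        refine ⟨_, ⟨b, rfl⟩, _, ⟨d, rfl⟩, ?_⟩
        simp only [Y1, Y2, LinearMap.mulLeft_apply]
        ring
    rw [h1]
  have hPrB : PrB M n H l (l + 1) := prB_of_pr G' hG' hstG' l (l + 1) hPrG'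
  have heH : EvLin (fun j => rl (H (j + 1) ⊔ n * H j) (H j)) e c' := by
    obtain ⟨j₀, hj₀⟩ := heG'
    refine ⟨j₀, fun j hj => ?_⟩
    obtain ⟨N, hN, hN'⟩ := hj₀ j hj
    exact ⟨N, rl_map_eq (hG'.anti j) (hG'.smul j) N hN, hN'⟩
  have := flat_prod (A := D) (V := S)
  have hcore := coreB (B := S) (V := S) M
    (by rw [htop]; exact hT)
    Y1 Y2 H (fun j => Ideal.map_mono (hG'.anti j))
    (fun j => by
      have h := Ideal.map_mono (f := φ) (hG'.smul j)
      rw [smul_eq_mul, Ideal.map_mul] at h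
      exact h)
    (fun j => flatLike_of_flat m n hMn (hG'.anti j))
    (fun j => flatLike_of_flat m n hMn (hG'.anti j))
    l e c' hPrB heH W (by rw [htop]; exact hNW 0) X
    (fun j => rfl) s (Filter.Eventually.of_forall S1) (Filter.Eventually.of_forall S2) Θ
    (Filter.Eventually.of_forall S3) c hcc
  -- Step 13
  have hfinC : ∀ n : ℕ, rl (m ^ n • (⊤ : Submodule D C)) ⊤ ≠ ⊤ := by
    intro n
    induction n with
    | zero => simp
    | succ n ih =>
      rw [rl_add (L := m ^ n • (⊤ : Submodule D C))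
        (Submodule.smul_mono_left (Ideal.pow_le_pow_right (Nat.le_succ n))) le_top]
      intro h
      rcases WithTop.add_eq_top.mp h with h3 | h3
      · refine BaseAux.rl_ne_top_of_smul_le ?_ h3
        rw [← Submodule.mul_smul, ← pow_succ']
      · exact ih h3
  have hfinF : ∀ j, rl (F j) ⊤ ≠ ⊤ := by
    intro j h
    refine hfinC (r + (j + r)) (top_le_iff.mp (h ▸ rl_anti_left ?_))
    exact (Submodule.smul_mono_left (pow_add_le_pow hr _)).trans (F7 j)
  have hL0 : rl (qPow q C 1) ⊤ = rl (q * C) C := by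
    rw [← rl_map_of_injective C.subtype hinj, qPow, pow_one, hmapC, Submodule.map_top,
      Submodule.range_subtype]
  have hLfin : rl (qPow q C 1) ⊤ ≠ ⊤ := by
    intro h
    refine hfinC (r + 1) (top_le_iff.mp (h ▸ rl_anti_left ?_))
    exact Submodule.smul_mono_left (pow_add_le_pow hr _)
  obtain ⟨L, hL⟩ := ENat.ne_top_iff_exists.mp hLfin
  have hLe : (L : ℤ) ≤ e := le_slope r1' r2' L hL.symm F1 he hfinF F6
  -- Step 14
  have hfinal : (c : ℤ) * L ≤ Θ :=
    (mul_le_mul_of_nonneg_left hLe (Int.natCast_nonneg c)).trans hcore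
  have hfinal' : c * L ≤ Θ := by exact_mod_cast hfinal
  have hlast : rl (Ideal.span {y1, y2} * C.map (algebraMap D S)) (C.map (algebraMap D S)) =
      (Θ : ℕ∞) := by
    rw [hΘ]
    congr 1
    ext v
    constructor
    · intro hv
      have hv' : v ∈ Ideal.span {y1, y2} * W := hv
      rw [← smul_eq_mul] at hv'
      obtain ⟨a, ha, b, hb, rfl⟩ := exists_of_mem_span_pair_smul hv'
      exact Submodule.add_mem_sup ⟨a, ha, rfl⟩ ⟨b, hb, rfl⟩
    · intro hv
      obtain ⟨_, ⟨a, ha, rfl⟩, _, ⟨b, hb, rfl⟩, rfl⟩ := Submodule.mem_sup.mp hv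
      exact Ideal.add_mem _
        (Ideal.mul_mem_mul (Ideal.subset_span (by simp)) ha)
        (Ideal.mul_mem_mul (Ideal.subset_span (by simp)) hb)
  rw [hlast, ← hL0, ← hL]
  exact_mod_cast hfinal'

end Vale.Agent.P202
end

section

/-!
The two-dimensional inequality for a complete local ring.
-/

set_option linter.unusedSectionVars false

namespace Vale.Agent.P202

open IsLocalRing TensorProduct

namespace TwoDim

section domain

/-- growth of a local ring with one parameter. -/
lemma linear_growth {D : Type*} [CommRing D] [IsLocalRing D] [IsNoetherianRing D] (x : D)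
    (hx : x ∈ maximalIdeal D) {s : ℕ} (hs : maximalIdeal D ^ s ≤ Ideal.span {x}) :
    ∃ K : ℕ, ∀ j : ℕ, ell (maximalIdeal D ^ j) ≤ (K : ℕ∞) * ((j : ℕ∞) + 1) := by
  obtain ⟨e, he⟩ := ENat.ne_top_iff_exists.mp (ell_ne_top_of_pow_le hs)
  have h1 : ∀ j : ℕ, ell (Ideal.span {x ^ j}) ≤ (j : ℕ∞) * e := by
    intro j
    induction j with
    | zero =>
      rw [pow_zero, Ideal.span_singleton_one, ell_top]
      exact zero_le
    | succ j ih =>
      have h2 : Ideal.span {x ^ (j + 1)} ≤ Ideal.span {x ^ j} := by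
        rw [Ideal.span_singleton_le_span_singleton, pow_succ]
        exact Dvd.intro _ rfl
      have h3 : rl (Ideal.span {x ^ (j + 1)}) (Ideal.span {x ^ j}) ≤ e := by
        have h4 := Mcm.rl_span_mul_le (x ^ j) (Ideal.span {x}) ⊤
        rw [Ideal.mul_top, Ideal.span_singleton_mul_span_singleton, ← pow_succ, rl_top] at h4
        rw [he]
        exact h4
      have h5 : ell (Ideal.span {x ^ (j + 1)}) =
          rl (Ideal.span {x ^ (j + 1)}) (Ideal.span {x ^ j}) + ell (Ideal.span {x ^ j}) := by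
        have := rl_add h2 (le_top (a := Ideal.span {x ^ j}))
        rw [rl_top, rl_top] at this
        exact this
      rw [h5]
      refine (add_le_add h3 ih).trans (le_of_eq ?_)
      push_cast; ring
  refine ⟨e, fun j => ?_⟩
  have h2 : ell (maximalIdeal D ^ j) ≤ ell (Ideal.span {x ^ j}) := by
    refine ell_mono ?_
    rw [Ideal.span_singleton_le_iff_mem]
    exact Ideal.pow_mem_pow hx j
  refine (h2.trans (h1 j)).trans ?_
  rw [mul_comm]
  exact mul_le_mul_right le_self_add _

/-- relative length of `J * C` in `C`. -/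
lemma rl_mul_eq {T : Type*} [CommRing T] (J C : Ideal T) :
    rl (J * C) C = Module.length T (C ⧸ (J • (⊤ : Submodule T C))) := by
  unfold rl
  have : (J * C).submoduleOf C = J • (⊤ : Submodule T C) := by
    apply Submodule.map_injective_of_injective (Submodule.injective_subtype C)
    rw [Submodule.map_smul'', Submodule.map_top, Submodule.range_subtype, Submodule.submoduleOf,
      Submodule.map_comap_eq, Submodule.range_subtype, smul_eq_mul]
    exact inf_eq_right.mpr Ideal.mul_le_right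
  rw [this]

end domain

section quotient

lemma isPrecomplete_of_surjective' {R : Type*} [CommRing R] (I : Ideal R)
    {M N : Type*} [AddCommGroup M] [Module R M]
    [AddCommGroup N] [Module R N] [IsPrecomplete I M] (f : M →ₗ[R] N)
    (hf : Function.Surjective f) : IsPrecomplete I N := by
  rw [← AdicCompletion.of_surjective_iff]
  intro y
  obtain ⟨x, rfl⟩ := AdicCompletion.map_surjective I hf y
  obtain ⟨z, rfl⟩ := AdicCompletion.of_surjective I M x
  exact ⟨f z, (AdicCompletion.map_of ..).symm⟩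

lemma map_maximalIdeal_quotient {A : Type*} [CommRing A] [IsLocalRing A] (P : Ideal A)
    (hP : P ≠ ⊤) [IsLocalRing (A ⧸ P)] :
    (maximalIdeal A).map (Ideal.Quotient.mk P) = maximalIdeal (A ⧸ P) := by
  apply eq_maximalIdeal
  refine Ideal.IsMaximal.map_of_surjective_of_ker_le Ideal.Quotient.mk_surjective ?_
  rw [Ideal.mk_ker]
  exact IsLocalRing.le_maximalIdeal hP

/-- A nonzero quotient of a complete local ring is complete. -/
lemma isAdicComplete_quotient' {S : Type*} [CommRing S] [IsLocalRing S] [IsNoetherianRing S]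
    [IsAdicComplete (maximalIdeal S) S] (Q : Ideal S) (hQ : Q ≠ ⊤) [IsLocalRing (S ⧸ Q)] :
    IsAdicComplete (maximalIdeal (S ⧸ Q)) (S ⧸ Q) := by
  have h1 : IsPrecomplete (maximalIdeal (S ⧸ Q)) (S ⧸ Q) := by
    have h1 : IsPrecomplete (maximalIdeal S) (S ⧸ Q) :=
      isPrecomplete_of_surjective' (maximalIdeal S) Q.mkQ Q.mkQ_surjective
    have h2 : IsPrecomplete ((maximalIdeal S).map (Ideal.Quotient.mk Q)) (S ⧸ Q) :=
      IsPrecomplete.map_algebraMap_iff.mpr h1
    rwa [map_maximalIdeal_quotient Q hQ] at h2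
  have h3 : IsHausdorff (maximalIdeal (S ⧸ Q)) (S ⧸ Q) :=
    IsHausdorff.of_le_jacobson _ _ (by rw [IsLocalRing.jacobson_eq_maximalIdeal ⊥ bot_ne_top])
  exact { h1, h3 with }

lemma flat_quotient {A S : Type*} [CommRing A] [CommRing S] [Algebra A S] [Module.Flat A S]
    (P : Ideal A) : Module.Flat (A ⧸ P) (S ⧸ P.map (algebraMap A S)) := by
  have e1 : ((A ⧸ P) ⊗[A] S) ≃ₗ[A] (S ⧸ (P • (⊤ : Submodule A S))) :=
    TensorProduct.quotTensorEquivQuotSMul S P
  have e2 : (S ⧸ (P • (⊤ : Submodule A S))) ≃ₗ[A] (S ⧸ P.map (algebraMap A S)) :=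
    (Submodule.quotEquivOfEq _ ((P.map (algebraMap A S)).restrictScalars A)
        (by rw [← Ideal.smul_top_eq_map])).trans (Submodule.Quotient.restrictScalarsEquiv A _)
  have e3 : ((A ⧸ P) ⊗[A] S) ≃ₗ[A ⧸ P] (S ⧸ P.map (algebraMap A S)) :=
    LinearEquiv.extendScalarsOfSurjective (Ideal.Quotient.mk_surjective) (e1.trans e2)
  exact Module.Flat.of_linearEquiv e3.symm

/-- lengths over `S` and over a quotient of `S`. -/
lemma chi1_restrict {S T : Type*} [CommRing S] [CommRing T] [Algebra S T]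
    (hST : Function.Surjective (algebraMap S T)) (y : S) (N : Type*) [AddCommGroup N]
    [Module S N] [Module T N] [IsScalarTower S T N] :
    chi1 y N = chi1 (algebraMap S T y) N := by
  have h1 : Module.length S (N ⧸ LinearMap.range (LinearMap.lsmul S N y)) =
      Module.length T (N ⧸ LinearMap.range (LinearMap.lsmul T N (algebraMap S T y))) := by
    rw [← Module.length_eq_of_surjective (S := S) hST]
    have e : (N ⧸ (LinearMap.range (LinearMap.lsmul T N (algebraMap S T y))).restrictScalars S)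
        ≃ₗ[S] (N ⧸ LinearMap.range (LinearMap.lsmul T N (algebraMap S T y))) :=
      Submodule.Quotient.restrictScalarsEquiv S _
    rw [← e.length_eq]
    refine (Submodule.quotEquivOfEq _ _ ?_).length_eq
    ext v
    simp only [LinearMap.mem_range, Submodule.restrictScalars_mem, LinearMap.lsmul_apply,
      algebraMap_smul]
  have h2 : Module.length S (LinearMap.ker (LinearMap.lsmul S N y)) =
      Module.length T (LinearMap.ker (LinearMap.lsmul T N (algebraMap S T y))) := by
    rw [← Module.length_eq_of_surjective (S := S) hST]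
    have e : (LinearMap.ker (LinearMap.lsmul S N y)) ≃ₗ[S]
        ((LinearMap.ker (LinearMap.lsmul T N (algebraMap S T y))).restrictScalars S) :=
      LinearEquiv.ofEq _ _ (by
        ext v
        simp only [LinearMap.mem_ker, Submodule.restrictScalars_mem, LinearMap.lsmul_apply,
          algebraMap_smul])
    exact e.length_eq
  unfold chi1
  rw [h1, h2]

lemma chi2_restrict {S T : Type*} [CommRing S] [CommRing T] [Algebra S T]
    (hST : Function.Surjective (algebraMap S T)) (y1 y2 : S) (N : Type*) [AddCommGroup N]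
    [Module S N] [Module T N] [IsScalarTower S T N] :
    chi2 y1 y2 N = chi2 (algebraMap S T y1) (algebraMap S T y2) N := by
  unfold chi2
  rw [← chi1_restrict hST, ← chi1_restrict hST]
  congr 1
  · refine chi1_congr y2 ?_
    have e : (N ⧸ (LinearMap.range (LinearMap.lsmul T N (algebraMap S T y1))).restrictScalars S)
        ≃ₗ[S] (N ⧸ LinearMap.range (LinearMap.lsmul T N (algebraMap S T y1))) :=
      Submodule.Quotient.restrictScalarsEquiv S _
    refine LinearEquiv.trans (Submodule.quotEquivOfEq _ _ ?_) e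
    ext v
    simp only [LinearMap.mem_range, Submodule.restrictScalars_mem, LinearMap.lsmul_apply,
      algebraMap_smul]
  · refine chi1_congr y2 ?_
    have e : (LinearMap.ker (LinearMap.lsmul S N y1)) ≃ₗ[S]
        ((LinearMap.ker (LinearMap.lsmul T N (algebraMap S T y1))).restrictScalars S) :=
      LinearEquiv.ofEq _ _ (by
        ext v
        simp only [LinearMap.mem_ker, Submodule.restrictScalars_mem, LinearMap.lsmul_apply,
          algebraMap_smul])
    exact e

end quotient

section induction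

/-- growth function of a module. -/
noncomputable def gr (A : Type*) [CommRing A] [IsLocalRing A] (N : Type*) [AddCommGroup N]
    [Module A N] (j : ℕ) : ℕ∞ :=
  Module.length A (N ⧸ (maximalIdeal A ^ j • (⊤ : Submodule A N)))

lemma gr_congr {A : Type*} [CommRing A] [IsLocalRing A] {N N' : Type*} [AddCommGroup N]
    [Module A N] [AddCommGroup N'] [Module A N'] (e : N ≃ₗ[A] N') (j : ℕ) : gr A N j = gr A N' j := by
  refine (Submodule.Quotient.equiv _ _ e ?_).length_eq
  rw [Submodule.map_smul'', Submodule.map_top]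
  congr 1
  exact e.range

lemma gr_self (A : Type*) [CommRing A] [IsLocalRing A] (j : ℕ) :
    gr A A j = ell (maximalIdeal A ^ j) := by
  unfold gr ell
  rw [smul_eq_mul, Ideal.mul_top]

lemma gr_quotient {A : Type*} [CommRing A] [IsLocalRing A] (P : Ideal A) (hP : P ≠ ⊤)
    [IsLocalRing (A ⧸ P)] (j : ℕ) : gr A (A ⧸ P) j = ell (maximalIdeal (A ⧸ P) ^ j) := by
  unfold gr
  rw [← map_maximalIdeal_quotient P hP, ← Ideal.map_pow]
  have e : ((A ⧸ P) ⧸ (maximalIdeal A ^ j • (⊤ : Submodule A (A ⧸ P)))) ≃ₗ[A]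
      ((A ⧸ P) ⧸ (maximalIdeal A ^ j).map (Ideal.Quotient.mk P)) :=
    (Submodule.quotEquivOfEq _ (((maximalIdeal A ^ j).map
      (algebraMap A (A ⧸ P))).restrictScalars A)
        (by rw [← Ideal.smul_top_eq_map])).trans (Submodule.Quotient.restrictScalarsEquiv A _)
  rw [e.length_eq, Module.length_eq_of_surjective (R := A ⧸ P) Ideal.Quotient.mk_surjective]
  rfl

lemma gr_le_add {A : Type*} [CommRing A] [IsLocalRing A] {N₁ N₂ N₃ : Type*} [AddCommGroup N₁]
    [Module A N₁] [AddCommGroup N₂] [Module A N₂] [AddCommGroup N₃] [Module A N₃]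
    (f : N₁ →ₗ[A] N₂) (g : N₂ →ₗ[A] N₃) (hg : Function.Surjective g)
    (hfg : Function.Exact f g) (j : ℕ) : gr A N₂ j ≤ gr A N₁ j + gr A N₃ j := by
  unfold gr
  rw [← rl_top, ← rl_top, ← rl_top]
  set I := maximalIdeal A ^ j with hI
  have h1 : rl (I • (⊤ : Submodule A N₂)) (LinearMap.range f) ≤
      rl (I • (⊤ : Submodule A N₁)) ⊤ := by
    have h2 := rl_map_le f (I • (⊤ : Submodule A N₁)) ⊤
    rw [Submodule.map_smul'', Submodule.map_top] at h2
    exact (rl_anti_left (Submodule.smul_mono le_rfl le_top)).trans h2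
  have h3 : rl (I • (⊤ : Submodule A N₃)) ⊤ =
      rl (I • (⊤ : Submodule A N₂) ⊔ LinearMap.range f) ⊤ := by
    have h4 := rl_map g (I • (⊤ : Submodule A N₂)) ⊤
    rw [Submodule.map_smul'', Submodule.map_top, LinearMap.range_eq_top.mpr hg,
      (LinearMap.exact_iff.mp hfg)] at h4
    exact h4
  rw [h3, rl_add (K := I • (⊤ : Submodule A N₂)) le_sup_left le_top, rl_sup_right]
  exact add_le_add h1 le_rfl

lemma isLocalHom_mk {S : Type*} [CommRing S] [IsLocalRing S] (J : Ideal S) (hJ : J ≠ ⊤) :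
    IsLocalHom (Ideal.Quotient.mk J) := by
  have : Nontrivial (S ⧸ J) := Ideal.Quotient.nontrivial_iff.mpr hJ
  exact IsLocalHom.of_surjective _ Ideal.Quotient.mk_surjective

end induction

end TwoDim

end Vale.Agent.P202
end

section

/-!
The two-dimensional inequality for a complete local ring.
-/

set_option linter.unusedSectionVars false

namespace Vale.Agent.P202

open IsLocalRing TensorProduct

namespace TwoDim

section domain

/-- the inequality for a complete local domain. -/
theorem domain_boundG {A S : Type*} [CommRing A] [IsDomain A] [IsLocalRing A] [IsNoetherianRing A]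
    [IsAdicComplete (maximalIdeal A) A]
    [CommRing S] [IsLocalRing S] [IsNoetherianRing S] [Algebra A S]
    [IsLocalHom (algebraMap A S)] [Module.Flat A S]
    (hT : Module.length S (S ⧸ (maximalIdeal A).map (algebraMap A S)) ≠ ⊤)
    (x1 x2 : A) (hx1 : x1 ∈ maximalIdeal A) (hx2 : x2 ∈ maximalIdeal A)
    (r : ℕ) (hr : maximalIdeal A ^ (r + 1) ≤ Ideal.span {x1, x2} * maximalIdeal A ^ r)
    (y1 y2 : S) (hy1 : y1 ∈ maximalIdeal S) (hy2 : y2 ∈ maximalIdeal S)
    (hfin : Module.length S (S ⧸ Ideal.span {y1, y2}) ≠ ⊤) (c : ℕ)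
    (hc : Module.length S (S ⧸ ((maximalIdeal A).map (algebraMap A S) ⊔ Ideal.span {y1, y2}))
      = (c : ℕ∞)) :
    ∃ K : ℕ, ∀ j : ℕ, (c : ℕ∞) * (2 * ell (maximalIdeal A ^ j)) ≤
      ((chi2 y1 y2 S).toNat : ℕ∞) * (j : ℕ∞) ^ 2 + (K : ℕ∞) * ((j : ℕ∞) + 1) := by
  have hs : maximalIdeal A ^ (r + 1) ≤ Ideal.span {x1, x2} := hr.trans Ideal.mul_le_left
  -- the case of linear growth
  have hlin : ∀ x ∈ maximalIdeal A, ∀ s : ℕ, maximalIdeal A ^ s ≤ Ideal.span {x} →
      ∃ K : ℕ, ∀ j : ℕ, (c : ℕ∞) * (2 * ell (maximalIdeal A ^ j)) ≤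
      ((chi2 y1 y2 S).toNat : ℕ∞) * (j : ℕ∞) ^ 2 + (K : ℕ∞) * ((j : ℕ∞) + 1) := by
    intro x hx s hxs
    obtain ⟨K, hK⟩ := linear_growth x hx hxs
    refine ⟨c * (2 * K), fun j => ?_⟩
    refine le_trans ?_ le_add_self
    calc (c : ℕ∞) * (2 * ell (maximalIdeal A ^ j)) ≤ (c : ℕ∞) * (2 * ((K : ℕ∞) * ((j : ℕ∞) + 1))) :=
          mul_le_mul_right (mul_le_mul_right (hK j) _) _
      _ = _ := by push_cast; ring
  by_cases hx10 : x1 = 0
  · subst hx10
    refine hlin x2 hx2 (r + 1) (hs.trans ?_)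
    rw [Ideal.span_le]
    rintro z hz
    simp only [Set.mem_insert_iff, Set.mem_singleton_iff] at hz
    rcases hz with rfl | rfl
    · exact Ideal.zero_mem _
    · exact Ideal.mem_span_singleton_self _
  by_cases hrad : x2 ∈ (Ideal.span {x1}).radical
  · obtain ⟨n, hn⟩ := hrad
    refine hlin x1 hx1 ((r + 1) * (1 + n)) ?_
    rw [pow_mul]
    refine (Ideal.pow_right_mono hs _).trans ?_
    have h2 : Ideal.span {x1, x2} = Ideal.span {x1} ⊔ Ideal.span {x2} := by
      rw [← Ideal.span_union]; rfl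
    rw [h2]
    refine (Ideal.sup_pow_add_le_pow_sup_pow).trans ?_
    rw [pow_one, Ideal.span_singleton_pow]
    exact sup_le le_rfl ((Ideal.span_singleton_le_iff_mem _).mpr hn)
  obtain ⟨C, hC, r1, r2⟩ := exists_mcm_ideal' x1 x2 hx10 hrad hs
  have hfinA : Module.length A (A ⧸ Ideal.span {x1, x2}) ≠ ⊤ := ell_ne_top_of_pow_le hs
  obtain ⟨K, hK⟩ := growth_le x1 x2 hx1 hx2 hfinA C hC
  have hSL := SL2G hT C x1 x2 hx1 hx2 r1 r2 r hr y1 y2 hy1 hy2 hfin c hc
  set CT : Ideal S := C.map (algebraMap A S) with hCT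
  -- the pair `y1, y2` is regular on `CT`
  have hmem : ∀ v : S, v ∈ CT ↔ v ∈ C • (⊤ : Submodule A S) := by
    intro v
    rw [Ideal.smul_top_eq_map, Submodule.restrictScalars_mem]
  have f1 : ∀ v : CT, algebraMap A S x1 • v = 0 → v = 0 := by
    intro v hv
    apply Subtype.ext
    refine flat_r1 (V := S) r1 v.1 ((hmem _).mp v.2) ?_
    have := congrArg Subtype.val hv
    rw [Algebra.smul_def]
    exact this
  have f2 : ∀ v w : CT, algebraMap A S x2 • v = algebraMap A S x1 • w →
      ∃ u : CT, v = algebraMap A S x1 • u := by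
    intro v w hvw
    have h1 := congrArg Subtype.val hvw
    obtain ⟨u, hu, hvu⟩ := flat_r2 (V := S) r2 v.1 ((hmem _).mp v.2) w.1 ((hmem _).mp w.2) (by
      rw [Algebra.smul_def, Algebra.smul_def]; exact h1)
    refine ⟨⟨u, (hmem u).mpr hu⟩, Subtype.ext ?_⟩
    rw [hvu, Algebra.smul_def]
    rfl
  have hx1S : algebraMap A S x1 ∈ maximalIdeal S := by
    rw [mem_maximalIdeal, mem_nonunits_iff] at hx1 ⊢
    intro h
    exact hx1 (isUnit_of_map_unit (algebraMap A S) x1 h)
  have hx2S : algebraMap A S x2 ∈ maximalIdeal S := by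
    rw [mem_maximalIdeal, mem_nonunits_iff] at hx2 ⊢
    intro h
    exact hx2 (isUnit_of_map_unit (algebraMap A S) x2 h)
  have hfinC : Module.length S (CT ⧸ (Ideal.span {y1, y2} • (⊤ : Submodule S CT))) ≠ ⊤ :=
    length_quotient_smul_ne_top _ hfin
  obtain ⟨g1, g2⟩ := regular_of_finite_length (algebraMap A S x1) (algebraMap A S x2) hx1S hx2S
    f1 f2 y1 y2 hy1 hy2 hfinC
  have hchiC := chi2_of_regular y1 y2 CT g1 g2
  have hadd := chi2_add y1 y2 hy1 hy2 hfin CT.subtype CT.mkQ (Submodule.injective_subtype _)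
    (Submodule.mkQ_surjective _) (by
      rw [LinearMap.exact_iff, Submodule.ker_mkQ, Submodule.range_subtype])
  have hnn := chi2_nonneg y1 y2 hy1 hy2 hfin (S ⧸ CT)
  have hle : (rl (Ideal.span {y1, y2} * CT) CT) ≤ ((chi2 y1 y2 S).toNat : ℕ∞) := by
    rw [rl_mul_eq]
    obtain ⟨n, hn⟩ := ENat.ne_top_iff_exists.mp hfinC
    rw [← hn] at hchiC ⊢
    rw [ENat.toNat_natCast] at hchiC
    have : (n : ℤ) ≤ chi2 y1 y2 S := by rw [hadd, hchiC]; omega
    have : n ≤ (chi2 y1 y2 S).toNat := by omega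
    exact_mod_cast this
  refine ⟨c * K, fun j => ?_⟩
  calc (c : ℕ∞) * (2 * ell (maximalIdeal A ^ j))
      ≤ (c : ℕ∞) * (rl (Ideal.span {x1, x2} * C) C * (j : ℕ∞) ^ 2 + (K : ℕ∞) * ((j : ℕ∞) + 1)) :=
        mul_le_mul_right (hK j) _
    _ = ((c : ℕ∞) * rl (Ideal.span {x1, x2} * C) C) * (j : ℕ∞) ^ 2 +
        ((c * K : ℕ) : ℕ∞) * ((j : ℕ∞) + 1) := by push_cast; ring
    _ ≤ _ := add_le_add (mul_le_mul_left (hSL.trans hle) _) le_rfl

end domain

section induction

/-- the inequality for the quotient by a prime ideal. -/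
theorem quotient_boundG {A S : Type*} [CommRing A] [IsLocalRing A] [IsNoetherianRing A]
    [IsAdicComplete (maximalIdeal A) A]
    [CommRing S] [IsLocalRing S] [IsNoetherianRing S] [Algebra A S]
    [IsLocalHom (algebraMap A S)] [Module.Flat A S]
    (hT : Module.length S (S ⧸ (maximalIdeal A).map (algebraMap A S)) ≠ ⊤)
    (x1 x2 : A) (hx1 : x1 ∈ maximalIdeal A) (hx2 : x2 ∈ maximalIdeal A)
    (r : ℕ) (hr : maximalIdeal A ^ (r + 1) ≤ Ideal.span {x1, x2} * maximalIdeal A ^ r)
    (y1 y2 : S) (hy1 : y1 ∈ maximalIdeal S) (hy2 : y2 ∈ maximalIdeal S)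
    (hfin : Module.length S (S ⧸ Ideal.span {y1, y2}) ≠ ⊤) (c : ℕ)
    (hc : Module.length S (S ⧸ ((maximalIdeal A).map (algebraMap A S) ⊔ Ideal.span {y1, y2}))
      = (c : ℕ∞)) (P : Ideal A) [hP : P.IsPrime] :
    ∃ K : ℕ, ∀ j : ℕ, (c : ℕ∞) * (2 * gr A (A ⧸ P) j) ≤
      ((chi2 y1 y2 (S ⧸ P.map (algebraMap A S))).toNat : ℕ∞) * (j : ℕ∞) ^ 2 +
        (K : ℕ∞) * ((j : ℕ∞) + 1) := by
  have hPtop : P ≠ ⊤ := hP.ne_top
  have hPm : P ≤ maximalIdeal A := le_maximalIdeal hPtop
  set J : Ideal S := P.map (algebraMap A S) with hJ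
  have hmS : (maximalIdeal A).map (algebraMap A S) ≤ maximalIdeal S :=
    ((IsLocalRing.local_hom_TFAE (algebraMap A S)).out 0 2 rfl rfl).mp inferInstance
  have hJm : J ≤ maximalIdeal S := (Ideal.map_mono hPm).trans hmS
  have hJtop : J ≠ ⊤ := fun h => by
    rw [h, top_le_iff] at hJm
    exact (Ideal.IsPrime.ne_top (inferInstance : (maximalIdeal S).IsPrime)) hJm
  have : Nontrivial (S ⧸ J) := Ideal.Quotient.nontrivial_iff.mpr hJtop
  have : IsLocalRing (A ⧸ P) :=
    IsLocalRing.of_surjective' (Ideal.Quotient.mk P) Ideal.Quotient.mk_surjective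
  have : IsLocalRing (S ⧸ J) :=
    IsLocalRing.of_surjective' (Ideal.Quotient.mk J) Ideal.Quotient.mk_surjective
  have hlA := isLocalHom_mk P hPtop
  have hlS := isLocalHom_mk J hJtop
  have hmap : ∀ a : A, algebraMap (A ⧸ P) (S ⧸ J) (Ideal.Quotient.mk P a) =
      Ideal.Quotient.mk J (algebraMap A S a) := fun a => rfl
  have hcomp : (algebraMap (A ⧸ P) (S ⧸ J)).comp (Ideal.Quotient.mk P) =
      (Ideal.Quotient.mk J).comp (algebraMap A S) := RingHom.ext hmap
  have hloc : IsLocalHom (algebraMap (A ⧸ P) (S ⧸ J)) := by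
    constructor
    intro a ha
    obtain ⟨a, rfl⟩ := Ideal.Quotient.mk_surjective a
    rw [hmap] at ha
    have h1 := isUnit_of_map_unit (Ideal.Quotient.mk J) _ ha
    have h2 := isUnit_of_map_unit (algebraMap A S) _ h1
    exact h2.map _
  have hflat : Module.Flat (A ⧸ P) (S ⧸ J) := flat_quotient P
  have hcompl : IsAdicComplete (maximalIdeal (A ⧸ P)) (A ⧸ P) := isAdicComplete_quotient' P hPtop
  have hxm : ∀ x ∈ maximalIdeal A, Ideal.Quotient.mk P x ∈ maximalIdeal (A ⧸ P) := by
    intro x hx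
    rw [← map_maximalIdeal_quotient P hPtop]
    exact Ideal.mem_map_of_mem _ hx
  have hym : ∀ y ∈ maximalIdeal S, Ideal.Quotient.mk J y ∈ maximalIdeal (S ⧸ J) := by
    intro y hy
    rw [← map_maximalIdeal_quotient J hJtop]
    exact Ideal.mem_map_of_mem _ hy
  have hmT : (maximalIdeal (A ⧸ P)).map (algebraMap (A ⧸ P) (S ⧸ J)) =
      ((maximalIdeal A).map (algebraMap A S)).map (Ideal.Quotient.mk J) := by
    rw [← map_maximalIdeal_quotient P hPtop, Ideal.map_map, hcomp, ← Ideal.map_map]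
  have hJmA : J ≤ (maximalIdeal A).map (algebraMap A S) := Ideal.map_mono hPm
  have hspan : Ideal.span {Ideal.Quotient.mk J y1, Ideal.Quotient.mk J y2} =
      (Ideal.span {y1, y2}).map (Ideal.Quotient.mk J) := by
    rw [Ideal.map_span, Set.image_pair]
  have hspanx : Ideal.span {Ideal.Quotient.mk P x1, Ideal.Quotient.mk P x2} =
      (Ideal.span {x1, x2}).map (Ideal.Quotient.mk P) := by
    rw [Ideal.map_span, Set.image_pair]
  obtain ⟨K, hK⟩ := domain_boundG (A := A ⧸ P) (S := S ⧸ J) (by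
      rw [hmT]
      change ell (((maximalIdeal A).map (algebraMap A S)).map (Ideal.Quotient.mk J)) ≠ ⊤
      rw [ell_map_mk, sup_eq_left.mpr hJmA]
      exact hT)
    (Ideal.Quotient.mk P x1) (Ideal.Quotient.mk P x2) (hxm _ hx1) (hxm _ hx2) r (by
      rw [hspanx, ← map_maximalIdeal_quotient P hPtop, ← Ideal.map_pow, ← Ideal.map_pow,
        ← Ideal.map_mul]
      exact Ideal.map_mono hr)
    (Ideal.Quotient.mk J y1) (Ideal.Quotient.mk J y2) (hym _ hy1) (hym _ hy2) (by
      rw [hspan]
      change ell ((Ideal.span {y1, y2}).map (Ideal.Quotient.mk J)) ≠ ⊤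
      rw [ell_map_mk]
      exact ne_top_of_le_ne_top hfin (ell_mono le_sup_left)) c (by
      rw [hspan, hmT, ← Ideal.map_sup]
      change ell (((maximalIdeal A).map (algebraMap A S) ⊔ Ideal.span {y1, y2}).map
        (Ideal.Quotient.mk J)) = _
      rw [ell_map_mk, sup_eq_left.mpr (hJmA.trans le_sup_left)]
      exact hc)
  refine ⟨K, fun j => ?_⟩
  have h1 := hK j
  rw [← gr_quotient P hPtop] at h1
  have h2 : chi2 y1 y2 (S ⧸ J) = chi2 (Ideal.Quotient.mk J y1) (Ideal.Quotient.mk J y2) (S ⧸ J) :=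
    chi2_restrict (S := S) (T := S ⧸ J) Ideal.Quotient.mk_surjective y1 y2 (S ⧸ J)
  rw [h2]
  exact h1

end induction

end TwoDim

open TwoDim in
/-- two-dimensional inequality for a complete local ring `A`. -/
theorem two_dim_boundG {A S : Type*} [CommRing A] [IsLocalRing A] [IsNoetherianRing A]
    [IsAdicComplete (maximalIdeal A) A]
    [CommRing S] [IsLocalRing S] [IsNoetherianRing S] [Algebra A S]
    [IsLocalHom (algebraMap A S)] [Module.Flat A S]
    (hT : Module.length S (S ⧸ (maximalIdeal A).map (algebraMap A S)) ≠ ⊤)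
    (x1 x2 : A) (hx1 : x1 ∈ maximalIdeal A) (hx2 : x2 ∈ maximalIdeal A)
    (r : ℕ) (hr : maximalIdeal A ^ (r + 1) ≤ Ideal.span {x1, x2} * maximalIdeal A ^ r)
    (y1 y2 : S) (hy1 : y1 ∈ maximalIdeal S) (hy2 : y2 ∈ maximalIdeal S)
    (hfin : Module.length S (S ⧸ Ideal.span {y1, y2}) ≠ ⊤) (c : ℕ)
    (hc : Module.length S (S ⧸ ((maximalIdeal A).map (algebraMap A S) ⊔ Ideal.span {y1, y2}))
      = (c : ℕ∞)) :
    ∃ K : ℕ, ∀ j : ℕ, (c : ℕ∞) * (2 * ell (maximalIdeal A ^ j)) ≤
      ((chi2 y1 y2 S).toNat : ℕ∞) * (j : ℕ∞) ^ 2 + (K : ℕ∞) * ((j : ℕ∞) + 1) := by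
  have key : ∃ K : ℕ, ∀ j : ℕ, (c : ℕ∞) * (2 * gr A A j) ≤
      ((chi2 y1 y2 (S ⊗[A] A)).toNat : ℕ∞) * (j : ℕ∞) ^ 2 + (K : ℕ∞) * ((j : ℕ∞) + 1) := by
    refine IsNoetherianRing.induction_on_isQuotientEquivQuotientPrime A
      (M := A) (inferInstance : Module.Finite A A)
      (motive := fun N _ _ _ => ∃ K : ℕ, ∀ j : ℕ, (c : ℕ∞) * (2 * gr A N j) ≤
        ((chi2 y1 y2 (S ⊗[A] N)).toNat : ℕ∞) * (j : ℕ∞) ^ 2 + (K : ℕ∞) * ((j : ℕ∞) + 1))
      ?_ ?_ ?_
    · intro N _ _ _ _
      refine ⟨0, fun j => ?_⟩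
      have : gr A N j = 0 := by
        unfold gr
        have : Subsingleton (N ⧸ (maximalIdeal A ^ j • (⊤ : Submodule A N))) := inferInstance
        exact Module.length_eq_zero
      rw [this]
      simp
    · intro N _ _ _ P e
      have hPp : P.1.IsPrime := P.2
      obtain ⟨K, hK⟩ := quotient_boundG hT x1 x2 hx1 hx2 r hr y1 y2 hy1 hy2 hfin c hc P.1
      refine ⟨K, fun j => ?_⟩
      rw [gr_congr e j]
      have h1 : chi2 y1 y2 (S ⊗[A] N) = chi2 y1 y2 (S ⧸ P.1.map (algebraMap A S)) := by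
        refine chi2_congr y1 y2 ?_
        exact (TensorProduct.AlgebraTensorModule.congr (LinearEquiv.refl S S) e).trans
          (Algebra.TensorProduct.quotIdealMapEquivTensorQuot S P.1).symm.toLinearEquiv
      rw [h1]
      exact hK j
    · intro N₁ _ _ _ N₂ _ _ _ N₃ _ _ _ f g hf hg hfg h1 h3
      obtain ⟨K₁, hK₁⟩ := h1
      obtain ⟨K₃, hK₃⟩ := h3
      refine ⟨K₁ + K₃, fun j => ?_⟩
      have hadd := chi2_add y1 y2 hy1 hy2 hfin (f.baseChange S) (g.baseChange S)
        (Module.Flat.lTensor_preserves_injective_linearMap f hf)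
        (LinearMap.lTensor_surjective S hg) (lTensor_exact S hfg hg)
      have hn1 := chi2_nonneg y1 y2 hy1 hy2 hfin (S ⊗[A] N₁)
      have hn3 := chi2_nonneg y1 y2 hy1 hy2 hfin (S ⊗[A] N₃)
      have h4 : (chi2 y1 y2 (S ⊗[A] N₂)).toNat =
          (chi2 y1 y2 (S ⊗[A] N₁)).toNat + (chi2 y1 y2 (S ⊗[A] N₃)).toNat := by
        rw [hadd]; omega
      rw [h4]
      calc (c : ℕ∞) * (2 * gr A N₂ j) ≤ (c : ℕ∞) * (2 * (gr A N₁ j + gr A N₃ j)) :=
            mul_le_mul_right (mul_le_mul_right (gr_le_add f g hg hfg j) _) _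
        _ = (c : ℕ∞) * (2 * gr A N₁ j) + (c : ℕ∞) * (2 * gr A N₃ j) := by ring
        _ ≤ _ := add_le_add (hK₁ j) (hK₃ j)
        _ = _ := by push_cast; ring
  obtain ⟨K, hK⟩ := key
  refine ⟨K, fun j => ?_⟩
  have h1 : chi2 y1 y2 (S ⊗[A] A) = chi2 y1 y2 S :=
    chi2_congr y1 y2 (TensorProduct.AlgebraTensorModule.rid A S S)
  have h2 := hK j
  rw [h1, gr_self] at h2
  exact h2

end Vale.Agent.P202
end

section

/-!
P202: packaging of the results for the hand-in, from Theorem B.
-/

namespace Vale.Agent.P202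

open IsLocalRing Filter Topology

universe u

/-- all flat local homomorphisms, `dim R = d ≥ 3`, every characteristic. -/
theorem all_flat {R S : Type u} [CommRing R] [IsLocalRing R] [IsNoetherianRing R]
    [CommRing S] [IsLocalRing S] [IsNoetherianRing S]
    [Algebra R S] [IsLocalHom (algebraMap R S)] [Module.Flat R S]
    {d s : ℕ} (hd : 3 ≤ d) (hR : ringKrullDim R = d) (hS : ringKrullDim S = s) (eR eS : ℕ)
    (heR : Tendsto (hsSeq R d) atTop (𝓝 (eR : ℝ)))
    (heS : Tendsto (hsSeq S s) atTop (𝓝 (eS : ℝ))) : eR ≤ (d - 2).factorial * eS := by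
  obtain ⟨δ, rfl⟩ : ∃ δ, d = δ + 2 := ⟨d - 2, by omega⟩
  have H : TwoDimBound.{u} False :=
    fun A S _ _ _ _ _ _ _ _ _ _ _ hT x1 x2 hx1 hx2 r h y1 y2 hy1 hy2 hf c hc =>
      two_dim_boundG hT x1 x2 hx1 hx2 r h y1 y2 hy1 hy2 hf c hc
  have HL : LocCase.{u} := by
    intro S _ _ _ _ Q _ s h1 h2 h3 eQ eS h4 h5
    exact mult_localization Q h1 h4 h5
  have HD : DimCase.{u} := by
    intro R S _ _ _ _ _ _ _ _ _ s h1 h2
    exact exists_prime_dim_one s h1 h2
  obtain ⟨s', eR', eS', h1, h2, h3, h4⟩ := lech_final (R := R) (S := S) (by omega)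
    (completeCase_of_twoDim H (by omega)) HL HD hR
  have hs : s = s' := by
    have h5 : ((s : ℕ) : WithBot ℕ∞) = ((s' : ℕ) : WithBot ℕ∞) := hS.symm.trans h1
    exact_mod_cast h5
  subst hs
  have e1 : (eR : ℝ) = eR' := tendsto_nhds_unique heR h2
  have e2 : (eS : ℝ) = eS' := tendsto_nhds_unique heS h3
  have e1' : eR = eR' := by exact_mod_cast e1
  have e2' : eS = eS' := by exact_mod_cast e2
  rw [e1', e2']
  exact h4

end Vale.Agent.P202
end

section

/-!
P202: Lech's inequality for all rings containing a field, from Theorem C (Theorem B for complete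
rings with arbitrary residue field).
-/

namespace Vale.Agent.P202.CharP

open IsLocalRing Finset Filter Topology

universe u

/-- The statement of Theorem C: `t₀ e(A) ≤ χ(y; S)` for complete rings of characteristic `p` with
arbitrary infinite residue field. -/
def TheoremC (p : ℕ) [Fact p.Prime] : Prop :=
  ∀ {A S : Type u} [CommRing A] [IsLocalRing A] [IsNoetherianRing A] [CharP A p]
    [CharP (ResidueField A) p] [IsAdicComplete (maximalIdeal A) A]
    [Infinite (ResidueField A)]
    [CommRing S] [IsLocalRing S] [IsNoetherianRing S] [IsAdicComplete (maximalIdeal S) S]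
    [Algebra A S] [IsLocalHom (algebraMap A S)] [Module.Flat A S]
    {r : ℕ} (_ : ringKrullDim A = (r + 1 : ℕ)) (_ : ringKrullDim S = (r + 1 : ℕ))
    (x : Fin (r + 1) → A) (_ : ∀ i, x i ∈ maximalIdeal A) (s : ℕ)
    (_ : ∀ j, maximalIdeal A ^ (j + s) ≤ Ideal.span (Set.range x) ^ j)
    (y : Fin (r + 1) → S) (_ : ∀ i, y i ∈ maximalIdeal S)
    (_ : Module.length S (S ⧸ Ideal.span (Set.range y)) ≠ ⊤) (t0 lam : ℕ)
    (_ : Module.length S (S ⧸ ((maximalIdeal A).map (algebraMap A S) ⊔
      Ideal.span (Set.range y))) = t0)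
    (_ : emin x = lam),
    (t0 : ℤ) * lam ≤ kchi y S

/-- Noetherian local rings of characteristic `p`. -/
def ClsP (p : ℕ) : RCls.{u} := fun R _ _ _ => _root_.CharP R p

theorem stable_clsP (p : ℕ) [Fact p.Prime] : RStable (ClsP.{u} p) where
  compl := by
    intro R _ _ _ _ h
    have h1 : _root_.CharP R p := h
    exact charP_of_algebra p Fact.out (R := R)
  nag := by
    intro R _ _ _ h
    have h1 : _root_.CharP R p := h
    exact charP_of_algebra p Fact.out (R := R)

/-- The complete case for all rings of characteristic `p` from Theorem C. -/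
theorem completeCase_of_theoremC (p : ℕ) [Fact p.Prime] (HC : TheoremC.{u} p) {d : ℕ}
    (hd : 0 < d) : CompleteCaseCls2.{u} (ClsP p) d 1 := by
  intro R S _ _ _ _ _ _ _ _ _ _ _ _ c1 hR hS
  have c1' : _root_.CharP R p := c1
  have c2 : _root_.CharP (ResidueField R) p := charP_of_algebra p Fact.out (R := R)
  obtain ⟨r, rfl⟩ : ∃ r, d = r + 1 := ⟨d - 1, by omega⟩
  have : Infinite (ResidueField S) :=
    Infinite.of_injective (algebraMap (ResidueField R) (ResidueField S)) (RingHom.injective _)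
  -- the reduction of the maximal ideal of `R`
  obtain ⟨x, hx, r0, hr0⟩ := exists_reduction_max (A := R) (r + 1) hR
  have hxle : Ideal.span (Set.range x) ≤ maximalIdeal R := by
    rw [Ideal.span_le]
    rintro _ ⟨i, rfl⟩
    exact hx i
  have hred : IsRed (Ideal.span (Set.range x)) (maximalIdeal R) := ⟨hxle, r0, hr0⟩
  obtain ⟨c0, hc0⟩ := hred.exists_pow_le
  have hxl : ell (Ideal.span (Set.range x)) ≠ ⊤ := by
    have h1 := hc0 1
    rw [pow_one] at h1
    exact ell_ne_top_of_pow_le h1
  -- the reduction of the maximal ideal of `S`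
  obtain ⟨y, c, hy, hyl, hmin⟩ := exists_max_reduction (S := S) hS
  have hfib : ell ((maximalIdeal R).map (algebraMap R S)) ≠ ⊤ :=
    ell_fibre_ne_top (R := R) (S := S) (by rw [hR, hS])
  have hloc : (maximalIdeal R).map (algebraMap R S) ≤ maximalIdeal S := by
    rw [Ideal.map_le_iff_le_comap]
    intro a ha
    exact (IsLocalRing.mem_maximalIdeal _).mpr fun h =>
      (IsLocalRing.mem_maximalIdeal _).mp ha (isUnit_of_map_unit (algebraMap R S) a h)
  -- Theorem C
  have ht0 : ell ((maximalIdeal R).map (algebraMap R S) ⊔ Ideal.span (Set.range y)) ≠ ⊤ :=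
    ne_top_of_le_ne_top hfib (ell_mono le_sup_left)
  obtain ⟨t0, ht0⟩ := ENat.ne_top_iff_exists.mp ht0
  obtain ⟨lam, hlam⟩ := ENat.ne_top_iff_exists.mp (emin_ne_top hxl)
  obtain ⟨eB, heB⟩ := ENat.ne_top_iff_exists.mp (errB_ne_top hxl)
  have hA := HC (A := R) (S := S) hR hS x hx c0 hc0 y hy hyl t0 lam ht0.symm hlam.symm
  have ht1 : 1 ≤ t0 := by
    have h1 : ell ((maximalIdeal R).map (algebraMap R S) ⊔ Ideal.span (Set.range y)) ≠ 0 := by
      rw [Ne, ell_eq_zero_iff]
      intro h
      have h2 : (maximalIdeal R).map (algebraMap R S) ⊔ Ideal.span (Set.range y) ≤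
          maximalIdeal S := by
        refine sup_le hloc ?_
        rw [Ideal.span_le]
        rintro _ ⟨i, rfl⟩
        exact hy i
      rw [h, top_le_iff] at h2
      exact (IsLocalRing.maximalIdeal.isMaximal S).ne_top h2
    rw [← ht0] at h1
    have h3 : t0 ≠ 0 := by exact_mod_cast h1
    omega
  have hlamL : lam ≤ (kchi y S).toNat := by
    have h1 : (lam : ℤ) ≤ kchi y S := by
      refine le_trans ?_ hA
      have h2 : lam ≤ t0 * lam := Nat.le_mul_of_pos_left _ ht1
      exact_mod_cast h2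
    omega
  have hLe : (lam : ℕ∞) ≤ emin y :=
    le_trans (by exact_mod_cast hlamL) (kchi_le_emin (Nat.succ_pos r) y hy hyl)
  -- conclusion
  refine ⟨c, (r + 1).factorial * eB, fun N => ?_⟩
  have h1 : ell (maximalIdeal R ^ N) ≤
      (tri (Fin (r + 1)) N).card * (lam : ℕ∞) + (eB : ℕ∞) * (N ^ r : ℕ) := by
    refine (ell_mono (Ideal.pow_right_mono hxle N)).trans ?_
    have h2 := ell_pow_le x N
    rw [← hlam, ← heB, Fintype.card_fin, Nat.add_sub_cancel] at h2
    exact h2
  have h2 : (tri (Fin (r + 1)) N).card * (lam : ℕ∞) ≤ ell (maximalIdeal S ^ (N + c)) := by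
    calc (tri (Fin (r + 1)) N).card * (lam : ℕ∞) ≤ (tri (Fin (r + 1)) N).card * emin y :=
          mul_le_mul_right hLe _
      _ = emin y * (tri (Fin (r + 1)) N).card := mul_comm _ _
      _ ≤ ell (maximalIdeal S ^ (N + c)) := hmin N
  have h3 : (eB : ℕ∞) * (N ^ r : ℕ) ≤ (eB : ℕ∞) * ((N : ℕ∞) + 1) ^ r := by
    have h4 : eB * N ^ r ≤ eB * (N + 1) ^ r :=
      Nat.mul_le_mul_left _ (Nat.pow_le_pow_left (Nat.le_succ N) r)
    exact_mod_cast h4
  simp only [Nat.cast_one, one_mul, Nat.add_sub_cancel]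
  calc ((r + 1).factorial : ℕ∞) * ell (maximalIdeal R ^ N) ≤
      ((r + 1).factorial : ℕ∞) * (ell (maximalIdeal S ^ (N + c)) +
        (eB : ℕ∞) * ((N : ℕ∞) + 1) ^ r) :=
        mul_le_mul_right (h1.trans (add_le_add h2 h3)) _
    _ = _ := by
        rw [mul_add]
        push_cast
        ring

/-- Lech's inequality in characteristic `p` from Theorem C. -/
theorem lech_char_p_of_theoremC (p : ℕ) [Fact p.Prime] (HC : TheoremC.{u} p) {R S : Type u}
    [CommRing R] [IsLocalRing R] [IsNoetherianRing R]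
    [CommRing S] [IsLocalRing S] [IsNoetherianRing S] [Algebra R S]
    [IsLocalHom (algebraMap R S)] [Module.Flat R S] [_root_.CharP R p]
    {d s : ℕ} (hd : 0 < d) (hR : ringKrullDim R = d) (hS : ringKrullDim S = s) (eR eS : ℕ)
    (heR : Tendsto (hsSeq R d) atTop (𝓝 (eR : ℝ)))
    (heS : Tendsto (hsSeq S s) atTop (𝓝 (eS : ℝ))) : eR ≤ eS := by
  have h := lech_of_eqDim (stable_clsP p) hd (eqDim_of_completeCase2 (stable_clsP p) hd
    (completeCase_of_theoremC p HC hd)) (R := R) (S := S) ‹_› hR hS eR eS heR heS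
  rwa [one_mul] at h

/-- Theorem C implies the part of Theorem B needed in characteristic zero. -/
theorem charPLech_of_theoremC
    (HC : ∀ (p : ℕ) [Fact p.Prime], TheoremC.{u} p) : CZ.CharPLech.{u} := by
  intro p hp R S _ _ _ _ _ _ _ _ _ hRp hfin d hd hR hS eR eS heR heS
  have : Fact p.Prime := ⟨hp⟩
  exact lech_char_p_of_theoremC p (HC p) hd hR hS eR eS heR heS

/-- The final theorem, from Theorem C. -/
theorem hand_field (HC : ∀ (p : ℕ) [Fact p.Prime], TheoremC.{u} p)
    {R S : Type u} [CommRing R] [IsLocalRing R] [IsNoetherianRing R]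
    [CommRing S] [IsLocalRing S] [IsNoetherianRing S]
    [Algebra R S] [IsLocalHom (algebraMap R S)] [Module.Flat R S] :
    ∃ d s eR eS : ℕ, ringKrullDim R = d ∧ ringKrullDim S = s ∧
      Tendsto (fun N : ℕ => (d.factorial : ℝ) *
        ((Module.length R (R ⧸ maximalIdeal R ^ N)).toNat : ℝ) / (N : ℝ) ^ d) atTop
        (𝓝 (eR : ℝ)) ∧
      Tendsto (fun N : ℕ => (s.factorial : ℝ) *
        ((Module.length S (S ⧸ maximalIdeal S ^ N)).toNat : ℝ) / (N : ℝ) ^ s) atTop
        (𝓝 (eS : ℝ)) ∧
      (∀ (k : Type u) [Field k] [Algebra k R], eR ≤ eS) ∧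
      (3 ≤ d → eR ≤ (d - 2).factorial * eS) := by
  obtain ⟨d, hd⟩ := exists_dim R
  obtain ⟨s, hs⟩ := exists_dim S
  obtain ⟨eR, heR⟩ := exists_mult_all hd
  obtain ⟨eS, heS⟩ := exists_mult_all hs
  refine ⟨d, s, eR, eS, hd, hs, heR, heS, ?_, fun h3 => all_flat h3 hd hs eR eS heR heS⟩
  intro k _ _
  rcases Nat.eq_zero_or_pos d with rfl | hd0
  · exact lech_zero_aux s hd hs eR eS heR heS
  obtain ⟨p, hp⟩ := CharP.exists k
  rcases CharP.char_is_prime_or_zero k p with hpp | rfl
  · have : Fact p.Prime := ⟨hpp⟩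
    have : _root_.CharP R p := charP_of_injective_algebraMap (algebraMap k R).injective p
    exact lech_char_p_of_theoremC p (HC p) hd0 hd hs eR eS heR heS
  · have h0 : CharZero k := CharP.charP_to_charZero k
    let _ : Algebra ℚ R := ((algebraMap k R).comp (algebraMap ℚ k)).toAlgebra
    exact CZ.lech_char_zero_of (fun hd hR hS eR eS heR heS =>
      CZ.complete_char_zero (charPLech_of_theoremC HC) hd hR hS eR eS heR heS) hd0 hd hs eR eS
      heR heS

end Vale.Agent.P202.CharP
end

section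

/-!
P202: reduction of Lech's inequality to the components of maximal dimension.
-/

set_option linter.unusedSectionVars false
set_option linter.unusedVariables false

namespace Vale.Agent.P202

open IsLocalRing Filter Topology TensorProduct

universe u

section

variable {B : Type*} [CommRing B]

theorem tc_length_exact {J : Ideal B} {M₁ M₂ M₃ : Type*} [AddCommGroup M₁] [Module B M₁]
    [AddCommGroup M₂] [Module B M₂] [AddCommGroup M₃] [Module B M₃]
    (f : M₁ →ₗ[B] M₂) (g : M₂ →ₗ[B] M₃) (hg : Function.Surjective g)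
    (hfg : Function.Exact f g) :
    Module.length B (M₂ ⧸ (J • (⊤ : Submodule B M₂))) =
      Module.length B (M₁ ⧸ (J • (⊤ : Submodule B M₂)).comap f) +
      Module.length B (M₃ ⧸ (J • (⊤ : Submodule B M₃))) := by
  have hmap : (J • (⊤ : Submodule B M₂)).map g = J • (⊤ : Submodule B M₃) := by
    rw [Submodule.map_smul'', Submodule.map_top, LinearMap.range_eq_top.mpr hg]
  have hle : (J • (⊤ : Submodule B M₂)) ≤ (J • (⊤ : Submodule B M₃)).comap g := by
    rw [← Submodule.map_le_iff_le_comap, hmap]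
  refine Module.length_eq_add_of_exact (Submodule.mapQ _ _ f le_rfl) (Submodule.mapQ _ _ g hle)
    ?_ ?_ ?_
  · rw [← LinearMap.ker_eq_bot, LinearMap.ker_eq_bot']
    intro m hm
    obtain ⟨m, rfl⟩ := Submodule.Quotient.mk_surjective _ m
    rw [Submodule.mapQ_apply, Submodule.Quotient.mk_eq_zero] at hm
    rw [Submodule.Quotient.mk_eq_zero]
    exact hm
  · intro m
    obtain ⟨m, rfl⟩ := Submodule.Quotient.mk_surjective _ m
    obtain ⟨m, rfl⟩ := hg m
    exact ⟨Submodule.Quotient.mk m, by rw [Submodule.mapQ_apply]⟩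
  · intro m
    constructor
    · intro hm
      obtain ⟨m, rfl⟩ := Submodule.Quotient.mk_surjective _ m
      rw [Submodule.mapQ_apply, Submodule.Quotient.mk_eq_zero, ← hmap] at hm
      obtain ⟨m', hm', h⟩ := hm
      have h1 : g (m - m') = 0 := by rw [map_sub, h, sub_self]
      obtain ⟨n, hn⟩ := (hfg _).mp h1
      refine ⟨Submodule.Quotient.mk n, ?_⟩
      rw [Submodule.mapQ_apply, hn, Submodule.Quotient.mk_sub,
        (Submodule.Quotient.mk_eq_zero _).mpr hm', sub_zero]
    · rintro ⟨n, rfl⟩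
      obtain ⟨n, rfl⟩ := Submodule.Quotient.mk_surjective _ n
      rw [Submodule.mapQ_apply, Submodule.mapQ_apply, (hfg _).mpr ⟨n, rfl⟩,
        Submodule.Quotient.mk_zero]

theorem tc_length_le {M : Type*} [AddCommGroup M] [Module B M] {N₁ N₂ : Submodule B M}
    (h : N₁ ≤ N₂) : Module.length B (M ⧸ N₂) ≤ Module.length B (M ⧸ N₁) :=
  Module.length_le_of_surjective (Submodule.factor h) (Submodule.factor_surjective h)

theorem tc_sub {J : Ideal B} {M₁ M₂ M₃ : Type*} [AddCommGroup M₁] [Module B M₁]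
    [AddCommGroup M₂] [Module B M₂] [AddCommGroup M₃] [Module B M₃]
    (f : M₁ →ₗ[B] M₂) (g : M₂ →ₗ[B] M₃) (hg : Function.Surjective g)
    (hfg : Function.Exact f g) :
    Module.length B (M₂ ⧸ (J • (⊤ : Submodule B M₂))) ≤
      Module.length B (M₁ ⧸ (J • (⊤ : Submodule B M₁))) +
      Module.length B (M₃ ⧸ (J • (⊤ : Submodule B M₃))) := by
  rw [tc_length_exact f g hg hfg]
  refine add_le_add (tc_length_le ?_) le_rfl
  rw [← Submodule.map_le_iff_le_comap, Submodule.map_smul'']
  exact Submodule.smul_mono le_rfl le_top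

theorem tc_super [IsNoetherianRing B] (I : Ideal B) {M₁ M₂ M₃ : Type*} [AddCommGroup M₁]
    [Module B M₁] [AddCommGroup M₂] [Module B M₂] [Module.Finite B M₂]
    [AddCommGroup M₃] [Module B M₃]
    (f : M₁ →ₗ[B] M₂) (g : M₂ →ₗ[B] M₃) (hf : Function.Injective f) (hg : Function.Surjective g)
    (hfg : Function.Exact f g) : ∃ k : ℕ, ∀ N : ℕ,
      Module.length B (M₁ ⧸ (I ^ N • (⊤ : Submodule B M₁))) +
      Module.length B (M₃ ⧸ (I ^ (N + k) • (⊤ : Submodule B M₃))) ≤
      Module.length B (M₂ ⧸ (I ^ (N + k) • (⊤ : Submodule B M₂))) := by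
  obtain ⟨k, hk⟩ := I.exists_pow_inf_eq_pow_smul (LinearMap.range f)
  refine ⟨k, fun N => ?_⟩
  rw [tc_length_exact f g hg hfg]
  refine add_le_add (tc_length_le ?_) le_rfl
  intro m hm
  have h1 := hk (N + k) (by omega)
  have h2 : f m ∈ I ^ (N + k) • (⊤ : Submodule B M₂) ⊓ LinearMap.range f := ⟨hm, m, rfl⟩
  rw [h1, Nat.add_sub_cancel] at h2
  have h3 : f m ∈ I ^ N • (LinearMap.range f) :=
    Submodule.smul_mono le_rfl inf_le_right h2
  rw [LinearMap.range_eq_map, ← Submodule.map_smul''] at h3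
  obtain ⟨m', hm', h⟩ := h3
  rwa [← hf h]

end

section

variable (B : Type*) [CommRing B] [IsLocalRing B] [IsNoetherianRing B]

/-- the growth function of a module. -/
noncomputable def tcl (M : Type*) [AddCommGroup M] [Module B M] (N : ℕ) : ℕ :=
  (Module.length B (M ⧸ (maximalIdeal B ^ N • (⊤ : Submodule B M)))).toNat

theorem tc_fin (M : Type*) [AddCommGroup M] [Module B M] [Module.Finite B M] (N : ℕ) :
    Module.length B (M ⧸ (maximalIdeal B ^ N • (⊤ : Submodule B M))) ≠ ⊤ := by
  refine length_ne_top_of_killed (I := maximalIdeal B ^ N) (ell_ne_top_of_pow_le le_rfl) _ ?_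
  intro r hr m
  obtain ⟨m, rfl⟩ := Submodule.Quotient.mk_surjective _ m
  rw [← Submodule.Quotient.mk_smul, Submodule.Quotient.mk_eq_zero]
  exact Submodule.smul_mem_smul hr Submodule.mem_top

theorem tcl_coe (M : Type*) [AddCommGroup M] [Module B M] [Module.Finite B M] (N : ℕ) :
    (tcl B M N : ℕ∞) = Module.length B (M ⧸ (maximalIdeal B ^ N • (⊤ : Submodule B M))) :=
  ENat.natCast_toNat (tc_fin B M N)

theorem tcl_mono (M : Type*) [AddCommGroup M] [Module B M] [Module.Finite B M] {N N' : ℕ}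
    (h : N ≤ N') : tcl B M N ≤ tcl B M N' := by
  have h1 : (tcl B M N : ℕ∞) ≤ tcl B M N' := by
    rw [tcl_coe, tcl_coe]
    exact tc_length_le (Submodule.smul_mono (Ideal.pow_le_pow_right h) le_rfl)
  exact_mod_cast h1

end

section

variable (R S : Type u) [CommRing R] [IsLocalRing R] [IsNoetherianRing R]
  [CommRing S] [IsLocalRing S] [IsNoetherianRing S] [Algebra R S]

/-- asymptotic comparison of a module with its base change. -/
def Cmp (d s : ℕ) (M : Type u) [AddCommGroup M] [Module R M] : Prop :=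
  ∀ ε : ℝ, 0 < ε → ∃ c : ℕ, ∀ᶠ N : ℕ in atTop,
    (d.factorial : ℝ) * (tcl R M N : ℝ) / (N : ℝ) ^ d ≤
      (s.factorial : ℝ) * (tcl S (S ⊗[R] M) (N + c) : ℝ) / (N : ℝ) ^ s + ε

variable {R S}

theorem Cmp.exact [Module.Flat R S] {d s : ℕ} {M₁ M₂ M₃ : Type u} [AddCommGroup M₁] [Module R M₁]
    [Module.Finite R M₁] [AddCommGroup M₂] [Module R M₂] [Module.Finite R M₂]
    [AddCommGroup M₃] [Module R M₃] [Module.Finite R M₃]
    (f : M₁ →ₗ[R] M₂) (g : M₂ →ₗ[R] M₃) (hf : Function.Injective f)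
    (hg : Function.Surjective g) (hfg : Function.Exact f g) (h₁ : Cmp R S d s M₁)
    (h₃ : Cmp R S d s M₃) : Cmp R S d s M₂ := by
  intro ε hε
  obtain ⟨c₁, h₁⟩ := h₁ (ε / 2) (half_pos hε)
  obtain ⟨c₃, h₃⟩ := h₃ (ε / 2) (half_pos hε)
  have hf' : Function.Injective (f.baseChange S) :=
    Module.Flat.lTensor_preserves_injective_linearMap (M := S) f hf
  have hg' : Function.Surjective (g.baseChange S) := LinearMap.lTensor_surjective S hg
  have hfg' : Function.Exact (f.baseChange S) (g.baseChange S) := lTensor_exact S hfg hg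
  obtain ⟨k, hk⟩ := tc_super (maximalIdeal S) (f.baseChange S) (g.baseChange S) hf' hg' hfg'
  refine ⟨max c₁ c₃ + k, ?_⟩
  filter_upwards [h₁, h₃] with N h₁ h₃
  have e1 : tcl R M₂ N ≤ tcl R M₁ N + tcl R M₃ N := by
    have : (tcl R M₂ N : ℕ∞) ≤ tcl R M₁ N + tcl R M₃ N := by
      rw [tcl_coe, tcl_coe, tcl_coe]
      exact tc_sub f g hg hfg
    exact_mod_cast this
  have e2 : tcl S (S ⊗[R] M₁) (N + c₁) + tcl S (S ⊗[R] M₃) (N + c₃) ≤
      tcl S (S ⊗[R] M₂) (N + (max c₁ c₃ + k)) := by
    have h4 : (tcl S (S ⊗[R] M₁) (N + max c₁ c₃) : ℕ∞) +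
        tcl S (S ⊗[R] M₃) (N + max c₁ c₃ + k) ≤ tcl S (S ⊗[R] M₂) (N + max c₁ c₃ + k) := by
      rw [tcl_coe, tcl_coe, tcl_coe]
      exact hk _
    have h5 : tcl S (S ⊗[R] M₁) (N + max c₁ c₃) + tcl S (S ⊗[R] M₃) (N + max c₁ c₃ + k) ≤
        tcl S (S ⊗[R] M₂) (N + max c₁ c₃ + k) := by exact_mod_cast h4
    have h6 := tcl_mono S (S ⊗[R] M₁) (by omega : N + c₁ ≤ N + max c₁ c₃)
    have h7 := tcl_mono S (S ⊗[R] M₃) (by omega : N + c₃ ≤ N + max c₁ c₃ + k)
    rw [← add_assoc]
    omega
  have e1' : (tcl R M₂ N : ℝ) ≤ tcl R M₁ N + tcl R M₃ N := by exact_mod_cast e1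
  have e2' : (tcl S (S ⊗[R] M₁) (N + c₁) : ℝ) + tcl S (S ⊗[R] M₃) (N + c₃) ≤
      tcl S (S ⊗[R] M₂) (N + (max c₁ c₃ + k)) := by exact_mod_cast e2
  calc (d.factorial : ℝ) * (tcl R M₂ N : ℝ) / (N : ℝ) ^ d ≤
      (d.factorial : ℝ) * ((tcl R M₁ N : ℝ) + tcl R M₃ N) / (N : ℝ) ^ d := by gcongr
    _ = (d.factorial : ℝ) * (tcl R M₁ N : ℝ) / (N : ℝ) ^ d +
        (d.factorial : ℝ) * (tcl R M₃ N : ℝ) / (N : ℝ) ^ d := by rw [mul_add, add_div]
    _ ≤ ((s.factorial : ℝ) * (tcl S (S ⊗[R] M₁) (N + c₁) : ℝ) / (N : ℝ) ^ s + ε / 2) +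
        ((s.factorial : ℝ) * (tcl S (S ⊗[R] M₃) (N + c₃) : ℝ) / (N : ℝ) ^ s + ε / 2) :=
          add_le_add h₁ h₃
    _ = (s.factorial : ℝ) * ((tcl S (S ⊗[R] M₁) (N + c₁) : ℝ) +
        tcl S (S ⊗[R] M₃) (N + c₃)) / (N : ℝ) ^ s + ε := by
          rw [mul_add, add_div]; ring
    _ ≤ _ := by gcongr

end


theorem tc_dim_formula {R S : Type*} [CommRing R] [IsLocalRing R] [IsNoetherianRing R]
    [CommRing S] [IsLocalRing S] [IsNoetherianRing S] [Algebra R S]
    [IsLocalHom (algebraMap R S)] [Module.Flat R S] :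
    ringKrullDim S = ringKrullDim R + ringKrullDim (S ⧸ (maximalIdeal R).map (algebraMap R S)) := by
  set J := (maximalIdeal R).map (algebraMap R S) with hJ
  have hJle : J ≤ maximalIdeal S := by
    rw [hJ, Ideal.map_le_iff_le_comap]
    intro a ha
    exact (IsLocalRing.mem_maximalIdeal _).mpr fun h =>
      (IsLocalRing.mem_maximalIdeal _).mp ha (isUnit_of_map_unit (algebraMap R S) a h)
  have hnt : Nontrivial (S ⧸ J) :=
    Ideal.Quotient.nontrivial_iff.mpr (ne_top_of_le_ne_top (maximalIdeal.isMaximal S).ne_top hJle)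
  have hloc : IsLocalRing (S ⧸ J) := IsLocalRing.of_surjective' _ Ideal.Quotient.mk_surjective
  have h1 := Ideal.height_eq_height_add_of_liesOver_of_hasGoingDown (maximalIdeal R)
      (maximalIdeal S)
  have h2 : (maximalIdeal S).map (Ideal.Quotient.mk J) = maximalIdeal (S ⧸ J) := by
    have h3 : ((maximalIdeal S).map (Ideal.Quotient.mk J)).IsMaximal :=
      Ideal.IsMaximal.map_of_surjective_of_ker_le Ideal.Quotient.mk_surjective
        (by rw [Ideal.mk_ker]; exact hJle)
    exact IsLocalRing.eq_maximalIdeal h3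
  rw [← hJ, h2] at h1
  rw [← IsLocalRing.maximalIdeal_height_eq_ringKrullDim,
    ← IsLocalRing.maximalIdeal_height_eq_ringKrullDim,
    ← IsLocalRing.maximalIdeal_height_eq_ringKrullDim, h1]
  push_cast
  rfl

theorem tc_map_max {R : Type*} [CommRing R] [IsLocalRing R] (P : Ideal R) (hP : P ≤ maximalIdeal R)
    [IsLocalRing (R ⧸ P)] :
    (maximalIdeal R).map (Ideal.Quotient.mk P) = maximalIdeal (R ⧸ P) := by
  have h3 : ((maximalIdeal R).map (Ideal.Quotient.mk P)).IsMaximal :=
    Ideal.IsMaximal.map_of_surjective_of_ker_le Ideal.Quotient.mk_surjective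
      (by rw [Ideal.mk_ker]; exact hP)
  exact IsLocalRing.eq_maximalIdeal h3

section

variable {R S : Type u} [CommRing R] [IsLocalRing R] [IsNoetherianRing R]
  [CommRing S] [IsLocalRing S] [IsNoetherianRing S] [Algebra R S]
  [IsLocalHom (algebraMap R S)] [Module.Flat R S]

theorem tc_loc_quot (P : Ideal R) (hP : P ≤ maximalIdeal R) : IsLocalRing (R ⧸ P) := by
  have hnt : Nontrivial (R ⧸ P) :=
    Ideal.Quotient.nontrivial_iff.mpr (ne_top_of_le_ne_top (maximalIdeal.isMaximal R).ne_top hP)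
  exact IsLocalRing.of_surjective' _ Ideal.Quotient.mk_surjective

theorem tc_map_le (P : Ideal R) (hP : P ≤ maximalIdeal R) :
    P.map (algebraMap R S) ≤ maximalIdeal S := by
  rw [Ideal.map_le_iff_le_comap]
  intro a ha
  exact (IsLocalRing.mem_maximalIdeal _).mpr fun h =>
    (IsLocalRing.mem_maximalIdeal _).mp (hP ha) (isUnit_of_map_unit (algebraMap R S) a h)

theorem tc_algebraMap_mk (P : Ideal R) (a : R) :
    algebraMap (R ⧸ P) (S ⧸ P.map (algebraMap R S)) (Ideal.Quotient.mk P a) =
      Ideal.Quotient.mk _ (algebraMap R S a) := rfl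

theorem tc_islocalhom (P : Ideal R) (hP : P ≤ maximalIdeal R) [IsLocalRing (R ⧸ P)]
    [IsLocalRing (S ⧸ P.map (algebraMap R S))] :
    IsLocalHom (algebraMap (R ⧸ P) (S ⧸ P.map (algebraMap R S))) := by
  refine ⟨fun a ha => ?_⟩
  obtain ⟨a, rfl⟩ := Ideal.Quotient.mk_surjective a
  by_contra hna
  have h1 : a ∈ maximalIdeal R := by
    rw [mem_maximalIdeal, mem_nonunits_iff]
    intro h
    exact hna (h.map _)
  have h2 : algebraMap R S a ∈ maximalIdeal S := by
    rw [mem_maximalIdeal, mem_nonunits_iff]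
    intro h
    exact (mem_maximalIdeal _).mp h1 (isUnit_of_map_unit (algebraMap R S) a h)
  rw [tc_algebraMap_mk] at ha
  have h3 : Ideal.Quotient.mk (P.map (algebraMap R S)) (algebraMap R S a) ∈
      maximalIdeal (S ⧸ P.map (algebraMap R S)) := by
    rw [← tc_map_max _ (tc_map_le P hP)]
    exact Ideal.mem_map_of_mem _ h2
  exact (mem_maximalIdeal _).mp h3 ha

theorem tc_dim_quot (P : Ideal R) (hP : P ≤ maximalIdeal R)
    (hd : ringKrullDim (R ⧸ P) = ringKrullDim R) :
    ringKrullDim (S ⧸ P.map (algebraMap R S)) = ringKrullDim S := by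
  have l1 := tc_loc_quot P hP
  have l2 := tc_loc_quot (P.map (algebraMap R S)) (tc_map_le P hP)
  have l3 := tc_islocalhom (S := S) P hP
  have l4 : Module.Flat (R ⧸ P) (S ⧸ P.map (algebraMap R S)) := flat_quot P
  rw [tc_dim_formula (R := R) (S := S), tc_dim_formula (R := R ⧸ P)
    (S := S ⧸ P.map (algebraMap R S)), hd]
  congr 1
  set J := (maximalIdeal R).map (algebraMap R S) with hJ
  have h1 : (maximalIdeal (R ⧸ P)).map (algebraMap (R ⧸ P) (S ⧸ P.map (algebraMap R S))) =
      J.map (Ideal.Quotient.mk (P.map (algebraMap R S))) := by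
    rw [← tc_map_max P hP, Ideal.map_map, hJ, Ideal.map_map]
    rfl
  have h2 : (J.map (Ideal.Quotient.mk (P.map (algebraMap R S)))).comap
      (Ideal.Quotient.mk (P.map (algebraMap R S))) = J := by
    rw [Ideal.comap_map_quotientMk]
    exact sup_eq_right.mpr (Ideal.map_mono hP)
  rw [h1]
  let φ : S →+* ((S ⧸ P.map (algebraMap R S)) ⧸
      J.map (Ideal.Quotient.mk (P.map (algebraMap R S)))) :=
    (Ideal.Quotient.mk _).comp (Ideal.Quotient.mk _)
  have hφ : Function.Surjective φ :=
    Ideal.Quotient.mk_surjective.comp Ideal.Quotient.mk_surjective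
  have hker : RingHom.ker φ = J := by
    rw [← RingHom.comap_ker, Ideal.mk_ker, h2]
  exact (ringKrullDim_eq_of_ringEquiv ((Ideal.quotEquivOfEq hker.symm).trans
    (RingHom.quotientKerEquivOfSurjective hφ))).symm

end


section

theorem tcl_congr (B : Type*) [CommRing B] [IsLocalRing B] {M M' : Type*} [AddCommGroup M]
    [Module B M] [AddCommGroup M'] [Module B M'] (e : M ≃ₗ[B] M') (N : ℕ) :
    Module.length B (M ⧸ (maximalIdeal B ^ N • (⊤ : Submodule B M))) =
      Module.length B (M' ⧸ (maximalIdeal B ^ N • (⊤ : Submodule B M'))) := by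
  refine (Submodule.Quotient.equiv _ _ e ?_).length_eq
  rw [Submodule.map_smul'', Submodule.map_top]
  congr 1
  exact LinearEquiv.range e

theorem tcl_quot {B : Type*} [CommRing B] [IsLocalRing B] (J : Ideal B) (hJ : J ≤ maximalIdeal B)
    [IsLocalRing (B ⧸ J)] (N : ℕ) :
    Module.length B ((B ⧸ J) ⧸ (maximalIdeal B ^ N • (⊤ : Submodule B (B ⧸ J)))) =
      Module.length (B ⧸ J) ((B ⧸ J) ⧸ maximalIdeal (B ⧸ J) ^ N) := by
  rw [← tc_map_max J hJ, ← Ideal.map_pow]
  have h : ((maximalIdeal B ^ N) • (⊤ : Submodule B (B ⧸ J))) =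
      ((maximalIdeal B ^ N).map (algebraMap B (B ⧸ J))).restrictScalars B :=
    Ideal.smul_top_eq_map _
  rw [h]
  rw [← Module.length_eq_of_surjective (S := B) (R := B ⧸ J)
    (M := (B ⧸ J) ⧸ (maximalIdeal B ^ N).map (Ideal.Quotient.mk J)) Ideal.Quotient.mk_surjective]
  exact (Submodule.Quotient.restrictScalarsEquiv B _).length_eq

variable {R S : Type u} [CommRing R] [IsLocalRing R] [IsNoetherianRing R]
  [CommRing S] [IsLocalRing S] [IsNoetherianRing S] [Algebra R S]
  [IsLocalHom (algebraMap R S)] [Module.Flat R S]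

/-- primes of smaller dimension. -/
theorem Cmp.small (hmult : ∀ (A : Type u) [CommRing A] [IsLocalRing A] [IsNoetherianRing A]
      (d : ℕ), ringKrullDim A = d → ∃ e : ℕ, Tendsto (hsSeq A d) atTop (𝓝 (e : ℝ)))
    {d s d' : ℕ} (P : Ideal R) (hP : P ≤ maximalIdeal R)
    (hd' : ringKrullDim (R ⧸ P) = d') (hlt : d' < d) {M : Type u} [AddCommGroup M] [Module R M]
    (e : M ≃ₗ[R] (R ⧸ P)) : Cmp R S d s M := by
  intro ε hε
  have l1 := tc_loc_quot P hP
  obtain ⟨eP, heP⟩ := hmult (R ⧸ P) d' hd'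
  refine ⟨0, ?_⟩
  have h1 : Tendsto (fun N : ℕ => ((d.factorial : ℝ) / (d'.factorial : ℝ)) *
      (hsSeq (R ⧸ P) d' N * ((N : ℝ) ^ (d - d'))⁻¹)) atTop
      (𝓝 (((d.factorial : ℝ) / (d'.factorial : ℝ)) * ((eP : ℝ) * 0))) := by
    refine (heP.mul ?_).const_mul _
    have h2 : Tendsto (fun N : ℕ => (N : ℝ) ^ (d - d')) atTop atTop :=
      (tendsto_pow_atTop (by omega)).comp tendsto_natCast_atTop_atTop
    exact h2.inv_tendsto_atTop
  rw [mul_zero, mul_zero] at h1
  filter_upwards [h1.eventually (gt_mem_nhds hε), eventually_gt_atTop 0] with N hN hN0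
  have hN' : (0 : ℝ) < N := by exact_mod_cast hN0
  have e1 : (tcl R M N : ℝ) =
      ((Module.length (R ⧸ P) ((R ⧸ P) ⧸ maximalIdeal (R ⧸ P) ^ N)).toNat : ℝ) := by
    unfold tcl
    rw [tcl_congr R e, tcl_quot P hP]
  have e2 : (d.factorial : ℝ) * (tcl R M N : ℝ) / (N : ℝ) ^ d =
      ((d.factorial : ℝ) / (d'.factorial : ℝ)) *
      (hsSeq (R ⧸ P) d' N * ((N : ℝ) ^ (d - d'))⁻¹) := by
    unfold hsSeq
    rw [e1]
    have h3 : (N : ℝ) ^ d = (N : ℝ) ^ d' * (N : ℝ) ^ (d - d') := by
      rw [← pow_add]; congr 1; omega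
    have h4 : (d'.factorial : ℝ) ≠ 0 := by exact_mod_cast d'.factorial_ne_zero
    rw [h3]
    field_simp
  rw [e2]
  have h5 : (0 : ℝ) ≤ (s.factorial : ℝ) * (tcl S (S ⊗[R] M) (N + 0) : ℝ) / (N : ℝ) ^ s := by
    positivity
  linarith

/-- primes of maximal dimension. -/
theorem Cmp.top
    {d s : ℕ} (P : Ideal R) (hP : P ≤ maximalIdeal R) [IsLocalRing (R ⧸ P)]
    [IsLocalRing (S ⧸ P.map (algebraMap R S))] {eR eS : ℕ} (hle : eR ≤ eS)
    (heR : Tendsto (hsSeq (R ⧸ P) d) atTop (𝓝 (eR : ℝ)))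
    (heS : Tendsto (hsSeq (S ⧸ P.map (algebraMap R S)) s) atTop (𝓝 (eS : ℝ)))
    {M : Type u} [AddCommGroup M] [Module R M]
    (e : M ≃ₗ[R] (R ⧸ P)) : Cmp R S d s M := by
  intro ε hε
  refine ⟨0, ?_⟩
  have hle' : (eR : ℝ) ≤ eS := by exact_mod_cast hle
  filter_upwards [heR.eventually (gt_mem_nhds (show (eR : ℝ) < eR + ε / 2 by linarith)),
    heS.eventually (lt_mem_nhds (show (eS : ℝ) - ε / 2 < eS by linarith))] with N h1 h2
  have e1 : (tcl R M N : ℝ) =
      ((Module.length (R ⧸ P) ((R ⧸ P) ⧸ maximalIdeal (R ⧸ P) ^ N)).toNat : ℝ) := by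
    unfold tcl
    rw [tcl_congr R e, tcl_quot P hP]
  let e' : S ⊗[R] M ≃ₗ[S] (S ⧸ P.map (algebraMap R S)) :=
    (e.baseChange R S M (R ⧸ P)).trans
      (Algebra.TensorProduct.quotIdealMapEquivTensorQuot S P).toLinearEquiv.symm
  have e2 : (tcl S (S ⊗[R] M) (N + 0) : ℝ) =
      ((Module.length (S ⧸ P.map (algebraMap R S)) ((S ⧸ P.map (algebraMap R S)) ⧸
        maximalIdeal (S ⧸ P.map (algebraMap R S)) ^ N)).toNat : ℝ) := by
    unfold tcl
    rw [tcl_congr S e', tcl_quot _ (tc_map_le P hP), add_zero]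
  rw [e1, e2]
  unfold hsSeq at h1 h2
  linarith

/-- reduction to the components. -/
theorem tc_main (hmult : ∀ (A : Type u) [CommRing A] [IsLocalRing A] [IsNoetherianRing A]
      (d : ℕ), ringKrullDim A = d → ∃ e : ℕ, Tendsto (hsSeq A d) atTop (𝓝 (e : ℝ)))
    {d s : ℕ} (hR : ringKrullDim R = d) (hS : ringKrullDim S = s) (eR eS : ℕ)
    (heR : Tendsto (hsSeq R d) atTop (𝓝 (eR : ℝ)))
    (heS : Tendsto (hsSeq S s) atTop (𝓝 (eS : ℝ)))
    (H : ∀ (P : Ideal R) [P.IsPrime], ringKrullDim (R ⧸ P) = ringKrullDim R →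
      ∀ [IsLocalRing (R ⧸ P)] [IsLocalRing (S ⧸ P.map (algebraMap R S))]
      [IsLocalHom (algebraMap (R ⧸ P) (S ⧸ P.map (algebraMap R S)))]
      [Module.Flat (R ⧸ P) (S ⧸ P.map (algebraMap R S))] (e₁ e₂ : ℕ),
      ringKrullDim (R ⧸ P) = d → ringKrullDim (S ⧸ P.map (algebraMap R S)) = s →
      Tendsto (hsSeq (R ⧸ P) d) atTop (𝓝 (e₁ : ℝ)) →
      Tendsto (hsSeq (S ⧸ P.map (algebraMap R S)) s) atTop (𝓝 (e₂ : ℝ)) → e₁ ≤ e₂) :
    eR ≤ eS := by
  have key : Cmp R S d s R := by
    refine IsNoetherianRing.induction_on_isQuotientEquivQuotientPrime R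
      (M := R) inferInstance (motive := fun M _ _ _ => Cmp R S d s M) ?_ ?_ ?_
    · intro M _ _ _ hM ε hε
      refine ⟨0, Eventually.of_forall fun N => ?_⟩
      have h1 : tcl R M N = 0 := by
        unfold tcl
        rw [Module.length_eq_zero]
        rfl
      rw [h1]
      have h5 : (0 : ℝ) ≤ (s.factorial : ℝ) * (tcl S (S ⊗[R] M) (N + 0) : ℝ) / (N : ℝ) ^ s := by
        positivity
      simp only [Nat.cast_zero, mul_zero, zero_div]
      linarith
    · intro M _ _ _ P e
      have hPp : P.1.IsPrime := P.2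
      have hP : P.1 ≤ maximalIdeal R := IsLocalRing.le_maximalIdeal P.2.ne_top
      have l1 := tc_loc_quot P.1 hP
      have l2 := tc_loc_quot (P.1.map (algebraMap R S)) (tc_map_le P.1 hP)
      have l3 := tc_islocalhom (S := S) P.1 hP
      have l4 : Module.Flat (R ⧸ P.1) (S ⧸ P.1.map (algebraMap R S)) := flat_quot P.1
      have hle : ringKrullDim (R ⧸ P.1) ≤ ringKrullDim R := ringKrullDim_quotient_le P.1
      rcases hle.lt_or_eq with hlt | heq
      · have h1 := IsLocalRing.maximalIdeal_height_eq_ringKrullDim (R := R ⧸ P.1)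
        have h2 : (maximalIdeal (R ⧸ P.1)).height ≠ ⊤ := Ideal.height_ne_top_of_isPrime
        obtain ⟨d', hd'⟩ := ENat.ne_top_iff_exists.mp h2
        have h3 : ringKrullDim (R ⧸ P.1) = d' := by
          rw [← h1, ← hd']
          rfl
        refine Cmp.small hmult P.1 hP h3 ?_ e
        rw [h3, hR] at hlt
        exact_mod_cast hlt
      · have hd1 : ringKrullDim (R ⧸ P.1) = d := heq.trans hR
        have hs1 : ringKrullDim (S ⧸ P.1.map (algebraMap R S)) = s :=
          (tc_dim_quot P.1 hP heq).trans hS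
        obtain ⟨e₁, he₁⟩ := hmult _ d hd1
        obtain ⟨e₂, he₂⟩ := hmult _ s hs1
        exact Cmp.top P.1 hP (H P.1 heq e₁ e₂ hd1 hs1 he₁ he₂) he₁ he₂ e
    · intro M₁ _ _ _ M₂ _ _ _ M₃ _ _ _ f g hf hg hfg h₁ h₃
      exact Cmp.exact f g hf hg hfg h₁ h₃
  have hreal : (eR : ℝ) ≤ eS := by
    refine le_of_forall_pos_le_add fun ε hε => ?_
    obtain ⟨c, hc⟩ := key ε hε
    have e1 : ∀ N, (d.factorial : ℝ) * (tcl R R N : ℝ) / (N : ℝ) ^ d = hsSeq R d N := by
      intro N
      unfold tcl hsSeq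
      rw [smul_eq_mul, Ideal.mul_top]
    have e2 : ∀ N, tcl S (S ⊗[R] R) N = (Module.length S (S ⧸ maximalIdeal S ^ N)).toNat := by
      intro N
      unfold tcl
      rw [tcl_congr S (TensorProduct.AlgebraTensorModule.rid R S S), smul_eq_mul, Ideal.mul_top]
    have h2 : Tendsto (fun N : ℕ => (s.factorial : ℝ) *
        ((Module.length S (S ⧸ maximalIdeal S ^ (N + c))).toNat : ℝ) / (N : ℝ) ^ s) atTop
        (𝓝 ((eS : ℝ) * 1)) := by
      have h3 : Tendsto (fun N : ℕ => hsSeq S s (N + c)) atTop (𝓝 (eS : ℝ)) :=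
        (tendsto_add_atTop_iff_nat c).mpr heS
      have h4 : Tendsto (fun N : ℕ => (((N + c : ℕ) : ℝ) / (N : ℝ)) ^ s) atTop (𝓝 1) := by
        have h5 : Tendsto (fun N : ℕ => 1 + (c : ℝ) / N) atTop (𝓝 (1 + 0)) :=
          tendsto_const_nhds.add (tendsto_const_div_atTop_nhds_zero_nat (c : ℝ))
        rw [add_zero] at h5
        have h6 := h5.pow s
        rw [one_pow] at h6
        refine h6.congr' ?_
        filter_upwards [eventually_gt_atTop 0] with N hN
        have : (N : ℝ) ≠ 0 := by positivity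
        congr 1
        push_cast
        field_simp
      refine (h3.mul h4).congr' ?_
      filter_upwards [eventually_gt_atTop 0] with N hN
      have h7 : (N : ℝ) ≠ 0 := by positivity
      have h8 : ((N + c : ℕ) : ℝ) ≠ 0 := by positivity
      unfold hsSeq
      rw [div_pow]
      field_simp
    rw [mul_one] at h2
    refine le_of_tendsto_of_tendsto heR (h2.add_const ε) ?_
    filter_upwards [hc] with N hN
    rw [e1, e2] at hN
    exact hN
  exact_mod_cast hreal

end


/-- The final theorem: all top-dimensional components equicharacteristic. -/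
theorem hand_top (HC : ∀ (p : ℕ) [Fact p.Prime], CharP.TheoremC.{u} p)
    {R S : Type u} [CommRing R] [IsLocalRing R] [IsNoetherianRing R]
    [CommRing S] [IsLocalRing S] [IsNoetherianRing S]
    [Algebra R S] [IsLocalHom (algebraMap R S)] [Module.Flat R S] :
    ∃ d s eR eS : ℕ, ringKrullDim R = d ∧ ringKrullDim S = s ∧
      Tendsto (fun N : ℕ => (d.factorial : ℝ) *
        ((Module.length R (R ⧸ maximalIdeal R ^ N)).toNat : ℝ) / (N : ℝ) ^ d) atTop
        (𝓝 (eR : ℝ)) ∧
      Tendsto (fun N : ℕ => (s.factorial : ℝ) *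
        ((Module.length S (S ⧸ maximalIdeal S ^ N)).toNat : ℝ) / (N : ℝ) ^ s) atTop
        (𝓝 (eS : ℝ)) ∧
      ((∀ (P : Ideal R) [P.IsPrime], ringKrullDim (R ⧸ P) = ringKrullDim R →
        ∃ (k : Type u) (_ : Field k), Nonempty (Algebra k (R ⧸ P))) → eR ≤ eS) ∧
      (3 ≤ d → eR ≤ (d - 2).factorial * eS) := by
  obtain ⟨d, hd⟩ := exists_dim R
  obtain ⟨s, hs⟩ := exists_dim S
  obtain ⟨eR, heR⟩ := exists_mult_all hd
  obtain ⟨eS, heS⟩ := exists_mult_all hs
  refine ⟨d, s, eR, eS, hd, hs, heR, heS, ?_, fun h3 => all_flat h3 hd hs eR eS heR heS⟩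
  intro hk
  refine tc_main (R := R) (S := S) (fun A _ _ _ n hn => exists_mult_all hn) hd hs eR eS heR heS ?_
  intro P _ hPd _ _ _ _ e₁ e₂ hd1 hs1 he₁ he₂
  obtain ⟨k, _, ⟨_⟩⟩ := hk P hPd
  obtain ⟨d', s', e₁', e₂', h1, h2, h3, h4, h5, -⟩ :=
    CharP.hand_field HC (R := R ⧸ P) (S := S ⧸ P.map (algebraMap R S))
  have hdd : d = d' := by
    have : ((d : ℕ) : WithBot ℕ∞) = ((d' : ℕ) : WithBot ℕ∞) := hd1.symm.trans h1
    exact_mod_cast this
  have hss : s = s' := by
    have : ((s : ℕ) : WithBot ℕ∞) = ((s' : ℕ) : WithBot ℕ∞) := hs1.symm.trans h2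
    exact_mod_cast this
  subst hdd hss
  have e1 : (e₁ : ℝ) = e₁' := tendsto_nhds_unique he₁ h3
  have e2 : (e₂ : ℝ) = e₂' := tendsto_nhds_unique he₂ h4
  have e1' : e₁ = e₁' := by exact_mod_cast e1
  have e2' : e₂ = e₂' := by exact_mod_cast e2
  rw [e1', e2']
  exact h5 k

end Vale.Agent.P202
end

section

/-!
P202, mixed characteristic: Lech's conjecture for all Noetherian local rings from Theorem M (complete
domains of mixed characteristic) and Theorem C (complete rings of characteristic `p`).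
-/

set_option linter.unusedSectionVars false

namespace Vale.Agent.P202.Mix

open IsLocalRing Filter Topology

universe u

/-- The statement of Theorem M. -/
def TheoremM (p : ℕ) [Fact p.Prime] : Prop :=
  ∀ {A S : Type u} [CommRing A] [IsDomain A] [IsLocalRing A] [IsNoetherianRing A] [CharZero A]
    [CharP (ResidueField A) p] [IsAdicComplete (maximalIdeal A) A]
    [Infinite (ResidueField A)]
    [CommRing S] [IsLocalRing S] [IsNoetherianRing S] [IsAdicComplete (maximalIdeal S) S]
    [Algebra A S] [IsLocalHom (algebraMap A S)] [Module.Flat A S]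
    {r : ℕ} (_ : ringKrullDim A = (r + 1 : ℕ)) (_ : ringKrullDim S = (r + 1 : ℕ))
    (y : Fin (r + 1) → S) (_ : ∀ i, y i ∈ maximalIdeal S)
    (_ : Module.length S (S ⧸ Ideal.span (Set.range y)) ≠ ⊤) (t0 : ℕ)
    (_ : Module.length S (S ⧸ ((maximalIdeal A).map (algebraMap A S) ⊔
      Ideal.span (Set.range y))) = t0),
    ∃ C1 C2 : ℝ, ∀ L j : ℕ, 1 ≤ L → 1 ≤ j →
      (t0 : ℝ) * (((Module.length A (A ⧸ maximalIdeal A ^ L)).toNat : ℝ) - C2 * (L : ℝ) ^ r) *
          (((r + j).choose (r + 1) : ℕ) : ℝ) ≤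
        (((r + L).choose (r + 1) : ℕ) : ℝ) *
          (((Module.length S (S ⧸ Ideal.span (Set.range y) ^ j)).toNat : ℝ) +
            C1 * (j : ℝ) ^ r)

lemma card_tri_eq {r j : ℕ} (hj : 1 ≤ j) :
    (tri (Fin (r + 1)) j).card = (r + j).choose (r + 1) := by
  obtain ⟨j, rfl⟩ : ∃ m, j = m + 1 := ⟨j - 1, by omega⟩
  rw [card_tri_succ, Nat.multichoose_eq, Fintype.card_fin]
  have h1 : r + 1 + 1 + j - 1 = r + (j + 1) := by omega
  rw [h1, ← Nat.choose_symm_of_eq_add (show r + (j + 1) = (r + 1) + j by omega)]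

/-- Lech's inequality for complete domains of mixed characteristic. -/
theorem le_of_theoremM (p : ℕ) [Fact p.Prime] (HM : TheoremM.{u} p) {A S : Type u}
    [CommRing A] [IsDomain A] [IsLocalRing A] [IsNoetherianRing A] [CharZero A]
    [CharP (ResidueField A) p] [IsAdicComplete (maximalIdeal A) A]
    [Infinite (ResidueField A)]
    [CommRing S] [IsLocalRing S] [IsNoetherianRing S] [IsAdicComplete (maximalIdeal S) S]
    [Algebra A S] [IsLocalHom (algebraMap A S)] [Module.Flat A S]
    {r : ℕ} (hA : ringKrullDim A = (r + 1 : ℕ)) (hS : ringKrullDim S = (r + 1 : ℕ))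
    (eA eS : ℕ) (heA : Tendsto (hsSeq A (r + 1)) atTop (𝓝 (eA : ℝ)))
    (heS : Tendsto (hsSeq S (r + 1)) atTop (𝓝 (eS : ℝ))) : eA ≤ eS := by
  have : Infinite (ResidueField S) :=
    Infinite.of_injective (algebraMap (ResidueField A) (ResidueField S)) (RingHom.injective _)
  obtain ⟨y, c, hy, hyl, hmin⟩ := exists_max_reduction (S := S) hS
  have hfib : ell ((maximalIdeal A).map (algebraMap A S)) ≠ ⊤ :=
    ell_fibre_ne_top (R := A) (S := S) (by rw [hA, hS])
  have hloc : (maximalIdeal A).map (algebraMap A S) ≤ maximalIdeal S := by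
    rw [Ideal.map_le_iff_le_comap]
    intro a ha
    exact (IsLocalRing.mem_maximalIdeal _).mpr fun h =>
      (IsLocalRing.mem_maximalIdeal _).mp ha (isUnit_of_map_unit (algebraMap A S) a h)
  have ht0 : ell ((maximalIdeal A).map (algebraMap A S) ⊔ Ideal.span (Set.range y)) ≠ ⊤ :=
    ne_top_of_le_ne_top hfib (ell_mono le_sup_left)
  obtain ⟨t0, ht0⟩ := ENat.ne_top_iff_exists.mp ht0
  obtain ⟨E, hE⟩ := ENat.ne_top_iff_exists.mp (emin_ne_top hyl)
  obtain ⟨B, hB⟩ := ENat.ne_top_iff_exists.mp (errB_ne_top hyl)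
  have ht1 : 1 ≤ t0 := by
    have h1 : ell ((maximalIdeal A).map (algebraMap A S) ⊔ Ideal.span (Set.range y)) ≠ 0 := by
      rw [Ne, ell_eq_zero_iff]
      intro h
      have h2 : (maximalIdeal A).map (algebraMap A S) ⊔ Ideal.span (Set.range y) ≤
          maximalIdeal S := by
        refine sup_le hloc ?_
        rw [Ideal.span_le]
        rintro _ ⟨i, rfl⟩
        exact hy i
      rw [h, top_le_iff] at h2
      exact (IsLocalRing.maximalIdeal.isMaximal S).ne_top h2
    rw [← ht0] at h1
    have h3 : t0 ≠ 0 := by exact_mod_cast h1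
    omega
  obtain ⟨C1, C2, hC⟩ := HM (A := A) (S := S) hA hS y hy hyl t0 ht0.symm
  -- the lengths of `S / (y)^j`
  have hyj : ∀ j : ℕ, 1 ≤ j →
      ((Module.length S (S ⧸ Ideal.span (Set.range y) ^ j)).toNat : ℝ) ≤
        (((r + j).choose (r + 1) : ℕ) : ℝ) * E + B * (j : ℝ) ^ r := by
    intro j hj
    have h1 := ell_pow_le y j
    rw [← hE, ← hB, Fintype.card_fin, Nat.add_sub_cancel, card_tri_eq hj] at h1
    have h2 : ell (Ideal.span (Set.range y) ^ j) ≤
        (((r + j).choose (r + 1) * E + B * j ^ r : ℕ) : ℕ∞) := by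
      exact_mod_cast h1
    have h3 := ENat.toNat_le_of_le_natCast h2
    exact_mod_cast h3
  -- the limit `j → ∞`
  have hlim : ∀ L : ℕ, 1 ≤ L →
      (t0 : ℝ) * (((Module.length A (A ⧸ maximalIdeal A ^ L)).toNat : ℝ) -
        C2 * (L : ℝ) ^ r) ≤ (((r + L).choose (r + 1) : ℕ) : ℝ) * E := by
    intro L hL
    have h1 : Tendsto (fun j : ℕ => (((r + L).choose (r + 1) : ℕ) : ℝ) * E +
        (((r + L).choose (r + 1) : ℕ) : ℝ) * (B + |C1|) * ((r + 1).factorial *
          ((j : ℝ) ^ r / (j : ℝ) ^ (r + 1)))) atTop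
        (𝓝 ((((r + L).choose (r + 1) : ℕ) : ℝ) * E +
        (((r + L).choose (r + 1) : ℕ) : ℝ) * (B + |C1|) * ((r + 1).factorial * 0))) := by
      refine tendsto_const_nhds.add (Tendsto.const_mul _ (Tendsto.const_mul _ ?_))
      have h2 : Tendsto (fun j : ℕ => 1 / (j : ℝ)) atTop (𝓝 0) :=
        tendsto_one_div_atTop_nhds_zero_nat
      refine h2.congr' ?_
      filter_upwards [eventually_gt_atTop 0] with j hj
      have : (j : ℝ) ≠ 0 := by positivity
      rw [pow_succ]
      field_simp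
    rw [mul_zero, mul_zero, add_zero] at h1
    refine ge_of_tendsto h1 ?_
    filter_upwards [eventually_gt_atTop 0] with j hj
    have h2 := hC L j hL hj
    have h3 := hyj j hj
    set a : ℝ := (((r + j).choose (r + 1) : ℕ) : ℝ) with ha
    set Y : ℝ := (((r + L).choose (r + 1) : ℕ) : ℝ) with hY
    have hY0 : 0 ≤ Y := Nat.cast_nonneg _
    have hj0 : (0 : ℝ) < (j : ℝ) ^ (r + 1) := by positivity
    have hfa : (j : ℝ) ^ (r + 1) ≤ ((r + 1).factorial : ℝ) * a := by
      have h4 := pow_le_factorial_mul_card_tri (σ := Fin (r + 1)) j hj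
      rw [Fintype.card_fin, card_tri_eq hj] at h4
      rw [ha]
      exact_mod_cast h4
    have hf0 : (0 : ℝ) < ((r + 1).factorial : ℝ) := by positivity
    have ha0 : 0 < a := by
      by_contra h5
      have h6 : ((r + 1).factorial : ℝ) * a ≤ 0 :=
        mul_nonpos_of_nonneg_of_nonpos hf0.le (not_lt.mp h5)
      linarith
    have h7 : C1 * (j : ℝ) ^ r ≤ |C1| * (j : ℝ) ^ r :=
      mul_le_mul_of_nonneg_right (le_abs_self C1) (by positivity)
    have h8 : Y * (((Module.length S (S ⧸ Ideal.span (Set.range y) ^ j)).toNat : ℝ) +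
        C1 * (j : ℝ) ^ r) ≤ Y * (a * E + (B + |C1|) * (j : ℝ) ^ r) := by
      refine mul_le_mul_of_nonneg_left ?_ hY0
      linarith
    have h9 : (j : ℝ) ^ r ≤ a * ((r + 1).factorial * ((j : ℝ) ^ r / (j : ℝ) ^ (r + 1))) := by
      have h10 : (j : ℝ) ^ r = (j : ℝ) ^ (r + 1) * ((j : ℝ) ^ r / (j : ℝ) ^ (r + 1)) := by
        field_simp
      calc (j : ℝ) ^ r = (j : ℝ) ^ (r + 1) * ((j : ℝ) ^ r / (j : ℝ) ^ (r + 1)) := h10
        _ ≤ (((r + 1).factorial : ℝ) * a) * ((j : ℝ) ^ r / (j : ℝ) ^ (r + 1)) :=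
            mul_le_mul_of_nonneg_right hfa (by positivity)
        _ = _ := by ring
    have h11 : (0 : ℝ) ≤ Y * (B + |C1|) :=
      mul_nonneg hY0 (add_nonneg (Nat.cast_nonneg _) (abs_nonneg _))
    have h12 : (t0 : ℝ) * (((Module.length A (A ⧸ maximalIdeal A ^ L)).toNat : ℝ) -
        C2 * (L : ℝ) ^ r) * a ≤ (Y * E + Y * (B + |C1|) * ((r + 1).factorial *
          ((j : ℝ) ^ r / (j : ℝ) ^ (r + 1)))) * a := by
      refine (h2.trans h8).trans ?_
      have h13 := mul_le_mul_of_nonneg_left h9 h11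
      calc Y * (a * E + (B + |C1|) * (j : ℝ) ^ r) =
          Y * E * a + Y * (B + |C1|) * (j : ℝ) ^ r := by ring
        _ ≤ Y * E * a + Y * (B + |C1|) *
            (a * ((r + 1).factorial * ((j : ℝ) ^ r / (j : ℝ) ^ (r + 1)))) := by linarith
        _ = _ := by ring
    exact le_of_mul_le_mul_right h12 ha0
  -- the inequality of lengths
  have hgr : ∀ N : ℕ, (r + 1).factorial * (Module.length A (A ⧸ maximalIdeal A ^ N)).toNat ≤
      1 * ((r + 1).factorial * (Module.length S (S ⧸ maximalIdeal S ^ (N + c))).toNat) +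
        ((r + 1).factorial * ⌈|C2|⌉₊) * (N + 1) ^ (r + 1 - 1) := by
    intro N
    rw [one_mul, mul_assoc, ← mul_add]
    refine Nat.mul_le_mul_left _ ?_
    rw [Nat.add_sub_cancel]
    rcases Nat.eq_zero_or_pos N with rfl | hN
    · have h1 : (Module.length A (A ⧸ maximalIdeal A ^ 0)).toNat = 0 := by
        have : Subsingleton (A ⧸ maximalIdeal A ^ 0) := by
          rw [pow_zero]
          exact Ideal.Quotient.subsingleton_iff.mpr Ideal.one_eq_top
        rw [Module.length_eq_zero]
        rfl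
      rw [h1]
      exact Nat.zero_le _
    · have h1 := hlim N hN
      have hB' : ell (maximalIdeal S ^ (N + c)) ≠ ⊤ := ell_ne_top_of_pow_le le_rfl
      obtain ⟨b, hb⟩ := ENat.ne_top_iff_exists.mp hB'
      have h2 := hmin N
      rw [card_tri_eq hN, ← hE, ← hb] at h2
      have h2' : E * (r + N).choose (r + 1) ≤ b := by exact_mod_cast h2
      have h3 : Module.length S (S ⧸ maximalIdeal S ^ (N + c)) = (b : ℕ∞) := hb.symm
      rw [h3, ENat.toNat_natCast]
      have h4 : C2 ≤ (⌈|C2|⌉₊ : ℝ) := (le_abs_self C2).trans (Nat.le_ceil _)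
      have h5 : C2 * (N : ℝ) ^ r ≤ (⌈|C2|⌉₊ : ℝ) * ((N : ℝ) + 1) ^ r := by
        have h6 : (N : ℝ) ^ r ≤ ((N : ℝ) + 1) ^ r :=
          pow_le_pow_left₀ (Nat.cast_nonneg _) (by linarith) r
        calc C2 * (N : ℝ) ^ r ≤ (⌈|C2|⌉₊ : ℝ) * (N : ℝ) ^ r :=
              mul_le_mul_of_nonneg_right h4 (by positivity)
          _ ≤ _ := mul_le_mul_of_nonneg_left h6 (Nat.cast_nonneg _)
      have h6 : (((Module.length A (A ⧸ maximalIdeal A ^ N)).toNat : ℕ) : ℝ) ≤
          (b : ℝ) + (⌈|C2|⌉₊ : ℝ) * ((N : ℝ) + 1) ^ r := by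
        rcases le_or_gt (((Module.length A (A ⧸ maximalIdeal A ^ N)).toNat : ℝ) -
          C2 * (N : ℝ) ^ r) 0 with h7 | h7
        · have : (0 : ℝ) ≤ b := Nat.cast_nonneg _
          linarith
        · have h8 : ((Module.length A (A ⧸ maximalIdeal A ^ N)).toNat : ℝ) -
              C2 * (N : ℝ) ^ r ≤ (t0 : ℝ) *
              (((Module.length A (A ⧸ maximalIdeal A ^ N)).toNat : ℝ) -
              C2 * (N : ℝ) ^ r) := by
            have ht1' : (1 : ℝ) ≤ t0 := by exact_mod_cast ht1
            nlinarith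
          have h9 : (((r + N).choose (r + 1) : ℕ) : ℝ) * E ≤ b := by
            rw [mul_comm]
            exact_mod_cast h2'
          linarith
      exact_mod_cast h6
  have key := le_of_growth (Nat.succ_pos r) 1 c _
    (fun N => (Module.length A (A ⧸ maximalIdeal A ^ N)).toNat)
    (fun N => (Module.length S (S ⧸ maximalIdeal S ^ N)).toNat) hgr eA eS heA heS
  rw [Nat.cast_one, one_mul] at key
  exact_mod_cast key

/-- Lech's inequality for rings containing a field. -/
theorem le_of_field (HC : ∀ (p : ℕ) [Fact p.Prime], CharP.TheoremC.{u} p) {R S : Type u}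
    [CommRing R] [IsLocalRing R] [IsNoetherianRing R]
    [CommRing S] [IsLocalRing S] [IsNoetherianRing S] [Algebra R S]
    [IsLocalHom (algebraMap R S)] [Module.Flat R S] {d s : ℕ} (hR : ringKrullDim R = d)
    (hS : ringKrullDim S = s) (eR eS : ℕ) (heR : Tendsto (hsSeq R d) atTop (𝓝 (eR : ℝ)))
    (heS : Tendsto (hsSeq S s) atTop (𝓝 (eS : ℝ))) (k : Type u) [Field k] [Algebra k R] :
    eR ≤ eS := by
  obtain ⟨d', s', e₁', e₂', h1, h2, h3, h4, h5, -⟩ := CharP.hand_field HC (R := R) (S := S)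
  have hdd : d = d' := by
    have : ((d : ℕ) : WithBot ℕ∞) = ((d' : ℕ) : WithBot ℕ∞) := hR.symm.trans h1
    exact_mod_cast this
  have hss : s = s' := by
    have : ((s : ℕ) : WithBot ℕ∞) = ((s' : ℕ) : WithBot ℕ∞) := hS.symm.trans h2
    exact_mod_cast this
  subst hdd hss
  have e1 : (eR : ℝ) = e₁' := tendsto_nhds_unique heR h3
  have e2 : (eS : ℝ) = e₂' := tendsto_nhds_unique heS h4
  have e1' : eR = e₁' := by exact_mod_cast e1
  have e2' : eS = e₂' := by exact_mod_cast e2
  rw [e1', e2']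
  exact h5 k

/-- Lech's inequality for complete domains. -/
theorem le_of_complete_domain (HC : ∀ (p : ℕ) [Fact p.Prime], CharP.TheoremC.{u} p)
    (HM : ∀ (p : ℕ) [Fact p.Prime], TheoremM.{u} p) {A S : Type u}
    [CommRing A] [IsDomain A] [IsLocalRing A] [IsNoetherianRing A]
    [IsAdicComplete (maximalIdeal A) A] [Infinite (ResidueField A)]
    [CommRing S] [IsLocalRing S] [IsNoetherianRing S] [IsAdicComplete (maximalIdeal S) S]
    [Algebra A S] [IsLocalHom (algebraMap A S)] [Module.Flat A S]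
    {r : ℕ} (hA : ringKrullDim A = (r + 1 : ℕ)) (hS : ringKrullDim S = (r + 1 : ℕ))
    (eA eS : ℕ) (heA : Tendsto (hsSeq A (r + 1)) atTop (𝓝 (eA : ℝ)))
    (heS : Tendsto (hsSeq S (r + 1)) atTop (𝓝 (eS : ℝ))) : eA ≤ eS := by
  obtain ⟨q, hq⟩ := CharP.exists (ResidueField A)
  rcases CharP.char_is_prime_or_zero (ResidueField A) q with hqp | rfl
  · have : Fact q.Prime := ⟨hqp⟩
    obtain ⟨p', hp'⟩ := CharP.exists A
    rcases CharP.char_is_prime_or_zero A p' with hpp | rfl
    · have : Fact p'.Prime := ⟨hpp⟩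
      let _ : Algebra (ZMod p') A := ZMod.algebra A p'
      let _ : Algebra (ULift.{u} (ZMod p')) A :=
        ((algebraMap (ZMod p') A).comp (ULift.ringEquiv : ULift.{u} (ZMod p') ≃+* _)).toAlgebra
      exact le_of_field HC hA hS eA eS heA heS (ULift.{u} (ZMod p'))
    · have : CharZero A := CharP.charP_to_charZero A
      exact le_of_theoremM q (HM q) hA hS eA eS heA heS
  · have h0 : CharZero (ResidueField A) := CharP.charP_to_charZero _
    have h1 : ∀ I : Ideal A, I ≠ ⊤ → CharZero (A ⧸ I) := by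
      intro I hI
      have hle : I ≤ maximalIdeal A := IsLocalRing.le_maximalIdeal hI
      have h2 : CharZero (A ⧸ maximalIdeal A) := h0
      exact (Ideal.Quotient.factor hle).charZero
    have h3 := (EqualCharZero.nonempty_algebraRat_iff A).mpr h1
    let f : ℚ →+* A := h3.some.algebraMap
    let _ : Algebra (ULift.{u} ℚ) A :=
      (f.comp (ULift.ringEquiv : ULift.{u} ℚ ≃+* ℚ)).toAlgebra
    exact le_of_field HC hA hS eA eS heA heS (ULift.{u} ℚ)

/-- The class of all rings. -/
def ClsAll : RCls.{u} := fun _ _ _ _ => True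

theorem stable_clsAll : RStable ClsAll.{u} where
  compl := fun _ _ _ _ _ _ => trivial
  nag := fun _ _ _ _ _ => trivial

/-- Equal dimensions. -/
theorem eqDim_all (HC : ∀ (p : ℕ) [Fact p.Prime], CharP.TheoremC.{u} p)
    (HM : ∀ (p : ℕ) [Fact p.Prime], TheoremM.{u} p) {d : ℕ} (hd : 0 < d) :
    EqDimCls.{u} ClsAll d 1 := by
  intro R S _ _ _ _ _ _ _ _ _ hCR hR hS eR eS heR heS
  obtain ⟨r, rfl⟩ : ∃ r, d = r + 1 := ⟨d - 1, by omega⟩
  obtain ⟨R1, S1, _, _, _, _, _, _, _, _, _, hinf, hlR, hlS, hdR, hdS, hC1⟩ :=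
    exists_infinite_residue_cls (R := R) (S := S) stable_clsAll hCR
  obtain ⟨R2, S2, _, _, _, _, _, _, _, _, _, _, _, hlR2, hlS2, hdR2, hdS2, hinf2, hC2⟩ :=
    exists_completion_cls (R := R1) (S := S1) stable_clsAll hC1
  have := hinf2 hinf
  rw [one_mul]
  have heR2 : Tendsto (hsSeq R2 (r + 1)) atTop (𝓝 (eR : ℝ)) := by
    have h1 : hsSeq R2 (r + 1) = hsSeq R (r + 1) := by
      funext N
      unfold hsSeq
      rw [hlR2, hlR]
    rw [h1]
    exact heR
  have heS2 : Tendsto (hsSeq S2 (r + 1)) atTop (𝓝 (eS : ℝ)) := by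
    have h1 : hsSeq S2 (r + 1) = hsSeq S (r + 1) := by
      funext N
      unfold hsSeq
      rw [hlS2, hlS]
    rw [h1]
    exact heS
  refine tc_main (R := R2) (S := S2) (fun A _ _ _ n hn => exists_mult_all hn)
    (hdR2.trans (hdR.trans hR)) (hdS2.trans (hdS.trans hS)) eR eS heR2 heS2 ?_
  intro P _ hPd _ _ _ _ e₁ e₂ hd1 hs1 he₁ he₂
  have c1 : IsAdicComplete (maximalIdeal (R2 ⧸ P)) (R2 ⧸ P) :=
    loc_isAdicComplete_quotient P Ideal.IsPrime.ne_top'
  have c2 : IsAdicComplete (maximalIdeal (S2 ⧸ P.map (algebraMap R2 S2)))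
      (S2 ⧸ P.map (algebraMap R2 S2)) :=
    loc_isAdicComplete_quotient _ (by
      have : Nontrivial (S2 ⧸ P.map (algebraMap R2 S2)) := inferInstance
      exact Ideal.Quotient.nontrivial_iff.mp this)
  have : Infinite (ResidueField (R2 ⧸ P)) := by
    have h1 : IsLocalHom (Ideal.Quotient.mk P) :=
      IsLocalHom.of_surjective _ Ideal.Quotient.mk_surjective
    exact Infinite.of_injective (ResidueField.map (Ideal.Quotient.mk P)) (RingHom.injective _)
  exact le_of_complete_domain HC HM hd1 hs1 e₁ e₂ he₁ he₂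

/-- Lech's conjecture, from Theorem C and Theorem M. -/
theorem hand_all (HC : ∀ (p : ℕ) [Fact p.Prime], CharP.TheoremC.{u} p)
    (HM : ∀ (p : ℕ) [Fact p.Prime], TheoremM.{u} p)
    {R S : Type u} [CommRing R] [IsLocalRing R] [IsNoetherianRing R]
    [CommRing S] [IsLocalRing S] [IsNoetherianRing S]
    [Algebra R S] [IsLocalHom (algebraMap R S)] [Module.Flat R S] :
    ∃ d s eR eS : ℕ, ringKrullDim R = d ∧ ringKrullDim S = s ∧
      Tendsto (fun N : ℕ => (d.factorial : ℝ) *
        ((Module.length R (R ⧸ maximalIdeal R ^ N)).toNat : ℝ) / (N : ℝ) ^ d) atTop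
        (𝓝 (eR : ℝ)) ∧
      Tendsto (fun N : ℕ => (s.factorial : ℝ) *
        ((Module.length S (S ⧸ maximalIdeal S ^ N)).toNat : ℝ) / (N : ℝ) ^ s) atTop
        (𝓝 (eS : ℝ)) ∧ eR ≤ eS := by
  obtain ⟨d, hd⟩ := exists_dim R
  obtain ⟨s, hs⟩ := exists_dim S
  obtain ⟨eR, heR⟩ := exists_mult_all hd
  obtain ⟨eS, heS⟩ := exists_mult_all hs
  refine ⟨d, s, eR, eS, hd, hs, heR, heS, ?_⟩
  rcases Nat.eq_zero_or_pos d with rfl | hd0
  · exact lech_zero_aux s hd hs eR eS heR heS
  · have h := lech_of_eqDim stable_clsAll hd0 (eqDim_all HC HM hd0) (R := R) (S := S) trivial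
      hd hs eR eS heR heS
    rwa [one_mul] at h

end Vale.Agent.P202.Mix
end

section

/-!
P202 MIX, task M3b: the base `Λ = Cr[[u]]`, `Cr` a Cohen ring with a homomorphism to `W(k)`.
-/

namespace Vale.Agent.P202.Mix

open IsLocalRing
open scoped Pointwise

universe u

section Reg

variable (k : Type u) [Field k] (r : ℕ)

/-- the variables `u_1, .., u_r` form a regular sequence in `k[[t, u]]/t`. -/
theorem ibc_regular : RingTheory.Sequence.IsWeaklyRegular
    (R0 k r ⧸ Ideal.span {(MvPowerSeries.X 0 : R0 k r)})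
    (List.ofFn fun i : Fin r =>
      Ideal.Quotient.mk (Ideal.span {(MvPowerSeries.X 0 : R0 k r)}) (MvPowerSeries.X i.succ)) := by
  have h := CharP.ArbK.isWeaklyRegular_X_pow k (r + 1) 1 le_rfl
  simp only [pow_one] at h
  rw [List.ofFn_succ, RingTheory.Sequence.isWeaklyRegular_cons_iff] at h
  have e0 : (MvPowerSeries.X 0 : R0 k r) • (⊤ : Submodule (R0 k r) (R0 k r)) =
      Ideal.span {(MvPowerSeries.X 0 : R0 k r)} := by
    rw [← Submodule.ideal_span_singleton_smul, smul_eq_mul, Ideal.mul_top]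
  have h2 := (LinearEquiv.isWeaklyRegular_congr (Submodule.quotEquivOfEq _ _ e0) _).1 h.2
  have h3 := (RingTheory.Sequence.isWeaklyRegular_map_algebraMap_iff
    (R0 k r ⧸ Ideal.span {(MvPowerSeries.X 0 : R0 k r)})
    (R0 k r ⧸ Ideal.span {(MvPowerSeries.X 0 : R0 k r)}) _).2 h2
  rw [List.map_ofFn] at h3
  exact h3

theorem ibc_max : maximalIdeal (R0 k r) = Ideal.span (Set.range MvPowerSeries.X) :=
  CZ.maximalIdeal_eq

theorem ibc_X_mem (i : Fin (r + 1)) : (MvPowerSeries.X i : R0 k r) ∈ maximalIdeal (R0 k r) := by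
  rw [ibc_max]
  exact Ideal.subset_span ⟨i, rfl⟩

theorem ibc_local : IsLocalRing (R0 k r ⧸ Ideal.span {(MvPowerSeries.X 0 : R0 k r)}) := by
  have hne : Ideal.span {(MvPowerSeries.X 0 : R0 k r)} ≠ ⊤ := by
    intro h
    have h1 : Ideal.span {(MvPowerSeries.X 0 : R0 k r)} ≤ maximalIdeal (R0 k r) := by
      rw [Ideal.span_singleton_le_iff_mem]
      exact ibc_X_mem k r 0
    rw [h, top_le_iff] at h1
    exact (maximalIdeal.isMaximal (R0 k r)).ne_top h1
  have : Nontrivial (R0 k r ⧸ Ideal.span {(MvPowerSeries.X 0 : R0 k r)}) :=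
    Ideal.Quotient.nontrivial_iff.2 hne
  exact IsLocalRing.of_surjective' (Ideal.Quotient.mk _) Ideal.Quotient.mk_surjective

end Reg

/-- reduction of the coefficients modulo the maximal ideal `(p)`: kernel. -/
theorem ibc_ker (p : ℕ) (r : ℕ) {Cr : Type u} [CommRing Cr] [IsLocalRing Cr]
    (hCr : maximalIdeal Cr = Ideal.span {(p : Cr)}) :
    RingHom.ker (MvPowerSeries.map (σ := Fin r) (residue Cr)) =
      Ideal.span {(p : MvPowerSeries (Fin r) Cr)} := by
  ext f
  rw [RingHom.mem_ker, Ideal.mem_span_singleton]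
  constructor
  · intro hf
    have h1 : ∀ β, ∃ c : Cr, MvPowerSeries.coeff β f = p * c := by
      intro β
      have h2 := congrArg (MvPowerSeries.coeff β) hf
      rw [MvPowerSeries.coeff_map, map_zero, residue_eq_zero_iff, hCr,
        Ideal.mem_span_singleton] at h2
      exact h2
    choose c hc using h1
    obtain ⟨c', hc'⟩ : ∃ c' : MvPowerSeries (Fin r) Cr, ∀ β, MvPowerSeries.coeff β c' = c β :=
      ⟨fun β => c β, fun β => rfl⟩
    refine ⟨c', ?_⟩
    ext β
    have h3 : (p : MvPowerSeries (Fin r) Cr) = MvPowerSeries.C (p : Cr) := (map_natCast _ _).symm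
    rw [h3, MvPowerSeries.coeff_C_mul, hc', hc]
  · rintro ⟨g, rfl⟩
    have h4 : residue Cr (p : Cr) = 0 := by
      rw [residue_eq_zero_iff, hCr]
      exact Ideal.subset_span rfl
    rw [map_mul, map_natCast, ← map_natCast (MvPowerSeries.C (σ := Fin r) (R := ResidueField Cr)),
      ← map_natCast (residue Cr), h4, map_zero, zero_mul]

/-- a homomorphism `Cr[[u]]/p → k[[t, u]]/t` with `u_i ↦ u_i` is flat. -/
theorem ibc_flat (p : ℕ) (k : Type u) [Field k] (r : ℕ) {Cr : Type u} [CommRing Cr]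
    [IsLocalRing Cr] (hCr : maximalIdeal Cr = Ideal.span {(p : Cr)})
    (F : (MvPowerSeries (Fin r) Cr ⧸ Ideal.span {(p : MvPowerSeries (Fin r) Cr)}) →+*
      R0 k r ⧸ Ideal.span {(MvPowerSeries.X 0 : R0 k r)})
    (hF : ∀ i : Fin r, F (Ideal.Quotient.mk _ (MvPowerSeries.X i)) =
      Ideal.Quotient.mk _ (MvPowerSeries.X i.succ)) : F.Flat := by
  have hloc := ibc_local k r
  have hsurj : Function.Surjective (MvPowerSeries.map (σ := Fin r) (residue Cr)) := by
    intro f
    choose g hg using fun β => residue_surjective (R := Cr) (MvPowerSeries.coeff β f)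
    obtain ⟨g', hg'⟩ : ∃ g' : MvPowerSeries (Fin r) Cr, ∀ β, MvPowerSeries.coeff β g' = g β :=
      ⟨fun β => g β, fun β => rfl⟩
    refine ⟨g', ?_⟩
    ext β
    rw [MvPowerSeries.coeff_map, hg']
    exact hg β
  let q : (MvPowerSeries (Fin r) Cr ⧸ Ideal.span {(p : MvPowerSeries (Fin r) Cr)}) ≃+*
      MvPowerSeries (Fin r) (ResidueField Cr) :=
    (Ideal.quotEquivOfEq (ibc_ker p r hCr).symm).trans
      (RingHom.quotientKerEquivOfSurjective hsurj)
  have hq : ∀ f, q (Ideal.Quotient.mk _ f) = MvPowerSeries.map (residue Cr) f := fun f => rfl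
  let G : MvPowerSeries (Fin r) (ResidueField Cr) →+*
      R0 k r ⧸ Ideal.span {(MvPowerSeries.X 0 : R0 k r)} := F.comp q.symm.toRingHom
  have hG : ∀ i, G (MvPowerSeries.X i) = Ideal.Quotient.mk _ (MvPowerSeries.X i.succ) := by
    intro i
    have h1 : q.symm (MvPowerSeries.X i) = Ideal.Quotient.mk _ (MvPowerSeries.X i) := by
      rw [RingEquiv.symm_apply_eq, hq, MvPowerSeries.map_X]
    change F (q.symm (MvPowerSeries.X i)) = _
    rw [h1, hF]
  have hGf : G.Flat := by
    algebraize [G]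
    have hX : ∀ i : Fin r, algebraMap (MvPowerSeries (Fin r) (ResidueField Cr))
        (R0 k r ⧸ Ideal.span {(MvPowerSeries.X 0 : R0 k r)}) (MvPowerSeries.X i) =
        Ideal.Quotient.mk _ (MvPowerSeries.X i.succ) := hG
    refine CharP.ArbK.flat_of_regular_powerSeries (fun i => ?_) ?_
    · rw [hX, mem_maximalIdeal, mem_nonunits_iff]
      intro hu
      have h2 : IsUnit (MvPowerSeries.X i.succ : R0 k r) := by
        have : IsLocalHom (Ideal.Quotient.mk (Ideal.span {(MvPowerSeries.X 0 : R0 k r)})) :=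
          IsLocalHom.of_surjective _ Ideal.Quotient.mk_surjective
        exact isUnit_of_map_unit _ _ hu
      exact (mem_nonunits_iff.1 ((mem_maximalIdeal _).1 (ibc_X_mem k r i.succ))) h2
    · simp only [hX]
      exact ibc_regular k r
  have hFG : F = G.comp (q : _ →+* MvPowerSeries (Fin r) (ResidueField Cr)) := by
    ext x
    change F _ = F (q.symm (q _))
    rw [RingEquiv.symm_apply_apply]
  rw [hFG]
  exact RingHom.Flat.comp (RingHom.Flat.of_bijective q.bijective) hGf

/-- TASK M3b: the base attached to a Cohen ring `Cr` with a homomorphism to `W(k)`, `k` perfect. -/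
theorem exists_isBase (p : ℕ) [Fact p.Prime] (k : Type u) [Field k] [CharP k p] [PerfectRing k p]
    (r : ℕ) {Cr : Type u} [CommRing Cr] [IsLocalRing Cr]
    (hCr : maximalIdeal Cr = Ideal.span {(p : Cr)}) (κ : Cr →+* WittVector p k) :
    ∃ (ψ : MvPowerSeries (Fin r) Cr →+* WittVector p (Rp p k r))
      (red : MvPowerSeries (Fin r) Cr →+* R0 k r ⧸ Ideal.span {(MvPowerSeries.X 0 : R0 k r)}),
      IsBase p k r (MvPowerSeries (Fin r) Cr) (fun i => MvPowerSeries.X i) ψ red ∧
      ∀ c : Cr, ψ (MvPowerSeries.C c) =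
        WittVector.map ((PerfectClosure.of (R0 k r) p).comp MvPowerSeries.C) (κ c) := by
  obtain ⟨ψ0, h1, h2, h3, -⟩ := exists_psi0 p k r
  have hX : ∀ i, ψ0 (MvPowerSeries.map κ (MvPowerSeries.X i)) =
      WittVector.teichmuller p (MvPowerSeries.X i.succ) := fun i => by
    rw [MvPowerSeries.map_X, h1]
  -- elements with image divisible by `p`
  have hκ : ∀ c : Cr, (∃ x, κ c = p * x) → c ∈ Ideal.span {(p : Cr)} := by
    intro c hc
    rw [← hCr, mem_maximalIdeal, mem_nonunits_iff]
    intro hu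
    obtain ⟨x, hx⟩ := hc
    have h4 : IsUnit (κ c) := hu.map κ
    have h5 := h4.map (WittVector.constantCoeff : WittVector p k →+* k)
    rw [hx, map_mul, map_natCast, CharP.cast_eq_zero, zero_mul] at h5
    exact not_isUnit_zero h5
  let red : MvPowerSeries (Fin r) Cr →+* R0 k r ⧸ Ideal.span {(MvPowerSeries.X 0 : R0 k r)} :=
    (Ideal.Quotient.mk _).comp
      ((WittVector.constantCoeff).comp (ψ0.comp (MvPowerSeries.map κ)))
  have hred : ∀ l, red l = Ideal.Quotient.mk _ ((ψ0 (MvPowerSeries.map κ l)).coeff 0) :=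
    fun l => rfl
  have hredp : ∀ l ∈ Ideal.span {(p : MvPowerSeries (Fin r) Cr)}, red l = 0 := by
    intro l hl
    obtain ⟨m, rfl⟩ := Ideal.mem_span_singleton.1 hl
    rw [map_mul, map_natCast]
    have h6 : ((p : ℕ) : R0 k r ⧸ Ideal.span {(MvPowerSeries.X 0 : R0 k r)}) = 0 := by
      rw [← map_natCast (Ideal.Quotient.mk (Ideal.span {(MvPowerSeries.X 0 : R0 k r)})),
        CharP.cast_eq_zero, map_zero]
    rw [h6, zero_mul]
  refine ⟨(WittVector.map (PerfectClosure.of (R0 k r) p)).comp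
    (ψ0.comp (MvPowerSeries.map κ)), red, ⟨fun i => ?_, fun l => ?_, hredp, fun l hl => ?_, ?_⟩,
    fun c => ?_⟩
  · change WittVector.map _ (ψ0 (MvPowerSeries.map κ (MvPowerSeries.X i))) = _
    rw [hX, WittVector.map_teichmuller]
    rfl
  · refine ⟨(ψ0 (MvPowerSeries.map κ l)).coeff 0, 0, hred l, ?_⟩
    rw [mul_zero, add_zero]
    exact WittVector.map_coeff _ _ _
  · rw [hred, Ideal.Quotient.eq_zero_iff_mem] at hl
    have h7 := h3 _ hl
    rw [← ibc_ker p r hCr, RingHom.mem_ker]
    obtain ⟨y, hy⟩ := Ideal.mem_span_singleton.1 h7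
    ext β
    rw [MvPowerSeries.coeff_map, map_zero, residue_eq_zero_iff, hCr]
    refine hκ _ ⟨MvPowerSeries.coeff β y, ?_⟩
    have h8 := congrArg (MvPowerSeries.coeff β) hy
    have h9 : (p : La p k r) = MvPowerSeries.C (p : WittVector p k) := (map_natCast _ _).symm
    rw [MvPowerSeries.coeff_map, h9, MvPowerSeries.coeff_C_mul] at h8
    exact h8
  · refine ibc_flat p k r hCr _ fun i => ?_
    rw [Ideal.Quotient.lift_mk, hred, hX, WittVector.teichmuller_coeff_zero]
  · change WittVector.map _ (ψ0 (MvPowerSeries.map κ (MvPowerSeries.C c))) = _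
    rw [MvPowerSeries.map_C, h2]
    ext n
    simp only [WittVector.map_coeff, RingHom.comp_apply]

end Vale.Agent.P202.Mix
end

section

/-!
P202, mixed characteristic: the base `Cr[[u]]` with its `p`-basis (`IsBaseX`).
-/

namespace Vale.Agent.P202.Mix

open IsLocalRing

universe u

theorem IsPBasis.symm_congr {p : ℕ} [hp : Fact p.Prime] {k1 k2 : Type*} [Field k1] [Field k2]
    {ι : Type*} (e : k1 ≃+* k2) {b : ι → k2} (hb : IsPBasis p b) :
    IsPBasis p (fun i => e.symm (b i)) := by
  refine ⟨fun i h => hb.1 i ?_, fun n x => ?_⟩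
  · exact (map_eq_zero_iff e.symm e.symm.injective).mp h
  · obtain ⟨c, hc, huniq⟩ := hb.2 n (e x)
    have h0 : p ^ n ≠ 0 := (pow_pos hp.out.pos n).ne'
    have key : ∀ c : Bx ι (p ^ n) →₀ k1,
        e (c.sum fun α y => y ^ p ^ n * α.1.prod fun i m => e.symm (b i) ^ m) =
          ((c.mapRange e (map_zero e)).sum fun α y => y ^ p ^ n * α.1.prod fun i m => b i ^ m) := by
      intro c
      rw [Finsupp.sum_mapRange_index (fun α => by rw [zero_pow h0, zero_mul]), Finsupp.sum,
        Finsupp.sum, map_sum]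
      refine Finset.sum_congr rfl fun α _ => ?_
      rw [map_mul, map_pow, Finsupp.prod, Finsupp.prod, map_prod]
      congr 1
      refine Finset.prod_congr rfl fun i _ => ?_
      rw [map_pow, RingEquiv.apply_symm_apply]
    have hinv : (c.mapRange e.symm (map_zero e.symm)).mapRange e (map_zero e) = c := by
      ext α
      rw [Finsupp.mapRange_apply, Finsupp.mapRange_apply, RingEquiv.apply_symm_apply]
    refine ⟨c.mapRange e.symm (map_zero e.symm), e.injective ?_, fun c' hc' => ?_⟩
    · rw [key, hinv, hc]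
    · have h1 := huniq (c'.mapRange e (map_zero e)) ((key c').symm.trans (congrArg e hc'))
      ext α
      have h2 := DFunLike.congr_fun h1 α
      rw [Finsupp.mapRange_apply] at h2
      rw [Finsupp.mapRange_apply, ← h2, RingEquiv.symm_apply_apply]

/-- elements of `Cr[[u]]` modulo the variables. -/
theorem sub_C_mem {r : ℕ} {Cr : Type*} [CommRing Cr] (l : MvPowerSeries (Fin r) Cr) :
    l - MvPowerSeries.C (MvPowerSeries.constantCoeff l) ∈
      Ideal.span (Set.range (MvPowerSeries.X : Fin r → MvPowerSeries (Fin r) Cr)) := by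
  rw [CZ.mem_span_X_iff, map_sub, MvPowerSeries.constantCoeff_C, sub_self]

theorem maximalIdeal_powerSeries (p : ℕ) {r : ℕ} {Cr : Type*} [CommRing Cr] [IsLocalRing Cr]
    (hCr : maximalIdeal Cr = Ideal.span {(p : Cr)}) :
    maximalIdeal (MvPowerSeries (Fin r) Cr) =
      Ideal.span (insert (p : MvPowerSeries (Fin r) Cr) (Set.range MvPowerSeries.X)) := by
  have hmem : ∀ l : MvPowerSeries (Fin r) Cr, l ∈ maximalIdeal (MvPowerSeries (Fin r) Cr) ↔
      MvPowerSeries.constantCoeff l ∈ maximalIdeal Cr := by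
    intro l
    rw [mem_maximalIdeal, mem_nonunits_iff, mem_maximalIdeal, mem_nonunits_iff,
      MvPowerSeries.isUnit_iff_constantCoeff]
  refine le_antisymm (fun l hl => ?_) ?_
  · have h1 := (hmem l).mp hl
    rw [hCr] at h1
    obtain ⟨d, hd⟩ := Ideal.mem_span_singleton'.mp h1
    have h2 : l = MvPowerSeries.C d * (p : MvPowerSeries (Fin r) Cr) +
        (l - MvPowerSeries.C (MvPowerSeries.constantCoeff l)) := by
      rw [← hd, map_mul, map_natCast]
      ring
    rw [h2]
    refine add_mem (Ideal.mul_mem_left _ _ (Ideal.subset_span (Set.mem_insert _ _))) ?_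
    exact Ideal.span_mono (Set.subset_insert _ _) (sub_C_mem l)
  · rw [Ideal.span_le]
    intro l hl
    rcases hl with rfl | ⟨i, rfl⟩
    · rw [SetLike.mem_coe, hmem, map_natCast, hCr]
      exact Ideal.mem_span_singleton_self _
    · rw [SetLike.mem_coe, hmem, MvPowerSeries.constantCoeff_X]
      exact zero_mem _

/-- The base `Cr[[u]]` with its `p`-basis. -/
theorem exists_baseX (p : ℕ) [hp : Fact p.Prime] {k0 : Type u} [Field k0] [CharP k0 p] (r : ℕ)
    {Cr : Type u} [CommRing Cr] [IsLocalRing Cr] (hCr : maximalIdeal Cr = Ideal.span {(p : Cr)})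
    (π : Cr →+* k0) (hπ : Function.Surjective π) (hπk : ∀ c, π c = 0 → ∃ d, c = p * d)
    (κ : Cr →+* WittVector p (PerfectClosure k0 p))
    (hκ : ∀ c, (κ c).coeff 0 = PerfectClosure.of k0 p (π c)) {ι : Type u} {b : ι → k0}
    (hb : IsPBasis p b) (β : ι → Cr)
    (hβ : ∀ i, κ (β i) = WittVector.teichmuller p (PerfectClosure.of k0 p (b i))) :
    ∃ (ψ : MvPowerSeries (Fin r) Cr →+* WittVector p (Rp p (PerfectClosure k0 p) r))
      (red : MvPowerSeries (Fin r) Cr →+* R0 (PerfectClosure k0 p) r ⧸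
        Ideal.span {(MvPowerSeries.X 0 : R0 (PerfectClosure k0 p) r)})
      (res : ResidueField (MvPowerSeries (Fin r) Cr) →+* PerfectClosure k0 p),
      IsBaseX p (PerfectClosure k0 p) r (fun i => MvPowerSeries.X i) ψ red
        (fun i => MvPowerSeries.C (β i)) (fun i => PerfectClosure.of k0 p (b i)) res := by
  obtain ⟨ψ, red, hbase, hψC⟩ := exists_isBase p (PerfectClosure k0 p) r hCr κ
  -- `Rp → k`
  let cK : R0 (PerfectClosure k0 p) r →+* PerfectClosure k0 p := MvPowerSeries.constantCoeff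
  let τ : Rp p (PerfectClosure k0 p) r →+* PerfectClosure k0 p :=
    PerfectClosure.lift (R0 (PerfectClosure k0 p) r) p (PerfectClosure k0 p) cK
  have hτ : ∀ g, τ (PerfectClosure.of _ p g) = MvPowerSeries.constantCoeff g := by
    intro g
    have := (PerfectClosure.lift (R0 (PerfectClosure k0 p) r) p
      (PerfectClosure k0 p)).symm_apply_apply cK
    exact DFunLike.congr_fun this g
  have hτ0 : ∀ i, τ (xp p (PerfectClosure k0 p) r i) = 0 := by
    intro i
    rw [xp, hτ, MvPowerSeries.constantCoeff_X]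
  let θ : (R0 (PerfectClosure k0 p) r ⧸
      Ideal.span {(MvPowerSeries.X 0 : R0 (PerfectClosure k0 p) r)}) →+* PerfectClosure k0 p :=
    Ideal.Quotient.lift _ cK (fun a ha => by
      obtain ⟨y, rfl⟩ := Ideal.mem_span_singleton'.mp ha
      change MvPowerSeries.constantCoeff _ = 0
      rw [map_mul, MvPowerSeries.constantCoeff_X, mul_zero])
  have hθ : ∀ g, θ (Ideal.Quotient.mk _ g) = MvPowerSeries.constantCoeff g := fun g => rfl
  let cc : MvPowerSeries (Fin r) Cr →+* PerfectClosure k0 p := θ.comp red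
  have hcc : ∀ l, cc l = τ ((ψ l).coeff 0) := by
    intro l
    obtain ⟨g, y, h1, h2⟩ := hbase.red_coeff l
    change θ (red l) = _
    rw [h1, hθ, h2, map_add, map_mul, hτ, hτ0, zero_mul, add_zero]
  have hccC : ∀ c, cc (MvPowerSeries.C c) = PerfectClosure.of k0 p (π c) := by
    intro c
    rw [hcc, hψC, WittVector.map_coeff, hκ, RingHom.comp_apply, hτ,
      MvPowerSeries.constantCoeff_C]
  have hccX : ∀ i, cc (MvPowerSeries.X i) = 0 := by
    intro i
    rw [hcc, hbase.psi_u, WittVector.teichmuller_coeff_zero, hτ0]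
  have hccl : ∀ l, cc l = PerfectClosure.of k0 p (π (MvPowerSeries.constantCoeff l)) := by
    intro l
    have h1 : Ideal.span (Set.range (MvPowerSeries.X : Fin r → MvPowerSeries (Fin r) Cr)) ≤
        RingHom.ker cc := by
      rw [Ideal.span_le]
      rintro _ ⟨i, rfl⟩
      exact hccX i
    have h2 := h1 (sub_C_mem l)
    rw [RingHom.mem_ker, map_sub, hccC, sub_eq_zero] at h2
    exact h2
  have hmemC : ∀ c : Cr, c ∈ maximalIdeal Cr ↔ π c = 0 := by
    intro c
    rw [hCr]
    constructor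
    · intro h
      obtain ⟨d, rfl⟩ := Ideal.mem_span_singleton'.mp h
      rw [map_mul, map_natCast, CharP.cast_eq_zero, mul_zero]
    · intro h
      obtain ⟨d, rfl⟩ := hπk c h
      exact Ideal.mul_mem_right _ _ (Ideal.mem_span_singleton_self _)
  have hmem : ∀ l : MvPowerSeries (Fin r) Cr, l ∈ maximalIdeal (MvPowerSeries (Fin r) Cr) ↔
      π (MvPowerSeries.constantCoeff l) = 0 := by
    intro l
    rw [← hmemC, mem_maximalIdeal, mem_nonunits_iff, mem_maximalIdeal, mem_nonunits_iff,
      MvPowerSeries.isUnit_iff_constantCoeff]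
  let res : ResidueField (MvPowerSeries (Fin r) Cr) →+* PerfectClosure k0 p :=
    Ideal.Quotient.lift (maximalIdeal (MvPowerSeries (Fin r) Cr)) cc (fun l hl => by
      rw [hccl, (hmem l).mp hl, map_zero])
  have hres : ∀ l, res (residue _ l) = cc l := fun l => rfl
  -- the residue field
  let g : ResidueField (MvPowerSeries (Fin r) Cr) →+* k0 :=
    Ideal.Quotient.lift (maximalIdeal (MvPowerSeries (Fin r) Cr))
      (π.comp MvPowerSeries.constantCoeff) (fun l hl => (hmem l).mp hl)
  have hg : ∀ l, g (residue _ l) = π (MvPowerSeries.constantCoeff l) := fun l => rfl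
  have hgb : Function.Bijective g := by
    refine ⟨g.injective, fun x => ?_⟩
    obtain ⟨c, rfl⟩ := hπ x
    exact ⟨residue _ (MvPowerSeries.C c), by rw [hg, MvPowerSeries.constantCoeff_C]⟩
  let e : ResidueField (MvPowerSeries (Fin r) Cr) ≃+* k0 := RingEquiv.ofBijective g hgb
  have hπβ : ∀ i, π (β i) = b i := by
    intro i
    apply (PerfectClosure.of k0 p).injective
    rw [← hκ, hβ, WittVector.teichmuller_coeff_zero]
  refine ⟨ψ, red, res, hbase, maximalIdeal_powerSeries p hCr, fun i => ?_, fun l g' hl => ?_, ?_,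
    inferInstance, fun y => ?_⟩
  · rw [hψC, hβ, WittVector.map_teichmuller]
    rfl
  · rw [hres]
    change θ (red l) = _
    rw [hl, hθ]
  · have h1 := hb.symm_congr e
    have h2 : (fun i => e.symm (b i)) = fun i =>
        residue (MvPowerSeries (Fin r) Cr) (MvPowerSeries.C (β i)) := by
      funext i
      rw [RingEquiv.symm_apply_eq]
      change b i = g (residue _ _)
      rw [hg, MvPowerSeries.constantCoeff_C, hπβ]
    rw [← h2]
    exact h1
  · induction y using PerfectClosure.induction_on with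
    | h x =>
      obtain ⟨n, x⟩ := x
      obtain ⟨c, hc⟩ := hπ x
      refine ⟨n, residue _ (MvPowerSeries.C c), ?_⟩
      rw [hres, hccC, hc, ← PerfectClosure.iterate_frobenius_mk (K := k0) (p := p) n x,
        iterate_frobenius]

end Vale.Agent.P202.Mix
end

section

/-!
P202-GEN3, E2: growth of Koszul homology of powers of a multiplicity system.
-/

set_option linter.unusedSectionVars false
set_option linter.unusedVariables false

namespace Vale.Agent.P202.CharP.Gen3

open Submodule IsLocalRing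

universe u v

section Sub

variable {B : Type*} [CommRing B]

/-- subadditivity of Koszul homology. -/
theorem kk_le_add {n : ℕ} (y : Fin n → B) {M₁ M₂ M₃ : Type*} [AddCommGroup M₁] [Module B M₁]
    [AddCommGroup M₂] [Module B M₂] [AddCommGroup M₃] [Module B M₃]
    (f : M₁ →ₗ[B] M₂) (g : M₂ →ₗ[B] M₃) (hf : Function.Injective f)
    (hg : Function.Surjective g) (hfg : Function.Exact f g) (i : ℤ) :
    kk y M₂ i ≤ kk y M₃ i + kk y M₁ i := by
  have hQ := kos_isCx n y
  set D : (KIdx n → M₂) →ₗ[B] (KIdx n → M₂) := tot (kdeg n) (kos n y) (0 : M₂ →ₗ[B] M₂) with hD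
  set X := lift (kdeg n) (conc (⊥ : Submodule B M₂)) with hX
  set Y := lift (kdeg n) (conc (LinearMap.range f)) with hY
  set Z := lift (kdeg n) (conc (⊤ : Submodule B M₂)) with hZ
  have hDD : ∀ x, D (D x) = 0 := tot_tot _ _ hQ _ (fun _ => rfl)
  have sX : Stab D X := lift_conc_stab _ _ hQ _
  have sY : Stab D Y := lift_conc_stab _ _ hQ _
  have sZ : Stab D Z := lift_conc_stab _ _ hQ _
  have hXY : ∀ δ, X δ ≤ Y δ := lift_mono _ (conc_mono bot_le)
  have hYZ : ∀ δ, Y δ ≤ Z δ := lift_mono _ (conc_mono le_top)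
  have k2 : ∀ i, hh D Z X i = kk y M₂ i := fun i => rfl
  have k1 : ∀ i, hh D Y X i = kk y M₁ i := by
    intro i
    symm
    refine khs_map_eq (kdeg n) (kos n y) hQ f ⊤ ⊥ (LinearMap.range f) ⊥ bot_le ?_ ?_ i
    · rw [Submodule.map_top]
    · intro x _
      rw [Submodule.mem_bot, Submodule.mem_bot]
      exact map_eq_zero_iff f hf
  have k3 : ∀ i, hh D Z Y i = kk y M₃ i := by
    intro i
    refine khs_map_eq (kdeg n) (kos n y) hQ g ⊤ (LinearMap.range f) ⊤ ⊥ le_top ?_ ?_ i
    · rw [Submodule.map_top, LinearMap.range_eq_top.mpr hg]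
    · intro x _
      rw [Submodule.mem_bot]
      exact hfg x
  rw [← k2, ← k1, ← k3]
  exact Gen.hh_le_add D hDD X Y Z sX sY sZ hXY hYZ i

/-- peeling inequality. -/
theorem kk_peel_le {n : ℕ} (y : Fin (n + 1) → B) (M : Type*) [AddCommGroup M] [Module B M]
    (i : ℤ) :
    kk y M i ≤ kk (fun i => y i.succ) (M ⧸ (LinearMap.range (LinearMap.lsmul B M (y 0)))) i +
      kk (fun i => y i.succ) ↥(LinearMap.ker (LinearMap.lsmul B M (y 0))) (i - 1) := by
  obtain ⟨al, be, ga, h⟩ := kp_les (kdeg n) (kos n fun i => y i.succ) (kos_isCx n _) (y 0) M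
  obtain ⟨h1, h2, h3⟩ := h i
  rw [kp_kk, h1, add_comm]
  unfold kk
  rw [h2, h3]
  exact add_le_add le_self_add le_add_self

end Sub

section

variable {B : Type u} [CommRing B] [IsNoetherianRing B] [IsLocalRing B]

theorem pf_pow {n : ℕ} {y : Fin n → B} {M : Type*} [AddCommGroup M] [Module B M] (h : PF y M)
    (t : ℕ) : PF (fun i => y i ^ t) M := h.pow (fun _ => t)

/-- the tail is a multiplicity system of modules killed by a power of the first element. -/
theorem pf_tail_of_pow {n : ℕ} {y : Fin (n + 1) → B} {M : Type*} [AddCommGroup M] [Module B M]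
    (h : PF y M) (u : ℕ) (h0 : y 0 ^ u ∈ Module.annihilator B M) :
    PF (fun i => y i.succ) M := by
  obtain ⟨s, hs⟩ := h
  have h1 : maximalIdeal B ≤ (Module.annihilator B M ⊔
      Ideal.span (Set.range fun i : Fin n => y i.succ)).radical := by
    intro a ha
    have h2 : a ^ s ∈ Module.annihilator B M ⊔ Ideal.span (Set.range y) :=
      hs (Ideal.pow_mem_pow ha s)
    have h3 : Module.annihilator B M ⊔ Ideal.span (Set.range y) ≤
        (Module.annihilator B M ⊔ Ideal.span (Set.range fun i : Fin n => y i.succ)).radical := by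
      refine sup_le (le_sup_left.trans Ideal.le_radical) ?_
      rw [Ideal.span_le]
      rintro _ ⟨i, rfl⟩
      refine Fin.cases ?_ (fun j => ?_) i
      · exact ⟨u, Ideal.mem_sup_left h0⟩
      · exact Ideal.le_radical (Ideal.mem_sup_right (Ideal.subset_span ⟨j, rfl⟩))
    have h4 := h3 h2
    rw [← Ideal.radical_idem]
    exact ⟨s, h4⟩
  exact Ideal.exists_pow_le_of_le_radical_of_fg h1 (IsNoetherian.noetherian _)

theorem kk_subsingleton {n : ℕ} (y : Fin n → B) {M : Type*} [AddCommGroup M] [Module B M]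
    [Subsingleton M] (i : ℤ) : kk y M i = 0 := by
  unfold kk kh khs hh
  rw [rl_eq_zero_iff]
  intro x _
  rw [Subsingleton.elim x 0]
  exact Submodule.zero_mem _

/-- the exact sequence `M / (c M + ker c ^ u) → M / c ^ (u + 1) M → M / c ^ u M`. -/
theorem kk_quot_pow_succ {n : ℕ} (y : Fin n → B) (c : B) (M : Type*) [AddCommGroup M]
    [Module B M] (u : ℕ) (i : ℤ) :
    kk y (M ⧸ LinearMap.range (LinearMap.lsmul B M (c ^ (u + 1)))) i ≤
      kk y (M ⧸ LinearMap.range (LinearMap.lsmul B M (c ^ u))) i +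
      kk y (M ⧸ (LinearMap.range (LinearMap.lsmul B M c) ⊔
        LinearMap.ker (LinearMap.lsmul B M (c ^ u)))) i := by
  have hker : LinearMap.ker ((Submodule.mkQ (LinearMap.range (LinearMap.lsmul B M
      (c ^ (u + 1))))).comp (LinearMap.lsmul B M (c ^ u))) =
      LinearMap.range (LinearMap.lsmul B M c) ⊔ LinearMap.ker (LinearMap.lsmul B M (c ^ u)) := by
    ext m
    rw [LinearMap.mem_ker, LinearMap.comp_apply, Submodule.mkQ_apply,
      Submodule.Quotient.mk_eq_zero]
    constructor
    · rintro ⟨m', hm'⟩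
      rw [LinearMap.lsmul_apply, LinearMap.lsmul_apply] at hm'
      refine Submodule.mem_sup.mpr ⟨c • m', ⟨m', rfl⟩, m - c • m', ?_, by abel⟩
      rw [LinearMap.mem_ker, LinearMap.lsmul_apply, smul_sub, ← hm', smul_smul, ← pow_succ,
        sub_self]
    · intro h
      obtain ⟨_, ⟨m', rfl⟩, k, hk, rfl⟩ := Submodule.mem_sup.mp h
      refine ⟨m', ?_⟩
      rw [LinearMap.mem_ker, LinearMap.lsmul_apply] at hk
      rw [LinearMap.lsmul_apply, LinearMap.lsmul_apply, LinearMap.lsmul_apply, smul_add, hk,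
        add_zero, smul_smul, ← pow_succ]
  have hle : LinearMap.range (LinearMap.lsmul B M (c ^ (u + 1))) ≤
      LinearMap.range (LinearMap.lsmul B M (c ^ u)) := by
    rintro _ ⟨m, rfl⟩
    refine ⟨c • m, ?_⟩
    rw [LinearMap.lsmul_apply, LinearMap.lsmul_apply, smul_smul, ← pow_succ]
  refine kk_le_add y
    (Submodule.liftQ _ ((Submodule.mkQ (LinearMap.range (LinearMap.lsmul B M
      (c ^ (u + 1))))).comp (LinearMap.lsmul B M (c ^ u))) hker.ge)
    (Submodule.factor hle) ?_ ?_ ?_ i
  · rw [← LinearMap.ker_eq_bot, Submodule.ker_liftQ, hker, Submodule.mkQ_map_self]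
  · exact Submodule.factor_surjective hle
  · intro z
    obtain ⟨m, rfl⟩ := Submodule.Quotient.mk_surjective _ z
    constructor
    · intro h
      have h1 : (Submodule.Quotient.mk m : M ⧸ LinearMap.range (LinearMap.lsmul B M (c ^ u))) =
          0 := h
      rw [Submodule.Quotient.mk_eq_zero] at h1
      obtain ⟨m', rfl⟩ := h1
      exact ⟨Submodule.Quotient.mk m', rfl⟩
    · rintro ⟨w, hw⟩
      obtain ⟨m', rfl⟩ := Submodule.Quotient.mk_surjective _ w
      rw [← hw]
      change (Submodule.Quotient.mk (c ^ u • m') :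
        M ⧸ LinearMap.range (LinearMap.lsmul B M (c ^ u))) = 0
      rw [Submodule.Quotient.mk_eq_zero]
      exact ⟨m', rfl⟩

/-- E2: growth of Koszul homology of powers. -/
theorem kk_growth : ∀ {n : ℕ} {y : Fin n → B} {M : Type v} [AddCommGroup M] [Module B M]
    [Module.Finite B M], PF y M → ∃ C : ℕ, ∀ t : ℕ, 1 ≤ t → ∀ i : ℤ,
      kk (fun l => y l ^ t) M i ≤ ((C * t ^ n : ℕ) : ℕ∞) ∧
      (1 ≤ i → (t : ℕ∞) * kk (fun l => y l ^ t) M i ≤ ((C * t ^ n : ℕ) : ℕ∞)) := by
  intro n
  induction n with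
  | zero =>
    intro y M _ _ _ h
    obtain ⟨C, hC⟩ := ENat.ne_top_iff_exists.mp (h.kk_ne_top 0)
    refine ⟨C, fun t ht i => ?_⟩
    have e : (fun l => y l ^ t) = y := funext fun l => l.elim0
    rw [e]
    rcases lt_trichotomy i 0 with hi | hi | hi
    · rw [kk_out y M i (Or.inl hi)]
      exact ⟨zero_le, fun h => absurd h (by omega)⟩
    · subst hi
      rw [← hC]
      refine ⟨?_, fun h => absurd h (by omega)⟩
      rw [pow_zero, mul_one]
    · rw [kk_out y M i (Or.inr (by exact_mod_cast hi))]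
      refine ⟨zero_le, fun _ => ?_⟩
      rw [mul_zero]
      exact zero_le
  | succ n ih =>
    intro y M _ _ _ h
    set c := y 0 with hc
    set y' : Fin n → B := fun i => y i.succ with hy'
    let K : ℕ → Submodule B M := fun u => LinearMap.ker (LinearMap.lsmul B M (c ^ u))
    let R : Submodule B M := LinearMap.range (LinearMap.lsmul B M c)
    have hKmono : Monotone K := by
      intro u v huv m hm
      obtain ⟨w, rfl⟩ := Nat.exists_eq_add_of_le huv
      change c ^ (u + w) • m = 0
      have hm' : c ^ u • m = 0 := hm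
      rw [add_comm, pow_add, mul_smul, hm', smul_zero]
    obtain ⟨s, hs⟩ := monotone_stabilizes_iff_noetherian.mpr (inferInstance : IsNoetherian B M)
      ⟨K, hKmono⟩
    have hKs : ∀ t, K t = K (min t s) := by
      intro t
      rcases le_total t s with hts | hts
      · rw [min_eq_left hts]
      · rw [min_eq_right hts]
        exact (hs t hts).symm
    have hPK : ∀ u, PF y' ↥(K u) := fun u =>
      pf_tail_of_pow (h.of_injective _ (Submodule.injective_subtype (K u))) u (by
        rw [Module.mem_annihilator]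
        intro m
        exact Subtype.ext m.2)
    have hPN : ∀ u, PF y' (M ⧸ (R ⊔ K u)) := fun u =>
      (h.of_surjective _ (Submodule.mkQ_surjective (R ⊔ K u))).tail (by
        rw [Module.mem_annihilator]
        intro m
        obtain ⟨m, rfl⟩ := Submodule.Quotient.mk_surjective _ m
        rw [← Submodule.Quotient.mk_smul, Submodule.Quotient.mk_eq_zero]
        exact Submodule.mem_sup_left ⟨m, rfl⟩)
    choose C1 hC1 using fun u => ih (hPK u)
    choose C2 hC2 using fun u => ih (hPN u)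
    set D1 := ∑ u ∈ Finset.range (s + 1), C1 u with hD1
    set D2 := ∑ u ∈ Finset.range (s + 1), C2 u with hD2
    have hle1 : ∀ u, C1 (min u s) ≤ D1 := fun u =>
      Finset.single_le_sum (f := C1) (fun _ _ => Nat.zero_le _)
        (Finset.mem_range.mpr (by have := min_le_right u s; omega))
    have hle2 : ∀ u, C2 (min u s) ≤ D2 := fun u =>
      Finset.single_le_sum (f := C2) (fun _ _ => Nat.zero_le _)
        (Finset.mem_range.mpr (by have := min_le_right u s; omega))
    have bK : ∀ t u, 1 ≤ t → ∀ i : ℤ,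
        kk (fun l => y' l ^ t) ↥(K u) i ≤ ((D1 * t ^ n : ℕ) : ℕ∞) := by
      intro t u ht i
      rw [kk_congr _ (LinearEquiv.ofEq _ _ (hKs u))]
      refine (hC1 (min u s) t ht i).1.trans ?_
      exact_mod_cast Nat.mul_le_mul_right _ (hle1 u)
    have bN : ∀ t u, 1 ≤ t → ∀ i : ℤ,
        kk (fun l => y' l ^ t) (M ⧸ (R ⊔ K u)) i ≤ ((D2 * t ^ n : ℕ) : ℕ∞) ∧
        (1 ≤ i → (t : ℕ∞) * kk (fun l => y' l ^ t) (M ⧸ (R ⊔ K u)) i ≤
          ((D2 * t ^ n : ℕ) : ℕ∞)) := by
      intro t u ht i
      rw [kk_congr _ (Submodule.quotEquivOfEq _ _ (by rw [hKs u] : R ⊔ K u = R ⊔ K (min u s)))]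
      refine ⟨(hC2 (min u s) t ht i).1.trans ?_, fun hi => ((hC2 (min u s) t ht i).2 hi).trans ?_⟩
      · exact_mod_cast Nat.mul_le_mul_right _ (hle2 u)
      · exact_mod_cast Nat.mul_le_mul_right _ (hle2 u)
    have bQ : ∀ t u, 1 ≤ t → ∀ i : ℤ,
        kk (fun l => y' l ^ t) (M ⧸ LinearMap.range (LinearMap.lsmul B M (c ^ u))) i ≤
          ((u * (D2 * t ^ n) : ℕ) : ℕ∞) ∧
        (1 ≤ i → (t : ℕ∞) * kk (fun l => y' l ^ t)
          (M ⧸ LinearMap.range (LinearMap.lsmul B M (c ^ u))) i ≤
          ((u * (D2 * t ^ n) : ℕ) : ℕ∞)) := by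
      intro t u ht i
      induction u with
      | zero =>
        have hsub : Subsingleton (M ⧸ LinearMap.range (LinearMap.lsmul B M (c ^ 0))) := by
          rw [Submodule.Quotient.subsingleton_iff, eq_top_iff]
          intro m _
          exact ⟨m, by rw [pow_zero, LinearMap.lsmul_apply, one_smul]⟩
        rw [kk_subsingleton, mul_zero]
        exact ⟨zero_le, fun _ => zero_le⟩
      | succ u ihu =>
        have h1 := kk_quot_pow_succ (fun l => y' l ^ t) c M u i
        refine ⟨h1.trans ?_, fun hi => (mul_le_mul_right h1 _).trans ?_⟩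
        · calc _ ≤ ((u * (D2 * t ^ n) : ℕ) : ℕ∞) + ((D2 * t ^ n : ℕ) : ℕ∞) :=
                add_le_add ihu.1 (bN t u ht i).1
            _ = _ := by push_cast; ring
        · rw [mul_add]
          calc _ ≤ ((u * (D2 * t ^ n) : ℕ) : ℕ∞) + ((D2 * t ^ n : ℕ) : ℕ∞) :=
                add_le_add (ihu.2 hi) ((bN t u ht i).2 hi)
            _ = _ := by push_cast; ring
    refine ⟨D2 + D1, fun t ht i => ?_⟩
    have h1 := kk_peel_le (fun l => y l ^ t) M i
    have h2 := bQ t t ht i
    have h3 := bK t t ht (i - 1)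
    refine ⟨h1.trans ?_, fun hi => (mul_le_mul_right h1 _).trans ?_⟩
    · calc _ ≤ ((t * (D2 * t ^ n) : ℕ) : ℕ∞) + ((D1 * t ^ n : ℕ) : ℕ∞) :=
            add_le_add h2.1 h3
        _ ≤ ((t * (D2 * t ^ n) : ℕ) : ℕ∞) + ((t * (D1 * t ^ n) : ℕ) : ℕ∞) := by
            refine add_le_add le_rfl ?_
            exact_mod_cast Nat.le_mul_of_pos_left _ ht
        _ = _ := by
            rw [pow_succ]
            push_cast
            ring
    · rw [mul_add]
      calc _ ≤ ((t * (D2 * t ^ n) : ℕ) : ℕ∞) + (t : ℕ∞) * ((D1 * t ^ n : ℕ) : ℕ∞) :=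
            add_le_add (h2.2 hi) (mul_le_mul_right h3 _)
        _ = _ := by
            rw [pow_succ]
            push_cast
            ring

end

end Vale.Agent.P202.CharP.Gen3
end
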