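import Vale.Agent.P202.MathlibUsed
import Vale.Agent.P202.Bdl.B1
import Vale.Agent.P202.Bdl.B11
import Vale.Agent.P202.Bdl.B9
import Vale.Agent.P202.Bdl.B12
import Vale.Agent.P202.Bdl.B2
import Vale.Agent.P202.Bdl.B6
attribute [-instance] DenselyNormedField.toNontriviallyNormedField DenselyNormedField.toNormedField NontriviallyNormedField.toNormedField RCLike.toDenselyNormedField NormedField.toField NormedField.toNormedDivisionRing NormedDivisionRing.toDivisionRing KleeneAlgebra.toIdemSemiring SemiRingCat.instSemiringObjForgetRingHomCarrier Pi.preorder NormedField.toNormedCommRing NormedCommRing.toSeminormedCommRing NormedCommRing.toNormedRing NormedDivisionRing.toNormedRing Field.toEuclideanDomain NormedRing.toSeminormedRing SeminormedCommRing.toSeminormedRing EuclideanDomain.toCommRing NormedCommRing.toCommRing SeminormedCommRing.toCommRing NormedRing.toRing SeminormedRing.toRing CommRing.toAddCommGroupWithOne CommSemiRingCat.instCommSemiringObjForgetRingHomCarrier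 CommSemiring.toNonAssocCommSemiring NonAssocCommRing.toNonAssocCommSemiring NonAssocCommSemiring.toNonAssocSemiring NonAssocRing.toNonAssocSemiring NormedCommRing.toNonUnitalNormedCommRing NonUnitalNormedCommRing.toNonUnitalNormedRing NormedRing.toNonUnitalNormedRing NonUnitalNormedCommRing.toNonUnitalSeminormedCommRing SeminormedCommRing.toNonUnitalSeminormedCommRing NonUnitalNormedRing.toNonUnitalSeminormedRing NonUnitalSeminormedCommRing.toNonUnitalSeminormedRing SeminormedRing.toNonUnitalSeminormedRing NonUnitalNormedCommRing.toNonUnitalCommRing NonUnitalSeminormedCommRing.toNonUnitalCommRing LinearOrderedAddCommGroupWithTop.instLinearOrderedAddCommMonoidWithTop NonUnitalCommRing.toNonUnitalRing NonUnitalNormedRing.toNonUnitalRing NonUnitalSeminormedRing.toNonUnitalRing Ring.toNonUnitalRing NonAssocCommRing.toNonUnitalNonAssocCommRing NonUnitalRing.toNonUnitalNonAssocRing NonUnitalRing.toNonUnitalSemiring Semiring.toNonUnitalSemiring NonAssocCommSemiring.toNonUnitalNonAssocCommSemiring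 NonUnitalNonAssocCommSemiring.toNonUnitalNonAssocSemiring NonUnitalSemiring.toNonUnitalNonAssocSemiring AddCommGroupWithOne.toAddCommMonoidWithOne LinearOrderedAddCommGroupWithTop.toAddCommMonoid LieAlgebra.toModule NormedSpace.toModule Pi.nonUnitalNonAssocSemiring instCoeT SemimoduleCat.isAddCommMonoid AddCommMonoidWithOne.toAddCommMonoid instCoeTOfCoeDep AbsoluteValue.funLike Pi.seminormedAddCommGroup Pi.nonAssocSemiring LinearOrderedAddCommGroupWithTop.toSubNegMonoid MonCat.monoidObj Filter.instMembership Pi.addMonoidWithOne TopologicalSpace.Compacts.instSetLike AddMonCat.addMonoidObj LinearOrderedCommGroupWithZero.toLinearOrderedCommMonoidWithZero instCoeTC instCoeTCOfCoe instCoeTCOfCoe_1 RingCat.instRingObjForgetRingHomCarrier CommGroupWithZero.toGroupWithZero DivisionSemiring.toGroupWithZero LinearOrderedCommGroupWithZero.toCommGroupWithZero Semifield.toCommGroupWithZero ModuleCat.isModule CommGroupWithZero.toCommMonoidWithZero CommSemiring.toCommMonoidWithZero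 GroupWithZero.toMonoidWithZero LinearOrderedCommMonoidWithZero.toCommMonoidWithZero Pi.addGroupWithOne MonoidWithZero.toSemigroupWithZero NonUnitalNonAssocSemiring.toMulZeroClass SemigroupWithZero.toMulZeroClass LieRing.toAddCommGroup instNonUnitalAlgHomClassOfNonUnitalAlgEquivClass CompleteAtomicBooleanAlgebra.toCompleteBooleanAlgebra AddOpposite.instAddZero instCoeHTC instCoeHTCT CompleteAtomicBooleanAlgebra.toCompletelyDistribLattice Nat.instAtLeastTwoHAddOfNat Std.DTreeMap.Raw.instSingletonSigma CompleteBooleanAlgebra.toCompleteDistribLattice CompletelyDistribLattice.toCompleteDistribLattice Pi.partialOrder Invertible.toNeZero NeZero.of_gt' Nat.AtLeastTwo.toNeZero CompleteDistribLattice.toCoframe CompleteDistribLattice.toFrame CompleteBooleanAlgebra.toCompleteLattice TwoSidedIdeal.instIsTwoSidedCoeOrderHomIdealAsIdeal CompleteLinearOrder.toCompleteLattice Order.Coframe.toCompleteLattice Order.Frame.toCompleteLattice AddGrpCat.str Pi.nonUnitalSemiring Pi.mulZeroOneClass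 CategoryTheory.instFinCategoryOfFintypeOfIsThin SetLike.instFintype Unique.fintype CategoryTheory.FinCategory.fintypeObj CompleteLinearOrder.toConditionallyCompleteLinearOrderBot Part.ofOptionDecidable Nat.Prime.one_lt' ChainCompletePartialOrder.instOfCompleteLattice ChainCompletePartialOrder.instOmegaCompletePartialOrder ChainCompletePartialOrder.toPartialOrder CompletePartialOrder.toOmegaCompletePartialOrder OmegaCompletePartialOrder.toPartialOrder MulSemiringAction.toDistribMulAction ConditionallyCompleteLinearOrderBot.toConditionallyCompleteLinearOrder Pi.commRing Pi.normedCommutativeRing Pi.seminormedCommRing Pi.instSemilatticeSup Pi.instMaxForall_mathlib NonUnitalNormedRing.toNormedAddCommGroup instDistribSMul NonUnitalNonAssocSemiring.toDistribSMul OrderDual.instDivisionRing OrderDual.instDivisionSemiring CompleteBooleanAlgebra.toBooleanAlgebra Pi.normedRing Pi.seminormedRing instSubsingleton IsEmpty.instSubsingleton Unique.instSubsingleton CompleteLinearOrder.toLinearOrder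 ConditionallyCompleteLinearOrder.toLinearOrder LinearOrderedAddCommGroupWithTop.toLinearOrder LinearOrderedAddCommMonoidWithTop.toLinearOrder LinearOrderedCommMonoidWithZero.toLinearOrder GradedMonoid.GradeZero.smul MulSemiringActionSemiHomClass.toDistribMulActionSemiHomClass NonUnitalAlgSemiHomClass.toDistribMulActionSemiHomClass OrderRingHom.instRingHomClass instSMulZeroClass NormedCommGroup.toNormedGroup AbsoluteValue.mulHomClass Std.DTreeMap.Raw.instInsertSigma Pi.commSemiring Pi.instIdemCommSemiringForall NonUnitalSeminormedRing.toSeminormedAddCommGroup NormedAddCommGroup.toSeminormedAddCommGroup AddHom.addHomClass BooleanAlgebra.toBiheytingAlgebra CompleteDistribLattice.toBiheytingAlgebra CompleteLinearOrder.toBiheytingAlgebra CompletelyDistribLattice.toBiheytingAlgebra ContinuousAddMonoidHom.instCoeOutOfAddMonoidHomClassOfContinuousMapClass ContinuousMonoidHom.instCoeOutOfMonoidHomClassOfContinuousMapClass HomeomorphClass.instCoeOutHomeomorph IsometryClass.instCoeOutIsometryEquiv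 ValuationClass.toMonoidWithZeroHomClass OrderAddMonoidHom.instAddMonoidHomClass NormedCommGroup.toSeminormedCommGroup NormedGroup.toSeminormedGroup SeminormedCommGroup.toSeminormedGroup CommGroup.toGroup NormedCommGroup.toCommGroup NormedGroup.toGroup SeminormedCommGroup.toCommGroup SeminormedGroup.toGroup Fin.completeLinearOrder ModuleCat.instAddCommGroupCarrierMkOfSMul' AbsoluteValue.zeroHomClass coePNatNat Nat.Primes.coeNat Nat.Primes.coePNat Monoid.End.instMonoidHomClass Pi.instIdemSemiring Pi.instKleeneAlgebraForall Pi.semiring BiheytingAlgebra.toCoheytingAlgebra BiheytingAlgebra.toHeytingAlgebra BooleanAlgebra.toGeneralizedBooleanAlgebra Order.Coframe.toCoheytingAlgebra Order.Frame.toHeytingAlgebra NumberField.to_charZero Pi.instBotForall PerfectClosure.instField Pi.nonAssocRing Pi.mulOneClass CommMonCat.str Finset.fintype CoheytingAlgebra.toGeneralizedCoheytingAlgebra GeneralizedBooleanAlgebra.toGeneralizedCoheytingAlgebra HeytingAlgebra.toGeneralizedHeytingAlgebra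 ContinuousSemilinearEquivClass.continuousSemilinearMapClass ContinuousSemilinearMapClass.toSemilinearMapClass RingHomClass.toLinearMapClassNNRat RingHomClass.toLinearMapClassRat SemilinearIsometryClass.toContinuousSemilinearMapClass SemilinearIsometryClass.toSemilinearMapClass MonomialOrder.orderBot boolToProp AlgHomClass.linearMapClass NonUnitalAlgHomClass.instSemilinearMapClassOfNonUnitalAlgSemiHomClassToMonoidHomRingHom SemilinearEquivClass.instSemilinearMapClass NormedAlgebra.toAlgebra Fin.instBiheytingAlgebra Pi.unique Pi.uniqueOfIsEmpty instConditionallyCompletePartialOrderSup CompleteLattice.toCompleteSemilatticeInf CompleteLattice.toCompleteSemilatticeSup ConditionallyCompletePartialOrder.toConditionallyCompletePartialOrderInf NonUnitalAlgHomClass.toNonUnitalRingHomClass NonUnitalAlgSemiHomClass.toMulHomClass RingEquivClass.toNonUnitalRingHomClass LinearOrder.toDecidableEq RCLike.toDecidableEq Ideal.Quotient.normedCommRing Ideal.Quotient.semiNormedCommRing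 instFintypeProd pfunFintype Pi.instFintype Pi.instTopForall MulOpposite.instMulOne instNonemptyOfMonad BooleanAlgebra.toDistribLattice CompleteLattice.toLattice CompleteLattice.toPartialOrder' CompleteSemilatticeInf.toPartialOrder CompleteSemilatticeSup.toPartialOrder ConditionallyCompletePartialOrderInf.toPartialOrder GeneralizedBooleanAlgebra.toDistribLattice GeneralizedCoheytingAlgebra.toDistribLattice GeneralizedCoheytingAlgebra.toLattice GeneralizedHeytingAlgebra.toDistribLattice GeneralizedHeytingAlgebra.toLattice LinearOrder.toLattice Order.Coframe.toDistribLattice Order.Frame.toDistribLattice MulEquivClass.toMonoidWithZeroHomClass MulRingSeminormClass.toMonoidWithZeroHomClass MulCharClass.toMonoidHomClass MulDistribMulActionSemiHomClass.toMonoidHomClass instCoeOutOfCoeFun Std.LinearOrderPackage.toLinearPreorderPackage Std.LinearPreorderPackage.toPreorderPackage LinOrd.str NormedAddCommGroup.toNormedAddGroup Ideal.Quotient.commSemiring Pi.instCompl Pi.smulZeroClass'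 decidableEq_of_subsingleton Pi.instLocallyFiniteOrder Algebra.Extension.commRing Pi.commMagma IsScalarTower.of_algHom Semigroup.isScalarTower TensorProduct.isScalarTower TensorProduct.isScalarTower_left TensorProduct.isScalarTower_right Algebra.TensorProduct.isScalarTower_right Algebra.TensorProduct.right_isScalarTower Pi.instOne Ideal.instIsTwoSided Ideal.instIsTwoSidedMapRingHomOfRingHomSurjective RingHomSurjective.invPair Fin.instCoheytingAlgebra Fin.instHeytingAlgebra SemilinearIsometryEquivClass.toSemilinearIsometryClass Pi.mulZeroClass NormedAddGroup.toSeminormedAddGroup SeminormedAddCommGroup.toSeminormedAddGroup instSMulCommClassOfIsScalarTower AddCommGroupWithOne.toAddCommGroup CommRing.toGrindCommRing Field.toGrindField NonUnitalNonAssocRing.toAddCommGroup NormedAddCommGroup.toAddCommGroup SeminormedAddCommGroup.toAddCommGroup Torsor.toMulAction GradedMonoid.GradeZero.mulAction ENormedCommMonoid.toESeminormedCommMonoid NormedCommGroup.toENormedCommMonoid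 SubalgebraClass.normedRing SubalgebraClass.seminormedRing SubfieldClass.toDivisionRing SubfieldClass.toField SubfieldClass.toNormedField SubringClass.toCommRing SubringClass.toNormedCommRing SubringClass.toNormedRing SubringClass.toRing SubringClass.toSeminormedCommRing SubringClass.toSeminormedRing SetLike.GradeZero.instCommRing SetLike.GradeZero.instRing Pi.addCommMagma String.Slice.Pos.instLinearOrderPackage NormedAddGroup.toAddGroup SeminormedAddGroup.toAddGroup instOfNatAtLeastTwo ENormedAddCommMonoid.toESeminormedAddCommMonoid NormedAddCommGroup.toENormedAddCommMonoid bot_nonempty infSet_to_nonempty instInhabitedOfMonad supSet_to_nonempty top_nonempty AddTorsor.nonempty ConnectedSpace.toNonempty IrreducibleSpace.toNonempty Nontrivial.to_nonempty One.instNonempty Torsor.nonempty Unique.instInhabited Zero.instNonempty CategoryTheory.IsConnected.is_nonempty forall_prop_decidable Array.instDecidableForallForallMemOfDecidablePred Finset.decidableDforallFinset Fintype.decidableForallFintype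 Multiset.decidableDforallMultiset Option.decidableForallMem Vector.instDecidableForallForallMemOfDecidablePred instIsDedekindDomainOfIsDomainOfIsDedekindRing instIsDomain AddCancelCommMonoid.toAddCancelMonoid DivisionRing.isDomain EuclideanDomain.instIsDomain Field.isDomain IsDedekindDomain.toIsDomain IsDedekindDomainDvr.isDedekindDomain IsDomain.of_isSimpleRing IsPrincipalIdealRing.isDedekindDomain IsStrictOrderedRing.isDomain IsRegularLocalRing.instOfIsLocalRingOfIsDomainOfIsPrincipalIdealRing IsRegularLocalRing.toIsLocalRing SubringClass.toNonAssocCommRing SubringClass.toNonAssocRing OrderDual.instRightDistribClass Std.LinearOrderPackage.toPartialOrderPackage Std.PartialOrderPackage.toPreorderPackage MulSemiringActionSemiHomClass.toRingHomClass TensorProduct.smulCommClass_left Algebra.TensorProduct.instSMulCommClassTensorProduct Algebra.TensorProduct.instSMulCommClassTensorProduct_1 SubsemiringClass.toCommSemiring SubsemiringClass.toSemiring SetLike.GradeZero.instCommSemiring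 SetLike.GradeZero.instSemiring Pi.instCanonicallyOrderedAddForall instUniqueUnitsOfSubsingleton CanonicallyOrderedCommMonoid.toUniqueUnits SubringClass.toNegMemClass Set.instAddLeftMono Pi.instOrderTop WithTop.instIsBotZeroClass ValuationRing.instLinearOrderIdealOfDecidableLE AddCancelMonoid.toAddLeftCancelMonoid IsOrderedRing.toIsStrictOrderedRing AddSubmonoid.instAddSubmonoidClass CancelCommMonoid.toCancelMonoid CancelCommMonoid.toCommMonoid CancelCommMonoid.toLeftCancelMonoid CancelMonoid.toLeftCancelMonoid CancelMonoid.toRightCancelMonoid CommGroup.toCancelCommMonoid CommGroup.toCommMonoid CommGroup.toDivisionCommMonoid CommGroupWithZero.toDivisionCommMonoid CommMonoidWithZero.toCommMonoid DivInvMonoid.toMonoid DivInvOneMonoid.toDivInvMonoid DivisionCommMonoid.toCommMonoid DivisionCommMonoid.toDivisionMonoid DivisionMonoid.toDivInvMonoid DivisionMonoid.toDivInvOneMonoid DivisionRing.toDivInvMonoid ENormedCommMonoid.toENormedMonoid ENormedMonoid.toESeminormedMonoid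 ESeminormedCommMonoid.toCommMonoid ESeminormedCommMonoid.toESeminormedMonoid ESeminormedMonoid.toMonoid Group.toCancelMonoid Group.toDivInvMonoid Group.toDivisionMonoid GroupWithZero.toDivInvMonoid GroupWithZero.toDivisionMonoid LeftCancelMonoid.toMonoid NormedGroup.toENormedMonoid RightCancelMonoid.toMonoid GradedMonoid.GradeZero.commMonoid GradedMonoid.GradeZero.monoid -- iprune

set_option linter.all false

section

/-!
P202 MIX, TASK M15b (helper828): `len_small`, the smallness of `E/(n_S, [γ^(1/q)]^c)`.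
-/

namespace Vale.Agent.P202.Mix

open TensorProduct IsLocalRing
open scoped ENNReal

universe u

section Len

variable {R : Type u} [CommRing R] (L : AddLen R)

theorem ls_le_of_surjective {M N : Type u} [AddCommGroup M] [Module R M] [AddCommGroup N]
    [Module R N] (f : M →ₗ[R] N) (hf : Function.Surjective f) : L.len N ≤ L.len M := by
  rw [L.add (LinearMap.ker f).subtype f (Submodule.injective_subtype _) hf (by
    rw [LinearMap.exact_iff, Submodule.range_subtype])]
  exact le_add_self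

theorem ls_mono {I J : Ideal R} (h : I ≤ J) : L.len (R ⧸ J) ≤ L.len (R ⧸ I) :=
  ls_le_of_surjective L (Submodule.factor h) (Submodule.factor_surjective h)

theorem ls_top {J : Ideal R} (h : J = ⊤) : L.len (R ⧸ J) = 0 := by
  have : Subsingleton (R ⧸ J) := Ideal.Quotient.subsingleton_iff.mpr h
  exact len_subsingleton_aux L

/-- `L(R/I) = L(R/(I:z)) + L(R/(I + z))`. -/
theorem ls_eq_add (I : Ideal R) (x : R) :
    L.len (R ⧸ I) = L.len (R ⧸ col I x) + L.len (R ⧸ (I ⊔ Ideal.span {x})) := by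
  let f : (R ⧸ col I x) →ₗ[R] (R ⧸ I) :=
    Submodule.mapQ (col I x) I (LinearMap.toSpanSingleton R R x)
      (fun a ha => by simpa [LinearMap.toSpanSingleton_apply] using ha)
  let g : (R ⧸ I) →ₗ[R] (R ⧸ (I ⊔ Ideal.span {x})) := Submodule.factor le_sup_left
  refine L.add f g ?_ (Submodule.factor_surjective _) ?_
  · rw [injective_iff_map_eq_zero]
    intro z
    obtain ⟨z, rfl⟩ := Submodule.Quotient.mk_surjective _ z
    intro hz
    have hz' : (Submodule.Quotient.mk (z • x) : R ⧸ I) = 0 := hz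
    rw [Submodule.Quotient.mk_eq_zero] at hz' ⊢
    simpa using hz'
  · rw [LinearMap.exact_iff]
    ext z
    obtain ⟨z, rfl⟩ := Submodule.Quotient.mk_surjective _ z
    constructor
    · intro hz
      have hz' : z ∈ I ⊔ Ideal.span {x} := by
        have : Submodule.Quotient.mk z = (0 : R ⧸ (I ⊔ Ideal.span {x})) := hz
        exact (Submodule.Quotient.mk_eq_zero _).mp this
      obtain ⟨a, ha, b, hb, rfl⟩ := Submodule.mem_sup.mp hz'
      obtain ⟨c, rfl⟩ := Ideal.mem_span_singleton'.mp hb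
      refine ⟨Submodule.Quotient.mk c, ?_⟩
      change Submodule.Quotient.mk (c • x) = _
      rw [Submodule.Quotient.eq]
      simpa using ha
    · rintro ⟨c, hc⟩
      obtain ⟨c, rfl⟩ := Submodule.Quotient.mk_surjective _ c
      rw [← hc]
      change Submodule.Quotient.mk (c • x) = (0 : R ⧸ (I ⊔ Ideal.span {x}))
      rw [Submodule.Quotient.mk_eq_zero]
      exact Ideal.mem_sup_right (Ideal.mul_mem_left _ _ (Ideal.mem_span_singleton_self x))

theorem ls_mul_le (J : Ideal R) (y z : R) : L.len (R ⧸ (J ⊔ Ideal.span {y * z})) ≤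
    L.len (R ⧸ (J ⊔ Ideal.span {y})) + L.len (R ⧸ (J ⊔ Ideal.span {z})) := by
  rw [ls_eq_add L (J ⊔ Ideal.span {y * z}) y, add_comm]
  refine add_le_add (ls_mono L ?_) (ls_mono L ?_)
  · exact sup_le_sup_right le_sup_left _
  · refine sup_le (le_sup_left.trans (le_col _ _)) ?_
    rw [Ideal.span_singleton_le_iff_mem, mem_col, mul_comm]
    exact Ideal.mem_sup_right (Ideal.mem_span_singleton_self _)

theorem ls_pow_le (J : Ideal R) (z : R) (n : ℕ) : L.len (R ⧸ (J ⊔ Ideal.span {z ^ n})) ≤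
    n * L.len (R ⧸ (J ⊔ Ideal.span {z})) := by
  induction n with
  | zero =>
    rw [ls_top L (by rw [pow_zero, Ideal.span_singleton_one, sup_top_eq])]
    exact zero_le
  | succ n ih =>
    rw [pow_succ]
    refine (ls_mul_le L J (z ^ n) z).trans ?_
    rw [Nat.cast_succ, add_mul, one_mul]
    exact add_le_add_left ih _

theorem ls_pow_ge (J : Ideal R) (z : R) (n : ℕ)
    (h : ∀ i < n, ∀ y, z ^ i * y ∈ J ⊔ Ideal.span {z ^ (i + 1)} → y ∈ J ⊔ Ideal.span {z}) :
    n * L.len (R ⧸ (J ⊔ Ideal.span {z})) ≤ L.len (R ⧸ (J ⊔ Ideal.span {z ^ n})) := by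
  induction n with
  | zero => rw [Nat.cast_zero, zero_mul]; exact zero_le
  | succ n ih =>
    rw [ls_eq_add L (J ⊔ Ideal.span {z ^ (n + 1)}) (z ^ n), Nat.cast_succ, add_mul, one_mul,
      add_comm]
    refine add_le_add (ls_mono L ?_) ((ih fun i hi => h i (by omega)).trans (ls_mono L ?_))
    · intro y hy
      rw [mem_col, mul_comm] at hy
      exact h n (by omega) y hy
    · refine sup_le (sup_le le_sup_left ?_) le_sup_right
      rw [Ideal.span_singleton_le_iff_mem, pow_succ]
      exact Ideal.mem_sup_right (Ideal.mul_mem_right _ _ (Ideal.mem_span_singleton_self _))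

/-- devissage for ideals. -/
theorem ls_dev {R0 : Type*} [CommRing R0] [IsLocalRing R0] (φ : R0 →+* R) (n : ℕ) :
    ∀ (𝔟 : Ideal R0) (s : ℕ), maximalIdeal R0 ^ s ≤ 𝔟 → ell 𝔟 ≤ n →
      L.len (R ⧸ 𝔟.map φ) ≤ n * L.len (R ⧸ (maximalIdeal R0).map φ) := by
  induction n with
  | zero =>
    intro 𝔟 s _ h
    have h1 : 𝔟 = ⊤ := ell_eq_zero_iff.1 (le_antisymm (by simpa using h) zero_le)
    rw [ls_top L (by rw [h1, Ideal.map_top])]
    exact zero_le
  | succ n ih =>
    intro 𝔟 s hs h
    by_cases hb : 𝔟 = ⊤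
    · rw [ls_top L (by rw [hb, Ideal.map_top])]
      exact zero_le
    · classical
      have hex : ∃ t, maximalIdeal R0 ^ t ≤ 𝔟 := ⟨s, hs⟩
      have ht := Nat.find_spec hex
      have ht0 : Nat.find hex ≠ 0 := by
        intro h0
        rw [h0, pow_zero, Ideal.one_eq_top, top_le_iff] at ht
        exact hb ht
      obtain ⟨t, htt⟩ := Nat.exists_eq_succ_of_ne_zero ht0
      have hlt : ¬ maximalIdeal R0 ^ t ≤ 𝔟 := Nat.find_min hex (by lia)
      obtain ⟨x, hx, hxI⟩ := Set.not_subset.mp hlt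
      have hmx : maximalIdeal R0 ≤ col 𝔟 x := by
        intro m hm
        rw [mem_col]
        apply ht
        rw [htt, Nat.succ_eq_add_one, pow_succ']
        exact Ideal.mul_mem_mul hm hx
      have h1 := ell_eq_add 𝔟 x
      have h2 : 1 ≤ ell (col 𝔟 x) := one_le_ell (fun h' => hxI (col_eq_top_iff.1 h'))
      have h3 : ell (𝔟 ⊔ Ideal.span {x}) ≤ n := by
        have h4 : 1 + ell (𝔟 ⊔ Ideal.span {x}) ≤ 1 + (n : ℕ∞) := by
          refine (add_le_add_left h2 _).trans ?_
          rw [← h1, add_comm]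
          exact_mod_cast h
        exact (ENat.add_le_add_iff_left (by simp)).1 h4
      have h5 := ih (𝔟 ⊔ Ideal.span {x}) s (hs.trans le_sup_left) h3
      rw [ls_eq_add L (𝔟.map φ) (φ x), Nat.cast_succ, add_mul, one_mul, add_comm]
      refine add_le_add ?_ (ls_mono L ?_)
      · refine le_trans (le_of_eq ?_) h5
        rw [Ideal.map_sup, Ideal.map_span, Set.image_singleton]
      · rw [Ideal.map_le_iff_le_comap]
        intro m hm
        rw [Ideal.mem_comap, mem_col, ← map_mul]
        exact Ideal.mem_map_of_mem φ (mem_col.1 (hmx hm))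

end Len

section Mono

open MvPowerSeries

variable {K : Type*} [Field K] {v : ℕ}

/-- the ideal generated by powers of the variables. -/
noncomputable def lsM (K : Type*) [Field K] {v : ℕ} (a : Fin v → ℕ) : Ideal (MvPowerSeries (Fin v) K) :=
  Ideal.span (Set.range fun l : Fin v => (X l : MvPowerSeries (Fin v) K) ^ a l)

lemma X_pow_mem_lsM (a : Fin v → ℕ) (l : Fin v) {n : ℕ} (h : a l ≤ n) :
    (X l : MvPowerSeries (Fin v) K) ^ n ∈ lsM K a :=
  Ideal.pow_mem_of_pow_mem _ (Ideal.subset_span ⟨l, rfl⟩) h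

lemma mem_lsM_iff (a : Fin v → ℕ) (f : MvPowerSeries (Fin v) K) :
    f ∈ lsM K a ↔ ∀ d : Fin v →₀ ℕ, (∀ j : Fin v, d j < a j) → coeff d f = 0 := by
  classical
  constructor
  · intro hf
    refine Submodule.span_induction (p := fun f _ => ∀ d : Fin v →₀ ℕ,
      (∀ j : Fin v, d j < a j) → coeff d f = 0) ?_ ?_ ?_ ?_ hf
    · rintro _ ⟨l, rfl⟩ d hd
      simp only
      rw [coeff_X_pow, if_neg]
      intro h
      have := hd l
      rw [h] at this
      simp at this
    · intro d _
      exact map_zero _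
    · intro x y _ _ hx hy d hd
      rw [map_add, hx d hd, hy d hd, add_zero]
    · intro b x _ hx d hd
      rw [smul_eq_mul, coeff_mul]
      refine Finset.sum_eq_zero ?_
      rintro ⟨a1, a2⟩ ha
      rw [Finset.HasAntidiagonal.mem_antidiagonal] at ha
      have h2 : coeff a2 x = 0 := by
        apply hx
        intro j
        have h3 := hd j
        have h4 : a1 j + a2 j = d j := by rw [← ha]; rfl
        omega
      simp only
      rw [h2, mul_zero]
  · intro hf
    by_cases hv : ∃ l : Fin v, True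
    swap
    · have : f = 0 := by
        ext d
        rw [hf d (fun j => absurd ⟨j, trivial⟩ hv), map_zero]
      rw [this]
      exact zero_mem _
    obtain ⟨l0, -⟩ := hv
    -- choice of an index
    have hex : ∀ d : Fin v →₀ ℕ, ∃ j : Fin v, (∃ j' : Fin v, a j' ≤ d j') → a j ≤ d j := by
      intro d
      by_cases h : ∃ j' : Fin v, a j' ≤ d j'
      · obtain ⟨j', hj'⟩ := h
        exact ⟨j', fun _ => hj'⟩
      · exact ⟨l0, fun h' => absurd h' h⟩
    choose cf hcf using hex
    let g : Fin v → MvPowerSeries (Fin v) K := fun j γ =>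
      if cf (γ + Finsupp.single j (a j)) = j then coeff (γ + Finsupp.single j (a j)) f else 0
    have key : f = ∑ j, (X j : MvPowerSeries (Fin v) K) ^ a j * g j := by
      ext β
      rw [map_sum]
      have h1 : ∀ j ∈ Finset.univ,
          coeff β ((X j : MvPowerSeries (Fin v) K) ^ a j * g j) =
          if (a j ≤ β j ∧ cf β = j) then coeff β f else 0 := by
        intro j _
        rw [X_pow_eq, coeff_monomial_mul, one_mul]
        by_cases hj : a j ≤ β j
        · have hle : Finsupp.single j (a j) ≤ β := by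
            rw [Finsupp.single_le_iff]
            exact hj
          have h2 : coeff (β - Finsupp.single j (a j)) (g j) =
              if cf β = j then coeff β f else 0 := by
            change g j (β - Finsupp.single j (a j)) = _
            simp only [g, tsub_add_cancel_of_le hle]
          simp only [hle, hj, true_and, if_true, h2]
        · have hle : ¬ Finsupp.single j (a j) ≤ β := by
            rw [Finsupp.single_le_iff]
            exact hj
          simp only [hle, hj, false_and, if_false]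
      rw [Finset.sum_congr rfl h1]
      by_cases hβ : ∃ j' : Fin v, a j' ≤ β j'
      · have h4 := hcf β hβ
        rw [Finset.sum_eq_single (cf β)]
        · simp [h4]
        · intro j _ hne
          rw [if_neg]
          rintro ⟨_, h⟩
          exact hne h.symm
        · intro h
          exact absurd (Finset.mem_univ _) h
      · have h5 : coeff β f = 0 := by
          apply hf
          intro j
          by_contra h6
          exact hβ ⟨j, not_lt.mp h6⟩
        rw [h5, Finset.sum_eq_zero]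
        intro j _
        split_ifs <;> rfl
    rw [key]
    exact Ideal.sum_mem _ fun j _ => Ideal.mul_mem_right _ _ (Ideal.subset_span ⟨j, rfl⟩)

/-- colon ideals of monomial ideals. -/
lemma lsM_colon (a : Fin v → ℕ) (l : Fin v) (i : ℕ) (y : MvPowerSeries (Fin v) K)
    (h : X l ^ i * y ∈ lsM K (Function.update a l (i + 1))) :
    y ∈ lsM K (Function.update a l 1) := by
  classical
  rw [mem_lsM_iff] at h ⊢
  intro d hd
  have h1 := h (Finsupp.single l i + d) (by
    intro j
    have h2 := hd j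
    rw [Finsupp.add_apply]
    by_cases hj : j = l
    · subst hj
      rw [Function.update_self] at h2 ⊢
      rw [Finsupp.single_eq_same]
      omega
    · rw [Function.update_of_ne hj] at h2 ⊢
      rw [Finsupp.single_eq_of_ne hj, zero_add]
      exact h2)
  rwa [X_pow_eq, coeff_add_monomial_mul, one_mul] at h1

end Mono

section Flat

/-- colon ideals and flat base change. -/
theorem ls_colon_flat {E E' : Type*} [CommRing E] [CommRing E'] [Algebra E E'] [Module.Flat E E']
    (K K' : Ideal E) (a : E) (H : ∀ x, a * x ∈ K → x ∈ K') (x : E')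
    (hx : algebraMap E E' a * x ∈ K.map (algebraMap E E')) :
    x ∈ K'.map (algebraMap E E') := by
  rw [Ideal.map, Ideal.span, Submodule.mem_span_set'] at hx
  obtain ⟨n, f, g, hx⟩ := hx
  choose κ hκ hκ' using fun i => (g i).2
  have h0 : ∑ i : Option (Fin n), (Option.elim i a fun i => -κ i : E) •
      (Option.elim i x f : E') = 0 := by
    rw [Fintype.sum_option]
    simp only [Option.elim_none, Option.elim_some, Algebra.smul_def, map_neg]
    rw [← hx, ← Finset.sum_add_distrib]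
    refine Finset.sum_eq_zero fun i _ => ?_
    rw [hκ', smul_eq_mul]
    ring
  obtain ⟨m, A, y, h1, h2⟩ := Module.Flat.isTrivialRelation_of_sum_smul_eq_zero
    (R := E) (M := E') (f := fun i : Option (Fin n) => (Option.elim i a fun i => -κ i : E))
    (x := fun i : Option (Fin n) => (Option.elim i x f : E')) h0
  have h3 : x = ∑ j, A none j • y j := h1 none
  rw [h3]
  refine Ideal.sum_mem _ fun j _ => ?_
  rw [Algebra.smul_def]
  refine Ideal.mul_mem_right _ _ (Ideal.mem_map_of_mem _ (H _ ?_))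
  have h4 := h2 j
  rw [Fintype.sum_option] at h4
  simp only [Option.elim_none, Option.elim_some] at h4
  rw [add_eq_zero_iff_eq_neg] at h4
  rw [h4]
  refine neg_mem (Ideal.sum_mem _ fun i _ => ?_)
  exact Ideal.mul_mem_right _ _ (neg_mem (hκ i))

end Flat

section Vec

/-- injections of modules killed by the maximal ideal split. -/
theorem ls_retract {Λ : Type*} [CommRing Λ] [IsLocalRing Λ] {N N' : Type*} [AddCommGroup N]
    [Module Λ N] [AddCommGroup N'] [Module Λ N'] (h : ∀ a ∈ maximalIdeal Λ, ∀ x : N', a • x = 0)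
    (f : N →ₗ[Λ] N') (hf : Function.Injective f) : ∃ ρ : N' →ₗ[Λ] N, ∀ x, ρ (f x) = x := by
  have h1 : ∀ a ∈ maximalIdeal Λ, ∀ x : N, a • x = 0 := by
    intro a ha x
    apply hf
    rw [map_smul, h a ha, map_zero]
  have t1 : Module.IsTorsionBySet Λ N (maximalIdeal Λ : Set Λ) := fun x a => h1 a a.2 x
  have t2 : Module.IsTorsionBySet Λ N' (maximalIdeal Λ : Set Λ) := fun x a => h a a.2 x
  let _ := t1.module
  let _ := t2.module
  let _ : Field (Λ ⧸ maximalIdeal Λ) := Ideal.Quotient.field _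
  let f' : N →ₗ[Λ ⧸ maximalIdeal Λ] N' :=
    { toFun := f
      map_add' := map_add f
      map_smul' := by
        intro a x
        obtain ⟨a, rfl⟩ := Ideal.Quotient.mk_surjective a
        exact map_smul f a x }
  obtain ⟨g, hg⟩ := f'.exists_leftInverse_of_injective (LinearMap.ker_eq_bot.2 hf)
  let ρ : N' →ₗ[Λ] N :=
    { toFun := g
      map_add' := map_add g
      map_smul' := by
        intro a x
        exact map_smul g (Ideal.Quotient.mk _ a) x }
  exact ⟨ρ, fun x => LinearMap.congr_fun hg x⟩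

variable {Λ A S B : Type u} [CommRing Λ] [IsLocalRing Λ] [CommRing A] [CommRing S] [CommRing B]
  [Algebra Λ A] [Algebra A S] [Algebra Λ B]

theorem ls_vec0 [Algebra Λ S] (𝔫 : Ideal S)
    (I : Ideal B) (hI : (maximalIdeal Λ).map (algebraMap Λ B) ≤ I) (b : B)
    (y : S ⊗[Λ] B)
    (hy : (1 : S) ⊗ₜ[Λ] b * y ∈ 𝔫.map (Algebra.TensorProduct.includeLeft : S →ₐ[Λ] S ⊗[Λ] B) ⊔
      I.map (Algebra.TensorProduct.includeRight : B →ₐ[Λ] S ⊗[Λ] B)) :
    y ∈ 𝔫.map (Algebra.TensorProduct.includeLeft : S →ₐ[Λ] S ⊗[Λ] B) ⊔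
      (col I b).map (Algebra.TensorProduct.includeRight : B →ₐ[Λ] S ⊗[Λ] B) := by
  have hker : ∀ J : Ideal B, 𝔫.map (Algebra.TensorProduct.includeLeft : S →ₐ[Λ] S ⊗[Λ] B) ⊔
      J.map (Algebra.TensorProduct.includeRight : B →ₐ[Λ] S ⊗[Λ] B) =
      RingHom.ker (Algebra.TensorProduct.map (Ideal.Quotient.mkₐ Λ 𝔫)
        (Ideal.Quotient.mkₐ Λ J)) := by
    intro J
    rw [Algebra.TensorProduct.map_ker _ _ (Ideal.Quotient.mkₐ_surjective Λ 𝔫)
      (Ideal.Quotient.mkₐ_surjective Λ J)]
    congr 2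
    · exact (Ideal.Quotient.mkₐ_ker Λ 𝔫).symm
    · exact (Ideal.Quotient.mkₐ_ker Λ J).symm
  rw [hker, RingHom.mem_ker] at hy ⊢
  let f : (B ⧸ col I b) →ₗ[Λ] (B ⧸ I) :=
    (Submodule.mapQ (col I b) I (LinearMap.toSpanSingleton B B b)
      (fun a ha => by simpa [LinearMap.toSpanSingleton_apply] using ha)).restrictScalars Λ
  have hf : ∀ z : B, f (Ideal.Quotient.mk _ z) = Ideal.Quotient.mk _ (b * z) := by
    intro z
    change Submodule.Quotient.mk (z • b) = _
    rw [smul_eq_mul, mul_comm]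
    rfl
  have hfi : Function.Injective f := by
    rw [injective_iff_map_eq_zero]
    intro z
    obtain ⟨z, rfl⟩ := Ideal.Quotient.mk_surjective z
    intro hz
    rw [hf, Ideal.Quotient.eq_zero_iff_mem] at hz
    rw [Ideal.Quotient.eq_zero_iff_mem, mem_col, mul_comm]
    exact hz
  have hk : ∀ a ∈ maximalIdeal Λ, ∀ x : B ⧸ I, a • x = 0 := by
    intro a ha x
    obtain ⟨x, rfl⟩ := Ideal.Quotient.mk_surjective x
    rw [← Ideal.Quotient.mkₐ_eq_mk Λ, ← map_smul, Algebra.smul_def, Ideal.Quotient.mkₐ_eq_mk,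
      Ideal.Quotient.eq_zero_iff_mem]
    exact Ideal.mul_mem_right _ _ (hI (Ideal.mem_map_of_mem _ ha))
  obtain ⟨ρ, hρ⟩ := ls_retract hk f hfi
  have key : ∀ z : S ⊗[Λ] B, LinearMap.lTensor (S ⧸ 𝔫) ρ
      (Algebra.TensorProduct.map (Ideal.Quotient.mkₐ Λ 𝔫) (Ideal.Quotient.mkₐ Λ I)
        ((1 : S) ⊗ₜ[Λ] b * z)) =
      Algebra.TensorProduct.map (Ideal.Quotient.mkₐ Λ 𝔫) (Ideal.Quotient.mkₐ Λ (col I b)) z := by
    intro z
    induction z with
    | zero => rw [mul_zero, map_zero, map_zero, map_zero]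
    | add x y hx hy => rw [mul_add, map_add, map_add, map_add, hx, hy]
    | tmul s c =>
      rw [Algebra.TensorProduct.tmul_mul_tmul, one_mul, Algebra.TensorProduct.map_tmul,
        Algebra.TensorProduct.map_tmul, LinearMap.lTensor_tmul]
      congr 1
      rw [Ideal.Quotient.mkₐ_eq_mk, Ideal.Quotient.mkₐ_eq_mk, ← hf, hρ]
  rw [← key, hy, map_zero]

/-- the map `B → S ⊗_A (A ⊗_Λ B)`. -/
noncomputable def lsj (Λ A S B : Type u) [CommRing Λ] [CommRing A] [CommRing S] [CommRing B]
    [Algebra Λ A] [Algebra A S] [Algebra Λ B] : B →+* S ⊗[A] (A ⊗[Λ] B) :=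
  (Algebra.TensorProduct.includeRight (R := A) (A := S) (B := A ⊗[Λ] B)).toRingHom.comp
    (Algebra.TensorProduct.includeRight (R := Λ) (A := A) (B := B)).toRingHom

theorem ls_vec (𝔫 : Ideal S) (I K : Ideal B)
    (hI : (maximalIdeal Λ).map (algebraMap Λ B) ≤ I) (b : B) (hK : ∀ y, b * y ∈ I → y ∈ K)
    (y : S ⊗[A] (A ⊗[Λ] B))
    (hy : lsj Λ A S B b * y ∈ 𝔫.map (algebraMap S (S ⊗[A] (A ⊗[Λ] B))) ⊔
      I.map (lsj Λ A S B)) :
    y ∈ 𝔫.map (algebraMap S (S ⊗[A] (A ⊗[Λ] B))) ⊔ K.map (lsj Λ A S B) := by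
  let _ : Algebra Λ S := ((algebraMap A S).comp (algebraMap Λ A)).toAlgebra
  have _ : IsScalarTower Λ A S := IsScalarTower.of_algebraMap_eq fun x => rfl
  let e : S ⊗[A] (A ⊗[Λ] B) ≃ₐ[S] S ⊗[Λ] B :=
    Algebra.TensorProduct.cancelBaseChange Λ A S S B
  have hj : ∀ c, e (lsj Λ A S B c) = (1 : S) ⊗ₜ[Λ] c := by
    intro c
    change e ((1 : S) ⊗ₜ[A] ((1 : A) ⊗ₜ[Λ] c)) = _
    rw [Algebra.TensorProduct.cancelBaseChange_tmul, one_smul]
  have hmap : ∀ J : Ideal B, (𝔫.map (algebraMap S (S ⊗[A] (A ⊗[Λ] B))) ⊔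
      J.map (lsj Λ A S B)).map (e : S ⊗[A] (A ⊗[Λ] B) →+* S ⊗[Λ] B) =
      𝔫.map (Algebra.TensorProduct.includeLeft : S →ₐ[Λ] S ⊗[Λ] B) ⊔
      J.map (Algebra.TensorProduct.includeRight : B →ₐ[Λ] S ⊗[Λ] B) := by
    intro J
    rw [Ideal.map_sup, Ideal.map_map, Ideal.map_map]
    congr 1
    · change Ideal.map _ _ = Ideal.map (Algebra.TensorProduct.includeLeft :
        S →ₐ[Λ] S ⊗[Λ] B).toRingHom _
      congr 1
      ext s
      change e (algebraMap S _ s) = s ⊗ₜ 1
      rw [AlgEquiv.commutes]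
      rfl
    · change Ideal.map _ _ = Ideal.map (Algebra.TensorProduct.includeRight :
        B →ₐ[Λ] S ⊗[Λ] B).toRingHom _
      congr 1
      ext s
      exact hj s
  have hy' := Ideal.mem_map_of_mem (e : S ⊗[A] (A ⊗[Λ] B) →+* S ⊗[Λ] B) hy
  rw [hmap, map_mul] at hy'
  have h1 := ls_vec0 𝔫 I hI b (e y) (by
    rw [← hj b]
    exact hy')
  rw [← hmap] at h1
  have h2 : y ∈ 𝔫.map (algebraMap S (S ⊗[A] (A ⊗[Λ] B))) ⊔ (col I b).map (lsj Λ A S B) := by
    rw [Ideal.mem_map_iff_of_surjective (e : S ⊗[A] (A ⊗[Λ] B) →+* S ⊗[Λ] B) e.surjective] at h1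
    obtain ⟨x, hx, hxy⟩ := h1
    rwa [← e.injective hxy]
  have h3 : col I b ≤ K := by
    intro z hz
    rw [mem_col, mul_comm] at hz
    exact hK z hz
  have h4 : 𝔫.map (algebraMap S (S ⊗[A] (A ⊗[Λ] B))) ⊔ (col I b).map (lsj Λ A S B) ≤
      𝔫.map (algebraMap S (S ⊗[A] (A ⊗[Λ] B))) ⊔ K.map (lsj Λ A S B) :=
    sup_le_sup_left (Ideal.map_mono h3) _
  exact h4 h2

end Vec


section Chain

variable {W : Type u} [CommRing W] (L : AddLen W)

theorem ls_chain {k : Type*} [Field k] {v : ℕ} (φ : MvPowerSeries (Fin v) k →+* W) (q : ℕ)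
    (hq : 1 ≤ q) (h0 : ∀ l, φ (MvPowerSeries.X l) ^ q = 0)
    (hT : ∀ (K K' : Ideal (MvPowerSeries (Fin v) k)) (f : MvPowerSeries (Fin v) k),
      (∀ j, (MvPowerSeries.X j : MvPowerSeries (Fin v) k) ^ q ∈ K) →
      (∀ y, f * y ∈ K → y ∈ K') → ∀ w, φ f * w ∈ K.map φ → w ∈ K'.map φ) (j : ℕ) (hj : j ≤ v) :
    (q : ℝ≥0∞) ^ j * L.len (W ⧸ (lsM k (fun l : Fin v => if (l : ℕ) < j then 1 else q)).map φ) ≤
      L.len (W ⧸ (⊥ : Ideal W)) := by
  classical
  induction j with
  | zero =>
    rw [pow_zero, one_mul]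
    have h1 : (lsM k (fun l : Fin v => if (l : ℕ) < 0 then 1 else q)).map φ = ⊥ := by
      rw [eq_bot_iff, lsM, Ideal.map_span, Ideal.span_le]
      rintro _ ⟨_, ⟨l, rfl⟩, rfl⟩
      simp only [Nat.not_lt_zero, if_false, map_pow, h0]
      exact zero_mem _
    rw [h1]
  | succ j ih =>
    have ih' := ih (by omega)
    set a : Fin v → ℕ := fun l : Fin v => if (l : ℕ) < j then 1 else q with ha
    obtain ⟨l, hl⟩ : ∃ l : Fin v, (l : ℕ) = j := ⟨⟨j, by omega⟩, rfl⟩
    have hal : a l = q := by rw [ha]; simp [hl]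
    have ha' : (fun l : Fin v => if (l : ℕ) < j + 1 then 1 else q) = Function.update a l 1 := by
      funext l'
      by_cases hll : l' = l
      · subst hll
        rw [Function.update_self, if_pos (by omega)]
      · rw [Function.update_of_ne hll, ha]
        have : (l' : ℕ) ≠ j := fun h => hll (Fin.ext (by omega))
        simp only
        by_cases h2 : (l' : ℕ) < j
        · rw [if_pos h2, if_pos (by omega)]
        · rw [if_neg h2, if_neg (by omega)]
    rw [ha']
    have hle : ∀ i, i + 1 ≤ q → lsM k a ≤ lsM k (Function.update a l (i + 1)) := by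
      intro i hi
      rw [lsM, Ideal.span_le]
      rintro _ ⟨l', rfl⟩
      refine X_pow_mem_lsM _ _ ?_
      by_cases hll : l' = l
      · subst hll
        rw [Function.update_self, hal]
        exact hi
      · rw [Function.update_of_ne hll]
    have h1 := ls_pow_ge L ((lsM k a).map φ) (φ (MvPowerSeries.X l)) q (by
      intro i hi y hy
      have h2 : (lsM k a).map φ ⊔ Ideal.span {φ (MvPowerSeries.X l) ^ (i + 1)} ≤
          (lsM k (Function.update a l (i + 1))).map φ := by
        refine sup_le (Ideal.map_mono (hle i hi)) ?_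
        rw [Ideal.span_singleton_le_iff_mem, ← map_pow]
        refine Ideal.mem_map_of_mem _ (X_pow_mem_lsM _ _ ?_)
        rw [Function.update_self]
      have h3 := hT (lsM k (Function.update a l (i + 1))) (lsM k (Function.update a l 1))
        (MvPowerSeries.X l ^ i) (by
          intro j'
          refine X_pow_mem_lsM _ _ ?_
          by_cases hll : j' = l
          · subst hll
            rw [Function.update_self]
            exact hi
          · rw [Function.update_of_ne hll, ha]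
            simp only
            split_ifs <;> omega) (fun y hy => lsM_colon a l i y hy) y (by
          rw [map_pow]
          exact h2 hy)
      refine (?_ : (lsM k (Function.update a l 1)).map φ ≤ _) h3
      rw [lsM, Ideal.map_span, Ideal.span_le]
      rintro _ ⟨_, ⟨l', rfl⟩, rfl⟩
      by_cases hll : l' = l
      · subst hll
        simp only [Function.update_self, pow_one]
        exact Ideal.mem_sup_right (Ideal.mem_span_singleton_self _)
      · simp only [Function.update_of_ne hll]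
        exact Ideal.mem_sup_left (Ideal.mem_map_of_mem _ (X_pow_mem_lsM _ _ le_rfl)))
    have h4 : L.len (W ⧸ (lsM k (Function.update a l 1)).map φ) ≤
        L.len (W ⧸ ((lsM k a).map φ ⊔ Ideal.span {φ (MvPowerSeries.X l)})) := by
      refine ls_mono L (sup_le ?_ ?_)
      · exact Ideal.map_mono (hle 0 hq)
      · rw [Ideal.span_singleton_le_iff_mem]
        refine Ideal.mem_map_of_mem _ ?_
        have := X_pow_mem_lsM (K := k) (Function.update a l 1) l (n := 1)
          (by rw [Function.update_self])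
        rwa [pow_one] at this
    have h5 : L.len (W ⧸ ((lsM k a).map φ ⊔ Ideal.span {φ (MvPowerSeries.X l) ^ q})) ≤
        L.len (W ⧸ (lsM k a).map φ) := ls_mono L le_sup_left
    calc (q : ℝ≥0∞) ^ (j + 1) * L.len (W ⧸ (lsM k (Function.update a l 1)).map φ)
        = (q : ℝ≥0∞) ^ j * (q * L.len (W ⧸ (lsM k (Function.update a l 1)).map φ)) := by
          rw [pow_succ, mul_assoc]
      _ ≤ (q : ℝ≥0∞) ^ j * L.len (W ⧸ (lsM k a).map φ) := by
          gcongr
          exact (mul_le_mul_right h4 _).trans (h1.trans h5)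
      _ ≤ _ := ih'

theorem ls_main {k : Type u} [Field k] {r : ℕ} (φ : R0 k r →+* W) (q : ℕ)
    (hq : 1 ≤ q) (h0 : ∀ l, φ (MvPowerSeries.X l) ^ q = 0)
    (hT : ∀ (K K' : Ideal (R0 k r)) (f : R0 k r),
      (∀ j, (MvPowerSeries.X j : R0 k r) ^ q ∈ K) →
      (∀ y, f * y ∈ K → y ∈ K') → ∀ w, φ f * w ∈ K.map φ → w ∈ K'.map φ)
    (hL : L.len (W ⧸ (⊥ : Ideal W)) ≤ 1) (g : R0 k r) (Cg : ℕ)
    (hCg : ∀ q c : ℕ, 1 ≤ q → 1 ≤ c →
      (q : ℝ≥0∞) * ENat.toENNReal (Module.length (R0 k r) (R0 k r ⧸ Ideal.span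
        ({(MvPowerSeries.X 0 : R0 k r), g ^ c} ∪
          Set.range fun i : Fin r => (MvPowerSeries.X i.succ : R0 k r) ^ q))) ≤
        (c * Cg * q ^ r : ℕ)) (p c a : ℕ) (hp : 1 ≤ p) (hc : 1 ≤ c) (γ γ' x : W)
    (hγ' : γ' ^ p = φ g ^ p + φ (MvPowerSeries.X 0) * x)
    (hγ : γ = φ (MvPowerSeries.X 0) ^ a * γ') :
    L.len (W ⧸ Ideal.span {γ ^ c}) ≤ (p * c * (a + Cg) : ℕ) / (q : ℝ≥0∞) := by
  set z := φ (MvPowerSeries.X 0) with hz
  have hpc : 1 ≤ p * c := Nat.mul_pos hp hc
  -- the first variable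
  have hF : (q : ℝ≥0∞) * L.len (W ⧸ Ideal.span {z}) ≤ 1 := by
    have h1 := ls_chain L φ q hq h0 hT 1 (by omega)
    rw [pow_one] at h1
    refine le_trans (mul_le_mul_right (ls_mono L ?_) _) (h1.trans hL)
    rw [lsM, Ideal.map_span, Ideal.span_le]
    rintro _ ⟨_, ⟨l, rfl⟩, rfl⟩
    by_cases hl : (l : ℕ) < 1
    · have hl0 : l = 0 := Fin.ext (by simpa using hl)
      subst hl0
      simp only [hl, if_true, pow_one]
      exact Ideal.mem_span_singleton_self _
    · simp only [hl, if_false, map_pow, h0]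
      exact zero_mem _
  -- all variables
  set M := L.len (W ⧸ (maximalIdeal (R0 k r)).map φ) with hM
  have hmax : maximalIdeal (R0 k r) =
      Ideal.span (Set.range fun l : Fin (r + 1) => (MvPowerSeries.X l : R0 k r)) :=
    CZ.maximalIdeal_eq
  have hB : (q : ℝ≥0∞) ^ (r + 1) * M ≤ 1 := by
    have h1 := ls_chain L φ q hq h0 hT (r + 1) le_rfl
    refine le_trans (mul_le_mul_right (ls_mono L (Ideal.map_mono ?_)) _) (h1.trans hL)
    rw [lsM, Ideal.span_le]
    rintro _ ⟨l, rfl⟩
    simp only [l.2, if_true, pow_one]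
    rw [hmax]
    exact Ideal.subset_span ⟨l, rfl⟩
  -- the quotient by `X_0, g^(p c)`
  set 𝔟 : Ideal (R0 k r) := Ideal.span ({(MvPowerSeries.X 0 : R0 k r), g ^ (p * c)} ∪
          Set.range fun i : Fin r => (MvPowerSeries.X i.succ : R0 k r) ^ q) with hb
  have hCb := hCg q (p * c) hq hpc
  rw [← hb] at hCb
  have hXb : ∀ l : Fin (r + 1), (MvPowerSeries.X l : R0 k r) ^ q ∈ 𝔟 := by
    intro l
    have hX0 : (MvPowerSeries.X 0 : R0 k r) ∈ 𝔟 := Ideal.subset_span (Or.inl (Or.inl rfl))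
    induction l using Fin.cases with
    | zero => exact Ideal.pow_mem_of_mem _ hX0 _ hq
    | succ i => exact Ideal.subset_span (Or.inr ⟨i, rfl⟩)
  obtain ⟨n, hn⟩ : ∃ n : ℕ, ell 𝔟 = n := by
    have h1 : ell 𝔟 ≠ ⊤ := by
      intro h2
      have h3 : Module.length (R0 k r) (R0 k r ⧸ 𝔟) = ⊤ := h2
      rw [h3, ENat.toENNReal_top, ENNReal.mul_top (by simp; omega)] at hCb
      exact (ENNReal.natCast_ne_top _) (top_le_iff.1 hCb)
    obtain ⟨n, hn⟩ := ENat.ne_top_iff_exists.1 h1
    exact ⟨n, hn.symm⟩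
  have hnn : (q : ℝ≥0∞) * n ≤ (p * c * Cg * q ^ r : ℕ) := by
    have h3 : Module.length (R0 k r) (R0 k r ⧸ 𝔟) = n := hn
    rw [h3] at hCb
    simpa using hCb
  obtain ⟨s, hs⟩ : ∃ s, maximalIdeal (R0 k r) ^ s ≤ 𝔟 := by
    refine Ideal.exists_pow_le_of_le_radical_of_fg ?_ ?_
    · rw [hmax, Ideal.span_le]
      rintro _ ⟨l, rfl⟩
      exact ⟨q, hXb l⟩
    · rw [hmax]
      exact Submodule.fg_span (Set.finite_range _)
  have hC : L.len (W ⧸ 𝔟.map φ) ≤ n * M := ls_dev L φ n 𝔟 s hs hn.le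
  -- `γ'`
  set J : Ideal W := Ideal.span {γ' ^ (p * c)} with hJ
  have hE : L.len (W ⧸ J) ≤ q * L.len (W ⧸ 𝔟.map φ) := by
    have h1 := ls_pow_le L J z q
    have e0 : Ideal.span {(0 : W)} = ⊥ := Ideal.span_singleton_eq_bot.2 rfl
    rw [hz, h0, ← hz, e0, sup_bot_eq] at h1
    refine h1.trans (mul_le_mul_right (ls_mono L ?_) _)
    have hz' : z ∈ J ⊔ Ideal.span {z} := Ideal.mem_sup_right (Ideal.mem_span_singleton_self _)
    rw [hb, Ideal.map_span, Ideal.span_le]
    rintro _ ⟨_, (⟨rfl | rfl⟩ | ⟨l, rfl⟩), rfl⟩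
    · exact hz'
    · have h2 : γ' ^ p - φ g ^ p ∣ (γ' ^ p) ^ c - (φ g ^ p) ^ c := sub_dvd_pow_sub_pow _ _ _
      obtain ⟨y, hy⟩ := h2
      have h3 : φ (g ^ (p * c)) = γ' ^ (p * c) - z * (x * y) := by
        rw [map_pow, pow_mul, pow_mul]
        have h4 : γ' ^ p - φ g ^ p = z * x := by rw [hγ']; ring
        rw [h4] at hy
        linear_combination -hy
      change φ (g ^ (p * c)) ∈ J ⊔ Ideal.span {z}
      rw [h3]
      exact Ideal.sub_mem _ (Ideal.mem_sup_left (Ideal.mem_span_singleton_self _))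
        (Ideal.mul_mem_right _ _ hz')
    · simp only [map_pow, h0]
      exact zero_mem _
  have hE' : (q : ℝ≥0∞) * L.len (W ⧸ J) ≤ (p * c * Cg : ℕ) := by
    calc (q : ℝ≥0∞) * L.len (W ⧸ J) ≤ q * (q * (n * M)) := by
          gcongr
          exact hE.trans (mul_le_mul_right hC _)
      _ = q * ((q * n) * M) := by ring
      _ ≤ q * ((p * c * Cg * q ^ r : ℕ) * M) := by gcongr
      _ = (p * c * Cg : ℕ) * (q ^ (r + 1) * M) := by push_cast; ring
      _ ≤ (p * c * Cg : ℕ) * 1 := by gcongr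
      _ = _ := mul_one _
  have hF' : (q : ℝ≥0∞) * L.len (W ⧸ Ideal.span {z ^ (a * (p * c))}) ≤ (a * (p * c) : ℕ) := by
    have h1 := ls_pow_le L ⊥ z (a * (p * c))
    rw [bot_sup_eq, bot_sup_eq] at h1
    calc (q : ℝ≥0∞) * L.len (W ⧸ Ideal.span {z ^ (a * (p * c))})
        ≤ q * ((a * (p * c) : ℕ) * L.len (W ⧸ Ideal.span {z})) := by gcongr
      _ = (a * (p * c) : ℕ) * (q * L.len (W ⧸ Ideal.span {z})) := by ring
      _ ≤ (a * (p * c) : ℕ) * 1 := by gcongr
      _ = _ := mul_one _
  have hG : L.len (W ⧸ Ideal.span {γ ^ c}) ≤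
      L.len (W ⧸ Ideal.span {z ^ (a * (p * c))}) + L.len (W ⧸ J) := by
    have h1 := ls_mul_le L ⊥ (z ^ (a * (p * c))) (γ' ^ (p * c))
    rw [bot_sup_eq, bot_sup_eq, bot_sup_eq] at h1
    refine le_trans (ls_mono L ?_) h1
    rw [Ideal.span_singleton_le_iff_mem, Ideal.mem_span_singleton]
    have h2 : z ^ (a * (p * c)) * γ' ^ (p * c) = γ ^ (p * c) := by
      rw [hγ, mul_pow, pow_mul]
    rw [h2]
    exact pow_dvd_pow _ (Nat.le_mul_of_pos_left _ hp)
  rw [ENNReal.le_div_iff_mul_le (Or.inl (by simp; omega)) (Or.inl (ENNReal.natCast_ne_top _)),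
    mul_comm]
  calc (q : ℝ≥0∞) * L.len (W ⧸ Ideal.span {γ ^ c})
      ≤ q * (L.len (W ⧸ Ideal.span {z ^ (a * (p * c))}) + L.len (W ⧸ J)) := by gcongr
    _ = q * L.len (W ⧸ Ideal.span {z ^ (a * (p * c))}) + q * L.len (W ⧸ J) := mul_add _ _ _
    _ ≤ (a * (p * c) : ℕ) + (p * c * Cg : ℕ) := add_le_add hF' hE'
    _ = _ := by push_cast; ring

end Chain


section Res

/-- restriction of an additive length. -/
noncomputable def lsRes {R R' : Type u} [CommRing R] [CommRing R'] (L : AddLen R)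
    (φ : R →+* R') : AddLen R' where
  len M _ _ := letI := Module.compHom M φ; L.len M
  zero := by
    have : Module.compHom PUnit.{u+1} φ = (inferInstance : Module R PUnit.{u+1}) :=
      Module.ext' _ _ fun a x => rfl
    rw [this]
    exact L.zero
  add {M N K} _ _ _ _ _ _ f g hf hg hfg := by
    let _ := Module.compHom M φ
    let _ := Module.compHom N φ
    let _ := Module.compHom K φ
    let f' : M →ₗ[R] N := { f with map_smul' := fun a x => map_smul f (φ a) x }
    let g' : N →ₗ[R] K := { g with map_smul' := fun a x => map_smul g (φ a) x }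
    exact L.add f' g' hf hg hfg

theorem lsRes_len {R R' : Type u} [CommRing R] [CommRing R'] (L : AddLen R)
    (φ : R →+* R') (hφ : Function.Surjective φ) (J : Ideal R') :
    (lsRes L φ).len (R' ⧸ J) = L.len (R ⧸ J.comap φ) := by
  let _ : Module R (R' ⧸ J) := Module.compHom (R' ⧸ J) φ
  let f : R →ₗ[R] (R' ⧸ J) :=
    { toFun := fun x => Ideal.Quotient.mk J (φ x)
      map_add' := fun x y => by rw [map_add, map_add]
      map_smul' := fun a x => by
        rw [smul_eq_mul, map_mul, map_mul]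
        rfl }
  have hf : Function.Surjective f := Ideal.Quotient.mk_surjective.comp hφ
  have hk : LinearMap.ker f = J.comap φ := by
    ext x
    rw [LinearMap.mem_ker, Ideal.mem_comap]
    exact Ideal.Quotient.eq_zero_iff_mem
  change L.len (R' ⧸ J) = _
  rw [← len_congr L (f.quotKerEquivOfSurjective hf)]
  exact len_congr L (Submodule.quotEquivOfEq _ _ hk)

end Res

section Omega

variable {p : ℕ} [Fact p.Prime] {k : Type u} [Field k] [CharP k p] {r : ℕ}
variable {Λ : Type u} [CommRing Λ] [IsLocalRing Λ] {u : Fin r → Λ}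
  {ψ : Λ →+* WittVector p (Rp p k r)}
  {red : Λ →+* R0 k r ⧸ Ideal.span {(MvPowerSeries.X 0 : R0 k r)}}
variable {A S : Type u} [CommRing A] [CommRing S] [IsLocalRing A] [IsLocalRing S]
  [Algebra Λ A] [Algebra A S] [IsLocalHom (algebraMap Λ A)] [IsLocalHom (algebraMap A S)]

omit [IsLocalRing A] in
theorem ls_max_map (x : Λ) (hx : x ∈ maximalIdeal Λ) :
    algebraMap A S (algebraMap Λ A x) ∈ maximalIdeal S := by
  rw [mem_maximalIdeal, mem_nonunits_iff] at hx ⊢
  intro h
  exact hx (isUnit_of_map_unit (algebraMap Λ A) x (isUnit_of_map_unit (algebraMap A S) _ h))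

omit [IsLocalRing Λ] in
theorem ls_projN {C : Type u} [CommRing C] [CharP C p] [PerfectRing C p] [Algebra (Rp p k r) C]
    (N : ℕ) (hN : 1 ≤ N) : ∃ π : BN ψ C N →+* C ⧸ Ideal.span {tC p k r C},
      (∀ x : WittVector p C, π (mkN ψ C N (toB p C (tC p k r C) x)) =
        Ideal.Quotient.mk _ (x.coeff 0)) ∧
      ∀ y, π y = 0 → y ∈ Ideal.span {(p : BN ψ C N)} := by
  obtain ⟨π, hπ, -, hk⟩ := exists_proj p C (tC p k r C)
  have hp : π (p : Bt p C (tC p k r C)) = 0 := by
    rw [← RingHom.mem_ker, hk]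
    exact Ideal.mem_span_singleton_self _
  have hker : ∀ x ∈ Ideal.span {(p : Bt p C (tC p k r C)) ^ N}, π x = 0 := by
    intro x hx
    obtain ⟨y, rfl⟩ := Ideal.mem_span_singleton'.1 hx
    rw [map_mul, map_pow, hp, zero_pow (by omega), mul_zero]
  let πN : BN ψ C N →+* C ⧸ Ideal.span {tC p k r C} :=
    Ideal.Quotient.lift (Ideal.span {(p : Bt p C (tC p k r C)) ^ N}) π hker
  have h1 : ∀ x, πN (mkN ψ C N x) = π x := fun x => Ideal.Quotient.lift_mk _ _ _
  refine ⟨πN, fun x => by rw [h1, hπ], fun y hy => ?_⟩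
  obtain ⟨x, rfl⟩ : ∃ x, mkN ψ C N x = y := Ideal.Quotient.mk_surjective y
  rw [h1, ← RingHom.mem_ker, hk] at hy
  obtain ⟨z, rfl⟩ := Ideal.mem_span_singleton'.1 hy
  rw [map_mul, map_natCast]
  exact Ideal.mem_span_singleton'.2 ⟨_, rfl⟩

omit [IsLocalRing A] in
theorem ls_omega (hb : IsBase p k r Λ u ψ red)
    (hmax : maximalIdeal Λ = Ideal.span (insert (p : Λ) (Set.range u)))
    {C : Type u} [CommRing C] [CharP C p] [PerfectRing C p] [Algebra (Rp p k r) C]
    (N : ℕ) (hN : 1 ≤ N) :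
    ∃ ω : C →+* (ES ψ A S C N ⧸ (maximalIdeal S).map (algebraMap S (ES ψ A S C N))),
      (∀ c, ω c = Ideal.Quotient.mk _ (toES ψ A S C N (teN ψ C N c))) ∧
      (∀ l, ω (algebraMap (Rp p k r) C (xp p k r l)) = 0) ∧
      ∀ (I K : Ideal C) (c : C), (∀ l, algebraMap (Rp p k r) C (xp p k r l) ∈ I) →
        (∀ y, c * y ∈ I → y ∈ K) → ∀ w, ω c * w ∈ I.map ω → w ∈ K.map ω := by
  set 𝔞 : Ideal (ES ψ A S C N) := (maximalIdeal S).map (algebraMap S (ES ψ A S C N)) with h𝔞
  have hj : toES ψ A S C N = lsj Λ A S (BN ψ C N) := rfl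
  -- elements of `Λ`
  have hΛ : ∀ x ∈ maximalIdeal Λ, toES ψ A S C N (algebraMap Λ (BN ψ C N) x) ∈ 𝔞 := by
    intro x hx
    have h1 : toES ψ A S C N (algebraMap Λ (BN ψ C N) x) =
        algebraMap S (ES ψ A S C N) (algebraMap A S (algebraMap Λ A x)) := by
      have h2 : (Algebra.TensorProduct.includeRight (R := Λ) (A := A) (B := BN ψ C N))
          (algebraMap Λ (BN ψ C N) x) = algebraMap A (EA ψ A C N) (algebraMap Λ A x) := by
        rw [AlgHom.commutes]
        rfl
      change (Algebra.TensorProduct.includeRight (R := A) (A := S) (B := EA ψ A C N))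
        ((Algebra.TensorProduct.includeRight (R := Λ) (A := A) (B := BN ψ C N))
          (algebraMap Λ (BN ψ C N) x)) = _
      rw [h2, AlgHom.commutes]
      rfl
    rw [h1]
    exact Ideal.mem_map_of_mem _ (ls_max_map x hx)
  have hpΛ : (p : Λ) ∈ maximalIdeal Λ := by
    rw [hmax]
    exact Ideal.subset_span (Set.mem_insert _ _)
  have huΛ : ∀ i, u i ∈ maximalIdeal Λ := by
    intro i
    rw [hmax]
    exact Ideal.subset_span (Set.mem_insert_of_mem _ ⟨i, rfl⟩)
  have hp : Ideal.Quotient.mk 𝔞 (toES ψ A S C N (p : BN ψ C N)) = 0 := by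
    rw [Ideal.Quotient.eq_zero_iff_mem]
    have := hΛ _ hpΛ
    rwa [map_natCast] at this
  obtain ⟨π, hπ, hπ0⟩ := ls_projN (ψ := ψ) (C := C) N hN
  have hte : ∀ c, π (teN ψ C N c) = Ideal.Quotient.mk _ c := by
    intro c
    rw [teN, te, hπ, WittVector.teichmuller_coeff_zero]
  have hz : ∀ y, π y = 0 → Ideal.Quotient.mk 𝔞 (toES ψ A S C N y) = 0 := by
    intro y hy
    obtain ⟨x, rfl⟩ := Ideal.mem_span_singleton'.1 (hπ0 y hy)
    rw [Ideal.Quotient.eq_zero_iff_mem] at hp ⊢
    rw [map_mul]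
    exact Ideal.mul_mem_left _ _ hp
  have hsub : ∀ y y', π y = π y' → Ideal.Quotient.mk 𝔞 (toES ψ A S C N y) =
      Ideal.Quotient.mk 𝔞 (toES ψ A S C N y') := by
    intro y y' h
    rw [← sub_eq_zero, ← map_sub, ← map_sub]
    exact hz _ (by rw [map_sub, h, sub_self])
  let ω : C →+* (ES ψ A S C N ⧸ 𝔞) :=
    { toFun := fun c => Ideal.Quotient.mk 𝔞 (toES ψ A S C N (teN ψ C N c))
      map_one' := by
        rw [← map_one (Ideal.Quotient.mk 𝔞), ← map_one (toES ψ A S C N)]
        exact hsub _ _ (by rw [hte, map_one, map_one])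
      map_mul' := fun x y => by
        rw [← map_mul, ← map_mul]
        exact hsub _ _ (by rw [map_mul, hte, hte, hte, map_mul])
      map_zero' := hz _ (by rw [hte, map_zero])
      map_add' := fun x y => by
        rw [← map_add, ← map_add]
        exact hsub _ _ (by rw [map_add, hte, hte, hte, map_add]) }
  have hω : ∀ c, ω c = Ideal.Quotient.mk _ (toES ψ A S C N (teN ψ C N c)) := fun c => rfl
  have hx : ∀ l, ω (algebraMap (Rp p k r) C (xp p k r l)) = 0 := by
    intro l
    induction l using Fin.cases with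
    | zero =>
      rw [hω]
      refine hz _ ?_
      rw [hte]
      exact Ideal.Quotient.eq_zero_iff_mem.2 (Ideal.mem_span_singleton_self _)
    | succ i =>
      have h1 := hΛ _ (huΛ i)
      rw [hω, ← (Ideal.Quotient.eq_zero_iff_mem.2 h1)]
      refine hsub _ _ ?_
      rw [hte]
      change _ = π (mkN ψ C N (toB p C (tC p k r C) (WittVector.map (algebraMap (Rp p k r) C)
        (ψ (u i)))))
      rw [hπ, hb.psi_u, WittVector.map_coeff, WittVector.teichmuller_coeff_zero]
  refine ⟨ω, hω, hx, ?_⟩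
  intro I K c hI hK w hw
  have htI : tC p k r C ∈ I := hI 0
  have htK : tC p k r C ∈ K := hK _ (Ideal.mul_mem_left _ _ htI)
  -- the ideals of `B/p^N`
  have hmem : ∀ (I : Ideal C), tC p k r C ∈ I → ∀ (y : BN ψ C N) (c : C),
      π y = Ideal.Quotient.mk _ c → (y ∈ (I.map (Ideal.Quotient.mk
        (Ideal.span {tC p k r C}))).comap π ↔ c ∈ I) := by
    intro I hI y c hyc
    rw [Ideal.mem_comap, hyc, Ideal.mem_map_iff_of_surjective _ Ideal.Quotient.mk_surjective]
    constructor
    · rintro ⟨x, hx, hxc⟩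
      rw [Ideal.Quotient.eq, Ideal.mem_span_singleton'] at hxc
      obtain ⟨v, hv⟩ := hxc
      have : c = x - v * tC p k r C := by rw [hv]; ring
      rw [this]
      exact Ideal.sub_mem _ hx (Ideal.mul_mem_left _ _ hI)
    · intro hc
      exact ⟨c, hc, rfl⟩
  set IB : Ideal (BN ψ C N) := (I.map (Ideal.Quotient.mk (Ideal.span {tC p k r C}))).comap π
    with hIB
  set KB : Ideal (BN ψ C N) := (K.map (Ideal.Quotient.mk (Ideal.span {tC p k r C}))).comap π
    with hKB
  have hmapω : ∀ (I : Ideal C), tC p k r C ∈ I →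
      (((I.map (Ideal.Quotient.mk (Ideal.span {tC p k r C}))).comap π).map
        (lsj Λ A S (BN ψ C N))).map (Ideal.Quotient.mk 𝔞) = I.map ω := by
    intro I hI
    refine le_antisymm ?_ ?_
    · rw [Ideal.map_le_iff_le_comap, Ideal.map_le_iff_le_comap]
      intro y hy
      obtain ⟨c, hc⟩ := Ideal.Quotient.mk_surjective (π y)
      rw [hmem I hI y c hc.symm] at hy
      rw [Ideal.mem_comap, Ideal.mem_comap, ← hj, hsub y (teN ψ C N c) (by rw [hte, hc]), ← hω]
      exact Ideal.mem_map_of_mem _ hy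
    · rw [Ideal.map_le_iff_le_comap]
      intro c hc
      rw [Ideal.mem_comap, hω, hj]
      refine Ideal.mem_map_of_mem _ (Ideal.mem_map_of_mem _ ?_)
      rw [hmem I hI _ c (hte c)]
      exact hc
  obtain ⟨w, rfl⟩ := Ideal.Quotient.mk_surjective w
  have hcm : ∀ (I : Ideal C), tC p k r C ∈ I → ∀ w : ES ψ A S C N,
      (Ideal.Quotient.mk 𝔞 w ∈ I.map ω ↔ w ∈ 𝔞 ⊔
      ((I.map (Ideal.Quotient.mk (Ideal.span {tC p k r C}))).comap π).map
        (lsj Λ A S (BN ψ C N))) := by
    intro I hI w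
    rw [← hmapω I hI, ← Ideal.mem_comap,
      Ideal.comap_map_of_surjective' _ Ideal.Quotient.mk_surjective, Ideal.mk_ker, sup_comm]
  rw [hcm K htK, ← hKB]
  refine ls_vec (maximalIdeal S) IB KB ?_ (teN ψ C N c) ?_ w ?_
  · rw [hmax, Ideal.map_span, Ideal.span_le]
    rintro _ ⟨x, (rfl | ⟨i, rfl⟩), rfl⟩
    · change _ ∈ IB
      rw [map_natCast, hmem I htI _ 0 (by
        rw [map_natCast, map_zero, ← map_natCast (Ideal.Quotient.mk (Ideal.span {tC p k r C})),
          CharP.cast_eq_zero, map_zero])]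
      exact zero_mem _
    · change _ ∈ IB
      refine (hmem I htI _ (algebraMap (Rp p k r) C (xp p k r i.succ)) ?_).2 (hI _)
      change π (mkN ψ C N (toB p C (tC p k r C) (WittVector.map (algebraMap (Rp p k r) C)
        (ψ (u i))))) = _
      rw [hπ, hb.psi_u, WittVector.map_coeff, WittVector.teichmuller_coeff_zero]
  · intro y hy
    obtain ⟨y', hy'⟩ := Ideal.Quotient.mk_surjective (π y)
    rw [hmem I htI _ (c * y') (by rw [map_mul, hte, ← hy', map_mul])] at hy
    rw [hmem K htK _ y' hy'.symm]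
    exact hK _ hy
  · exact (hcm I htI (toES ψ A S C N (teN ψ C N c) * w)).1 (by
      rw [map_mul, ← hω]
      exact hw)

end Omega


section Final

/-- the `p^e`-th root as a ring homomorphism. -/
noncomputable def lsRt (p : ℕ) [Fact p.Prime] {C : Type u} [CommRing C] [CharP C p]
    [PerfectRing C p] (e : ℕ) : C →+* C :=
  ((iterateFrobeniusEquiv C p e).symm : C →+* C)

theorem lsRt_pow (p : ℕ) [Fact p.Prime] {C : Type u} [CommRing C] [CharP C p]
    [PerfectRing C p] (e : ℕ) (c : C) : lsRt p e c ^ p ^ e = c := rt_pow_self p C c e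

variable {p : ℕ} [Fact p.Prime] {k : Type u} [Field k] [CharP k p] {r : ℕ}

/-- the twisted structure map `R0 → C`, `f ↦ f^(1/p^e)`, and colon ideals. -/
theorem ls_colon_C {r0 : ℕ} (d : PExt.{u} p k r r0) (e : ℕ) (K K' : Ideal (R0 k r)) (f : R0 k r)
    (h : ∀ y, f * y ∈ K → y ∈ K') (y : d.C)
    (hy : ((lsRt p e).comp ((algebraMap (Rp p k r) d.C).comp (PerfectClosure.of (R0 k r) p))) f *
      y ∈ K.map
        ((lsRt p e).comp ((algebraMap (Rp p k r) d.C).comp (PerfectClosure.of (R0 k r) p)))) :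
    y ∈ K'.map
      ((lsRt p e).comp ((algebraMap (Rp p k r) d.C).comp (PerfectClosure.of (R0 k r) p))) := by
  let _ : Algebra (R0 k r) (Rp p k r) := (PerfectClosure.of (R0 k r) p).toAlgebra
  let _ : Algebra (R0 k r) d.C :=
    ((algebraMap (Rp p k r) d.C).comp (PerfectClosure.of (R0 k r) p)).toAlgebra
  have _ : IsScalarTower (R0 k r) (Rp p k r) d.C := IsScalarTower.of_algebraMap_eq fun x => rfl
  have _ : Module.Flat (R0 k r) (Rp p k r) := flat_perfectClosure p k r
  have _ : Module.Flat (Rp p k r) d.C := d.flat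
  have _ : Module.Flat (R0 k r) d.C := Module.Flat.trans (R0 k r) (Rp p k r) d.C
  set φ0 : R0 k r →+* d.C := (algebraMap (Rp p k r) d.C).comp (PerfectClosure.of (R0 k r) p)
    with hφ0
  have hal : algebraMap (R0 k r) d.C = φ0 := rfl
  set F : d.C →+* d.C := (iterateFrobeniusEquiv d.C p e : d.C →+* d.C) with hF
  have hFr : F.comp (lsRt p e) = RingHom.id d.C := by
    ext c
    change iterateFrobeniusEquiv d.C p e ((iterateFrobeniusEquiv d.C p e).symm c) = c
    exact RingEquiv.apply_symm_apply _ _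
  have hrF : (lsRt p e).comp F = RingHom.id d.C := by
    ext c
    change (iterateFrobeniusEquiv d.C p e).symm (iterateFrobeniusEquiv d.C p e c) = c
    exact RingEquiv.symm_apply_apply _ _
  have h1 := Ideal.mem_map_of_mem F hy
  rw [Ideal.map_map, ← RingHom.comp_assoc, hFr, RingHom.id_comp, map_mul] at h1
  have h2 : F (((lsRt p e).comp φ0) f) = φ0 f := RingHom.congr_fun hFr (φ0 f)
  rw [h2, ← hal] at h1
  have h3 := ls_colon_flat K K' f h (F y) h1
  have h4 := Ideal.mem_map_of_mem (lsRt p e) h3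
  rw [Ideal.map_map, hal] at h4
  have h5 : lsRt p e (F y) = y := RingHom.congr_fun hrF y
  rwa [h5] at h4

variable {Λ : Type u} [CommRing Λ] [IsLocalRing Λ] {u : Fin r → Λ}
  {ψ : Λ →+* WittVector p (Rp p k r)}
  {red : Λ →+* R0 k r ⧸ Ideal.span {(MvPowerSeries.X 0 : R0 k r)}}
  {ι : Type u} {b : ι → Λ} {β : ι → k} {res : ResidueField Λ →+* k}
variable {A S : Type u} [CommRing A] [CommRing S] [IsLocalRing A] [IsLocalRing S]
  [IsNoetherianRing A] [IsNoetherianRing S]
  [Algebra Λ A] [Algebra A S] [IsLocalHom (algebraMap Λ A)] [IsLocalHom (algebraMap A S)]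

/-- TASK M15b: smallness. For `γ = t^a (g + t^(1/p) x) ∈ C`, `g ∈ R0`:
`L(E/(n_S, [γ^(1/q)]^c)) ≤ p c (a + Cg)/q`, `q = p^e`. Proof (`W = E/n_S E = k_S ⊗_(k0) C/(t,u)`,
`W/J` for ideals `J` of `C`): replace `c` by `p c`; `L(W/γ^(c/q)) ≤ L(W/t^(ac/q)) + L(W/γ'^(c/q))`,
`γ' = g + t^(1/p) x`; `L(W/t^(m/q)) ≤ m/q` (multiplication by `t^(1/q)`: `C` flat over `Rp`);
`L(W/γ'^(c/q)) ≤ q L(W/(t^(1/q), γ'^(c/q)))`, `γ'^(c/q) = g^(c/q)` modulo `t^(c/(pq))`;
`L(W/(t^(1/q), g^(c/q))) ≤ l(R0/(x_0, x_i^q, g^c)) L(W/(x_l^(1/q)))` (devissage over the `q`-th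
roots of `R0`), `L(W/(x_l^(1/q))) ≤ 1/q^(r+1)`. -/
theorem len_small (hb : IsBase p k r Λ u ψ red)
    (hmax : maximalIdeal Λ = Ideal.span (insert (p : Λ) (Set.range u)))
    {r0 : ℕ} (d : PExt.{u} p k r r0) (N : ℕ) (hN : 1 ≤ N) (L : AddLen (ES ψ A S d.C N))
    (hL : L.len (ES ψ A S d.C N ⧸ (maximalIdeal S).map (algebraMap S (ES ψ A S d.C N))) = 1)
    (g : R0 k r) (Cg : ℕ) (hCg : ∀ q c : ℕ, 1 ≤ q → 1 ≤ c →
      (q : ℝ≥0∞) * ENat.toENNReal (Module.length (R0 k r) (R0 k r ⧸ Ideal.span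
        ({(MvPowerSeries.X 0 : R0 k r), g ^ c} ∪
          Set.range fun i : Fin r => (MvPowerSeries.X i.succ : R0 k r) ^ q))) ≤
        (c * Cg * q ^ r : ℕ))
    (a : ℕ) (x γ : d.C) (hγ : γ = tC p k r d.C ^ a *
      (algebraMap (Rp p k r) d.C (PerfectClosure.of (R0 k r) p g) + rt p 1 (tC p k r d.C) * x))
    (e c : ℕ) (hc : 1 ≤ c) :
    L.len (ES ψ A S d.C N ⧸ ((maximalIdeal S).map (algebraMap S (ES ψ A S d.C N)) ⊔
      Ideal.span {toES ψ A S d.C N (teN ψ d.C N (rt p e γ)) ^ c})) ≤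
      (p * c * (a + Cg) : ℕ) / (p : ℝ≥0∞) ^ e := by
  obtain ⟨ω, hω, hx0, hT⟩ := ls_omega (A := A) (S := S) hb hmax (C := d.C) N hN
  set φ0 : R0 k r →+* d.C := (algebraMap (Rp p k r) d.C).comp (PerfectClosure.of (R0 k r) p)
    with hφ0
  have hp1 : 1 ≤ p := (Fact.out : p.Prime).one_lt.le
  have hXl : ∀ l, φ0 (MvPowerSeries.X l) = algebraMap (Rp p k r) d.C (xp p k r l) := fun l => rfl
  have hmk : Function.Surjective (Ideal.Quotient.mk
    ((maximalIdeal S).map (algebraMap S (ES ψ A S d.C N)))) := Ideal.Quotient.mk_surjective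
  have key := ls_main (lsRes L (Ideal.Quotient.mk
    ((maximalIdeal S).map (algebraMap S (ES ψ A S d.C N))))) (ω.comp ((lsRt p e).comp φ0)) (p ^ e)
    (Nat.one_le_pow _ _ hp1) (by
      intro l
      change ω (lsRt p e (φ0 (MvPowerSeries.X l))) ^ p ^ e = 0
      rw [← map_pow, lsRt_pow, hXl, hx0]) (by
      intro K K' f hK h w hw
      rw [← Ideal.map_map] at hw ⊢
      refine hT (K.map ((lsRt p e).comp φ0)) (K'.map ((lsRt p e).comp φ0))
        (((lsRt p e).comp φ0) f) ?_ (fun y hy => ls_colon_C d e K K' f h y hy) w hw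
      intro l
      have h1 := Ideal.mem_map_of_mem ((lsRt p e).comp φ0) (hK l)
      rw [map_pow] at h1
      change lsRt p e (φ0 (MvPowerSeries.X l)) ^ p ^ e ∈ _ at h1
      rwa [lsRt_pow, hXl] at h1) (by
      rw [lsRes_len L _ hmk, ← RingHom.ker_eq_comap_bot, Ideal.mk_ker, hL]) g Cg hCg p c a hp1 hc
    (ω (rt p e γ)) (ω (rt p e (φ0 g + rt p 1 (tC p k r d.C) * x))) (ω (rt p e x) ^ p) (by
      have h1 : rt p 1 (tC p k r d.C) ^ p = tC p k r d.C := by
        have := rt_pow_self p d.C (tC p k r d.C) 1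
        rwa [pow_one] at this
      change ω (lsRt p e (φ0 g + rt p 1 (tC p k r d.C) * x)) ^ p = ω (lsRt p e (φ0 g)) ^ p +
        ω (lsRt p e (tC p k r d.C)) * ω (lsRt p e x) ^ p
      rw [← map_pow, ← map_pow, add_pow_char, mul_pow, h1, map_add, map_add, map_mul, map_mul,
        map_pow, map_pow, map_pow, map_pow]) (by
      rw [hγ]
      change ω (lsRt p e (tC p k r d.C ^ a * (φ0 g + rt p 1 (tC p k r d.C) * x))) =
        ω (lsRt p e (tC p k r d.C)) ^ a * ω (lsRt p e (φ0 g + rt p 1 (tC p k r d.C) * x))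
      rw [map_mul, map_mul, map_pow, map_pow])
  rw [lsRes_len L _ hmk, hω, ← map_pow, ← Set.image_singleton, ← Ideal.map_span,
    Ideal.comap_map_of_surjective' _ hmk, Ideal.mk_ker, sup_comm] at key
  push_cast at key ⊢
  exact key

end Final

end Vale.Agent.P202.Mix
end

section

set_option linter.all false

/-!
P202-MIX, part GEO: exactness of the strands.
-/

namespace Vale.Agent.P202.Mix

open Vale.Agent.P202.CharP
open scoped ENNReal

universe u

section CsTot

variable {R : Type u} [CommRing R] {V : Type u} [AddCommGroup V] [Module R V]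

lemma cs_tot_apply (d e : V →ₗ[R] V) (z : ℤ → V) (i : ℤ) :
    totD d e z i = (i.negOnePow : ℤ) • d (z i) + e (z (i + 1)) := rfl

lemma cs_mem_TT (X : ℤ → ℤ → Submodule R V) (δ : ℤ) (z : ℤ → V) :
    z ∈ TT X δ ↔ ∀ i, z i ∈ X i (i - δ) := by
  simp [TT, Submodule.mem_pi]

lemma cs_neg_sq (i : ℤ) (v : V) : (i.negOnePow : ℤ) • ((i.negOnePow : ℤ) • v) = v := by
  rw [smul_smul]
  have : (i.negOnePow : ℤ) * (i.negOnePow : ℤ) = 1 := by
    rcases Int.even_or_odd i with h | h
    · rw [Int.negOnePow_even i h]; norm_num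
    · rw [Int.negOnePow_odd i h]; norm_num
  rw [this, one_smul]

lemma cs_neg_mem (i : ℤ) (X : Submodule R V) (v : V) (h : (i.negOnePow : ℤ) • v ∈ X) : v ∈ X := by
  rw [← cs_neg_sq i v]
  exact zsmul_mem h _

lemma cs_tot_sq (d e : V →ₗ[R] V) (hdd : ∀ v, d (d v) = 0) (hee : ∀ v, e (e v) = 0)
    (hde : ∀ v, d (e v) = e (d v)) (z : ℤ → V) : totD d e (totD d e z) = 0 := by
  funext i
  rw [cs_tot_apply, cs_tot_apply, cs_tot_apply]
  rw [map_add, map_add, map_zsmul, map_zsmul, hdd, hee, hde, Int.negOnePow_succ]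
  simp

lemma cs_stab (d e : V →ₗ[R] V) (X : ℤ → ℤ → Submodule R V) (hX : BStab d e X) (δ : ℤ)
    (z : ℤ → V) (hz : z ∈ TT X δ) : totD d e z ∈ TT X (δ - 1) := by
  rw [cs_mem_TT] at hz ⊢
  intro i
  rw [cs_tot_apply]
  refine Submodule.add_mem _ (zsmul_mem ?_ _) ?_
  · have := hX.hd _ _ _ (hz i)
    rwa [show i - (δ - 1) = i - δ + 1 by ring]
  · have := hX.he _ _ _ (hz (i + 1))
    rwa [show i + 1 - 1 = i by ring, show i + 1 - δ = i - (δ - 1) by ring] at this

lemma cs_tot_single_ne (d e : V →ₗ[R] V) (m i : ℤ) (y : V) (h1 : i ≠ m) (h2 : i + 1 ≠ m) :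
    totD d e (Pi.single m y) i = 0 := by
  rw [cs_tot_apply, Pi.single_eq_of_ne h1, Pi.single_eq_of_ne h2]
  simp

lemma cs_single_mem (X : ℤ → ℤ → Submodule R V) (δ m : ℤ) (y : V) (hy : y ∈ X m (m - δ)) :
    (Pi.single m y : ℤ → V) ∈ TT X δ := by
  rw [cs_mem_TT]
  intro i
  by_cases h : i = m
  · subst h
    rwa [Pi.single_eq_same]
  · rw [Pi.single_eq_of_ne h]
    exact Submodule.zero_mem _

/-- exact columns: the total complex is exact. -/
theorem cs_col (n : ℕ) (d e : V →ₗ[R] V) (hdd : ∀ v, d (d v) = 0) (hee : ∀ v, e (e v) = 0)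
    (hde : ∀ v, d (e v) = e (d v)) (X Y : ℤ → ℤ → Submodule R V) (hX : BStab d e X)
    (hY : BStab d e Y) (hout : BBox n Y)
    (h : ∀ i p v, v ∈ Y i p → e v ∈ X (i - 1) p → ∃ y ∈ Y (i + 1) p, v - e y ∈ X i p)
    (δ : ℤ) (z : ℤ → V) (hz : z ∈ TT Y δ) (hz' : totD d e z ∈ TT X (δ - 1)) :
    ∃ y ∈ TT Y (δ + 1), z - totD d e y ∈ TT X δ := by
  have main : ∀ k : ℕ, ∀ z : ℤ → V, (∀ i : ℤ, i < (n : ℤ) + 1 - k → z i ∈ X i (i - δ)) →
      z ∈ TT Y δ → totD d e z ∈ TT X (δ - 1) →
      ∃ y ∈ TT Y (δ + 1), z - totD d e y ∈ TT X δ := by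
    intro k
    induction k with
    | zero =>
      intro z h1 h2 h3
      refine ⟨0, Submodule.zero_mem _, ?_⟩
      rw [map_zero, sub_zero, cs_mem_TT]
      intro i
      by_cases hi : i < (n : ℤ) + 1
      · exact h1 i (by simpa using hi)
      · have h4 := (cs_mem_TT _ _ _).1 h2 i
        rw [hout i _ (Or.inr (by omega))] at h4
        rw [(Submodule.mem_bot R).1 h4]
        exact Submodule.zero_mem _
    | succ k ih =>
      intro z h1 h2 h3
      obtain ⟨m, hm⟩ : ∃ m : ℤ, m = (n : ℤ) - k := ⟨_, rfl⟩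
      have h1' : ∀ i : ℤ, i < m → z i ∈ X i (i - δ) := by
        intro i hi
        apply h1 i
        push_cast
        omega
      have h5 := (cs_mem_TT _ _ _).1 h3 (m - 1)
      rw [cs_tot_apply] at h5
      have h6 : d (z (m - 1)) ∈ X (m - 1) (m - 1 - (δ - 1)) := by
        have := hX.hd _ _ _ (h1' (m - 1) (by omega))
        rwa [show m - 1 - (δ - 1) = m - 1 - δ + 1 by ring]
      have h7 : e (z (m - 1 + 1)) ∈ X (m - 1) (m - 1 - (δ - 1)) :=
        (Submodule.add_mem_iff_right _ (zsmul_mem h6 _)).1 h5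
      rw [show m - 1 + 1 = m by ring, show m - 1 - (δ - 1) = m - δ by ring] at h7
      obtain ⟨y0, hy0, hy1⟩ := h m (m - δ) (z m) ((cs_mem_TT _ _ _).1 h2 m) h7
      have hy2 : (Pi.single (m + 1) y0 : ℤ → V) ∈ TT Y (δ + 1) := by
        apply cs_single_mem
        rwa [show m + 1 - (δ + 1) = m - δ by ring]
      have hy3 : totD d e (Pi.single (m + 1) y0) ∈ TT Y δ := by
        have := cs_stab d e Y hY _ _ hy2
        rwa [show δ + 1 - 1 = δ by ring] at this
      have hA : ∀ i : ℤ, i < (n : ℤ) + 1 - k →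
          (z - totD d e (Pi.single (m + 1) y0)) i ∈ X i (i - δ) := by
        intro i hi
        rcases lt_or_eq_of_le (show i ≤ m by omega) with h8 | h8
        · rw [Pi.sub_apply, cs_tot_single_ne _ _ _ _ _ (by omega) (by omega), sub_zero]
          exact h1' i h8
        · subst h8
          rw [Pi.sub_apply, cs_tot_apply, Pi.single_eq_of_ne (by omega), Pi.single_eq_same]
          simpa using hy1
      have hB : totD d e (z - totD d e (Pi.single (m + 1) y0)) ∈ TT X (δ - 1) := by
        rw [map_sub, cs_tot_sq d e hdd hee hde, sub_zero]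
        exact h3
      obtain ⟨y2, hy4, hy5⟩ := ih (z - totD d e (Pi.single (m + 1) y0)) hA
        (Submodule.sub_mem _ h2 hy3) hB
      refine ⟨Pi.single (m + 1) y0 + y2, Submodule.add_mem _ hy2 hy4, ?_⟩
      rwa [map_add, ← sub_sub]
  refine main (n + 1) z ?_ hz hz'
  intro i hi
  have h4 := (cs_mem_TT _ _ _).1 hz i
  rw [hout i _ (Or.inl (by push_cast at hi; omega))] at h4
  rw [(Submodule.mem_bot R).1 h4]
  exact Submodule.zero_mem _

/-- exact rows: the total complex is exact. -/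
theorem cs_row (n : ℕ) (d e : V →ₗ[R] V) (hdd : ∀ v, d (d v) = 0) (hee : ∀ v, e (e v) = 0)
    (hde : ∀ v, d (e v) = e (d v)) (X Y : ℤ → ℤ → Submodule R V) (hX : BStab d e X)
    (hY : BStab d e Y) (hout : BBox n Y)
    (h : ∀ i p v, v ∈ Y i p → d v ∈ X i (p + 1) → ∃ y ∈ Y i (p - 1), v - d y ∈ X i p)
    (δ : ℤ) (z : ℤ → V) (hz : z ∈ TT Y δ) (hz' : totD d e z ∈ TT X (δ - 1)) :
    ∃ y ∈ TT Y (δ + 1), z - totD d e y ∈ TT X δ := by
  have main : ∀ k : ℕ, ∀ z : ℤ → V, (∀ i : ℤ, (k : ℤ) ≤ i → z i ∈ X i (i - δ)) →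
      z ∈ TT Y δ → totD d e z ∈ TT X (δ - 1) →
      ∃ y ∈ TT Y (δ + 1), z - totD d e y ∈ TT X δ := by
    intro k
    induction k with
    | zero =>
      intro z h1 h2 h3
      refine ⟨0, Submodule.zero_mem _, ?_⟩
      rw [map_zero, sub_zero, cs_mem_TT]
      intro i
      by_cases hi : 0 ≤ i
      · exact h1 i (by simpa using hi)
      · have h4 := (cs_mem_TT _ _ _).1 h2 i
        rw [hout i _ (Or.inl (by omega))] at h4
        rw [(Submodule.mem_bot R).1 h4]
        exact Submodule.zero_mem _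
    | succ k ih =>
      intro z h1 h2 h3
      obtain ⟨m, hm⟩ : ∃ m : ℤ, m = (k : ℤ) := ⟨_, rfl⟩
      have h1' : ∀ i : ℤ, m < i → z i ∈ X i (i - δ) := by
        intro i hi
        apply h1 i
        push_cast
        omega
      have h5 := (cs_mem_TT _ _ _).1 h3 m
      rw [cs_tot_apply] at h5
      have h6 : e (z (m + 1)) ∈ X m (m - (δ - 1)) := by
        have := hX.he _ _ _ (h1' (m + 1) (by omega))
        rwa [show m + 1 - 1 = m by ring, show m + 1 - δ = m - (δ - 1) by ring] at this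
      have h7 : d (z m) ∈ X m (m - (δ - 1)) :=
        cs_neg_mem m _ _ ((Submodule.add_mem_iff_left _ h6).1 h5)
      rw [show m - (δ - 1) = m - δ + 1 by ring] at h7
      obtain ⟨y0, hy0, hy1⟩ := h m (m - δ) (z m) ((cs_mem_TT _ _ _).1 h2 m) h7
      obtain ⟨y0', hy0'⟩ : ∃ y : V, y = (m.negOnePow : ℤ) • y0 := ⟨_, rfl⟩
      have hy2 : (Pi.single m y0' : ℤ → V) ∈ TT Y (δ + 1) := by
        apply cs_single_mem
        rw [show m - (δ + 1) = m - δ - 1 by ring, hy0']
        exact zsmul_mem hy0 _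
      have hy3 : totD d e (Pi.single m y0') ∈ TT Y δ := by
        have := cs_stab d e Y hY _ _ hy2
        rwa [show δ + 1 - 1 = δ by ring] at this
      have hA : ∀ i : ℤ, (k : ℤ) ≤ i →
          (z - totD d e (Pi.single m y0')) i ∈ X i (i - δ) := by
        intro i hi
        rcases lt_or_eq_of_le (show m ≤ i by omega) with h8 | h8
        · rw [Pi.sub_apply, cs_tot_single_ne _ _ _ _ _ (by omega) (by omega), sub_zero]
          exact h1' i h8
        · subst h8
          rw [Pi.sub_apply, cs_tot_apply, Pi.single_eq_of_ne (i' := m + 1) (by omega),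
            Pi.single_eq_same, hy0', map_zsmul, cs_neg_sq, map_zero, add_zero]
          exact hy1
      have hB : totD d e (z - totD d e (Pi.single m y0')) ∈ TT X (δ - 1) := by
        rw [map_sub, cs_tot_sq d e hdd hee hde, sub_zero]
        exact h3
      obtain ⟨y2, hy4, hy5⟩ := ih (z - totD d e (Pi.single m y0')) hA
        (Submodule.sub_mem _ h2 hy3) hB
      refine ⟨Pi.single m y0' + y2, Submodule.add_mem _ hy2 hy4, ?_⟩
      rwa [map_add, ← sub_sub]
  refine main (n + 1) z ?_ hz hz'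
  intro i hi
  have h4 := (cs_mem_TT _ _ _).1 hz i
  rw [hout i _ (Or.inr (by push_cast at hi; omega))] at h4
  rw [(Submodule.mem_bot R).1 h4]
  exact Submodule.zero_mem _

end CsTot


section Cs

variable {R : Type u} [CommRing R] {Q : Type u} [AddCommGroup Q] [Module R Q] {r : ℕ}

lemma cs_dK_apply (v : KV r Q) (J : Finset (Fin (r + 1))) (I : Finset (Fin r)) (g : Gz r) :
    dK R Q r v J I g = ∑ k ∈ I, ksg k I • v J (I.erase k) g := rfl

lemma cs_XU_apply (l : Fin (r + 1)) (f : UV r Q) (I : Finset (Fin r)) (g : Gz r) :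
    XU R Q r l f I g =
      ∑ L ∈ (Finset.univ : Finset (Fin r)).powersetCard l, f I (g - exz L) := rfl

lemma cs_eX_apply (v : KV r Q) (J : Finset (Fin (r + 1))) (I : Finset (Fin r)) (g : Gz r) :
    eX R Q r v J I g = ∑ l ∈ Jᶜ, ksg l J •
      ∑ L ∈ (Finset.univ : Finset (Fin r)).powersetCard l, v (insert l J) I (g - exz L) := by
  rw [eX, kzb_apply, Finset.sum_apply, Finset.sum_apply]
  rfl

/-- families given by a support condition. -/
def csP (R : Type u) [CommRing R] (Q : Type u) [AddCommGroup Q] [Module R Q]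
    (S : ℤ → Finset (Fin r) → Gz r → Prop) (i p : ℤ) : Submodule R (KV r Q) where
  carrier := {v | ∀ J I g, v J I g ≠ 0 → (J.card : ℤ) = i ∧ (I.card : ℤ) = p ∧ S i I g}
  add_mem' := by
    intro v w hv hw J I g h
    by_cases h1 : v J I g = 0
    · refine hw J I g fun h2 => h ?_
      simp [h1, h2]
    · exact hv J I g h1
  zero_mem' := fun J I g h => absurd rfl h
  smul_mem' := by
    intro c v hv J I g h
    refine hv J I g fun h1 => h ?_
    simp [h1]

lemma csP_bstab (S : ℤ → Finset (Fin r) → Gz r → Prop)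
    (hd : ∀ i I g k, k ∈ I → S i (I.erase k) g → S i I g)
    (he : ∀ i I g L, S i I (g - exz L) → S (i - 1) I g) :
    BStab (dK R Q r) (eX R Q r) (csP R Q S) := by
  constructor
  · intro i p v hv J I g h
    rw [cs_dK_apply] at h
    obtain ⟨k, hk, h1⟩ := Finset.exists_ne_zero_of_sum_ne_zero h
    have h2 : v J (I.erase k) g ≠ 0 := fun h3 => h1 (by rw [h3, smul_zero])
    obtain ⟨h3, h4, h5⟩ := hv J _ g h2
    refine ⟨h3, ?_, hd i I g k hk h5⟩
    rw [Finset.card_erase_of_mem hk] at h4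
    have : 0 < I.card := Finset.card_pos.2 ⟨k, hk⟩
    omega
  · intro i p v hv J I g h
    rw [cs_eX_apply] at h
    obtain ⟨l, hl, h1⟩ := Finset.exists_ne_zero_of_sum_ne_zero h
    have h2 : (∑ L ∈ (Finset.univ : Finset (Fin r)).powersetCard l,
        v (insert l J) I (g - exz L)) ≠ 0 := fun h3 => h1 (by rw [h3, smul_zero])
    obtain ⟨L, hL, h3⟩ := Finset.exists_ne_zero_of_sum_ne_zero h2
    obtain ⟨h4, h5, h6⟩ := hv _ _ _ h3
    refine ⟨?_, h5, he i I g L h6⟩
    rw [Finset.card_insert_of_notMem (by simpa using hl)] at h4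
    push_cast at h4
    omega

lemma csP_box (S : ℤ → Finset (Fin r) → Gz r → Prop) : BBox (r + 1) (csP R Q S) := by
  intro i p h
  rw [eq_bot_iff]
  intro v hv
  rw [Submodule.mem_bot]
  funext J I g
  by_contra h1
  obtain ⟨h2, -, -⟩ := hv J I g h1
  have h3 : J.card ≤ r + 1 := by simpa using Finset.card_le_univ J
  rcases h with h | h
  · omega
  · push_cast at h
    omega

/-- lower bounds. -/
def csLow (I : Finset (Fin r)) (g : Gz r) : Prop := ∀ l, l ∉ I → 0 ≤ g.1 l

/-- upper bounds. -/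
def csUp (B : ℤ) (g : Gz r) : Prop := ∀ l, g.1 l ≤ B + g.2

lemma cs_sub1 (g : Gz r) (L : Finset (Fin r)) (l : Fin r) :
    (g - exz L).1 l = g.1 l - if l ∈ L then 1 else 0 := rfl

lemma cs_sub2 (g : Gz r) (L : Finset (Fin r)) : (g - exz L).2 = g.2 - 1 := rfl

lemma cs_ite (L : Finset (Fin r)) (l : Fin r) :
    (0 : ℤ) ≤ (if l ∈ L then (1 : ℤ) else 0) ∧ (if l ∈ L then (1 : ℤ) else 0) ≤ 1 := by
  split_ifs <;> omega

lemma csLow_erase {I : Finset (Fin r)} {g : Gz r} {k : Fin r} (h : csLow (I.erase k) g) :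
    csLow I g := fun l hl => h l fun h1 => hl (Finset.mem_of_mem_erase h1)

lemma csLow_up {I : Finset (Fin r)} {g : Gz r} {L : Finset (Fin r)} (h : csLow I (g - exz L)) :
    csLow I g := by
  intro l hl
  have h1 := h l hl
  rw [cs_sub1] at h1
  have := cs_ite L l
  omega

lemma cs_inG_erase {a : Fin r → ℤ} {I : Finset (Fin r)} {g : Gz r} {k : Fin r}
    (h : inG a (I.erase k) g) : inG a I g := by
  obtain ⟨l, hl, h1⟩ := h
  exact ⟨l, Finset.mem_of_mem_erase hl, h1⟩

lemma cs_inG_up {a : Fin r → ℤ} {I : Finset (Fin r)} {g : Gz r} {L : Finset (Fin r)}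
    (h : inG a I (g - exz L)) : inG a I g := by
  obtain ⟨l, hl, h1⟩ := h
  refine ⟨l, hl, ?_⟩
  rw [cs_sub1, cs_sub2] at h1
  have := cs_ite L l
  omega

lemma csUp_up {B : ℤ} {g : Gz r} {L : Finset (Fin r)} (h : csUp B (g - exz L)) : csUp B g := by
  intro l
  have h1 := h l
  rw [cs_sub1, cs_sub2] at h1
  have := cs_ite L l
  omega

variable (a : Fin r → ℤ) (B t : ℤ)

/-- support of `SF`. -/
def csS1 (i : ℤ) (I : Finset (Fin r)) (g : Gz r) : Prop :=
  (csLow I g ∧ csUp B g) ∧ (inG a I g ∨ i + g.2 = t)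

/-- support of `GF`. -/
def csS2 (i : ℤ) (I : Finset (Fin r)) (g : Gz r) : Prop :=
  (csLow I g ∧ csUp B g) ∧ inG a I g

/-- no upper bound. -/
def csS3 (i : ℤ) (I : Finset (Fin r)) (g : Gz r) : Prop :=
  csLow I g ∧ (inG a I g ∨ i + g.2 = t)

/-- no upper bound. -/
def csS4 (i : ℤ) (I : Finset (Fin r)) (g : Gz r) : Prop := csLow I g ∧ inG a I g

/-- intermediate. -/
def csS5 (i : ℤ) (I : Finset (Fin r)) (g : Gz r) : Prop :=
  csLow I g ∧ (inG a I g ∨ (i + g.2 = t ∧ csUp B g))

lemma csSt1 : BStab (dK R Q r) (eX R Q r) (csP R Q (csS1 a B t)) := by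
  apply csP_bstab
  · rintro i I g k hk ⟨⟨h1, h2⟩, h3⟩
    exact ⟨⟨csLow_erase h1, h2⟩, h3.imp cs_inG_erase id⟩
  · rintro i I g L ⟨⟨h1, h2⟩, h3⟩
    refine ⟨⟨csLow_up h1, csUp_up h2⟩, h3.imp cs_inG_up ?_⟩
    intro h
    rw [cs_sub2] at h
    omega

lemma csSt3 : BStab (dK R Q r) (eX R Q r) (csP R Q (csS3 a t)) := by
  apply csP_bstab
  · rintro i I g k hk ⟨h1, h3⟩
    exact ⟨csLow_erase h1, h3.imp cs_inG_erase id⟩
  · rintro i I g L ⟨h1, h3⟩
    refine ⟨csLow_up h1, h3.imp cs_inG_up ?_⟩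
    intro h
    rw [cs_sub2] at h
    omega

lemma csSt4 : BStab (dK R Q r) (eX R Q r) (csP R Q (csS4 a)) := by
  apply csP_bstab
  · rintro i I g k hk ⟨h1, h3⟩
    exact ⟨csLow_erase h1, cs_inG_erase h3⟩
  · rintro i I g L ⟨h1, h3⟩
    exact ⟨csLow_up h1, cs_inG_up h3⟩

lemma csSt5 : BStab (dK R Q r) (eX R Q r) (csP R Q (csS5 a B t)) := by
  apply csP_bstab
  · rintro i I g k hk ⟨h1, h3⟩
    exact ⟨csLow_erase h1, h3.imp cs_inG_erase id⟩
  · rintro i I g L ⟨h1, h3⟩
    refine ⟨csLow_up h1, h3.imp cs_inG_up ?_⟩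
    rintro ⟨h, h4⟩
    rw [cs_sub2] at h
    exact ⟨by omega, csUp_up h4⟩

lemma cs_SF : SF R Q a B t = csP R Q (csS1 a B t) := by
  funext i p
  ext v
  constructor
  · intro h J I g hne
    have h1 := h J I g
    unfold CV at h1
    by_cases h2 : (J.card : ℤ) = i ∧ (I.card : ℤ) = p ∧ inF B I g
    · rw [if_pos h2] at h1
      by_cases h3 : inG a I g
      · exact ⟨h2.1, h2.2.1, h2.2.2, Or.inl h3⟩
      · rw [if_neg h3] at h1
        by_cases h4 : i + g.2 = t
        · exact ⟨h2.1, h2.2.1, h2.2.2, Or.inr h4⟩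
        · simp only [if_neg h4] at h1
          exact absurd ((Submodule.mem_bot R).1 h1) hne
    · rw [if_neg h2] at h1
      exact absurd ((Submodule.mem_bot R).1 h1) hne
  · intro h J I g
    by_cases hne : v J I g = 0
    · rw [hne]
      exact Submodule.zero_mem _
    · obtain ⟨h1, h2, h3, h4⟩ := h J I g hne
      unfold CV
      rw [if_pos ⟨h1, h2, h3⟩]
      by_cases h5 : inG a I g
      · rw [if_pos h5]
        trivial
      · rw [if_neg h5]
        simp only [if_pos (h4.resolve_left h5)]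
        trivial

lemma cs_GF : GF R Q a B = csP R Q (csS2 a B) := by
  funext i p
  ext v
  constructor
  · intro h J I g hne
    have h1 := h J I g
    unfold CV at h1
    split_ifs at h1 with h2 h3
    · exact ⟨h2.1, h2.2.1, h2.2.2, h3⟩
    · exact absurd ((Submodule.mem_bot R).1 h1) hne
    · exact absurd ((Submodule.mem_bot R).1 h1) hne
  · intro h J I g
    by_cases hne : v J I g = 0
    · rw [hne]
      exact Submodule.zero_mem _
    · obtain ⟨h1, h2, h3, h4⟩ := h J I g hne
      unfold CV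
      rw [if_pos ⟨h1, h2, h3⟩, if_pos h4]
      trivial

/-! #### toggling -/

lemma cs_ksg_erase (l : Fin r) (I : Finset (Fin r)) : ksg l (I.erase l) = ksg l I := by
  unfold ksg
  congr 2
  ext k
  simp only [Finset.mem_filter, Finset.mem_erase]
  constructor
  · rintro ⟨⟨-, h1⟩, h2⟩
    exact ⟨h1, h2⟩
  · rintro ⟨h1, h2⟩
    exact ⟨⟨h2.ne, h1⟩, h2⟩

lemma cs_ksg_insert (l : Fin r) (I : Finset (Fin r)) : ksg l (insert l I) = ksg l I := by
  rw [← cs_ksg_erase l (insert l I)]
  by_cases h : l ∈ I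
  · rw [Finset.insert_eq_of_mem h, cs_ksg_erase]
  · rw [Finset.erase_insert h]

lemma cs_toggle (l : Fin r) (φ : Finset (Fin r) → Q) (I : Finset (Fin r)) :
    (∑ k ∈ I, ksg k I • (if l ∈ I.erase k then (0 : Q)
        else ksg l (I.erase k) • φ (insert l (I.erase k)))) +
      (if l ∈ I then (0 : Q) else ksg l I •
        ∑ k ∈ insert l I, ksg k (insert l I) • φ ((insert l I).erase k)) = φ I := by
  by_cases hl : l ∈ I
  · rw [if_pos hl, add_zero, Finset.sum_eq_single l]
    · rw [if_neg (by simp), cs_ksg_erase, smul_smul, kzb_ksg_mul_self, one_smul,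
        Finset.insert_erase hl]
    · intro k hk hkl
      rw [if_pos (Finset.mem_erase.2 ⟨Ne.symm hkl, hl⟩), smul_zero]
    · intro h
      exact absurd hl h
  · rw [if_neg hl, Finset.sum_insert hl, smul_add, smul_smul, cs_ksg_insert, kzb_ksg_mul_self,
      one_smul, Finset.erase_insert hl, Finset.smul_sum, add_left_comm, ← Finset.sum_add_distrib]
    rw [add_eq_left]
    apply Finset.sum_eq_zero
    intro k hk
    have hkl : l ≠ k := by
      rintro rfl
      exact hl hk
    have h1 : l ∉ I.erase k := fun h => hl (Finset.mem_of_mem_erase h)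
    have h2 : (insert l I).erase k = insert l (I.erase k) := Finset.erase_insert_of_ne hkl
    rw [if_neg h1, h2, smul_smul, smul_smul, ← add_smul]
    have h3 := kzb_ksg_anti' h1 (Finset.notMem_erase k I) hkl
    rw [Finset.insert_erase hk, ← h2, ← cs_ksg_insert k ((insert l I).erase k),
      Finset.insert_erase (Finset.mem_insert_of_mem hk), cs_ksg_erase] at h3
    rw [show ksg k I * ksg l (I.erase k) + ksg l I * ksg k (insert l I) = 0 by
      linear_combination h3, zero_smul]

end Cs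

section Cs2

variable {R : Type u} [CommRing R] {Q : Type u} [AddCommGroup Q] [Module R Q] {r : ℕ}
variable (a : Fin r → ℤ) (B t : ℤ)

open Classical in
/-- the contraction of the rows. -/
noncomputable def csh (B t i : ℤ) (v : KV r Q) : KV r Q := fun J I g =>
  if h : i + g.2 = t ∧ ∃ l, B + g.2 < g.1 l then
    (if h.2.choose ∈ I then 0 else ksg h.2.choose I • v J (insert h.2.choose I) g)
  else 0

theorem cs_rowex (h1 : ∀ l, a l ≤ B) (h2 : (r : ℤ) ≤ B + t) (i p : ℤ) (v : KV r Q)
    (hv : v ∈ csP R Q (csS3 a t) i p) (hdv : dK R Q r v ∈ csP R Q (csS5 a B t) i (p + 1)) :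
    ∃ y ∈ csP R Q (csS3 a t) i (p - 1), v - dK R Q r y ∈ csP R Q (csS5 a B t) i p := by
  classical
  have hB : ∀ J I (g : Gz r), v J I g ≠ 0 → i + g.2 = t → -1 ≤ B + g.2 := by
    intro J I g hne hg
    have := (hv J I g hne).1
    have h3 : J.card ≤ r + 1 := by simpa using Finset.card_le_univ J
    omega
  have hy : csh B t i v ∈ csP R Q (csS3 a t) i (p - 1) := by
    intro J I g hne
    unfold csh at hne
    split_ifs at hne with h h'
    · exact absurd rfl hne
    · have hl := h.2.choose_spec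
      have hne' : v J (insert h.2.choose I) g ≠ 0 := fun h3 => hne (by rw [h3, smul_zero])
      obtain ⟨h3, h4, h5, -⟩ := hv _ _ _ hne'
      refine ⟨h3, ?_, ?_, Or.inr h.1⟩
      · rw [Finset.card_insert_of_notMem h'] at h4
        push_cast at h4
        omega
      · intro k hk
        by_cases hkl : k = h.2.choose
        · have h6 := hB _ _ _ hne' h.1
          rw [hkl]
          omega
        · exact h5 k (by simp [hkl, hk])
    · exact absurd rfl hne
  refine ⟨_, hy, ?_⟩
  intro J I g hne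
  have hx : v - dK R Q r (csh B t i v) ∈ csP R Q (csS3 a t) i p := by
    refine Submodule.sub_mem _ hv ?_
    have := (csSt3 (R := R) (Q := Q) a t).hd _ _ _ hy
    rwa [sub_add_cancel] at this
  obtain ⟨h3, h4, h5, h6⟩ := hx J I g hne
  refine ⟨h3, h4, h5, ?_⟩
  by_cases hG : inG a I g
  · exact Or.inl hG
  · refine Or.inr ⟨h6.resolve_left hG, ?_⟩
    by_contra hup
    apply hne
    have hup' : ∃ l, B + g.2 < g.1 l := by
      simpa [csUp] using hup
    have hc : i + g.2 = t ∧ ∃ l, B + g.2 < g.1 l := ⟨h6.resolve_left hG, hup'⟩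
    have htog := cs_toggle hc.2.choose (fun I' => v J I' g) I
    have e1 : dK R Q r (csh B t i v) J I g = ∑ k ∈ I, ksg k I •
        (if hc.2.choose ∈ I.erase k then (0 : Q)
        else ksg hc.2.choose (I.erase k) • v J (insert hc.2.choose (I.erase k)) g) := by
      rw [cs_dK_apply]
      refine Finset.sum_congr rfl fun k _ => ?_
      unfold csh
      rw [dif_pos hc]
    have e2 : (if hc.2.choose ∈ I then (0 : Q) else ksg hc.2.choose I •
        ∑ k ∈ insert hc.2.choose I, ksg k (insert hc.2.choose I) •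
          v J ((insert hc.2.choose I).erase k) g) = 0 := by
      split_ifs with h7
      · rfl
      · have h8 : dK R Q r v J (insert hc.2.choose I) g = 0 := by
          by_contra h9
          obtain ⟨-, -, -, h10⟩ := hdv _ _ _ h9
          rcases h10 with ⟨k, hk, h11⟩ | ⟨-, h10⟩
          · rcases Finset.mem_insert.1 hk with h12 | h12
            · have := hc.2.choose_spec
              have := h1 k
              rw [h12] at h11 this
              omega
            · exact hG ⟨k, h12, h11⟩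
          · obtain ⟨l, hl⟩ := hup'
            have := h10 l
            omega
        rw [cs_dK_apply] at h8
        rw [h8, smul_zero]
    rw [e2, add_zero, ← e1] at htog
    rw [Pi.sub_apply, Pi.sub_apply, Pi.sub_apply, htog, sub_self]

/-! #### columns -/

/-- the valid cells of degree `p` (no upper bound) -/
def csV (a : Fin r → ℤ) (p : ℕ) (I : Finset (Fin r)) (g : Gz r) : Prop :=
  I.card = p ∧ csLow I g ∧ ¬ inG a I g

open Classical in
/-- cut off -/
noncomputable def csCut (R : Type u) [CommRing R] (Q : Type u) [AddCommGroup Q] [Module R Q]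
    (a : Fin r → ℤ) (p : ℕ) : UV r Q →ₗ[R] UV r Q where
  toFun f I g := if csV a p I g then f I g else 0
  map_add' f f' := by
    funext I g
    simp only [Pi.add_apply]
    split_ifs <;> simp
  map_smul' c f := by
    funext I g
    simp only [Pi.smul_apply, RingHom.id_apply]
    split_ifs <;> simp

lemma csCut_pos (p : ℕ) (f : UV r Q) {I : Finset (Fin r)} {g : Gz r} (h : csV a p I g) :
    csCut R Q a p f I g = f I g := by
  classical
  show (if _ then _ else _) = _
  rw [if_pos h]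

lemma csCut_neg (p : ℕ) (f : UV r Q) {I : Finset (Fin r)} {g : Gz r} (h : ¬ csV a p I g) :
    csCut R Q a p f I g = 0 := by
  classical
  show (if _ then _ else _) = _
  rw [if_neg h]

/-- functions on the valid cells. -/
noncomputable abbrev csM (R : Type u) [CommRing R] (Q : Type u) [AddCommGroup Q] [Module R Q]
    (a : Fin r → ℤ) (p : ℕ) : Submodule R (UV r Q) := LinearMap.range (csCut R Q a p)

lemma csM_iff (p : ℕ) (f : UV r Q) : f ∈ csM R Q a p ↔ ∀ I g, f I g ≠ 0 → csV a p I g := by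
  constructor
  · rintro ⟨f', rfl⟩ I g h
    by_contra h1
    exact h (csCut_neg a p f' h1)
  · intro h
    refine ⟨f, ?_⟩
    funext I g
    by_cases h1 : csV a p I g
    · exact csCut_pos a p f h1
    · rw [csCut_neg a p f h1]
      by_contra h2
      exact h1 (h I g (Ne.symm h2))

/-- the operators on the functions on the valid cells. -/
noncomputable def csT (R : Type u) [CommRing R] (Q : Type u) [AddCommGroup Q] [Module R Q]
    (a : Fin r → ℤ) (p : ℕ) (l : Fin (r + 1)) : ↥(csM R Q a p) →ₗ[R] ↥(csM R Q a p) :=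
  (csCut R Q a p).rangeRestrict ∘ₗ XU R Q r l ∘ₗ (csM R Q a p).subtype

lemma csT_coe (p : ℕ) (l : Fin (r + 1)) (f : ↥(csM R Q a p)) :
    (csT R Q a p l f : UV r Q) = csCut R Q a p (XU R Q r l f) := rfl

lemma csV_conv {p : ℕ} {I : Finset (Fin r)} {g : Gz r} (L : Finset (Fin r)) (h : csV a p I g)
    (h' : csLow I (g - exz L)) : csV a p I (g - exz L) :=
  ⟨h.1, h', fun h3 => h.2.2 (cs_inG_up h3)⟩

/-- cutting off before applying `X` does not matter. -/
lemma cs_cutX (p : ℕ) (l : Fin (r + 1)) (f : UV r Q)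
    (hf : ∀ I g, f I g ≠ 0 → csLow I g) :
    csCut R Q a p (XU R Q r l (csCut R Q a p f)) = csCut R Q a p (XU R Q r l f) := by
  funext I g
  by_cases h : csV a p I g
  · rw [csCut_pos a p _ h, csCut_pos a p _ h, cs_XU_apply, cs_XU_apply]
    refine Finset.sum_congr rfl fun L _ => ?_
    by_cases h1 : f I (g - exz L) = 0
    · by_cases h2 : csV a p I (g - exz L)
      · rw [csCut_pos a p _ h2]
      · rw [csCut_neg a p _ h2, h1]
    · rw [csCut_pos a p _ (csV_conv a L h (hf _ _ h1))]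
  · rw [csCut_neg a p _ h, csCut_neg a p _ h]

lemma csT_comm (p : ℕ) (k l : Fin (r + 1)) (f : ↥(csM R Q a p)) :
    csT R Q a p k (csT R Q a p l f) = csT R Q a p l (csT R Q a p k f) := by
  have hf : ∀ l : Fin (r + 1), ∀ I g, XU R Q r l (f : UV r Q) I g ≠ 0 → csLow I g := by
    intro l I g h
    rw [cs_XU_apply] at h
    obtain ⟨L, -, h1⟩ := Finset.exists_ne_zero_of_sum_ne_zero h
    exact csLow_up ((csM_iff a p _).1 f.2 _ _ h1).2.1
  apply Subtype.ext
  rw [csT_coe, csT_coe, csT_coe, csT_coe, cs_cutX a p k _ (hf l), cs_cutX a p l _ (hf k),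
    XU_comm]

/-- the size outside `I`. -/
def csK (I : Finset (Fin r)) (g : Gz r) : ℕ := (∑ l ∈ Iᶜ, g.1 l).toNat

lemma csV_shift {p : ℕ} {I : Finset (Fin r)} {g : Gz r} :
    csV a p I (g + exz I) ↔ csV a p I g := by
  have e1 : ∀ l, (g + exz I).1 l = g.1 l + if l ∈ I then 1 else 0 := fun l => rfl
  have e2 : (g + exz I).2 = g.2 + 1 := rfl
  have h1 : csLow I (g + exz I) ↔ csLow I g := by
    constructor
    · intro h l hl
      have := h l hl
      rwa [e1, if_neg hl, add_zero] at this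
    · intro h l hl
      rw [e1, if_neg hl, add_zero]
      exact h l hl
  have h2 : inG a I (g + exz I) ↔ inG a I g := by
    constructor
    · rintro ⟨l, hl, h⟩
      refine ⟨l, hl, ?_⟩
      rw [e1, if_pos hl, e2] at h
      omega
    · rintro ⟨l, hl, h⟩
      refine ⟨l, hl, ?_⟩
      rw [e1, if_pos hl, e2]
      omega
  unfold csV
  rw [h1, h2]

lemma csK_lt {p : ℕ} {I : Finset (Fin r)} {g : Gz r} (hI : I.card = p) {L : Finset (Fin r)}
    (hL : L.card = p) (hLI : L ≠ I) (hlow : csLow I (g + exz I - exz L)) :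
    csK I (g + exz I - exz L) < csK I g := by
  obtain ⟨l, hl, hl'⟩ : ∃ l ∈ L, l ∉ I := by
    by_contra h
    push Not at h
    exact hLI (Finset.eq_of_subset_of_card_le h (by omega))
  have e1 : ∀ k ∈ Iᶜ, (g + exz I - exz L).1 k = g.1 k - if k ∈ L then 1 else 0 := by
    intro k hk
    show g.1 k + (if k ∈ I then 1 else 0) - (if k ∈ L then 1 else 0) = _
    rw [if_neg (by simpa using hk), add_zero]
  have h1 : ∑ k ∈ Iᶜ, (g + exz I - exz L).1 k < ∑ k ∈ Iᶜ, g.1 k := by
    apply Finset.sum_lt_sum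
    · intro k hk
      rw [e1 k hk]
      have := cs_ite L k
      omega
    · refine ⟨l, by simpa using hl', ?_⟩
      rw [e1 l (by simpa using hl'), if_pos hl]
      omega
  have h2 : 0 ≤ ∑ k ∈ Iᶜ, (g + exz I - exz L).1 k :=
    Finset.sum_nonneg fun k hk => hlow k (by simpa using hk)
  unfold csK
  omega

lemma cs_XU_split (p : ℕ) (hp : p < r + 1) (f : UV r Q) {I : Finset (Fin r)} (hI : I.card = p)
    (g : Gz r) :
    XU R Q r ⟨p, hp⟩ f I (g + exz I) = f I g +
      ∑ L ∈ ((Finset.univ : Finset (Fin r)).powersetCard p).erase I, f I (g + exz I - exz L) := by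
  rw [cs_XU_apply]
  show ∑ L ∈ (Finset.univ : Finset (Fin r)).powersetCard p, _ = _
  rw [← Finset.add_sum_erase _ _ (Finset.mem_powersetCard.2 ⟨Finset.subset_univ I, hI⟩),
    add_sub_cancel_right]

lemma cs_mem_erase {p : ℕ} {I L : Finset (Fin r)}
    (hL : L ∈ ((Finset.univ : Finset (Fin r)).powersetCard p).erase I) : L ≠ I ∧ L.card = p := by
  rw [Finset.mem_erase, Finset.mem_powersetCard] at hL
  exact ⟨hL.1, hL.2.2⟩

lemma csT_inj (p : ℕ) (hp : p < r + 1) : Function.Injective (csT R Q a p ⟨p, hp⟩) := by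
  rw [injective_iff_map_eq_zero]
  intro f hf
  have key : ∀ n : ℕ, ∀ I g, csK I g < n → (f : UV r Q) I g = 0 := by
    intro n
    induction n with
    | zero => intro I g h; omega
    | succ n ih =>
      intro I g h
      by_contra hne
      have hV := (csM_iff a p _).1 f.2 I g hne
      have h1 : csCut R Q a p (XU R Q r ⟨p, hp⟩ f) I (g + exz I) = 0 := by
        rw [← csT_coe, hf]
        rfl
      rw [csCut_pos a p _ ((csV_shift a).2 hV), cs_XU_split p hp _ hV.1, Finset.sum_eq_zero,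
        add_zero] at h1
      · exact hne h1
      · intro L hL
        obtain ⟨h2, h3⟩ := cs_mem_erase hL
        by_contra h4
        have h5 := (csM_iff a p _).1 f.2 I _ h4
        exact h4 (ih _ _ (lt_of_lt_of_le (csK_lt hV.1 h3 h2 h5.2.1) (by omega)))
  apply Subtype.ext
  funext I g
  exact key _ I g (Nat.lt_succ_self _)

open Classical in
/-- approximations of the inverse. -/
noncomputable def csS (a : Fin r → ℤ) (p : ℕ) (f : UV r Q) : ℕ → UV r Q
  | 0 => 0
  | n + 1 => fun I g => if csV a p I g then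
      f I (g + exz I) - ∑ L ∈ ((Finset.univ : Finset (Fin r)).powersetCard p).erase I,
        csS a p f n I (g + exz I - exz L) else 0

lemma csS_supp (p : ℕ) (f : UV r Q) (n : ℕ) (I : Finset (Fin r)) (g : Gz r)
    (h : csS a p f n I g ≠ 0) : csV a p I g := by
  classical
  cases n with
  | zero => exact absurd rfl h
  | succ n =>
    by_contra h1
    apply h
    show (if _ then _ else _) = _
    rw [if_neg h1]

lemma csS_stab (p : ℕ) (f : UV r Q) : ∀ (n m : ℕ) (I : Finset (Fin r)) (g : Gz r),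
    csK I g < n → csK I g < m → csS a p f n I g = csS a p f m I g := by
  classical
  intro n
  induction n with
  | zero => intro m I g h; omega
  | succ n ih =>
    intro m I g h1 h2
    cases m with
    | zero => omega
    | succ m =>
      show (if _ then _ else _) = (if _ then _ else _)
      by_cases hV : csV a p I g
      · rw [if_pos hV, if_pos hV]
        congr 1
        refine Finset.sum_congr rfl fun L hL => ?_
        obtain ⟨h3, h4⟩ := cs_mem_erase hL
        by_cases h5 : csLow I (g + exz I - exz L)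
        · have h6 := csK_lt hV.1 h4 h3 h5
          exact ih m _ _ (by omega) (by omega)
        · have h7 : ∀ k, csS a p f k I (g + exz I - exz L) = 0 := by
            intro k
            by_contra h8
            exact h5 (csS_supp a p f k _ _ h8).2.1
          rw [h7, h7]
      · rw [if_neg hV, if_neg hV]

lemma csT_surj (p : ℕ) (hp : p < r + 1) : Function.Surjective (csT R Q a p ⟨p, hp⟩) := by
  classical
  intro f
  obtain ⟨y, hy⟩ : ∃ y : UV r Q, y = fun I g => csS a p (f : UV r Q) (csK I g + 1) I g :=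
    ⟨_, rfl⟩
  have hyM : y ∈ csM R Q a p := by
    rw [csM_iff]
    intro I g h
    rw [hy] at h
    exact csS_supp a p _ _ _ _ h
  refine ⟨⟨y, hyM⟩, ?_⟩
  apply Subtype.ext
  rw [csT_coe]
  funext I g'
  obtain ⟨g, rfl⟩ : ∃ g, g' = g + exz I := ⟨g' - exz I, by rw [sub_add_cancel]⟩
  by_cases hV : csV a p I (g + exz I)
  · rw [csCut_pos a p _ hV]
    have hV' := (csV_shift a).1 hV
    show XU R Q r ⟨p, hp⟩ y I (g + exz I) = _
    rw [cs_XU_split p hp _ hV.1]
    have e1 : y I g = (f : UV r Q) I (g + exz I) -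
        ∑ L ∈ ((Finset.univ : Finset (Fin r)).powersetCard p).erase I,
          csS a p f (csK I g) I (g + exz I - exz L) := by
      rw [hy]
      show (if _ then _ else _) = _
      rw [if_pos hV']
    have e2 : ∀ L ∈ ((Finset.univ : Finset (Fin r)).powersetCard p).erase I,
        csS a p (f : UV r Q) (csK I g) I (g + exz I - exz L) = y I (g + exz I - exz L) := by
      intro L hL
      obtain ⟨h3, h4⟩ := cs_mem_erase hL
      by_cases h5 : csLow I (g + exz I - exz L)
      · have h6 := csK_lt hV.1 h4 h3 h5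
        rw [hy]
        exact csS_stab a p _ _ _ _ _ h6 (Nat.lt_succ_self _)
      · have h7 : ∀ k, csS a p (f : UV r Q) k I (g + exz I - exz L) = 0 := by
          intro k
          by_contra h8
          exact h5 (csS_supp a p _ k _ _ h8).2.1
        rw [hy, h7]
        exact (h7 _).symm
    rw [e1, Finset.sum_congr rfl e2]
    abel
  · rw [csCut_neg a p _ hV]
    by_contra h
    exact hV ((csM_iff a p _).1 f.2 _ _ (Ne.symm h))

theorem cs_colex (i p : ℤ) (v : KV r Q) (hv : v ∈ csP R Q (csS3 a t) i p)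
    (hev : eX R Q r v ∈ csP R Q (csS4 a) (i - 1) p) :
    ∃ y ∈ csP R Q (csS3 a t) (i + 1) p, v - eX R Q r y ∈ csP R Q (csS4 a) i p := by
  classical
  by_cases hp : 0 ≤ p ∧ p ≤ r
  · obtain ⟨q, rfl⟩ := Int.eq_ofNat_of_zero_le hp.1
    have hq : q < r + 1 := by omega
    obtain ⟨ρ, hρ⟩ : ∃ ρ : UV r Q →ₗ[R] ↥(csM R Q a q), ρ = (csCut R Q a q).rangeRestrict :=
      ⟨_, rfl⟩
    have hρc : ∀ f, (ρ f : UV r Q) = csCut R Q a q f := by
      intro f
      rw [hρ]
      rfl
    have hw : (fun J => ρ (v J)) ∈ kcyc (csT R Q a q) i := by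
      constructor
      · intro J hJ
        have h1 : v J ≠ 0 := fun h => hJ (by simp only [h, map_zero])
        obtain ⟨I, hI⟩ := Function.ne_iff.1 h1
        obtain ⟨g, hg⟩ := Function.ne_iff.1 hI
        exact (hv J I g hg).1
      · rw [SetLike.mem_coe, LinearMap.mem_ker]
        funext J
        rw [kzb_apply]
        have e1 : ∀ l ∈ Jᶜ, ksg l J • csT R Q a q l (ρ (v (insert l J))) =
            ρ (ksg l J • XU R Q r l (v (insert l J))) := by
          intro l _
          rw [map_zsmul]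
          congr 1
          apply Subtype.ext
          rw [csT_coe, hρc, hρc]
          exact cs_cutX a q l _ fun I g h => (hv _ I g h).2.2.1
        rw [Finset.sum_congr rfl e1, ← map_sum]
        show ρ (eX R Q r v J) = 0
        apply Subtype.ext
        rw [hρc]
        funext I g
        by_cases hV : csV a q I g
        · rw [csCut_pos a q _ hV]
          by_contra h
          exact hV.2.2 (hev J I g h).2.2.2
        · rw [csCut_neg a q _ hV]
          rfl
    obtain ⟨y', hy', hy''⟩ := kz_exact (csT R Q a q) (fun k l f => csT_comm a q k l f) ⟨q, hq⟩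
      ⟨csT_inj a q hq, csT_surj a q hq⟩ i hw
    obtain ⟨y, hy⟩ : ∃ y : KV r Q, y = fun J I g =>
        if i + 1 + g.2 = t then (y' J : UV r Q) I g else 0 := ⟨_, rfl⟩
    have hyY : y ∈ csP R Q (csS3 a t) (i + 1) q := by
      intro J I g h
      rw [hy] at h
      simp only at h
      split_ifs at h with h1
      · have h2 : y' J ≠ 0 := by
          intro h3
          rw [h3] at h
          exact h rfl
        have h3 := (csM_iff a q _).1 (y' J).2 I g h
        exact ⟨hy' J h2, by exact_mod_cast h3.1, h3.2.1, Or.inr h1⟩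
      · exact absurd rfl h
    refine ⟨y, hyY, ?_⟩
    have hx : v - eX R Q r y ∈ csP R Q (csS3 a t) i q := by
      refine Submodule.sub_mem _ hv ?_
      have := (csSt3 (R := R) (Q := Q) a t).he _ _ _ hyY
      rwa [add_sub_cancel_right] at this
    intro J I g hne
    obtain ⟨h3, h4, h5, h6⟩ := hx J I g hne
    refine ⟨h3, h4, h5, ?_⟩
    by_contra hG
    apply hne
    have hV : csV a q I g := ⟨by exact_mod_cast h4, h5, hG⟩
    have ht := h6.resolve_left hG
    have e1 : eX R Q r y J I g = v J I g := by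
      have e2 : kz (csT R Q a q) y' J = ρ (v J) := congrFun hy'' J
      have e3 : (kz (csT R Q a q) y' J : UV r Q) I g = v J I g := by
        rw [e2, hρc, csCut_pos a q _ hV]
      rw [← e3, kzb_apply, cs_eX_apply, Submodule.coe_sum, Finset.sum_apply, Finset.sum_apply]
      refine Finset.sum_congr rfl fun l _ => ?_
      rw [Submodule.coe_smul_of_tower, Pi.smul_apply, Pi.smul_apply, csT_coe,
        csCut_pos a q _ hV, cs_XU_apply]
      congr 1
      refine Finset.sum_congr rfl fun L _ => ?_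
      rw [hy]
      simp only
      rw [if_pos (by rw [cs_sub2]; omega)]
    rw [Pi.sub_apply, Pi.sub_apply, Pi.sub_apply, e1, sub_self]
  · have hv0 : v = 0 := by
      funext J I g
      by_contra h
      have h1 := (hv J I g h).2.1
      have h2 : I.card ≤ r := by simpa using Finset.card_le_univ I
      exact hp ⟨by omega, by omega⟩
    refine ⟨0, Submodule.zero_mem _, ?_⟩
    rw [hv0, map_zero, sub_zero]
    exact Submodule.zero_mem _

/-- `X_p` is bijective on the cells of Čech degree `p` when the `s_l` are not bounded above; the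
columns are contractible; then cut off at `s_l ≤ B + j` by exactness of the rows. -/
theorem strand_exact (t : ℤ) (h1 : ∀ l, a l ≤ B) (h2 : (r : ℤ) ≤ B + t) (δ : ℤ) :
    zz (totD (dK R Q r) (eX R Q r)) (TT (SF R Q a B t)) (TT (GF R Q a B)) δ ≤
      bb (totD (dK R Q r) (eX R Q r)) (TT (SF R Q a B t)) (TT (GF R Q a B)) δ := by
  classical
  rw [cs_SF, cs_GF]
  rintro z ⟨hz, hz'⟩
  rw [SetLike.mem_coe, Submodule.mem_comap] at hz'
  have hDD := cs_tot_sq (dK R Q r) (eX R Q r) dK_sq eX_sq dK_eX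
  have m1 : ∀ i p, csP R Q (csS1 a B t) i p ≤ csP R Q (csS3 a t) i p := by
    intro i p v hv J I g h
    obtain ⟨h3, h4, h5, h6⟩ := hv J I g h
    exact ⟨h3, h4, h5.1, h6⟩
  have m2 : ∀ i p, csP R Q (csS2 a B) i p ≤ csP R Q (csS4 a) i p := by
    intro i p v hv J I g h
    obtain ⟨h3, h4, h5, h6⟩ := hv J I g h
    exact ⟨h3, h4, h5.1, h6⟩
  have m3 : ∀ i p, csP R Q (csS4 a) i p ≤ csP R Q (csS5 a B t) i p := by
    intro i p v hv J I g h
    obtain ⟨h3, h4, h5, h6⟩ := hv J I g h
    exact ⟨h3, h4, h5, Or.inl h6⟩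
  have m4 : ∀ i p, csP R Q (csS1 a B t) i p ≤ csP R Q (csS5 a B t) i p := by
    intro i p v hv J I g h
    obtain ⟨h3, h4, h5, h6⟩ := hv J I g h
    exact ⟨h3, h4, h5.1, h6.imp id fun h7 => ⟨h7, h5.2⟩⟩
  have mono : ∀ (X Y : ℤ → ℤ → Submodule R (KV r Q)), (∀ i p, X i p ≤ Y i p) → ∀ δ z,
      z ∈ TT X δ → z ∈ TT Y δ := by
    intro X Y h δ z hz
    rw [cs_mem_TT] at hz ⊢
    exact fun i => h _ _ (hz i)
  obtain ⟨y', hy1, hy2⟩ := cs_col (r + 1) (dK R Q r) (eX R Q r) dK_sq eX_sq dK_eX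
    (csP R Q (csS4 a)) (csP R Q (csS3 a t)) (csSt4 a) (csSt3 a t) (csP_box _)
    (fun i p v h h' => cs_colex a t i p v h h') δ z (mono _ _ m1 _ _ hz) (mono _ _ m2 _ _ hz')
  have hy3 : totD (dK R Q r) (eX R Q r) y' ∈ TT (csP R Q (csS5 a B t)) (δ + 1 - 1) := by
    rw [add_sub_cancel_right]
    have : totD (dK R Q r) (eX R Q r) y' = z - (z - totD (dK R Q r) (eX R Q r) y') := by abel
    rw [this]
    exact Submodule.sub_mem _ (mono _ _ m4 _ _ hz) (mono _ _ m3 _ _ hy2)
  obtain ⟨y'', hy4, hy5⟩ := cs_row (r + 1) (dK R Q r) (eX R Q r) dK_sq eX_sq dK_eX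
    (csP R Q (csS5 a B t)) (csP R Q (csS3 a t)) (csSt5 a B t) (csSt3 a t) (csP_box _)
    (fun i p v h h' => cs_rowex a B t h1 h2 i p v h h') (δ + 1) y' hy1 hy3
  obtain ⟨w, hw⟩ : ∃ w, w = y' - totD (dK R Q r) (eX R Q r) y'' := ⟨_, rfl⟩
  rw [← hw] at hy5
  obtain ⟨y, hy⟩ : ∃ y : ℤ → KV r Q, y = fun i J I g => if csUp B g then w i J I g else 0 :=
    ⟨_, rfl⟩
  have hyY : y ∈ TT (csP R Q (csS1 a B t)) (δ + 1) := by
    rw [cs_mem_TT] at hy5 ⊢
    intro i J I g h
    rw [hy] at h
    simp only at h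
    split_ifs at h with h7
    · obtain ⟨h3, h4, h5, h6⟩ := hy5 i J I g h
      exact ⟨h3, h4, ⟨h5, h7⟩, h6.imp id And.left⟩
    · exact absurd rfl h
  have hx2 : w - y ∈ TT (csP R Q (csS4 a)) (δ + 1) := by
    rw [cs_mem_TT] at hy5 ⊢
    intro i J I g h
    have h' : w i J I g - y i J I g ≠ 0 := h
    rw [hy] at h'
    simp only at h'
    split_ifs at h' with h7
    · exact absurd (sub_self _) h'
    · rw [sub_zero] at h'
      obtain ⟨h3, h4, h5, h6⟩ := hy5 i J I g h'
      exact ⟨h3, h4, h5, h6.resolve_right fun h8 => h7 h8.2⟩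
  refine Submodule.mem_sup.2 ⟨totD (dK R Q r) (eX R Q r) y, ⟨y, hyY, rfl⟩,
    z - totD (dK R Q r) (eX R Q r) y, ?_, by abel⟩
  have hA : z - totD (dK R Q r) (eX R Q r) y ∈ TT (csP R Q (csS1 a B t)) δ := by
    refine Submodule.sub_mem _ hz ?_
    have := cs_stab _ _ _ (csSt1 (R := R) (Q := Q) a B t) _ _ hyY
    rwa [add_sub_cancel_right] at this
  have hC : z - totD (dK R Q r) (eX R Q r) y ∈ TT (csP R Q (csS4 a)) δ := by
    have e1 : z - totD (dK R Q r) (eX R Q r) y = (z - totD (dK R Q r) (eX R Q r) y') +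
        totD (dK R Q r) (eX R Q r) (w - y) := by
      rw [hw, map_sub, map_sub, hDD]
      abel
    rw [e1]
    refine Submodule.add_mem _ hy2 ?_
    have := cs_stab _ _ _ (csSt4 (R := R) (Q := Q) a) _ _ hx2
    rwa [add_sub_cancel_right] at this
  rw [cs_mem_TT] at hA hC ⊢
  intro i J I g h
  obtain ⟨h3, h4, h5, h6⟩ := hA i J I g h
  exact ⟨h3, h4, h5, (hC i J I g h).2.2.2⟩

end Cs2

end Vale.Agent.P202.Mix
end

section

/-!
P202-MIX, part GEO, task B6: `Y_{w₀} / Y_w` is acyclic.
-/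

namespace Vale.Agent.P202.Mix

open Vale.Agent.P202.CharP
open scoped ENNReal

universe u

section

variable {R : Type u} [CommRing R]

/-- exactness of `Z / Y` and of `Y / X` gives exactness of `Z / X`. -/
theorem zz_bb_trans {M : Type u} [AddCommGroup M] [Module R M] (D : M →ₗ[R] M)
    (hD : ∀ x, D (D x) = 0) (X Y Z : ℤ → Submodule R M) (hXY : ∀ δ, X δ ≤ Y δ)
    (hYZ : ∀ δ, Y δ ≤ Z δ) (δ : ℤ) (h1 : zz D Y X δ ≤ bb D Y X δ)
    (h2 : zz D Z Y δ ≤ bb D Z Y δ) : zz D Z X δ ≤ bb D Z X δ := by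
  intro z hz
  obtain ⟨hz1, hz2⟩ := Submodule.mem_inf.1 hz
  rw [Submodule.mem_comap] at hz2
  have h3 := h2 (Submodule.mem_inf.2 ⟨hz1, hXY _ hz2⟩)
  obtain ⟨_, ⟨z', hz', rfl⟩, y, hy, rfl⟩ := Submodule.mem_sup.1 h3
  have h4 : D y ∈ X (δ - 1) := by
    rw [map_add, hD, zero_add] at hz2
    exact hz2
  have h5 := h1 (Submodule.mem_inf.2 ⟨hy, h4⟩)
  obtain ⟨_, ⟨y', hy', rfl⟩, x, hx, rfl⟩ := Submodule.mem_sup.1 h5
  refine Submodule.mem_sup.2 ⟨D (z' + y'), ⟨z' + y', ?_, rfl⟩, x, hx, ?_⟩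
  · exact Submodule.add_mem _ hz' (hYZ _ hy')
  · rw [map_add, add_assoc]

variable {Q : Type u} [AddCommGroup Q] [Module R Q] {V W : Type u} [AddCommGroup V] [Module R V]
  [AddCommGroup W] [Module R W] {r : ℕ}

theorem mem_TT {M : Type u} [AddCommGroup M] [Module R M] (X : ℤ → ℤ → Submodule R M) (δ : ℤ)
    (z : ℤ → M) : z ∈ TT X δ ↔ ∀ i, z i ∈ X i (i - δ) := by
  simp [TT, Submodule.mem_pi]

theorem mem_CV (a : Fin r → ℤ) (B : ℤ) (c : ℤ → Gz r → Submodule R Q) (i p : ℤ)
    (J : Finset (Fin (r + 1))) (I : Finset (Fin r)) (g : Gz r) (y : Q) :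
    y ∈ CV a B c i p J I g ↔
      (¬ ((J.card : ℤ) = i ∧ (I.card : ℤ) = p ∧ inF B I g) → y = 0) ∧
      ((J.card : ℤ) = i ∧ (I.card : ℤ) = p ∧ inF B I g → ¬ inG a I g → y ∈ c i g) := by
  unfold CV
  split_ifs with h1 h2
  · simp [h1, h2]
  · simp [h1, h2]
  · simp [h1]

theorem totX_apply (z : ℤ → KV r V) (i : ℤ) (J : Finset (Fin (r + 1))) (I : Finset (Fin r))
    (g : Gz r) : totD (dK R V r) (eX R V r) z i J I g =
      (i.negOnePow : ℤ) • (∑ k ∈ I, ksg k I • z i J (I.erase k) g) +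
        ∑ l ∈ Jᶜ, ksg l J • ∑ L ∈ (Finset.univ : Finset (Fin r)).powersetCard l,
          z (i + 1) (insert l J) I (g - exz L) := by
  simp [totD, dK, kmap, dU, eX, kz, XU, Finset.sum_apply]

theorem totK_apply (x : Fin (r + 1) → R) (z : ℤ → KV r V) (i : ℤ) (J : Finset (Fin (r + 1)))
    (I : Finset (Fin r)) (g : Gz r) : totD (dK R V r) (eK V x) z i J I g =
      totD (dK R V r) (eX R V r) z i J I g -
        ∑ l ∈ Jᶜ, ksg l J • x l • z (i + 1) (insert l J) I g := by
  rw [totX_apply]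
  simp [totD, dK, kmap, dU, eK, kz, XU, Finset.sum_apply, smul_sub, Finset.sum_sub_distrib]
  abel

/-- post-composition with a linear map. -/
def fm (r : ℕ) (f : V →ₗ[R] W) (z : ℤ → KV r V) : ℤ → KV r W := fun i J I g => f (z i J I g)

theorem totX_fm (f : V →ₗ[R] W) (z : ℤ → KV r V) :
    totD (dK R W r) (eX R W r) (fm r f z) = fm r f (totD (dK R V r) (eX R V r) z) := by
  ext i J I g
  rw [fm, totX_apply, totX_apply]
  simp only [fm, map_add, map_zsmul, map_sum]

/-! ### powers of `x` -/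

theorem xpw_anti (x : Fin (r + 1) → R) {m m' : ℤ} (h : m ≤ m') : xpw Q x m' ≤ xpw Q x m :=
  Submodule.smul_mono_left (Ideal.pow_le_pow_right (Int.toNat_le_toNat h))

theorem xpw_nonpos (x : Fin (r + 1) → R) {m : ℤ} (h : m ≤ 0) : xpw Q x m = ⊤ := by
  rw [xpw, Int.toNat_eq_zero.2 h, pow_zero, Ideal.one_eq_top, Submodule.top_smul]

theorem smul_mem_xpw (x : Fin (r + 1) → R) {m : ℤ} {y : Q} (hy : y ∈ xpw Q x m)
    (l : Fin (r + 1)) : x l • y ∈ xpw Q x (m + 1) := by
  rcases lt_or_ge m 0 with hm | hm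
  · rw [xpw_nonpos x (by omega)]
    trivial
  · have h1 : (m + 1).toNat = m.toNat + 1 := by omega
    rw [xpw, h1, pow_succ', Submodule.mul_smul]
    exact Submodule.smul_mem_smul (Ideal.subset_span ⟨l, rfl⟩) hy

/-- intermediate coefficients between `Y_w` and `Y_{w+1}`. -/
def mc (Q : Type u) [AddCommGroup Q] [Module R Q] (x : Fin (r + 1) → R) (w ν i : ℤ) (g : Gz r) :
    Submodule R Q :=
  if ν ≤ w - i - g.2 then xpw Q x (w - i - g.2) else xpw Q x (w - i - g.2 + 1)

theorem mc_zero (x : Fin (r + 1) → R) (w i : ℤ) (g : Gz r) :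
    mc Q x w 0 i g = xpw Q x (w - i - g.2) := by
  unfold mc
  split_ifs with h
  · rfl
  · rw [xpw_nonpos x (by omega), xpw_nonpos x (by omega)]

theorem mc_top (x : Fin (r + 1) → R) (N : ℕ) (hN : xpw Q x N = ⊥) (w i : ℤ) (g : Gz r) :
    mc Q x w N i g = xpw Q x (w + 1 - i - g.2) := by
  unfold mc
  split_ifs with h
  · have h1 : xpw Q x (w - i - g.2) ≤ ⊥ := hN ▸ xpw_anti x h
    have h2 : xpw Q x (w + 1 - i - g.2) ≤ ⊥ := hN ▸ xpw_anti x (by omega)
    rw [le_bot_iff.1 h1, le_bot_iff.1 h2]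
  · congr 1
    ring

theorem mc_anti (x : Fin (r + 1) → R) (w ν i : ℤ) (g : Gz r) :
    mc Q x w (ν + 1) i g ≤ mc Q x w ν i g := by
  unfold mc
  split_ifs with h1 h2 h2
  · exact le_rfl
  · omega
  · exact xpw_anti x (by omega)
  · exact le_rfl

theorem bstab_mc (a : Fin r → ℤ) (B : ℤ) (x : Fin (r + 1) → R) (w ν : ℤ) :
    BStab (dK R Q r) (eK Q x) (CF a B (mc Q x w ν)) where
  hd i p v hv := CF_dK a B _ i p v hv
  he i p v hv := by
    refine CF_eK a B x _ _ i p ?_ ?_ v hv
    · intro g L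
      unfold mc
      have h1 : (g - exz L).2 = g.2 - 1 := rfl
      rw [h1]
      have h2 : w - i - (g.2 - 1) = w - (i - 1) - g.2 := by ring
      rw [h2]
    · rintro g l _ ⟨y, hy, rfl⟩
      show x l • y ∈ _
      have hy' : y ∈ mc Q x w ν i g := hy
      unfold mc at hy' ⊢
      have h2 : w - (i - 1) - g.2 = w - i - g.2 + 1 := by ring
      rw [h2]
      by_cases h3 : ν ≤ w - i - g.2
      · rw [if_pos h3] at hy'
        rw [if_pos (by omega)]
        exact smul_mem_xpw x hy' l
      · rw [if_neg h3] at hy'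
        have h5 := smul_mem_xpw x hy' l
        by_cases h4 : ν ≤ w - i - g.2 + 1
        · rw [if_pos h4]
          exact xpw_anti x (by omega) h5
        · rw [if_neg h4]
          exact h5

theorem inG_erase (a : Fin r → ℤ) {I : Finset (Fin r)} {g : Gz r} (h : ¬ inG a I g) (k : Fin r) :
    ¬ inG a (I.erase k) g := by
  rintro ⟨l, hl, h'⟩
  exact h ⟨l, Finset.mem_of_mem_erase hl, h'⟩

theorem inG_sub (a : Fin r → ℤ) {I : Finset (Fin r)} {g : Gz r} (h : ¬ inG a I g)
    (L : Finset (Fin r)) : ¬ inG a I (g - exz L) := by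
  rintro ⟨l, hl, h'⟩
  refine h ⟨l, hl, ?_⟩
  have h1 : (g - exz L).2 = g.2 - 1 := rfl
  have h2 : (g - exz L).1 l = g.1 l - if l ∈ L then 1 else 0 := rfl
  rw [h1, h2] at h'
  split_ifs at h' <;> omega

open Classical in
/-- restriction to the cells outside of `G` on the strand `t`. -/
noncomputable def tr (a : Fin r → ℤ) (t : ℤ) (z : ℤ → KV r V) : ℤ → KV r V := fun i J I g =>
  if ¬ inG a I g ∧ i + g.2 = t then z i J I g else 0

theorem tr_of (a : Fin r → ℤ) (t : ℤ) (z : ℤ → KV r V) {i : ℤ} (J : Finset (Fin (r + 1)))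
    {I : Finset (Fin r)} {g : Gz r} (h : ¬ inG a I g) (ht : i + g.2 = t) :
    tr a t z i J I g = z i J I g := if_pos ⟨h, ht⟩

theorem totX_tr (a : Fin r → ℤ) (t : ℤ) (z : ℤ → KV r V) {i : ℤ} (J : Finset (Fin (r + 1)))
    {I : Finset (Fin r)} {g : Gz r} (h : ¬ inG a I g) (ht : i + g.2 = t) :
    totD (dK R V r) (eX R V r) (tr a t z) i J I g = totD (dK R V r) (eX R V r) z i J I g := by
  rw [totX_apply, totX_apply]
  congr 1
  · congr 1
    refine Finset.sum_congr rfl fun k _ => ?_
    rw [tr_of a t z _ (inG_erase a h k) ht]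
  · refine Finset.sum_congr rfl fun l _ => ?_
    congr 1
    refine Finset.sum_congr rfl fun L _ => ?_
    rw [tr_of a t z _ (inG_sub a h L)]
    have h1 : (g - exz L).2 = g.2 - 1 := rfl
    rw [h1]
    omega

/-- one step of the filtration. -/
theorem mc_exact (a : Fin r → ℤ) (B : ℤ) (x : Fin (r + 1) → R) (w ν : ℤ) (h1 : ∀ l, a l ≤ B)
    (h2 : (r : ℤ) + ν ≤ B + w) (δ : ℤ) :
    zz (totD (dK R Q r) (eK Q x)) (TT (CF a B (mc Q x w ν))) (TT (CF a B (mc Q x w (ν + 1)))) δ ≤
      bb (totD (dK R Q r) (eK Q x)) (TT (CF a B (mc Q x w ν)))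
        (TT (CF a B (mc Q x w (ν + 1)))) δ := by
  classical
  set t := w - ν with ht
  -- the coefficients on the strand
  have c0 : ∀ (i : ℤ) (g : Gz r), i + g.2 = t → mc Q x w ν i g = xpw Q x ν := by
    intro i g h
    have h3 : w - i - g.2 = ν := by omega
    rw [mc, h3, if_pos le_rfl]
  have c1 : ∀ (i : ℤ) (g : Gz r), i + g.2 = t → mc Q x w (ν + 1) i g = xpw Q x (ν + 1) := by
    intro i g h
    have h3 : w - i - g.2 = ν := by omega
    rw [mc, h3, if_neg (by omega)]
  have c2 : ∀ (i : ℤ) (g : Gz r), i + g.2 ≠ t → mc Q x w (ν + 1) i g = mc Q x w ν i g := by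
    intro i g h
    unfold mc
    by_cases h3 : ν ≤ w - i - g.2
    · rw [if_pos h3, if_pos (by omega)]
    · rw [if_neg h3, if_neg (by omega)]
  have c3 : ∀ (i : ℤ) (g : Gz r), i + g.2 = t + 1 → mc Q x w ν i g = xpw Q x ν := by
    intro i g h
    have h3 : w - i - g.2 = ν - 1 := by omega
    rw [mc, h3, if_neg (by omega), sub_add_cancel]
  let P : Submodule R Q := xpw Q x ν
  let P' : Submodule R P := (xpw Q x (ν + 1)).submoduleOf P
  intro z hz
  obtain ⟨hz1, hz2⟩ := Submodule.mem_inf.1 hz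
  rw [Submodule.mem_comap] at hz2
  rw [mem_TT] at hz1 hz2
  -- the values on the strand lie in `P`
  have hP : ∀ (i : ℤ) (J : Finset (Fin (r + 1))) (I : Finset (Fin r)) (g : Gz r), ¬ inG a I g →
      (i + g.2 = t ∨ i + g.2 = t + 1) → z i J I g ∈ P := by
    intro i J I g hg hi
    have h3 := (mem_CV a B _ i (i - δ) J I g _).1 (hz1 i J I g)
    by_cases h4 : (J.card : ℤ) = i ∧ (I.card : ℤ) = i - δ ∧ inF B I g
    · have h5 := h3.2 h4 hg
      rcases hi with hi | hi
      · rwa [c0 i g hi] at h5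
      · rwa [c3 i g hi] at h5
    · rw [h3.1 h4]
      exact P.zero_mem
  let zP : ℤ → KV r P := fun i J I g =>
    if h : ¬ inG a I g ∧ i + g.2 = t then ⟨z i J I g, hP i J I g h.1 (Or.inl h.2)⟩ else 0
  have hzP : fm r P.subtype zP = tr a t z := by
    ext i J I g
    by_cases h : ¬ inG a I g ∧ i + g.2 = t
    · simp only [fm, zP, tr, dif_pos h, if_pos h, Submodule.subtype_apply]
    · simp only [fm, zP, tr, dif_neg h, if_neg h, map_zero]
  let z' : ℤ → KV r (P ⧸ P') := fm r P'.mkQ zP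
  have hz'0 : ∀ (i : ℤ) (J : Finset (Fin (r + 1))) (I : Finset (Fin r)) (g : Gz r),
      (z i J I g = 0 ∨ i + g.2 ≠ t) → z' i J I g = 0 := by
    intro i J I g h
    by_cases h3 : ¬ inG a I g ∧ i + g.2 = t
    · have h4 : z i J I g = 0 := h.resolve_right (fun h5 => h5 h3.2)
      have h5 : zP i J I g = 0 := by
        simp only [zP, dif_pos h3]
        exact Subtype.ext h4
      show P'.mkQ (zP i J I g) = 0
      rw [h5, map_zero]
    · have h5 : zP i J I g = 0 := dif_neg h3
      show P'.mkQ (zP i J I g) = 0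
      rw [h5, map_zero]
  have hz'SF : z' ∈ TT (SF R (P ⧸ P') a B t) δ := by
    rw [mem_TT]
    intro i J I g
    rw [mem_CV]
    refine ⟨fun h => ?_, fun h hg => ?_⟩
    · exact hz'0 i J I g (Or.inl (((mem_CV a B _ i (i - δ) J I g _).1 (hz1 i J I g)).1 h))
    · by_cases h3 : i + g.2 = t
      · rw [if_pos h3]
        trivial
      · rw [if_neg h3, hz'0 i J I g (Or.inr h3)]
        exact Submodule.zero_mem _
  -- the key computation
  have hkey : ∀ (v : ℤ → KV r P) (i : ℤ) (J : Finset (Fin (r + 1))) (I : Finset (Fin r))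
      (g : Gz r), ¬ inG a I g → i + g.2 = t →
      ((totD (dK R P r) (eX R P r) v i J I g : P) : Q) =
        totD (dK R Q r) (eX R Q r) (tr a t (fm r P.subtype v)) i J I g := by
    intro v i J I g hg hi
    rw [totX_tr a t _ J hg hi, totX_fm]
    rfl
  have hz'D : totD (dK R (P ⧸ P') r) (eX R (P ⧸ P') r) z' ∈ TT (GF R (P ⧸ P') a B) (δ - 1) := by
    have h3 : totD (dK R (P ⧸ P') r) (eX R (P ⧸ P') r) z' ∈ TT (SF R (P ⧸ P') a B t) (δ - 1) :=
      stab_TT (dK R (P ⧸ P') r) (eX R (P ⧸ P') r) dK_sq eX_sq dK_eX _ (bstab_SF a B t) δ _ hz'SF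
    rw [mem_TT] at h3 ⊢
    intro i J I g
    have h4 := (mem_CV a B _ i (i - (δ - 1)) J I g _).1 (h3 i J I g)
    rw [mem_CV]
    refine ⟨h4.1, fun h hg => ?_⟩
    rw [Submodule.mem_bot]
    by_cases hi : i + g.2 = t
    · rw [totX_fm]
      show P'.mkQ _ = 0
      rw [Submodule.mkQ_apply, Submodule.Quotient.mk_eq_zero]
      show ((totD (dK R P r) (eX R P r) zP i J I g : P) : Q) ∈ xpw Q x (ν + 1)
      rw [hkey zP i J I g hg hi, hzP, totX_tr a t _ J hg hi, totX_tr a t _ J hg hi]
      have h5 := totK_apply x z i J I g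
      have h6 : totD (dK R Q r) (eX R Q r) z i J I g =
          totD (dK R Q r) (eK Q x) z i J I g +
            ∑ l ∈ Jᶜ, ksg l J • x l • z (i + 1) (insert l J) I g := by
        rw [h5, sub_add_cancel]
      rw [h6]
      refine Submodule.add_mem _ ?_ (Submodule.sum_mem _ fun l _ => ?_)
      · have h7 := ((mem_CV a B _ i (i - (δ - 1)) J I g _).1 (hz2 i J I g)).2 h hg
        rwa [c1 i g hi] at h7
      · exact zsmul_mem (smul_mem_xpw x (hP (i + 1) _ I g hg (Or.inr (by omega))) l) _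
    · have h5 := h4.2 h hg
      rw [if_neg hi] at h5
      exact (Submodule.mem_bot _).1 h5
  -- exactness of the strand
  have hex := strand_exact (R := R) (Q := P ⧸ P') a B t h1 (by omega) δ
    (Submodule.mem_inf.2 ⟨hz'SF, hz'D⟩)
  obtain ⟨_, ⟨y', hy', rfl⟩, u', hu', hsum⟩ := Submodule.mem_sup.1 hex
  have hy'T := (mem_TT _ _ _).1 hy'
  have hu'T := (mem_TT _ _ _).1 hu'
  let yP : ℤ → KV r P := fun i J I g =>
    if y' i J I g = 0 then 0 else Function.surjInv (Submodule.mkQ_surjective P') (y' i J I g)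
  have hyP : fm r P'.mkQ yP = y' := by
    ext i J I g
    by_cases h : y' i J I g = 0
    · simp only [fm, yP, if_pos h, map_zero, h]
    · simp only [fm, yP, if_neg h, Function.surjInv_eq]
  let y : ℤ → KV r Q := tr a t (fm r P.subtype yP)
  have hyTT : y ∈ TT (CF a B (mc Q x w ν)) (δ + 1) := by
    rw [mem_TT]
    intro i J I g
    rw [mem_CV]
    have h3 := (mem_CV a B _ i (i - (δ + 1)) J I g _).1 (hy'T i J I g)
    refine ⟨fun h => ?_, fun h hg => ?_⟩
    · have h4 : yP i J I g = 0 := if_pos (h3.1 h)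
      show (if ¬ inG a I g ∧ i + g.2 = t then ((yP i J I g : P) : Q) else 0) = 0
      rw [h4]
      simp
    · show (if ¬ inG a I g ∧ i + g.2 = t then ((yP i J I g : P) : Q) else 0) ∈ _
      split_ifs with h5
      · rw [c0 i g h5.2]
        exact (yP i J I g).2
      · exact Submodule.zero_mem _
  refine Submodule.mem_sup.2 ⟨totD (dK R Q r) (eK Q x) y, ⟨y, hyTT, rfl⟩,
    z - totD (dK R Q r) (eK Q x) y, ?_, by abel⟩
  have h3 : totD (dK R Q r) (eK Q x) y ∈ TT (CF a B (mc Q x w ν)) δ := by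
    have h4 := stab_TT (dK R Q r) (eK Q x) dK_sq (eK_sq x) (dK_eK x) _ (bstab_mc a B x w ν)
      (δ + 1) _ hyTT
    rwa [add_sub_cancel_right] at h4
  rw [mem_TT] at h3 ⊢
  intro i J I g
  have h4 := (mem_CV a B _ i (i - δ) J I g _).1 (Submodule.sub_mem _ (hz1 i J I g) (h3 i J I g))
  rw [mem_CV]
  refine ⟨h4.1, fun h hg => ?_⟩
  by_cases hi : i + g.2 = t
  · rw [c1 i g hi]
    have h5 : totD (dK R Q r) (eK Q x) y i J I g =
        ((totD (dK R P r) (eX R P r) yP i J I g : P) : Q) := by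
      rw [totK_apply, hkey yP i J I g hg hi]
      have h6 : ∑ l ∈ Jᶜ, ksg l J • x l • y (i + 1) (insert l J) I g = 0 := by
        refine Finset.sum_eq_zero fun l _ => ?_
        have h7 : y (i + 1) (insert l J) I g = 0 := if_neg fun h8 => by omega
        rw [h7, smul_zero, smul_zero]
      rw [h6, sub_zero]
    have h6 : z i J I g = ((zP i J I g : P) : Q) := by
      simp only [zP, dif_pos (show ¬ inG a I g ∧ i + g.2 = t from ⟨hg, hi⟩)]
    have h7 : P'.mkQ (zP i J I g - totD (dK R P r) (eX R P r) yP i J I g) = 0 := by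
      have h8 : u' i J I g = 0 := by
        have h9 := ((mem_CV a B _ i (i - δ) J I g _).1 (hu'T i J I g)).2 h hg
        exact (Submodule.mem_bot _).1 h9
      have h9 : totD (dK R (P ⧸ P') r) (eX R (P ⧸ P') r) y' i J I g + u' i J I g =
          z' i J I g := congrFun (congrFun (congrFun (congrFun hsum i) J) I) g
      rw [h8, add_zero, ← hyP, totX_fm] at h9
      rw [map_sub]
      have h10 : P'.mkQ (zP i J I g) = z' i J I g := rfl
      rw [h10, ← h9]
      exact sub_self _
    rw [Submodule.mkQ_apply, Submodule.Quotient.mk_eq_zero] at h7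
    show z i J I g - totD (dK R Q r) (eK Q x) y i J I g ∈ _
    rw [h5, h6]
    exact h7
  · rw [c2 i g hi]
    exact h4.2 h hg

theorem YF_exact (a : Fin r → ℤ) (B : ℤ) (x : Fin (r + 1) → R) (N : ℕ) (hN : xpw Q x N = ⊥)
    (w₀ w : ℤ) (hw : w₀ ≤ w) (h1 : ∀ l, a l ≤ B) (h2 : (r : ℤ) + N ≤ B + w₀) (δ : ℤ) :
    zz (totD (dK R Q r) (eK Q x)) (TT (YF Q x a B w₀)) (TT (YF Q x a B w)) δ ≤
      bb (totD (dK R Q r) (eK Q x)) (TT (YF Q x a B w₀)) (TT (YF Q x a B w)) δ := by
  have hD : ∀ v, totD (dK R Q r) (eK Q x) (totD (dK R Q r) (eK Q x) v) = 0 :=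
    totD_sq _ _ dK_sq (eK_sq x) (dK_eK x)
  have hTT : ∀ X Y : ℤ → ℤ → Submodule R (KV r Q), (∀ i p, X i p ≤ Y i p) →
      ∀ δ, TT X δ ≤ TT Y δ := by
    intro X Y h δ z hz
    rw [mem_TT] at hz ⊢
    exact fun i => h _ _ (hz i)
  -- one step
  have hstep : ∀ w : ℤ, w₀ ≤ w →
      zz (totD (dK R Q r) (eK Q x)) (TT (YF Q x a B w)) (TT (YF Q x a B (w + 1))) δ ≤
        bb (totD (dK R Q r) (eK Q x)) (TT (YF Q x a B w)) (TT (YF Q x a B (w + 1))) δ := by
    intro w hw
    have e0 : YF Q x a B w = CF a B (mc Q x w 0) := by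
      have : (fun (i : ℤ) (g : Gz r) => xpw Q x (w - i - g.2)) = mc Q x w 0 := by
        ext1 i
        ext1 g
        exact (mc_zero x w i g).symm
      rw [YF, this]
    have e1 : YF Q x a B (w + 1) = CF a B (mc Q x w N) := by
      have : (fun (i : ℤ) (g : Gz r) => xpw Q x (w + 1 - i - g.2)) = mc Q x w N := by
        ext1 i
        ext1 g
        exact (mc_top x N hN w i g).symm
      rw [YF, this]
    rw [e0, e1]
    have hm : ∀ k : ℕ, ∀ i p, CF a B (mc Q x w (k + 1)) i p ≤ CF a B (mc Q x w k) i p :=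
      fun k i p => CF_mono a B _ _ i p fun g => mc_anti x w k i g
    have hm0 : ∀ k : ℕ, ∀ i p, CF a B (mc Q x w k) i p ≤ CF a B (mc Q x w 0) i p := by
      intro k
      induction k with
      | zero => exact fun i p => le_of_eq (by norm_num)
      | succ k ih =>
        intro i p
        push_cast
        exact (hm k i p).trans (ih i p)
    have : ∀ k : ℕ, k ≤ N →
        zz (totD (dK R Q r) (eK Q x)) (TT (CF a B (mc Q x w 0))) (TT (CF a B (mc Q x w k))) δ ≤
          bb (totD (dK R Q r) (eK Q x)) (TT (CF a B (mc Q x w 0)))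
            (TT (CF a B (mc Q x w k))) δ := by
      intro k
      induction k with
      | zero =>
        intro _
        refine (inf_le_left).trans ?_
        push_cast
        exact le_sup_right
      | succ k ih =>
        intro hk
        have h3 := mc_exact (Q := Q) a B x w k h1 (by omega) δ
        push_cast
        exact zz_bb_trans _ hD _ _ _ (hTT _ _ (hm k)) (hTT _ _ (hm0 k)) δ h3 (ih (by omega))
    exact this N le_rfl
  obtain ⟨k, rfl⟩ : ∃ k : ℕ, w = w₀ + k := ⟨(w - w₀).toNat, by omega⟩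
  induction k with
  | zero =>
    refine (inf_le_left).trans ?_
    have : w₀ + ((0 : ℕ) : ℤ) = w₀ := by simp
    rw [this]
    exact le_sup_right
  | succ k ih =>
    have h3 := hstep (w₀ + k) (by omega)
    have e : w₀ + ((k + 1 : ℕ) : ℤ) = w₀ + k + 1 := by push_cast; ring
    rw [e]
    exact zz_bb_trans _ hD _ _ _
      (hTT (YF Q x a B (w₀ + k + 1)) (YF Q x a B (w₀ + k)) (YF_anti a B x (by omega)))
      (hTT (YF Q x a B (w₀ + k)) (YF Q x a B w₀) (YF_anti a B x (by omega))) δ h3 (ih (by omega))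

variable (L : AddLen R) (a : Fin r → ℤ) (B : ℤ)

theorem YF_acyclic (x : Fin (r + 1) → R) (N : ℕ) (hN : xpw Q x N = ⊥) (w₀ w : ℤ) (hw : w₀ ≤ w)
    (h1 : ∀ l, a l ≤ B) (h2 : (r : ℤ) + N ≤ B + w₀) (δ : ℤ) :
    L.hh (totD (dK R Q r) (eK Q x)) (TT (YF Q x a B w₀)) (TT (YF Q x a B w)) δ = 0 :=
  rl_eq_zero_of_le L (YF_exact a B x N hN w₀ w hw h1 h2 δ)

end

end Vale.Agent.P202.Mix
end

section

/-!
P202-MIX, part GEO, D4: arithmetic.
-/

namespace Vale.Agent.P202.Mix

open Finset

/-- the polynomial `∏ (u + i q)`. -/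
noncomputable def ff (r q : ℕ) (u : ℤ) : ℝ := ∏ i ∈ Finset.range (r + 1), ((u : ℝ) + i * q)

theorem sum_tw (r q : ℕ) (j : ℤ) :
    ∑ m : Fin (r + 1), ∏ l, (((tw r q m l + j + 1 : ℤ)) : ℝ) = ff r q (j + 1) - ff r q j := by
  have h1 := Finset.prod_add_ordered (univ : Finset (Fin (r + 1)))
    (fun i => ((j : ℝ) + (i : ℕ) * q)) fun _ => (1 : ℝ)
  have h2 : ff r q (j + 1) = ∏ i : Fin (r + 1), (((j : ℝ) + (i : ℕ) * q) + 1) := by
    rw [ff, ← Fin.prod_univ_eq_prod_range (fun i : ℕ => (((j + 1 : ℤ) : ℝ) + i * q)) (r + 1)]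
    refine prod_congr rfl fun i _ => ?_
    push_cast
    ring
  have h3 : ff r q j = ∏ i : Fin (r + 1), ((j : ℝ) + (i : ℕ) * q) := by
    rw [ff, ← Fin.prod_univ_eq_prod_range (fun i : ℕ => ((j : ℝ) + i * q)) (r + 1)]
  rw [h2, h3, h1, add_sub_cancel_left]
  refine sum_congr rfl fun m _ => ?_
  have h4 : ∏ l, (((tw r q m l + j + 1 : ℤ)) : ℝ) = ∏ i : Fin (r + 1),
      if i < m then ((j : ℝ) + (i : ℕ) * q) + 1 else
        if m < i then ((j : ℝ) + (i : ℕ) * q) else 1 := by
    rw [Fin.prod_univ_succAbove _ m, if_neg (lt_irrefl m), if_neg (lt_irrefl m), one_mul]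
    refine prod_congr rfl fun l _ => ?_
    by_cases hl : l.castSucc < m
    · rw [Fin.succAbove_of_castSucc_lt m l hl, if_pos hl]
      have hl' : (l : ℕ) < m := hl
      rw [tw, if_pos hl']
      push_cast
      rw [Fin.val_castSucc]
      ring
    · have hl1 : m ≤ l.castSucc := not_lt.1 hl
      have hl2 : m < l.succ := Fin.le_castSucc_iff.1 hl1
      rw [Fin.succAbove_of_le_castSucc m l hl1, if_neg (not_lt.2 hl2.le), if_pos hl2]
      have hl' : ¬ (l : ℕ) < m := fun h => hl h
      rw [tw, if_neg hl']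
      push_cast
      rw [Fin.val_succ]
      push_cast
      ring
  rw [h4, one_mul, prod_ite]
  congr 1
  rw [prod_ite, prod_const_one, mul_one, filter_filter]
  refine prod_congr ?_ fun _ _ => rfl
  ext i
  simp only [mem_filter, mem_univ, true_and]
  exact ⟨fun h => h.2, fun h => ⟨not_lt.2 h.le, h⟩⟩

/-- the `n`-th difference of a monic polynomial of degree `n`. -/
private theorem ff_diff (r q : ℕ) (u : ℤ) :
    ∑ i ∈ range (r + 2), (-1 : ℝ) ^ i * ((r + 1).choose i : ℝ) * ff r q (u - i) =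
      ((r + 1).factorial : ℝ) := by
  set P : Polynomial ℝ := ∏ i ∈ range (r + 1), (Polynomial.X + Polynomial.C ((i : ℝ) * q)) with hP
  have hPm : P.Monic := Polynomial.monic_prod_of_monic _ _ fun i _ => Polynomial.monic_X_add_C _
  have hPd : P.natDegree = r + 1 := by
    rw [hP, Polynomial.natDegree_prod_of_monic _ _ fun i _ => Polynomial.monic_X_add_C _,
      sum_congr rfl fun i _ => Polynomial.natDegree_X_add_C _]
    simp
  have hPe : ∀ v : ℤ, P.eval (v : ℝ) = ff r q v := by
    intro v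
    rw [hP, ff, Polynomial.eval_prod]
    simp
  have h1 := congrFun (Polynomial.fwdDiff_iter_degree_eq_factorial P) ((u : ℝ) - (r + 1 : ℕ))
  rw [fwdDiff_iter_eq_sum_shift, hPd, hPm.leadingCoeff, one_smul] at h1
  have h2 : ∀ k ∈ range (r + 1 + 1), ((-1 : ℤ) ^ (r + 1 - k) * ((r + 1).choose k : ℤ)) •
      P.eval ((u : ℝ) - (r + 1 : ℕ) + k • (1 : ℝ)) =
      (-1 : ℝ) ^ (r + 1 - k) * ((r + 1).choose (r + 1 - k) : ℝ) *
        ff r q (u - ((r + 1 - k : ℕ) : ℤ)) := by
    intro k hk
    have hk' : k ≤ r + 1 := by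
      have := mem_range.1 hk
      omega
    rw [← hPe, Nat.choose_symm hk', zsmul_eq_mul]
    push_cast [Nat.cast_sub hk']
    congr 2
    rw [nsmul_eq_mul, mul_one]
    ring
  rw [sum_congr rfl h2, sum_flip (f := fun i => (-1 : ℝ) ^ i * ((r + 1).choose i : ℝ) *
    ff r q (u - (i : ℤ)))] at h1
  rw [h1]
  simp

private theorem ff_zero (r q : ℕ) (k : ℕ) (hk : k ≤ r) : ff r q (-(k : ℤ) * q) = 0 := by
  rw [ff]
  refine prod_eq_zero (i := k) (mem_range.2 (by omega)) ?_
  push_cast
  ring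

private theorem ff_q (r q : ℕ) : ff r q q = ((r + 1).factorial : ℝ) * (q : ℝ) ^ (r + 1) := by
  rw [ff, ← prod_range_add_one_eq_factorial, Nat.cast_prod, ← card_range (r + 1),
    ← prod_const, card_range, ← prod_mul_distrib]
  refine prod_congr rfl fun i _ => ?_
  push_cast
  ring

private theorem ff_abel (f : ℤ → ℝ) (φ : ℤ → ℝ) (h0 : φ 0 = 0) (M : ℤ) (t : ℕ) :
    ∑ ν ∈ range t, (f (M - ν) - f (M - ν - 1)) * φ (ν + 1) =
      ∑ ν ∈ range t, f (M - ν) * (φ (ν + 1) - φ ν) - f (M - t) * φ t := by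
  induction t with
  | zero => simp [h0]
  | succ t ih =>
    rw [sum_range_succ, ih, sum_range_succ]
    push_cast
    have e : M - ((t : ℤ) + 1) = M - t - 1 := by ring
    rw [e]
    ring

private theorem ff_Ico (G : ℤ → ℝ) (M : ℤ) (t : ℕ) :
    ∑ j ∈ Ico (M - t) M, G j = ∑ ν ∈ range t, G (M - ν - 1) := by
  refine sum_bij' (fun j _ => (M - 1 - j).toNat) (fun ν _ => M - ν - 1) ?_ ?_ ?_ ?_ ?_
  · intro j hj
    rw [mem_Ico] at hj
    rw [mem_range]
    omega
  · intro ν hν
    rw [mem_range] at hν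
    rw [mem_Ico]
    omega
  · intro j hj
    rw [mem_Ico] at hj
    omega
  · intro ν hν
    rw [mem_range] at hν
    omega
  · intro j hj
    rw [mem_Ico] at hj
    congr 1
    omega

theorem arith (r q : ℕ) (hq : 1 ≤ q) (c₀ c₁ : ℝ) (κ : ℕ → ℝ) (h0 : κ 0 = c₀)
    (h1 : κ 1 = r * c₀ + c₁) (φ : ℤ → ℝ) (hφ : ∀ ν, ν ≤ 0 → φ ν = 0) (N : ℕ)
    (hφ' : ∀ ν : ℤ, N ≤ ν → φ ν = c₀) (w : ℤ) (hw : 2 * (q : ℤ) + r + 1 + N ≤ w) :
    ∑ i ∈ Finset.range (r + 2), (-1 : ℝ) ^ i *
      (κ i * (ff r q ((2 - i) * q) - ff r q ((1 - i) * q)) +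
        ((r + 1).choose i : ℝ) * ∑ j ∈ Finset.Ico ((2 - (i : ℤ)) * q) (w - i),
          (ff r q (j + 1) - ff r q j) * φ (w - i - j)) =
      ((r + 1).factorial : ℝ) * (c₀ - (q : ℝ) ^ (r + 1) * c₁) := by
  have hφ0 : φ 0 = 0 := hφ 0 le_rfl
  -- the inner sums
  have hS : ∀ i ∈ range (r + 2), ∑ j ∈ Finset.Ico ((2 - (i : ℤ)) * q) (w - i),
      (ff r q (j + 1) - ff r q j) * φ (w - i - j) =
      ∑ ν ∈ range N, ff r q (w - ν - i) * (φ (ν + 1) - φ ν) - ff r q ((2 - i) * q) * c₀ := by
    intro i hi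
    have hi' : (i : ℤ) ≤ r + 1 := by
      have := mem_range.1 hi
      omega
    have hiq : 0 ≤ (i : ℤ) * q := by positivity
    have hA : (2 - (i : ℤ)) * q = 2 * q - i * q := by ring
    obtain ⟨t, ht⟩ : ∃ t : ℕ, (w - i) - (2 - (i : ℤ)) * q = t :=
      Int.eq_ofNat_of_zero_le (by rw [hA]; omega)
    have htN : N ≤ t := by
      rw [hA] at ht
      omega
    have hA' : (2 - (i : ℤ)) * q = (w - i) - t := by omega
    rw [hA', ff_Ico (fun j => (ff r q (j + 1) - ff r q j) * φ (w - i - j))]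
    have e1 : ∀ ν ∈ range t, (ff r q (w - i - ν - 1 + 1) - ff r q (w - i - ν - 1)) *
        φ (w - i - (w - i - ν - 1)) =
        (ff r q (w - i - ν) - ff r q (w - i - ν - 1)) * φ (ν + 1) := by
      intro ν _
      have a1 : w - (i : ℤ) - ν - 1 + 1 = w - i - ν := by ring
      have a2 : w - (i : ℤ) - (w - i - ν - 1) = ν + 1 := by ring
      rw [a1, a2]
    rw [sum_congr rfl e1, ff_abel (ff r q) φ hφ0, hφ' t (by exact_mod_cast htN)]
    congr 1
    rw [← sum_subset (range_subset_range.2 htN)]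
    · refine sum_congr rfl fun ν _ => ?_
      have a1 : w - (i : ℤ) - ν = w - ν - i := by ring
      rw [a1]
    · intro ν _ hν
      rw [mem_range, not_lt] at hν
      rw [hφ' ν (by exact_mod_cast hν), hφ' (ν + 1) (by
        have : (N : ℤ) ≤ ν := by exact_mod_cast hν
        omega), sub_self, mul_zero]
  have hsum : ∀ i ∈ range (r + 2), (-1 : ℝ) ^ i *
      (κ i * (ff r q ((2 - i) * q) - ff r q ((1 - i) * q)) +
        ((r + 1).choose i : ℝ) * ∑ j ∈ Finset.Ico ((2 - (i : ℤ)) * q) (w - i),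
          (ff r q (j + 1) - ff r q j) * φ (w - i - j)) =
      (-1 : ℝ) ^ i * (κ i * (ff r q ((2 - i) * q) - ff r q ((1 - i) * q)) -
        ((r + 1).choose i : ℝ) * (ff r q ((2 - i) * q) * c₀)) +
      ∑ ν ∈ range N, (-1 : ℝ) ^ i * ((r + 1).choose i : ℝ) * ff r q (w - ν - i) *
        (φ (ν + 1) - φ ν) := by
    intro i hi
    have e : ∑ ν ∈ range N, (-1 : ℝ) ^ i * ((r + 1).choose i : ℝ) * ff r q (w - ν - i) *
        (φ (ν + 1) - φ ν) = (-1 : ℝ) ^ i * ((r + 1).choose i : ℝ) *
        ∑ ν ∈ range N, ff r q (w - ν - i) * (φ (ν + 1) - φ ν) := by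
      rw [mul_sum]
      exact sum_congr rfl fun ν _ => by ring
    rw [hS i hi, e]
    ring
  rw [sum_congr rfl hsum, sum_add_distrib, sum_comm (s := range (r + 2))]
  have hB : ∑ ν ∈ range N, ∑ i ∈ range (r + 2), (-1 : ℝ) ^ i * ((r + 1).choose i : ℝ) *
      ff r q (w - ν - i) * (φ (ν + 1) - φ ν) = ((r + 1).factorial : ℝ) * c₀ := by
    have e : ∀ ν ∈ range N, ∑ i ∈ range (r + 2), (-1 : ℝ) ^ i * ((r + 1).choose i : ℝ) *
        ff r q (w - ν - i) * (φ (ν + 1) - φ ν) =
        ((r + 1).factorial : ℝ) * (φ ((ν + 1 : ℕ) : ℤ) - φ (ν : ℤ)) := by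
      intro ν _
      rw [← sum_mul, ff_diff]
      push_cast
      rfl
    rw [sum_congr rfl e, ← mul_sum, sum_range_sub (fun ν : ℕ => φ (ν : ℤ)), Nat.cast_zero, hφ0,
      sub_zero, hφ' N le_rfl]
  rw [hB, sum_range_succ', sum_range_succ']
  have hC : ∑ k ∈ range r, (-1 : ℝ) ^ (k + 1 + 1) *
      (κ (k + 1 + 1) * (ff r q ((2 - ((k + 1 + 1 : ℕ) : ℤ)) * q) -
        ff r q ((1 - ((k + 1 + 1 : ℕ) : ℤ)) * q)) -
        ((r + 1).choose (k + 1 + 1) : ℝ) * (ff r q ((2 - ((k + 1 + 1 : ℕ) : ℤ)) * q) * c₀)) =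
      0 := by
    refine sum_eq_zero fun k hk => ?_
    have hk' := mem_range.1 hk
    have a1 : (2 - ((k + 1 + 1 : ℕ) : ℤ)) * q = -(k : ℤ) * q := by push_cast; ring
    have a2 : (1 - ((k + 1 + 1 : ℕ) : ℤ)) * q = -((k + 1 : ℕ) : ℤ) * q := by push_cast; ring
    rw [a1, a2, ff_zero r q k (by omega), ff_zero r q (k + 1) (by omega)]
    ring
  rw [hC]
  have a0 : (1 - ((0 + 1 : ℕ) : ℤ)) * q = -((0 : ℕ) : ℤ) * q := by push_cast; ring
  have a1 : (2 - ((0 + 1 : ℕ) : ℤ)) * q = q := by push_cast; ring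
  have a2 : (1 - ((0 : ℕ) : ℤ)) * q = q := by push_cast; ring
  rw [a0, a1, a2, ff_zero r q 0 (Nat.zero_le _), ff_q, zero_add, h0, h1]
  simp only [zero_add, pow_one, pow_zero, Nat.choose_one_right, Nat.choose_zero_right]
  push_cast
  ring

end Vale.Agent.P202.Mix
end
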