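import Vale.Agent.P202.MathlibUsed
import Vale.Agent.P202.Bdl.B11
import Vale.Agent.P202.Bdl.B12
import Vale.Agent.P202.Bdl.B2
import Vale.Agent.P202.Bdl.B9
import Vale.Agent.P202.Bdl.B1
attribute [-instance] DenselyNormedField.toNontriviallyNormedField DenselyNormedField.toNormedField NontriviallyNormedField.toNormedField RCLike.toDenselyNormedField SemiRingCat.instSemiringObjForgetRingHomCarrier NormedField.toField KleeneAlgebra.toIdemSemiring IdemCommSemiring.toCommSemiring NormedField.toNormedDivisionRing NormedDivisionRing.toDivisionRing DivisionRing.toDivisionSemiring CommSemiRingCat.instCommSemiringObjForgetRingHomCarrier SemimoduleCat.isAddCommMonoid Std.instIteratorα AbsoluteValue.funLike ModuleCat.isModule Pi.nonAssocSemiring TopologicalSpace.Compacts.instSetLike MonCat.monoidObj AddMonCat.addMonoidObj LinearOrderedAddCommGroupWithTop.instLinearOrderedAddCommMonoidWithTop Pi.seminormedAddCommGroup LinearOrderedAddCommGroupWithTop.toAddCommMonoid LinearOrderedAddCommMonoidWithTop.toAddCommMonoid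 LieAlgebra.toModule NormedSpace.toModule NormedField.toNormedCommRing Pi.mulZeroOneClass NormedCommRing.toSeminormedCommRing PerfectClosure.instField NormedCommRing.toNormedRing NormedDivisionRing.toNormedRing Algebra.Extension.commRing NormedRing.toSeminormedRing SeminormedCommRing.toSeminormedRing Pi.instZero instNonUnitalAlgHomClassOfNonUnitalAlgEquivClass AlgHom.instNonUnitalAlgHomClassOfAlgHomClass LieRing.toAddCommGroup PerfectClosure.instDivisionRing Filter.instMembership EuclideanDomain.toCommRing NormedCommRing.toCommRing SeminormedCommRing.toCommRing Pi.nonUnitalSemiring CommMonCat.str AddOpposite.instAddZero Monoid.End.instMonoidHomClass AlgEquivClass.toAlgHomClass LinearOrderedAddCommGroupWithTop.toSubNegMonoid NormedCommRing.toNonUnitalNormedCommRing instCoeT Std.DTreeMap.Raw.instSingletonSigma NonUnitalNormedCommRing.toNonUnitalSeminormedCommRing SeminormedCommRing.toNonUnitalSeminormedCommRing NormedRing.toRing SeminormedRing.toRing ValuationClass.toMonoidWithZeroHomClass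 NonUnitalNormedCommRing.toNonUnitalNormedRing NormedRing.toNonUnitalNormedRing ModuleCat.instAddCommGroupCarrierMkOfSMul' MulSemiringAction.toDistribMulAction NormedAlgebra.toAlgebra OrderAddMonoidHom.instAddMonoidHomClass NonUnitalNormedRing.toNonUnitalSeminormedRing NonUnitalSeminormedCommRing.toNonUnitalSeminormedRing SeminormedRing.toNonUnitalSeminormedRing instSizeOfForallUnit NonUnitalNormedRing.toNormedAddCommGroup NonUnitalSeminormedRing.toSeminormedAddCommGroup NormedAddCommGroup.toSeminormedAddCommGroup Pi.instMaxForall_mathlib Pi.addZeroClass MulSemiringActionSemiHomClass.toDistribMulActionSemiHomClass NonUnitalAlgSemiHomClass.toDistribMulActionSemiHomClass AlgHomClass.linearMapClass ContinuousSemilinearEquivClass.continuousSemilinearMapClass ContinuousSemilinearMapClass.toSemilinearMapClass NonUnitalAlgHomClass.instLinearMapClass NonUnitalAlgHomClass.instSemilinearMapClassOfNonUnitalAlgSemiHomClassToMonoidHomRingHom RingHomClass.toLinearMapClassNNRat RingHomClass.toLinearMapClassRat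 SemilinearIsometryClass.toContinuousSemilinearMapClass SemilinearIsometryClass.toSemilinearMapClass NormedCommGroup.toNormedGroup OrderDual.instDivisionRing OrderDual.instDivisionSemiring MulCharClass.toMonoidHomClass MulDistribMulActionSemiHomClass.toMonoidHomClass NormedCommGroup.toSeminormedCommGroup NormedGroup.toSeminormedGroup SeminormedCommGroup.toSeminormedGroup Pi.instSemilatticeSup AddGrpCat.str AbsoluteValue.mulHomClass AbsoluteValue.zeroHomClass CommRing.toAddCommGroupWithOne SubfieldClass.toSubringClass AddCommGroupWithOne.toAddGroupWithOne LinearOrderedCommGroupWithZero.toLinearOrderedCommMonoidWithZero Pi.mulOneClass instCoeTOfCoeDep Pi.distribMulAction' CompleteAtomicBooleanAlgebra.toCompleteBooleanAlgebra CommGroup.toGroup NormedCommGroup.toCommGroup NormedGroup.toGroup SeminormedCommGroup.toCommGroup SeminormedGroup.toGroup NonAssocCommRing.toNonAssocCommSemiring Pi.preorder TwoSidedIdeal.instIsTwoSidedCoeOrderHomIdealAsIdeal CompleteAtomicBooleanAlgebra.toCompletelyDistribLattice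 CompleteBooleanAlgebra.toBooleanAlgebra CompleteBooleanAlgebra.toCompleteDistribLattice CompleteLinearOrder.toCompletelyDistribLattice CompletelyDistribLattice.toCompleteDistribLattice CompleteLinearOrder.toConditionallyCompleteLinearOrderBot Pi.subtractionMonoid MulOpposite.instMulOne Pi.instTopForall CompleteLinearOrder.toLinearOrder ConditionallyCompleteLinearOrder.toLinearOrder ConditionallyCompleteLinearOrderBot.toConditionallyCompleteLinearOrder LinearOrderedAddCommGroupWithTop.toLinearOrder LinearOrderedAddCommMonoidWithTop.toLinearOrder LinearOrderedCommMonoidWithZero.toLinearOrder BooleanAlgebra.toBiheytingAlgebra CompleteDistribLattice.toBiheytingAlgebra CompleteDistribLattice.toCoframe CompleteDistribLattice.toFrame CompleteLinearOrder.toBiheytingAlgebra CompletelyDistribLattice.toBiheytingAlgebra Pi.instOne NonUnitalNormedCommRing.toNonUnitalCommRing NonUnitalSeminormedCommRing.toNonUnitalCommRing BiheytingAlgebra.toCoheytingAlgebra BiheytingAlgebra.toHeytingAlgebra BooleanAlgebra.toGeneralizedBooleanAlgebra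 CompleteBooleanAlgebra.toCompleteLattice CompleteLinearOrder.toCompleteLattice CompletelyDistribLattice.toCompleteLattice Order.Coframe.toCoheytingAlgebra Order.Coframe.toCompleteLattice Order.Frame.toCompleteLattice Order.Frame.toHeytingAlgebra RingCat.instRingObjForgetRingHomCarrier CommSemiring.toNonAssocCommSemiring NonAssocCommSemiring.toNonAssocSemiring Module.toMulActionWithZero MonoidWithZero.toMulActionWithZero CoheytingAlgebra.toGeneralizedCoheytingAlgebra CompleteLattice.toCompletePartialOrder GeneralizedBooleanAlgebra.toGeneralizedCoheytingAlgebra HeytingAlgebra.toGeneralizedHeytingAlgebra NonAssocCommRing.toNonUnitalNonAssocCommRing NonUnitalAlgHomClass.toNonUnitalRingHomClass NonUnitalAlgSemiHomClass.toMulHomClass SubfieldClass.toField SubfieldClass.toNormedField SubringClass.toCommRing SubringClass.toNormedCommRing SubringClass.toSeminormedCommRing SetLike.GradeZero.instCommRing OrderRingHom.instRingHomClass Torsor.toMulAction GradedMonoid.GradeZero.mulAction instConditionallyCompletePartialOrderSup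 BooleanAlgebra.toDistribLattice ChainCompletePartialOrder.instOfCompleteLattice ChainCompletePartialOrder.instOmegaCompletePartialOrder ChainCompletePartialOrder.toPartialOrder CompleteLattice.toCompleteSemilatticeInf CompleteLattice.toCompleteSemilatticeSup CompleteLattice.toLattice CompleteLattice.toPartialOrder' CompletePartialOrder.toOmegaCompletePartialOrder CompletePartialOrder.toPartialOrder CompleteSemilatticeInf.toPartialOrder CompleteSemilatticeSup.toPartialOrder ConditionallyCompleteLattice.toConditionallyCompletePartialOrder ConditionallyCompleteLinearOrder.toConditionallyCompleteLattice ConditionallyCompletePartialOrder.toConditionallyCompletePartialOrderInf ConditionallyCompletePartialOrder.toConditionallyCompletePartialOrderSup ConditionallyCompletePartialOrderInf.toPartialOrder ConditionallyCompletePartialOrderSup.toPartialOrder GeneralizedBooleanAlgebra.toDistribLattice GeneralizedCoheytingAlgebra.toDistribLattice GeneralizedCoheytingAlgebra.toLattice GeneralizedHeytingAlgebra.toDistribLattice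 GeneralizedHeytingAlgebra.toLattice LinearOrder.toLattice LinearOrder.toPartialOrder OmegaCompletePartialOrder.toPartialOrder Order.Coframe.toDistribLattice Order.Frame.toDistribLattice AddHom.addHomClass Pi.partialOrder SubsemiringClass.toCommSemiring SetLike.GradeZero.instCommSemiring Pi.nonAssocRing SubalgebraClass.toAlgebra SetLike.GradeZero.instAlgebra AlgHomClass.toRingHomClass MulSemiringActionSemiHomClass.toRingHomClass NormedAddCommGroup.toNormedAddGroup SubalgebraClass.normedRing SubalgebraClass.seminormedRing SubfieldClass.toDivisionRing SubringClass.toNormedRing SubringClass.toRing SubringClass.toSeminormedRing SubsemiringClass.toSemiring SetLike.GradeZero.instRing SetLike.GradeZero.instSemiring OrderDual.instPow_1 TensorProduct.isScalarTower TensorProduct.isScalarTower_right Algebra.TensorProduct.right_isScalarTower instAlgEquivClassOfNonUnitalAlgEquivClass ContinuousAlgEquivClass.toAlgEquivClass NonUnitalCommRing.toNonUnitalRing NonUnitalNormedRing.toNonUnitalRing NonUnitalSeminormedRing.toNonUnitalRing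 Ring.toNonUnitalRing NormedAddGroup.toSeminormedAddGroup SeminormedAddCommGroup.toSeminormedAddGroup instCoeHTC instCoeHTCT instCoeOTCOfCoeTC instCoeTC instCoeTCOfCoe instCoeTCOfCoe_1 instSMulZeroClass TensorProduct.CompatibleSMul.int IsScalarTower.of_algHom Semigroup.isScalarTower OneHom.oneHomClass NonUnitalRing.toNonUnitalNonAssocRing instSubsingleton IsEmpty.instSubsingleton Unique.instSubsingleton FloorSemiring.instCharZero IsStrictOrderedRing.toCharZero MulEquivClass.toMonoidWithZeroHomClass MulRingSeminormClass.toMonoidWithZeroHomClass NumberField.to_charZero RCLike.charZero_rclike Pi.commMagma instDistribSMul LieAlgebra.ofAssociativeAlgebra MulAction.toSemigroupAction MulActionWithZero.toMulAction MulActionWithZero.toSMulWithZero MulDistribMulAction.toMulAction MulSemiringAction.toMulDistribMulAction MulZeroClass.toSMulWithZero NormedAlgebra.id SMulWithZero.toSMulZeroClass SemigroupAction.toSMul SemilinearIsometryEquivClass.toSemilinearIsometryClass instRingHomSurjectiveForallEvalRingHom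 AddCommGroupWithOne.toAddCommMonoidWithOne EMetricSpace.toPseudoEMetricSpace MetricSpace.toEMetricSpace MetricSpace.toPseudoMetricSpace NonUnitalNormedRing.toMetricSpace NonUnitalSeminormedRing.toPseudoMetricSpace NormedAddCommGroup.toMetricSpace NormedAddGroup.toMetricSpace NormedCommGroup.toMetricSpace NormedDivisionRing.toMetricSpace NormedField.toMetricSpace NormedGroup.toMetricSpace NormedRing.toMetricSpace PseudoEMetricSpace.toUniformSpace PseudoMetricSpace.toPseudoEMetricSpace PseudoMetricSpace.toUniformSpace SeminormedAddCommGroup.toPseudoMetricSpace SeminormedAddGroup.toPseudoMetricSpace SeminormedCommGroup.toPseudoMetricSpace SeminormedGroup.toPseudoMetricSpace SeminormedRing.toPseudoMetricSpace UniformSpace.toTopologicalSpace Valued.toUniformSpace WithIdeal.instTopologicalSpace WithIdeal.instUniformSpace SubringClass.toNonAssocCommRing SubringClass.toNonAssocRing SubsemiringClass.toNonAssocCommSemiring SubsemiringClass.toNonAssocSemiring NonUnitalRing.toNonUnitalSemiring instSMulCommClassOfIsScalarTower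 OrderDual.instRightDistribClass CommGroupWithZero.toGroupWithZero LinearOrderedCommGroupWithZero.toCommGroupWithZero Semifield.toCommGroupWithZero AddSubmonoid.instAddSubmonoidClass AddSubsemigroup.instAddMemClass Pi.monoidWithZero NonAssocCommSemiring.toNonUnitalNonAssocCommSemiring NonUnitalNonAssocCommSemiring.toNonUnitalNonAssocSemiring NonUnitalSemiring.toNonUnitalNonAssocSemiring LinOrd.str boolToProp AlgEquivClass.toRingEquivClass ContinuousAddMonoidHom.instCoeOutOfAddMonoidHomClassOfContinuousMapClass ContinuousMonoidHom.instCoeOutOfMonoidHomClassOfContinuousMapClass HomeomorphClass.instCoeOutHomeomorph IsometryClass.instCoeOutIsometryEquiv NonUnitalAlgEquivClass.toRingEquivClass StarRingEquivClass.toRingEquivClass Algebra.TensorProduct.instNonAssocRing TensorProduct.instSMul instIsDedekindDomainOfIsDomainOfIsDedekindRing AddCommGroupWithOne.toAddCommGroup IsDedekindDomainDvr.isDedekindDomain IsRegularLocalRing.instOfIsLocalRingOfIsDomainOfIsPrincipalIdealRing NonUnitalNonAssocRing.toAddCommGroup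 NormedAddCommGroup.toAddCommGroup SeminormedAddCommGroup.toAddCommGroup AddSubmonoidWithOneClass.toAddMonoidWithOne SubsemiringClass.addSubmonoidWithOneClass Pi.smulZeroClass' Vector.instHMul CommGroup.toDivisionCommMonoid CommGroupWithZero.toCommMonoidWithZero CommGroupWithZero.toDivisionCommMonoid CommMonoidWithZero.toMonoidWithZero CommSemiring.toCommMonoidWithZero DivInvMonoid.toMonoid DivInvOneMonoid.toDivInvMonoid DivisionCommMonoid.toDivisionMonoid DivisionMonoid.toDivInvMonoid DivisionMonoid.toDivInvOneMonoid DivisionRing.toDivInvMonoid Group.toDivInvMonoid Group.toDivisionMonoid GroupWithZero.toDivInvMonoid GroupWithZero.toDivisionMonoid LinearOrderedCommMonoidWithZero.toCommMonoidWithZero MonoidWithZero.toSemigroupWithZero SemigroupWithZero.toMulZeroClass Ideal.instIsTwoSided Ideal.Quotient.instRingQuotient Ideal.Quotient.normedCommRing Ideal.Quotient.semiNormedCommRing instIsDomain DivisionRing.isDomain EuclideanDomain.instIsDomain Field.isDomain IsDedekindDomain.toIsDomain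 IsRegularLocalRing.toIsLocalRing IsStrictOrderedRing.isDomain NormedAddGroup.toAddGroup SeminormedAddGroup.toAddGroup MonomialOrder.orderBot instIsEmptyForallOfNonempty instFiniteProp Pi.subNegMonoid Nat.instAtLeastTwoHAddOfNat Algebra.TensorProduct.instSMulCommClassTensorProduct Algebra.TensorProduct.instSMulCommClassTensorProduct_1 Set.instAddLeftMono Set.instAddRightMono -- iprune

set_option linter.all false

section

/-!
P202 MIX, task M12, part A: monomials in the roots modulo the variables (helper677).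
-/

namespace Vale.Agent.P202.Mix.UL

open TensorProduct IsLocalRing

universe u

section rt

variable {p : ℕ} [Fact p.Prime] {C : Type u} [CommRing C] [CharP C p] [PerfectRing C p]

theorem rt_inj {e : ℕ} {a b : C} (h : a ^ p ^ e = b ^ p ^ e) : a = b :=
  (iterateFrobeniusEquiv C p e).injective (by
    rw [iterateFrobeniusEquiv_def, iterateFrobeniusEquiv_def]
    exact h)

theorem rt_unique {e : ℕ} {a b : C} (h : a ^ p ^ e = b) : a = rt p e b :=
  rt_inj (e := e) (by rw [h, rt_pow_self])

theorem rt_zero_exp (c : C) : rt p 0 c = c := (rt_unique (by simp)).symm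

theorem rt_succ_pow (e : ℕ) (c : C) : rt p (e + 1) c ^ p = rt p e c :=
  rt_unique (by rw [← pow_mul, ← pow_succ', rt_pow_self])

theorem rt_map {D : Type u} [CommRing D] [CharP D p] [PerfectRing D p] (f : C →+* D) (e : ℕ)
    (c : C) : f (rt p e c) = rt p e (f c) := rt_unique (by rw [← map_pow, rt_pow_self])

end rt

section ps

variable {k : Type u} [Field k] {r : ℕ}

theorem exists_box (r q : ℕ) : ∃ B : Finset (Fin (r + 1) →₀ ℕ), ∀ m, m ∈ B ↔ ∀ l, m l < q := by
  classical
  refine ⟨(Fintype.piFinset fun _ : Fin (r + 1) => Finset.range q).map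
    Finsupp.equivFunOnFinite.symm.toEmbedding, fun m => ?_⟩
  rw [Finset.mem_map]
  constructor
  · rintro ⟨g, hg, rfl⟩ l
    have := Fintype.mem_piFinset.mp hg l
    simpa using this
  · intro h
    refine ⟨m, Fintype.mem_piFinset.mpr fun l => Finset.mem_range.mpr (h l), ?_⟩
    ext l
    simp

theorem mem_span_of_coeff (q : ℕ) (h : R0 k r)
    (H : ∀ m : Fin (r + 1) →₀ ℕ, (∀ l, m l < q) → MvPowerSeries.coeff m h = 0) :
    h ∈ Ideal.span (Set.range fun l => (MvPowerSeries.X l : R0 k r) ^ q) := by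
  classical
  have key : ∀ s : Finset (Fin (r + 1)), ∀ h : R0 k r,
      (∀ m : Fin (r + 1) →₀ ℕ, (∀ l ∈ s, m l < q) → MvPowerSeries.coeff m h = 0) →
      h ∈ Ideal.span (Set.range fun l => (MvPowerSeries.X l : R0 k r) ^ q) := by
    intro s
    induction s using Finset.induction_on with
    | empty =>
      intro h H
      have : h = 0 := by
        ext m
        rw [H m (by simp), map_zero]
      rw [this]
      exact zero_mem _
    | insert l s hl ih =>
      intro h H
      let h1 : R0 k r := fun m => if ∀ j ∈ s, m j < q then MvPowerSeries.coeff m h else 0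
      have c1 : ∀ m, MvPowerSeries.coeff m h1 =
          if ∀ j ∈ s, m j < q then MvPowerSeries.coeff m h else 0 := fun m => rfl
      have e1 : h = (h - h1) + h1 := by ring
      rw [e1]
      refine add_mem (ih _ fun m hm => ?_) ?_
      · rw [map_sub, c1, if_pos hm, sub_self]
      · have hd : (MvPowerSeries.X l : R0 k r) ^ q ∣ h1 := by
          rw [MvPowerSeries.X_pow_dvd_iff]
          intro m hm
          rw [c1]
          split_ifs with hs
          · refine H m fun j hj => ?_
            rcases Finset.mem_insert.mp hj with rfl | hj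
            · exact hm
            · exact hs j hj
          · rfl
        exact Ideal.mem_of_dvd _ hd (Ideal.subset_span ⟨l, rfl⟩)
  exact key Finset.univ h fun m hm => H m fun l => hm l (Finset.mem_univ l)

theorem coeff_of_mem_span (q : ℕ) (h : R0 k r)
    (H : h ∈ Ideal.span (Set.range fun l => (MvPowerSeries.X l : R0 k r) ^ q))
    (m : Fin (r + 1) →₀ ℕ) (hm : ∀ l, m l < q) : MvPowerSeries.coeff m h = 0 := by
  rw [Ideal.mem_span_range_iff_exists_fun] at H
  obtain ⟨c, rfl⟩ := H
  rw [map_sum]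
  refine Finset.sum_eq_zero fun l _ => ?_
  exact (MvPowerSeries.X_pow_dvd_iff.mp (Dvd.intro_left (c l) rfl)) m (hm l)

theorem monomial_eq (m : Fin (r + 1) →₀ ℕ) (a : k) :
    (MvPowerSeries.monomial m a : R0 k r) =
      MvPowerSeries.C a * ∏ l, MvPowerSeries.X l ^ m l := by
  rw [← MvPolynomial.coe_monomial, MvPolynomial.monomial_eq, MvPolynomial.coe_mul,
    MvPolynomial.coe_C, Finsupp.prod_fintype _ _ (fun i => pow_zero _)]
  congr 1
  have h := map_prod (MvPolynomial.coeToMvPowerSeries.ringHom (σ := Fin (r + 1)) (R := k))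
    (fun i => (MvPolynomial.X i : MvPolynomial (Fin (r + 1)) k) ^ m i) Finset.univ
  rw [MvPolynomial.coeToMvPowerSeries.ringHom_apply] at h
  rw [h]
  refine Finset.prod_congr rfl fun l _ => ?_
  rw [map_pow, MvPolynomial.coeToMvPowerSeries.ringHom_apply, MvPolynomial.coe_X]

theorem ps_decomp (q : ℕ) (B : Finset (Fin (r + 1) →₀ ℕ)) (hB : ∀ m, m ∈ B ↔ ∀ l, m l < q)
    (h : R0 k r) : h - ∑ m ∈ B, MvPowerSeries.monomial m (MvPowerSeries.coeff m h) ∈
      Ideal.span (Set.range fun l => (MvPowerSeries.X l : R0 k r) ^ q) := by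
  classical
  refine mem_span_of_coeff q _ fun m hm => ?_
  rw [map_sub, map_sum, Finset.sum_eq_single m]
  · rw [MvPowerSeries.coeff_monomial_same, sub_self]
  · intro n _ hn
    exact MvPowerSeries.coeff_monomial_ne hn.symm _
  · intro h'
    exact absurd ((hB m).mpr hm) h'

end ps

section pc

variable {p : ℕ} [Fact p.Prime] {k : Type u} [Field k] [CharP k p] {r : ℕ}

theorem of_inj : Function.Injective (PerfectClosure.of (R0 k r) p) := by
  intro x y h
  rw [PerfectClosure.of_apply, PerfectClosure.of_apply, PerfectClosure.eq_iff] at h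
  simpa using h

theorem exists_pow_of (y : Rp p k r) :
    ∃ (n : ℕ) (x : R0 k r), y ^ p ^ n = PerfectClosure.of (R0 k r) p x := by
  refine PerfectClosure.induction_on y fun y => ?_
  obtain ⟨n, z⟩ := y
  refine ⟨n, z, ?_⟩
  rw [← PerfectClosure.iterate_frobenius_mk (K := R0 k r) (p := p) n z, ← coe_iterateFrobenius,
    iterateFrobenius_def]

theorem exists_pow_of_fin {l : ℕ} (x : Fin l → Rp p k r) :
    ∃ (e : ℕ) (z : Fin l → R0 k r), ∀ i, x i ^ p ^ e = PerfectClosure.of (R0 k r) p (z i) := by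
  choose e z hz using fun i => exists_pow_of (x i)
  refine ⟨∑ i, e i, fun i => z i ^ p ^ (∑ j, e j - e i), fun i => ?_⟩
  have h1 : e i ≤ ∑ j, e j := Finset.single_le_sum (fun _ _ => Nat.zero_le _) (Finset.mem_univ i)
  have h2 : ∑ j, e j = e i + (∑ j, e j - e i) := by omega
  rw [map_pow, ← hz i, ← pow_mul, ← pow_add, ← h2]

theorem pow_mem_span {R : Type*} [CommRing R] [CharP R p] {J : Type*} [Fintype J] (v : J → R)
    (z : R) (h : z ∈ Ideal.span (Set.range v)) (n : ℕ) :
    z ^ p ^ n ∈ Ideal.span (Set.range fun j => v j ^ p ^ n) := by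
  rw [Ideal.mem_span_range_iff_exists_fun] at h ⊢
  obtain ⟨c, rfl⟩ := h
  refine ⟨fun j => c j ^ p ^ n, ?_⟩
  rw [sum_pow_char_pow]
  exact Finset.sum_congr rfl fun j _ => (mul_pow _ _ _).symm

theorem coeff_eq_zero_of_of_mem (Q : ℕ) (P : R0 k r)
    (h : PerfectClosure.of (R0 k r) p P ∈ Ideal.span (Set.range fun l => xp p k r l ^ Q))
    (m : Fin (r + 1) →₀ ℕ) (hm : ∀ l, m l < Q) : MvPowerSeries.coeff m P = 0 := by
  classical
  have hp0 : 0 < p := (Fact.out : p.Prime).pos
  rw [Ideal.mem_span_range_iff_exists_fun] at h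
  obtain ⟨y, hy⟩ := h
  obtain ⟨n, y', hy'⟩ := exists_pow_of_fin y
  have h1 : P ^ p ^ n = ∑ l, y' l * (MvPowerSeries.X l) ^ (Q * p ^ n) := by
    apply of_inj (p := p)
    rw [map_pow, ← hy, sum_pow_char_pow, map_sum]
    refine Finset.sum_congr rfl fun l _ => ?_
    rw [mul_pow, hy', map_mul, map_pow, ← pow_mul]
    rfl
  obtain ⟨B, hB⟩ := exists_box r Q
  have h2 := ps_decomp Q B hB P
  have e3 : (∑ m ∈ B, MvPowerSeries.monomial (p ^ n • m) (MvPowerSeries.coeff m P ^ p ^ n) :
      R0 k r) = (∑ m ∈ B, MvPowerSeries.monomial m (MvPowerSeries.coeff m P)) ^ p ^ n := by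
    rw [sum_pow_char_pow]
    refine Finset.sum_congr rfl fun m _ => ?_
    rw [MvPowerSeries.monomial_pow]
  have h3 : (∑ m ∈ B, MvPowerSeries.monomial (p ^ n • m) (MvPowerSeries.coeff m P ^ p ^ n) :
      R0 k r) ∈ Ideal.span (Set.range fun l => (MvPowerSeries.X l : R0 k r) ^ (Q * p ^ n)) := by
    have e4 : (∑ m ∈ B, MvPowerSeries.monomial m (MvPowerSeries.coeff m P) : R0 k r) ^ p ^ n =
        P ^ p ^ n -
          (P - ∑ m ∈ B, MvPowerSeries.monomial m (MvPowerSeries.coeff m P)) ^ p ^ n := by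
      rw [← sub_pow_char_pow, sub_sub_cancel]
    rw [e3, e4]
    refine sub_mem ?_ ?_
    · rw [h1]
      exact sum_mem fun l _ => Ideal.mul_mem_left _ _ (Ideal.subset_span ⟨l, rfl⟩)
    · have := pow_mem_span (p := p) _ _ h2 n
      simpa only [← pow_mul] using this
  have h4 := coeff_of_mem_span _ _ h3 (p ^ n • m) (fun l => by
    rw [Finsupp.smul_apply, smul_eq_mul, mul_comm]
    exact Nat.mul_lt_mul_of_pos_right (hm l) (pow_pos hp0 n))
  rw [map_sum, Finset.sum_eq_single m, MvPowerSeries.coeff_monomial_same] at h4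
  · exact pow_eq_zero_iff (pow_pos hp0 n).ne' |>.mp h4
  · intro m' _ hne
    refine MvPowerSeries.coeff_monomial_ne (fun he => hne ?_) _
    ext l
    have := DFunLike.congr_fun he l
    rw [Finsupp.smul_apply, Finsupp.smul_apply, smul_eq_mul, smul_eq_mul] at this
    exact (Nat.eq_of_mul_eq_mul_left (pow_pos hp0 n) this).symm
  · intro h'
    exact absurd ((hB m).mpr hm) h'

end pc

section li

variable (p : ℕ) [Fact p.Prime] (k : Type u) [Field k] [CharP k p] (r : ℕ)
variable (C : Type u) [CommRing C] [Algebra (Rp p k r) C]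

/-- the variables in `C`. -/
noncomputable def vC (l : Fin (r + 1)) : C := algebraMap (Rp p k r) C (xp p k r l)

/-- the ideal generated by the variables. -/
noncomputable def vI : Ideal C := Ideal.span (Set.range (vC p k r C))

/-- the constants. -/
noncomputable def kR : k →+* Rp p k r := (PerfectClosure.of (R0 k r) p).comp MvPowerSeries.C

/-- the constants in `C`. -/
noncomputable def kC : k →+* C := (algebraMap (Rp p k r) C).comp (kR p k r)

variable {p k r}

theorem mem_of_map_mem {r0 : ℕ} (d : PExt.{u} p k r r0) (z : Rp p k r)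
    (h : algebraMap (Rp p k r) d.C z ∈ vI p k r d.C) :
    z ∈ Ideal.span (Set.range (xp p k r)) := by
  have h1 := d.flat
  have h2 := d.integral
  have h3 : FaithfulSMul (Rp p k r) d.C := (faithfulSMul_iff_algebraMap_injective _ _).mpr d.inj
  have hs : Function.Surjective (PrimeSpectrum.comap (algebraMap (Rp p k r) d.C)) :=
    Algebra.IsIntegral.comap_surjective _ _
  have h4 : Module.FaithfullyFlat (Rp p k r) d.C := Module.FaithfullyFlat.of_comap_surjective hs
  have h5 : (Ideal.span (Set.range (xp p k r))).map (algebraMap _ d.C) = vI p k r d.C := by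
    rw [Ideal.map_span, ← Set.range_comp]
    rfl
  rw [← h5, ← Ideal.mem_comap, Ideal.comap_map_eq_self_of_faithfullyFlat] at h
  exact h

theorem li_k_aux {r0 : ℕ} (d : PExt.{u} p k r r0) (e : ℕ)
    (f : Bx (Fin (r + 1)) (p ^ e) →₀ k)
    (h : (f.sum fun α y => kC p k r d.C y * ∏ l, rt p e (vC p k r d.C l) ^ α.1 l) ∈
      vI p k r d.C) : f = 0 := by
  classical
  have hp0 : 0 < p := (Fact.out : p.Prime).pos
  let z : Rp p k r := f.sum fun α y => kR p k r y * ∏ l, rt p e (xp p k r l) ^ α.1 l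
  have hz1 : algebraMap (Rp p k r) d.C z =
      f.sum fun α y => kC p k r d.C y * ∏ l, rt p e (vC p k r d.C l) ^ α.1 l := by
    rw [map_finsuppSum]
    refine Finsupp.sum_congr fun α _ => ?_
    rw [map_mul, map_prod]
    refine congrArg₂ _ rfl (Finset.prod_congr rfl fun l _ => ?_)
    rw [map_pow, rt_map]
    rfl
  rw [← hz1] at h
  have hz2 := pow_mem_span (p := p) _ _ (mem_of_map_mem d z h) e
  have hz3 : z ^ p ^ e = PerfectClosure.of (R0 k r) p
      (f.sum fun α y => MvPowerSeries.monomial α.1 (y ^ p ^ e)) := by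
    have hz0 : z = ∑ α ∈ f.support, kR p k r (f α) * ∏ l, rt p e (xp p k r l) ^ α.1 l := rfl
    rw [hz0, map_finsuppSum, Finsupp.sum, sum_pow_char_pow]
    refine Finset.sum_congr rfl fun α _ => ?_
    rw [mul_pow, ← Finset.prod_pow, monomial_eq, map_mul, map_prod]
    refine congrArg₂ _ ?_ (Finset.prod_congr rfl fun l _ => ?_)
    · rw [← map_pow]
      rfl
    · rw [← pow_mul, mul_comm, pow_mul, rt_pow_self, map_pow]
      rfl
  rw [hz3] at hz2
  ext α
  have h6 := coeff_eq_zero_of_of_mem (p ^ e) _ hz2 α.1 α.2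
  rw [Finsupp.sum, map_sum, Finset.sum_eq_single α, MvPowerSeries.coeff_monomial_same] at h6
  · exact pow_eq_zero_iff (pow_pos hp0 e).ne' |>.mp h6
  · intro β _ hne
    exact MvPowerSeries.coeff_monomial_ne (fun he => hne (Subtype.ext he.symm)) _
  · intro hα
    rw [Finsupp.notMem_support_iff.mp hα, zero_pow (pow_pos hp0 e).ne', map_zero, map_zero]

/-- the homomorphism `k → C/(x)`. -/
noncomputable def kCb (p : ℕ) [Fact p.Prime] (k : Type u) [Field k] [CharP k p] (r : ℕ)
    (C : Type u) [CommRing C] [Algebra (Rp p k r) C] : k →+* C ⧸ vI p k r C :=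
  (Ideal.Quotient.mk (vI p k r C)).comp (kC p k r C)

theorem li_k {r0 : ℕ} (d : PExt.{u} p k r r0) (e : ℕ) :
    letI := (kCb p k r d.C).toAlgebra
    LinearIndependent k fun α : Bx (Fin (r + 1)) (p ^ e) =>
      (Ideal.Quotient.mk (vI p k r d.C) (∏ l, rt p e (vC p k r d.C l) ^ α.1 l)) := by
  let _ := (kCb p k r d.C).toAlgebra
  rw [linearIndependent_iff]
  intro f hf
  refine li_k_aux d e f ?_
  rw [← Ideal.Quotient.eq_zero_iff_mem, ← hf, Finsupp.linearCombination_apply, map_finsuppSum]
  refine Finsupp.sum_congr fun α _ => ?_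
  rw [map_mul, Algebra.smul_def]
  rfl

end li

section lik0

variable {p : ℕ} [Fact p.Prime] {k : Type u} [Field k] [CharP k p] {r : ℕ}
variable {Λ : Type u} [CommRing Λ] [IsLocalRing Λ] {u : Fin r → Λ}
  {ψ : Λ →+* WittVector p (Rp p k r)}
  {red : Λ →+* R0 k r ⧸ Ideal.span {(MvPowerSeries.X 0 : R0 k r)}}
  {ι : Type u} {b : ι → Λ} {β : ι → k} {res : ResidueField Λ →+* k}

theorem psi_coeff (hX : IsBaseX p k r u ψ red b β res) (l : Λ) :
    (ψ l).coeff 0 - kR p k r (res (residue Λ l)) ∈ Ideal.span (Set.range (xp p k r)) := by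
  obtain ⟨g, y, h1, h2⟩ := hX.red_coeff l
  rw [h2, hX.res_red l g h1]
  have h3 : g - MvPowerSeries.C (MvPowerSeries.constantCoeff g) ∈
      Ideal.span (Set.range fun l => (MvPowerSeries.X l : R0 k r) ^ 1) := by
    refine mem_span_of_coeff 1 _ fun m hm => ?_
    have hm0 : m = 0 := by
      ext l
      exact Nat.lt_one_iff.mp (hm l)
    rw [hm0, map_sub, MvPowerSeries.coeff_zero_eq_constantCoeff_apply,
      MvPowerSeries.coeff_zero_eq_constantCoeff_apply, MvPowerSeries.constantCoeff_C, sub_self]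
  have h4 := Ideal.mem_map_of_mem (PerfectClosure.of (R0 k r) p) h3
  rw [Ideal.map_span, ← Set.range_comp] at h4
  have h5 : PerfectClosure.of (R0 k r) p g -
      kR p k r (MvPowerSeries.constantCoeff g) ∈ Ideal.span (Set.range (xp p k r)) := by
    rw [map_sub] at h4
    refine Ideal.span_mono ?_ h4
    rintro _ ⟨l, rfl⟩
    exact ⟨l, by simp [xp]⟩
  have h6 : xp p k r 0 * y ∈ Ideal.span (Set.range (xp p k r)) :=
    Ideal.mul_mem_right _ _ (Ideal.subset_span ⟨0, rfl⟩)
  have h7 := add_mem h5 h6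
  have e1 : PerfectClosure.of (R0 k r) p g + xp p k r 0 * y -
      kR p k r (MvPowerSeries.constantCoeff g) = PerfectClosure.of (R0 k r) p g -
      kR p k r (MvPowerSeries.constantCoeff g) + xp p k r 0 * y := by ring
  rw [e1]
  exact h7

theorem beta_eq (hX : IsBaseX p k r u ψ red b β res) (i : ι) :
    β i = res (residue Λ (b i)) := by
  have h1 := psi_coeff hX (b i)
  rw [hX.psi_b i, WittVector.teichmuller_coeff_zero] at h1
  have h2 : PerfectClosure.of (R0 k r) p (MvPowerSeries.C (β i - res (residue Λ (b i)))) ∈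
      Ideal.span (Set.range fun l => xp p k r l ^ 1) := by
    simp only [pow_one]
    rw [map_sub, map_sub]
    exact h1
  have h3 := coeff_eq_zero_of_of_mem 1 _ h2 0 (fun l => by simp)
  rw [MvPowerSeries.coeff_zero_eq_constantCoeff_apply, MvPowerSeries.constantCoeff_C] at h3
  exact sub_eq_zero.mp h3

theorem li_k0 (hX : IsBaseX p k r u ψ red b β res) (e : ℕ) :
    letI := res.toAlgebra
    haveI := hX.perf
    LinearIndependent (ResidueField Λ) fun γ : Bx ι (p ^ e) =>
      γ.1.prod fun i m => rt p e (β i) ^ m := by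
  let _ := res.toAlgebra
  have := hX.perf
  rw [linearIndependent_iff]
  intro f hf
  rw [Finsupp.linearCombination_apply] at hf
  have h1 : res (f.sum fun γ y => y ^ p ^ e * γ.1.prod fun i m => residue Λ (b i) ^ m) = 0 := by
    have h2 := congrArg (fun z => z ^ p ^ e) hf
    simp only [Finsupp.sum] at h2
    rw [sum_pow_char_pow, zero_pow (pow_pos (Fact.out : p.Prime).pos e).ne'] at h2
    rw [map_finsuppSum, Finsupp.sum, ← h2]
    refine Finset.sum_congr rfl fun γ _ => ?_
    rw [Algebra.smul_def, mul_pow, map_mul, map_pow, map_finsuppProd, Finsupp.prod, Finsupp.prod,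
      ← Finset.prod_pow]
    refine congrArg₂ _ rfl (Finset.prod_congr rfl fun i _ => ?_)
    rw [← pow_mul, mul_comm, pow_mul, rt_pow_self, map_pow, ← beta_eq hX]
  have h3 := (map_eq_zero res).mp h1
  exact (hX.pbasis.2 e 0).unique h3 Finsupp.sum_zero_index

theorem li_total (hX : IsBaseX p k r u ψ red b β res) {r0 : ℕ} (d : PExt.{u} p k r r0) (e : ℕ) :
    letI := ((kCb p k r d.C).comp res).toAlgebra
    haveI := hX.perf
    LinearIndependent (ResidueField Λ) fun x : Bx ι (p ^ e) × Bx (Fin (r + 1)) (p ^ e) =>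
      (Ideal.Quotient.mk (vI p k r d.C)
        (kC p k r d.C (x.1.1.prod fun i m => rt p e (β i) ^ m) *
          ∏ l, rt p e (vC p k r d.C l) ^ x.2.1 l)) := by
  let _ := res.toAlgebra
  let _ := (kCb p k r d.C).toAlgebra
  let _ := ((kCb p k r d.C).comp res).toAlgebra
  have := hX.perf
  have : IsScalarTower (ResidueField Λ) k (d.C ⧸ vI p k r d.C) :=
    IsScalarTower.of_algebraMap_eq fun _ => rfl
  have h := linearIndependent_smul (li_k0 hX e) (li_k d e)
  convert h using 2 with x
  rw [map_mul, Algebra.smul_def]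
  rfl

/-- the elements of `C` whose roots are used. -/
noncomputable def cR (p : ℕ) [Fact p.Prime] (k : Type u) [Field k] [CharP k p] (r : ℕ)
    (C : Type u) [CommRing C] [Algebra (Rp p k r) C] {ι : Type u} (β : ι → k) :
    Fin (r + 1) ⊕ ι → C :=
  Sum.elim (vC p k r C) fun i => kC p k r C (β i)

theorem prod_sum_eq {M : Type*} [CommMonoid M] {κ ι : Type*} (α : κ ⊕ ι →₀ ℕ)
    (g : κ ⊕ ι → ℕ → M) : α.prod g =
      (α.comapDomain Sum.inl Sum.inl_injective.injOn).prod (fun l m => g (Sum.inl l) m) *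
      (α.comapDomain Sum.inr Sum.inr_injective.injOn).prod (fun i m => g (Sum.inr i) m) := by
  conv_lhs => rw [← Finsupp.comapDomain_sumElim_comapDomain α]
  rw [Finsupp.prod_sumElim]
  rfl

theorem li_sum (hX : IsBaseX p k r u ψ red b β res) {r0 : ℕ} (d : PExt.{u} p k r r0) (e : ℕ) :
    letI := ((kCb p k r d.C).comp res).toAlgebra
    LinearIndependent (ResidueField Λ) fun α : Bx (Fin (r + 1) ⊕ ι) (p ^ e) =>
      (Ideal.Quotient.mk (vI p k r d.C)
        (α.1.prod fun i m => rt p e (cR p k r d.C β i) ^ m)) := by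
  let _ := ((kCb p k r d.C).comp res).toAlgebra
  have := hX.perf
  let g : Bx (Fin (r + 1) ⊕ ι) (p ^ e) → Bx ι (p ^ e) × Bx (Fin (r + 1)) (p ^ e) := fun α =>
    (⟨α.1.comapDomain Sum.inr Sum.inr_injective.injOn, fun i => α.2 _⟩,
      ⟨α.1.comapDomain Sum.inl Sum.inl_injective.injOn, fun l => α.2 _⟩)
  have hg : Function.Injective g := by
    intro α α' h
    have h1 := congrArg (fun x => x.1.1) h
    have h2 := congrArg (fun x => x.2.1) h
    refine Subtype.ext (Finsupp.ext fun i => ?_)
    rcases i with i | i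
    · exact DFunLike.congr_fun h2 i
    · exact DFunLike.congr_fun h1 i
  have h := (li_total hX d e).comp g hg
  convert h using 2 with α
  change _ = Ideal.Quotient.mk (vI p k r d.C) (kC p k r d.C
    ((α.1.comapDomain Sum.inr Sum.inr_injective.injOn).prod fun i m => rt p e (β i) ^ m) *
      ∏ l, rt p e (vC p k r d.C l) ^ (α.1.comapDomain Sum.inl Sum.inl_injective.injOn) l)
  congr 1
  rw [prod_sum_eq, mul_comm]
  congr 1
  · rw [map_finsuppProd]
    refine Finsupp.prod_congr fun i _ => ?_
    rw [map_pow, rt_map]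
    rfl
  · rw [Finsupp.prod_fintype _ _ (fun i => pow_zero _)]
    rfl

theorem range_const (hX : IsBaseX p k r u ψ red b β res) {W : Type*} [CommRing W]
    (ω : Rp p k r →+* W) (G : Subring W)
    (h0 : ∀ c : ResidueField Λ, ω (kR p k r (res c)) ∈ G)
    (h1 : ∀ e i, ω (rt p e (kR p k r (β i))) ∈ G) (y : k) : ω (kR p k r y) ∈ G := by
  obtain ⟨e, x, hx⟩ := hX.perfClosure y
  obtain ⟨c, hc, -⟩ := hX.pbasis.2 e x
  have h2 : kR p k r y = c.sum fun α z => kR p k r (res z) *
      α.1.prod fun i m => rt p e (kR p k r (β i)) ^ m := by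
    refine rt_inj (e := e) ?_
    rw [← map_pow, hx, ← hc, Finsupp.sum, Finsupp.sum, map_sum, map_sum, sum_pow_char_pow]
    refine Finset.sum_congr rfl fun α _ => ?_
    rw [mul_pow, map_mul, map_mul, map_pow, map_pow, map_finsuppProd, map_finsuppProd,
      Finsupp.prod, Finsupp.prod, ← Finset.prod_pow]
    refine congrArg₂ _ rfl (Finset.prod_congr rfl fun i _ => ?_)
    rw [← pow_mul, mul_comm, pow_mul, rt_pow_self, map_pow, map_pow, ← beta_eq hX]
  rw [h2, map_finsuppSum]
  refine sum_mem fun α _ => ?_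
  beta_reduce
  rw [map_mul, map_finsuppProd]
  refine mul_mem (h0 _) (prod_mem fun i _ => ?_)
  beta_reduce
  rw [map_pow]
  exact pow_mem (h1 _ _) _

theorem range_gen (hX : IsBaseX p k r u ψ red b β res) {W : Type*} [CommRing W]
    (ω : Rp p k r →+* W) (hω : ∀ l, ω (xp p k r l) = 0) (G : Subring W)
    (h0 : ∀ c : ResidueField Λ, ω (kR p k r (res c)) ∈ G)
    (h1 : ∀ e i, ω (rt p e (kR p k r (β i))) ∈ G)
    (h2 : ∀ e l, ω (rt p e (xp p k r l)) ∈ G) (g : Rp p k r) : ω g ∈ G := by
  have hperf := hX.perf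
  obtain ⟨n, h, hg⟩ := exists_pow_of g
  obtain ⟨B, hB⟩ := exists_box r (p ^ n)
  have h3 := Ideal.mem_map_of_mem (PerfectClosure.of (R0 k r) p) (ps_decomp (p ^ n) B hB h)
  rw [Ideal.map_span, ← Set.range_comp, Ideal.mem_span_range_iff_exists_fun] at h3
  obtain ⟨c, hc⟩ := h3
  have h4 : g = (∑ m ∈ B, rt p n (kR p k r (MvPowerSeries.coeff m h)) *
      ∏ l, rt p n (xp p k r l) ^ m l) + ∑ l, rt p n (c l) * xp p k r l := by
    refine rt_inj (e := n) ?_
    rw [add_pow_char_pow, sum_pow_char_pow, sum_pow_char_pow, hg]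
    have e1 : ∀ m ∈ B, (rt p n (kR p k r (MvPowerSeries.coeff m h)) *
        ∏ l, rt p n (xp p k r l) ^ m l) ^ p ^ n =
        PerfectClosure.of (R0 k r) p (MvPowerSeries.monomial m (MvPowerSeries.coeff m h)) := by
      intro m _
      rw [mul_pow, rt_pow_self, ← Finset.prod_pow, monomial_eq, map_mul, map_prod]
      refine congrArg₂ _ rfl (Finset.prod_congr rfl fun l _ => ?_)
      rw [← pow_mul, mul_comm, pow_mul, rt_pow_self, map_pow]
      rfl
    have e2 : ∀ l ∈ (Finset.univ : Finset (Fin (r + 1))), (rt p n (c l) * xp p k r l) ^ p ^ n =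
        c l * (PerfectClosure.of (R0 k r) p ∘ fun l => (MvPowerSeries.X l : R0 k r) ^ p ^ n) l := by
      intro l _
      rw [mul_pow, rt_pow_self, Function.comp_apply, map_pow]
      rfl
    rw [Finset.sum_congr rfl e1, Finset.sum_congr rfl e2, hc, map_sub, map_sum]
    ring
  rw [h4, map_add, map_sum, map_sum]
  refine add_mem (sum_mem fun m _ => ?_) (sum_mem fun l _ => ?_)
  · rw [map_mul, map_prod]
    refine mul_mem ?_ (prod_mem fun l _ => ?_)
    · rw [← rt_map]
      exact range_const hX ω G h0 h1 _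
    · rw [map_pow]
      exact pow_mem (h2 _ _) _
  · rw [map_mul, hω, mul_zero]
    exact zero_mem _

end lik0

end Vale.Agent.P202.Mix.UL
end

section

/-!
P202 MIX, task M12, part C: the ring `E/n_S E` (helper677).
-/

namespace Vale.Agent.P202.Mix.UL

open TensorProduct IsLocalRing

universe u

variable {p : ℕ} [Fact p.Prime] {k : Type u} [Field k] [CharP k p] {r : ℕ}
variable {Λ : Type u} [CommRing Λ] [IsLocalRing Λ] {u : Fin r → Λ}
  {ψ : Λ →+* WittVector p (Rp p k r)}
  {red : Λ →+* R0 k r ⧸ Ideal.span {(MvPowerSeries.X 0 : R0 k r)}}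
  {ι : Type u} {b : ι → Λ} {β : ι → k} {res : ResidueField Λ →+* k}

/-- the elements of `Λ` whose roots are used. -/
def cL (p : ℕ) {Λ : Type u} [CommRing Λ] {r : ℕ} (u : Fin r → Λ) {ι : Type u} (b : ι → Λ) :
    Fin (r + 1) ⊕ ι → Λ :=
  Sum.elim (Fin.cons (p : Λ) u) b

theorem algebraMap_BN {Λ : Type u} [CommRing Λ] (ψ : Λ →+* WittVector p (Rp p k r)) (C : Type u)
    [CommRing C] [Algebra (Rp p k r) C] (N : ℕ) (l : Λ) :
    algebraMap Λ (BN ψ C N) l = mkN ψ C N (toB p C (tC p k r C)
      (WittVector.map (algebraMap (Rp p k r) C) (ψ l))) := rfl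

theorem teN_cR (hX : IsBaseX p k r u ψ red b β res) {r0 : ℕ} (d : PExt.{u} p k r r0) (N : ℕ)
    (i : Fin (r + 1) ⊕ ι) :
    teN ψ d.C N (cR p k r d.C β i) = algebraMap Λ (BN ψ d.C N) (cL p u b i) := by
  rcases i with i | i
  · refine Fin.cases ?_ (fun j => ?_) i
    · change mkN ψ d.C N (te p d.C (tC p k r d.C) (tC p k r d.C)) = algebraMap Λ _ (p : Λ)
      rw [te_t, map_natCast, map_natCast]
    · change mkN ψ d.C N (toB p d.C (tC p k r d.C) (WittVector.teichmuller p
        (algebraMap (Rp p k r) d.C (xp p k r j.succ)))) = algebraMap Λ _ (u j)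
      rw [algebraMap_BN, hX.psi_u, WittVector.map_teichmuller]
  · change mkN ψ d.C N (toB p d.C (tC p k r d.C) (WittVector.teichmuller p
      (algebraMap (Rp p k r) d.C (PerfectClosure.of (R0 k r) p (MvPowerSeries.C (β i)))))) =
      algebraMap Λ _ (b i)
    rw [algebraMap_BN, hX.psi_b, WittVector.map_teichmuller]

theorem exists_piN {Λ : Type u} [CommRing Λ] (ψ : Λ →+* WittVector p (Rp p k r)) {r0 : ℕ}
    (d : PExt.{u} p k r r0) (N : ℕ) (hN : 1 ≤ N) :
    ∃ π : BN ψ d.C N →+* d.C ⧸ vI p k r d.C, ∀ x : WittVector p d.C,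
      π (mkN ψ d.C N (toB p d.C (tC p k r d.C) x)) = Ideal.Quotient.mk _ (x.coeff 0) := by
  obtain ⟨π, h1, -, h3⟩ := exists_proj p d.C (tC p k r d.C)
  have hle : Ideal.span {tC p k r d.C} ≤ vI p k r d.C := by
    rw [Ideal.span_singleton_le_iff_mem]
    exact Ideal.subset_span ⟨0, rfl⟩
  let π2 : Bt p d.C (tC p k r d.C) →+* d.C ⧸ vI p k r d.C := (Ideal.Quotient.factor hle).comp π
  have h4 : π2 (p : Bt p d.C (tC p k r d.C)) = 0 := by
    have : (p : Bt p d.C (tC p k r d.C)) ∈ RingHom.ker π := by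
      rw [h3]
      exact Ideal.mem_span_singleton_self _
    change Ideal.Quotient.factor hle (π _) = 0
    rw [RingHom.mem_ker.mp this, map_zero]
  have h5 : ∀ a ∈ Ideal.span {(p : Bt p d.C (tC p k r d.C)) ^ N}, π2 a = 0 := by
    intro a ha
    obtain ⟨c, rfl⟩ := Ideal.mem_span_singleton'.mp ha
    rw [map_mul, map_pow, h4, zero_pow (by omega), mul_zero]
  refine ⟨Ideal.Quotient.lift _ π2 h5, fun x => ?_⟩
  change Ideal.Quotient.factor hle (π (toB p d.C (tC p k r d.C) x)) = _
  rw [h1]
  rfl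

theorem piN_algebraMap (hX : IsBaseX p k r u ψ red b β res) {r0 : ℕ} (d : PExt.{u} p k r r0)
    (N : ℕ) (π : BN ψ d.C N →+* d.C ⧸ vI p k r d.C) (hπ : ∀ x : WittVector p d.C,
      π (mkN ψ d.C N (toB p d.C (tC p k r d.C) x)) = Ideal.Quotient.mk _ (x.coeff 0)) (l : Λ) :
    π (algebraMap Λ (BN ψ d.C N) l) = kCb p k r d.C (res (residue Λ l)) := by
  rw [algebraMap_BN, hπ, WittVector.map_coeff]
  change _ = Ideal.Quotient.mk _ (algebraMap (Rp p k r) d.C (kR p k r (res (residue Λ l))))
  rw [Ideal.Quotient.eq, ← map_sub]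
  have h := Ideal.mem_map_of_mem (algebraMap (Rp p k r) d.C) (psi_coeff hX l)
  rw [Ideal.map_span, ← Set.range_comp] at h
  exact h

variable {A S : Type u} [CommRing A] [CommRing S] [IsLocalRing S] [Algebra Λ A] [Algebra A S]
  [IsLocalHom (algebraMap Λ A)] [IsLocalHom (algebraMap A S)]

variable (ψ A S) in
/-- the ideal `n_S E`. -/
noncomputable def nE (C : Type u) [CommRing C] [Algebra (Rp p k r) C] (N : ℕ) : Ideal (ES ψ A S C N) :=
  (maximalIdeal S).map (algebraMap S (ES ψ A S C N))

omit [IsLocalRing Λ] [IsLocalHom (algebraMap Λ A)]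
  [IsLocalHom (algebraMap A S)] [IsLocalRing S] in
theorem toES_algebraMap (C : Type u) [CommRing C] [Algebra (Rp p k r) C] (N : ℕ) (x : Λ) :
    toES ψ A S C N (algebraMap Λ (BN ψ C N) x) =
      algebraMap S (ES ψ A S C N) (algebraMap A S (algebraMap Λ A x)) := by
  have h1 : (1 : A) ⊗ₜ[Λ] (algebraMap Λ (BN ψ C N) x) = (algebraMap Λ A x) ⊗ₜ[Λ] 1 := by
    rw [Algebra.algebraMap_eq_smul_one, Algebra.algebraMap_eq_smul_one, TensorProduct.smul_tmul]
  change (1 : S) ⊗ₜ[A] ((1 : A) ⊗ₜ[Λ] (algebraMap Λ (BN ψ C N) x)) =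
    (algebraMap A S (algebraMap Λ A x)) ⊗ₜ[A] 1
  rw [h1, Algebra.algebraMap_eq_smul_one (A := S), TensorProduct.smul_tmul]
  congr 1
  rw [Algebra.TensorProduct.one_def, TensorProduct.smul_tmul', smul_eq_mul, mul_one]

theorem toES_mem (C : Type u) [CommRing C] [Algebra (Rp p k r) C] (N : ℕ) (x : Λ)
    (hx : x ∈ maximalIdeal Λ) : toES ψ A S C N (algebraMap Λ (BN ψ C N) x) ∈ nE ψ A S C N := by
  rw [toES_algebraMap]
  refine Ideal.mem_map_of_mem _ ?_
  rw [mem_maximalIdeal, mem_nonunits_iff] at hx ⊢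
  rw [isUnit_map_iff, isUnit_map_iff]
  exact hx

theorem toES_p_mem (hX : IsBaseX p k r u ψ red b β res) (C : Type u) [CommRing C]
    [Algebra (Rp p k r) C] (N : ℕ) (x : Bt p C (tC p k r C))
    (hx : x ∈ Ideal.span {(p : Bt p C (tC p k r C))}) :
    toES ψ A S C N (mkN ψ C N x) ∈ nE ψ A S C N := by
  obtain ⟨c, rfl⟩ := Ideal.mem_span_singleton'.mp hx
  rw [map_mul, map_mul]
  refine Ideal.mul_mem_left _ _ ?_
  have h1 : toES ψ A S C N (mkN ψ C N (p : Bt p C (tC p k r C))) =
      toES ψ A S C N (algebraMap Λ (BN ψ C N) (p : Λ)) := by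
    simp only [map_natCast]
  rw [h1]
  refine toES_mem C N _ ?_
  rw [hX.max]
  exact Ideal.subset_span (Set.mem_insert _ _)

theorem exists_omega (hX : IsBaseX p k r u ψ red b β res) {r0 : ℕ} (d : PExt.{u} p k r r0)
    (N : ℕ) : ∃ ω : d.C →+* ES ψ A S d.C N ⧸ nE ψ A S d.C N,
      ∀ c, ω c = Ideal.Quotient.mk _ (toES ψ A S d.C N (teN ψ d.C N c)) := by
  refine ⟨{ toFun := fun c => Ideal.Quotient.mk _ (toES ψ A S d.C N (teN ψ d.C N c))
            map_one' := ?_
            map_mul' := fun a c => ?_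
            map_zero' := ?_
            map_add' := fun a c => ?_ }, fun c => rfl⟩
  · rw [teN, te_one, map_one, map_one, map_one]
  · rw [teN, te_mul, map_mul, map_mul, map_mul]
    rfl
  · rw [teN, te_zero, map_zero, map_zero, map_zero]
  · rw [teN, teN, teN, ← map_add, ← map_add, ← map_add, Ideal.Quotient.eq, ← map_sub, ← map_sub]
    exact toES_p_mem hX d.C N _ (te_add_mem p d.C _ a c)

theorem span_omega (hX : IsBaseX p k r u ψ red b β res) {r0 : ℕ} (d : PExt.{u} p k r r0)
    (N : ℕ) (w : ES ψ A S d.C N ⧸ nE ψ A S d.C N) :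
    w ∈ Submodule.span S (Set.range fun c : d.C =>
      (Ideal.Quotient.mk (nE ψ A S d.C N)) (toES ψ A S d.C N (teN ψ d.C N c))) := by
  obtain ⟨z, rfl⟩ := Ideal.Quotient.mk_surjective w
  induction z using TensorProduct.induction_on with
  | zero => rw [map_zero]; exact zero_mem _
  | add x y hx hy => rw [map_add]; exact add_mem hx hy
  | tmul s y =>
    have e1 : (s ⊗ₜ[A] y : ES ψ A S d.C N) = s • ((1 : S) ⊗ₜ[A] y) := by
      rw [TensorProduct.smul_tmul', smul_eq_mul, mul_one]
    have e2 : (Ideal.Quotient.mk (nE ψ A S d.C N)) (s • ((1 : S) ⊗ₜ[A] y)) =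
        s • (Ideal.Quotient.mk (nE ψ A S d.C N)) ((1 : S) ⊗ₜ[A] y) := rfl
    rw [e1, e2]
    refine Submodule.smul_mem _ _ ?_
    clear e1 e2
    induction y using TensorProduct.induction_on with
    | zero => rw [TensorProduct.tmul_zero, map_zero]; exact zero_mem _
    | add x y hx hy => rw [TensorProduct.tmul_add, map_add]; exact add_mem hx hy
    | tmul a y =>
      have e3 : ((1 : S) ⊗ₜ[A] (a ⊗ₜ[Λ] y) : ES ψ A S d.C N) =
          (algebraMap A S a) • toES ψ A S d.C N y := by
        change _ = (algebraMap A S a) • ((1 : S) ⊗ₜ[A] ((1 : A) ⊗ₜ[Λ] y))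
        rw [TensorProduct.smul_tmul', smul_eq_mul, mul_one, Algebra.algebraMap_eq_smul_one,
          TensorProduct.smul_tmul, TensorProduct.smul_tmul', smul_eq_mul, mul_one]
      have e4 : (Ideal.Quotient.mk (nE ψ A S d.C N)) ((algebraMap A S a) •
          toES ψ A S d.C N y) = (algebraMap A S a) •
          (Ideal.Quotient.mk (nE ψ A S d.C N)) (toES ψ A S d.C N y) := rfl
      rw [e3, e4]
      refine Submodule.smul_mem _ _ (Submodule.subset_span ?_)
      obtain ⟨y', rfl⟩ : ∃ y', mkN ψ d.C N y' = y := Ideal.Quotient.mk_surjective y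
      obtain ⟨c, hc⟩ := exists_te_sub_mem p d.C (tC p k r d.C) y'
      refine ⟨c, ?_⟩
      have h1 := toES_p_mem (A := A) (S := S) hX d.C N _ hc
      rw [map_sub, map_sub, ← Ideal.Quotient.eq] at h1
      exact h1.symm

end Vale.Agent.P202.Mix.UL
end

section

/-!
P202-MIX, TASK M16: inequalities for additive lengths of quotient rings (normalisation, powers).
-/

namespace Vale.Agent.P202.Mix

open scoped ENNReal

universe u

section M16

variable {R : Type u} [CommRing R] {P : Type} [Fintype P] (L : AddLen R)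

private theorem lnm_anti {I J : Ideal R} (h : I ≤ J) : L.len (R ⧸ J) ≤ L.len (R ⧸ I) := by
  rw [← rl_top L (M := R) J, ← rl_top L (M := R) I]
  exact rl_anti_left L h

private theorem lnm_pi (I : P → Ideal R) :
    L.rl (Submodule.pi Set.univ fun π => (I π : Submodule R R)) ⊤ = ∑ π, L.len (R ⧸ I π) := by
  have h := rl_pi L (M := R) (fun π => (I π : Submodule R R)) fun _ : P => (⊤ : Submodule R R)
  have h0 : (Submodule.pi Set.univ fun _ : P => (⊤ : Submodule R R)) = ⊤ :=
    eq_top_iff.mpr fun _ _ _ _ => trivial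
  rw [h0] at h
  rw [h]
  exact Finset.sum_congr rfl fun π _ => rl_top L (M := R) (I π)

private theorem lnm_top {I : Ideal R} (h : I = ⊤) : L.len (R ⧸ I) = 0 := by
  have : Subsingleton (R ⧸ I) := Ideal.Quotient.subsingleton_iff.mpr h
  exact len_subsingleton_aux L

/-- TASK M16a: `L(R/𝔟) ≤ ∑ L(R/(K_π + 𝔟)) + L(R/(𝔟 + g1))`. (image of `⊕ R/(K_π + 𝔟)` under
`1_π ↦ η_π`.) -/
theorem len_le_sum (K : P → Ideal R) (η : P → R) (hη : ∀ π, ∀ y ∈ K π, y * η π = 0) (g1 : R)
    (hg1 : g1 ∈ Ideal.span (Set.range η)) (𝔟 : Ideal R) :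
    L.len (R ⧸ 𝔟) ≤ ∑ π, L.len (R ⧸ (K π ⊔ 𝔟)) + L.len (R ⧸ (𝔟 ⊔ Ideal.span {g1})) := by
  set f : (P → R) →ₗ[R] R := Fintype.linearCombination R η with hf
  have hr : LinearMap.range f = Ideal.span (Set.range η) := by
    rw [hf, Fintype.range_linearCombination]
  have h1 : L.len (R ⧸ 𝔟) = L.rl (𝔟 : Submodule R R) (LinearMap.range f) +
      L.rl ((𝔟 : Submodule R R) ⊔ LinearMap.range f) ⊤ := by
    rw [← rl_top L (M := R) 𝔟, rl_add L (M := R) (X := 𝔟) (Y := 𝔟 ⊔ LinearMap.range f) (Z := ⊤)
      le_sup_left le_top, rl_sup_right]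
  rw [h1]
  refine add_le_add ?_ ?_
  · rw [← Submodule.map_top, lenLes_rl_map_right, ← lnm_pi L]
    refine rl_anti_left L ?_
    intro x hx
    rw [Submodule.mem_comap, hf, Fintype.linearCombination_apply]
    refine Submodule.sum_mem _ fun π _ => ?_
    obtain ⟨k, hk, b, hb, hkb⟩ := Submodule.mem_sup.mp (hx π trivial)
    rw [← hkb, smul_eq_mul, add_mul, hη π k hk, zero_add]
    exact 𝔟.mul_mem_right _ hb
  · rw [← rl_top L (M := R)]
    refine rl_anti_left L (sup_le_sup_left ?_ _)
    rw [hr, Ideal.span_singleton_le_iff_mem]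
    exact hg1

/-- TASK M16b: `∑ L(R/(K_π + 𝔟)) ≤ L(R/𝔟) + |P| L(R/(𝔟 + g0))`. (cokernel of
`R/𝔟 → ∏ R/(K_π + 𝔟)`.) -/
theorem sum_le_len (K : P → Ideal R) (θ : P → R) (hθ : ∀ π π', π ≠ π' → θ π ∈ K π') (g0 : R)
    (hθ' : ∀ π, θ π - g0 ∈ K π) (𝔟 : Ideal R) :
    ∑ π, L.len (R ⧸ (K π ⊔ 𝔟)) ≤ L.len (R ⧸ 𝔟) + Fintype.card P * L.len (R ⧸ (𝔟 ⊔ Ideal.span {g0})) := by
  classical
  set f : R →ₗ[R] (P → R) := LinearMap.pi fun _ => LinearMap.id with hf
  rw [← lnm_pi L]
  set X : Submodule R (P → R) := Submodule.pi Set.univ fun π => (K π ⊔ 𝔟 : Submodule R R) with hX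
  have h1 : L.rl X ⊤ = L.rl X (LinearMap.range f) + L.rl (X ⊔ LinearMap.range f) ⊤ := by
    rw [rl_add L (X := X) (Y := X ⊔ LinearMap.range f) (Z := ⊤) le_sup_left le_top, rl_sup_right]
  rw [h1]
  refine add_le_add ?_ ?_
  · rw [← Submodule.map_top, lenLes_rl_map_right, ← rl_top L (M := R)]
    refine rl_anti_left L ?_
    intro x hx
    rw [Submodule.mem_comap]
    intro π _
    exact Submodule.mem_sup_right hx
  · have h2 : (Fintype.card P : ℝ≥0∞) * L.len (R ⧸ (𝔟 ⊔ Ideal.span {g0})) =
        ∑ _π : P, L.len (R ⧸ (𝔟 ⊔ Ideal.span {g0})) := by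
      simp
    rw [h2, ← lnm_pi L]
    refine rl_anti_left L ?_
    intro x hx
    have h3 : ∀ π, ∃ b ∈ 𝔟, ∃ c : R, b + c * g0 = x π := by
      intro π
      obtain ⟨b, hb, s, hs, hbs⟩ := Submodule.mem_sup.mp (hx π trivial)
      obtain ⟨c, rfl⟩ := Ideal.mem_span_singleton'.mp hs
      exact ⟨b, hb, c, hbs⟩
    choose b hb c hc using h3
    rw [Submodule.mem_sup]
    refine ⟨x - f (∑ π, c π * θ π), ?_, f (∑ π, c π * θ π), ⟨_, rfl⟩, by simp⟩
    intro π _
    have h4 : (x - f (∑ π, c π * θ π)) π =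
        (c π * (g0 - θ π) - ∑ π' ∈ Finset.univ.erase π, c π' * θ π') + b π := by
      have h5 : f (∑ π, c π * θ π) π = ∑ π, c π * θ π := rfl
      rw [Pi.sub_apply, h5, ← hc π, ← Finset.add_sum_erase _ _ (Finset.mem_univ π)]
      ring
    rw [h4]
    refine add_mem (Submodule.mem_sup_left (sub_mem ?_ ?_)) (Submodule.mem_sup_right (hb π))
    · refine (K π).mul_mem_left _ ?_
      rw [← neg_sub]
      exact neg_mem (hθ' π)
    · exact Submodule.sum_mem _ fun π' hπ' =>
        (K π).mul_mem_left _ (hθ π' π (Finset.ne_of_mem_erase hπ'))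

private theorem lnm_step (J A : Ideal R) (y : R) (h : ∀ a ∈ A, a * y ∈ J) :
    L.len (R ⧸ J) ≤ L.len (R ⧸ (J ⊔ Ideal.span {y})) + L.len (R ⧸ A) := by
  have h1 : Submodule.map (LinearMap.mulRight R y) ⊤ = Ideal.span {y} := by
    ext a
    rw [Submodule.mem_map, Ideal.mem_span_singleton']
    simp
  have h2 : L.len (R ⧸ J) = L.rl (J : Submodule R R) (Ideal.span {y}) +
      L.rl ((J : Submodule R R) ⊔ Ideal.span {y}) ⊤ := by
    rw [← rl_top L (M := R) J, rl_add L (M := R) (X := J) (Y := J ⊔ Ideal.span {y}) (Z := ⊤)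
      le_sup_left le_top, rl_sup_right]
  rw [h2, add_comm, ← rl_top L (M := R) A, ← rl_top L (M := R) (J ⊔ Ideal.span {y}), ← h1,
    lenLes_rl_map_right]
  refine add_le_add le_rfl (rl_anti_left L ?_)
  intro a ha
  exact h a ha

private theorem lnm_cons {n : ℕ} (K : Ideal R) (y : Fin (n + 1) → R) :
    K ⊔ Ideal.span (Set.range y) =
      (K ⊔ Ideal.span {y 0}) ⊔ Ideal.span (Set.range fun i : Fin n => y i.succ) := by
  have h : Set.range y = {y 0} ∪ Set.range fun i : Fin n => y i.succ := by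
    ext a
    simp only [Set.mem_range, Set.mem_union, Set.mem_singleton_iff, Fin.exists_fin_succ]
    exact or_congr_left eq_comm
  rw [h, Ideal.span_union, sup_assoc]

private theorem lnm_sup_pow (I K : Ideal R) (m : ℕ) : (I ⊔ K) ^ m ≤ I ^ m ⊔ K := by
  induction m with
  | zero => simp
  | succ m ih =>
    have h1 : (I ⊔ K) ^ m * (I ⊔ K) ≤ (I ^ m ⊔ K) * (I ⊔ K) := Ideal.mul_mono ih le_rfl
    have h2 : (I ^ m ⊔ K) * (I ⊔ K) = I ^ m * I ⊔ K * I ⊔ (I ^ m ⊔ K) * K := by
      rw [Ideal.mul_sup, Ideal.sup_mul]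
    rw [pow_succ, pow_succ]
    refine h1.trans ?_
    rw [h2]
    refine sup_le (sup_le le_sup_left ?_) ?_
    · exact (Ideal.mul_le_left (I := K) (J := I)).trans le_sup_right
    · exact (Ideal.mul_le_right (I := I ^ m ⊔ K) (J := K)).trans le_sup_right

private theorem lnm_pow : ∀ (n m : ℕ) (K : Ideal R) (y : Fin n → R),
    L.len (R ⧸ (K ⊔ Ideal.span (Set.range y) ^ m)) ≤
      ((n + m - 1).choose n : ℝ≥0∞) * L.len (R ⧸ (K ⊔ Ideal.span (Set.range y)))
  | _, 0, K, y => by
    rw [lnm_top L (by simp)]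
    exact zero_le
  | 0, m + 1, K, y => by
    have h : Ideal.span (Set.range y) = ⊥ := by
      rw [Set.range_eq_empty, Ideal.span_empty]
    rw [h, pow_succ, Ideal.mul_bot]
    simp
  | n + 1, m + 1, K, y => by
    set I : Ideal R := Ideal.span (Set.range y) with hI
    set I' : Ideal R := Ideal.span (Set.range fun i : Fin n => y i.succ) with hI'
    have hI1 : I = I' ⊔ Ideal.span {y 0} := by
      have h := lnm_cons (⊥ : Ideal R) y
      rw [bot_sup_eq, bot_sup_eq, sup_comm] at h
      exact h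
    have h0 : y 0 ∈ I := Ideal.subset_span ⟨0, rfl⟩
    have h1 := lnm_step L (K ⊔ I ^ (m + 1)) (K ⊔ I ^ m) (y 0) (by
      intro a ha
      obtain ⟨k, hk, b, hb, rfl⟩ := Submodule.mem_sup.mp ha
      rw [add_mul]
      refine add_mem (Submodule.mem_sup_left (K.mul_mem_right _ hk))
        (Submodule.mem_sup_right ?_)
      rw [pow_succ]
      exact Ideal.mul_mem_mul hb h0)
    have h2 := lnm_pow n (m + 1) (K ⊔ Ideal.span {y 0}) fun i => y i.succ
    have h3 := lnm_pow (n + 1) m K y
    have h4 : L.len (R ⧸ (K ⊔ I ^ (m + 1) ⊔ Ideal.span {y 0})) ≤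
        L.len (R ⧸ (K ⊔ Ideal.span {y 0} ⊔ I' ^ (m + 1))) := by
      refine lnm_anti L ?_
      refine sup_le (sup_le (le_sup_left.trans le_sup_left) le_sup_right) ?_
      refine (Ideal.pow_right_mono ?_ _).trans (le_sup_right.trans le_sup_left)
      rw [hI1]
      exact le_sup_left
    rw [← lnm_cons] at h2
    have e1 : n + (m + 1) - 1 = n + m := rfl
    have e2 : n + 1 + (m + 1) - 1 = n + m + 1 := by omega
    have e3 : n + 1 + m - 1 = n + m := by omega
    rw [e1] at h2
    rw [e3] at h3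
    rw [e2, Nat.choose_succ_succ, Nat.cast_add, add_mul]
    exact h1.trans (add_le_add (h4.trans h2) h3)

private theorem lnm_root_one (I : Ideal R) (z : R) (w : ℕ) :
    L.len (R ⧸ (I ⊔ Ideal.span {z ^ w})) ≤ (w : ℝ≥0∞) * L.len (R ⧸ (I ⊔ Ideal.span {z})) := by
  induction w with
  | zero =>
    rw [lnm_top L (by simp)]
    exact zero_le
  | succ w ih =>
    have h1 := lnm_step L (I ⊔ Ideal.span {z ^ (w + 1)}) (I ⊔ Ideal.span {z ^ w}) z (by
      intro a ha
      obtain ⟨k, hk, b, hb, rfl⟩ := Submodule.mem_sup.mp ha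
      obtain ⟨c, rfl⟩ := Ideal.mem_span_singleton'.mp hb
      rw [add_mul]
      refine add_mem (Submodule.mem_sup_left (I.mul_mem_right _ hk))
        (Submodule.mem_sup_right ?_)
      rw [mul_assoc, ← pow_succ]
      exact Ideal.mem_span_singleton'.mpr ⟨c, rfl⟩)
    rw [Nat.cast_succ, add_mul, one_mul]
    refine h1.trans ((add_comm _ _).trans_le (add_le_add ih (lnm_anti L ?_)))
    exact sup_le_sup_right le_sup_left _

private theorem lnm_root : ∀ (n : ℕ) (K : Ideal R) (z : Fin n → R) (w : ℕ),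
    L.len (R ⧸ (K ⊔ Ideal.span (Set.range fun l => z l ^ w))) ≤
      (w : ℝ≥0∞) ^ n * L.len (R ⧸ (K ⊔ Ideal.span (Set.range z)))
  | 0, K, z, w => by
    rw [Set.range_eq_empty, Set.range_eq_empty, pow_zero, one_mul]
  | n + 1, K, z, w => by
    have h1 := lnm_root n (K ⊔ Ideal.span {z 0 ^ w}) (fun i => z i.succ) w
    have h2 := lnm_root_one L (K ⊔ Ideal.span (Set.range fun i : Fin n => z i.succ)) (z 0) w
    rw [lnm_cons K (fun l => z l ^ w), lnm_cons K z, pow_succ, mul_assoc]
    refine h1.trans (mul_le_mul_right ?_ _)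
    rw [sup_right_comm, sup_right_comm (c := Ideal.span (Set.range fun i : Fin n => z i.succ))]
    exact h2

/-- TASK M16c: powers: if `z_l^w' ∈ 𝔪 + K` for all `l`, then
`L(R/(K + 𝔪^m)) ≤ binom(r + m, r + 1) w'^(r+1) L(R/(K + (z)))`. -/
theorem len_pow_le {r : ℕ} (K 𝔪 : Ideal R) (z : Fin (r + 1) → R) (w' : ℕ)
    (hz : ∀ l, z l ^ w' ∈ 𝔪 ⊔ K) (m : ℕ) :
    L.len (R ⧸ (K ⊔ 𝔪 ^ m)) ≤
      ((r + m).choose (r + 1) : ℝ≥0∞) * ((w' : ℝ≥0∞) ^ (r + 1) * L.len (R ⧸ (K ⊔ Ideal.span (Set.range z)))) := by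
  have h1 := lnm_pow L (r + 1) m K fun l => z l ^ w'
  have h2 := lnm_root L (r + 1) K z w'
  have e : r + 1 + m - 1 = r + m := by omega
  rw [e] at h1
  have h3 : K ⊔ Ideal.span (Set.range fun l => z l ^ w') ^ m ≤ K ⊔ 𝔪 ^ m := by
    refine sup_le le_sup_left ?_
    refine (Ideal.pow_right_mono ?_ m).trans ((lnm_sup_pow 𝔪 K m).trans (sup_comm _ _).le)
    rw [Ideal.span_le]
    rintro _ ⟨l, rfl⟩
    exact hz l
  exact (lnm_anti L h3).trans (h1.trans (mul_le_mul_right h2 _))

end M16

end Vale.Agent.P202.Mix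
end

section

/-!
P202-AK-7: flatness over an unramified flat extension.
-/

namespace Vale.Agent.P202.CharP.ArbK

open IsLocalRing TensorProduct

/-- TASK AK-7: flatness over an unramified flat extension. -/
theorem flat_of_unramified {R A S₁ : Type*} [CommRing R] [IsLocalRing R] [IsNoetherianRing R]
    [CommRing A] [IsLocalRing A] [IsNoetherianRing A] [CommRing S₁] [IsLocalRing S₁]
    [IsNoetherianRing S₁] [Algebra R A] [Algebra A S₁] [Algebra R S₁] [IsScalarTower R A S₁]
    [Module.Flat R A] [Module.Flat R S₁]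
    (hmax : maximalIdeal A = (maximalIdeal R).map (algebraMap R A))
    (hloc : (maximalIdeal A).map (algebraMap A S₁) ≤ maximalIdeal S₁) : Module.Flat A S₁ := by
  refine flat_of_maximal_injective (maximalIdeal A) hloc ?_
  have hι : ∀ x : maximalIdeal R, algebraMap R A x ∈ maximalIdeal A := by
    intro x
    rw [hmax]
    exact Ideal.mem_map_of_mem _ x.2
  let ι : maximalIdeal R →+ maximalIdeal A :=
    { toFun := fun x => ⟨algebraMap R A x, hι x⟩
      map_zero' := by ext; simp
      map_add' := fun x y => by ext; simp }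
  have hι' : ∀ x : maximalIdeal R, ((ι x : maximalIdeal A) : A) = algebraMap R A x := fun _ => rfl
  let f : S₁ →+ maximalIdeal R →+ S₁ ⊗[A] (maximalIdeal A) :=
    { toFun := fun s => (TensorProduct.mk A S₁ (maximalIdeal A) s).toAddMonoidHom.comp ι
      map_zero' := by
        ext x
        simp
      map_add' := fun s t => by
        ext x
        simp }
  have hf : ∀ (r : R) (s : S₁) (x : maximalIdeal R), f (r • s) x = f s (r • x) := by
    intro r s x
    change (r • s) ⊗ₜ[A] ι x = s ⊗ₜ[A] ι (r • x)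
    have h1 : r • s = algebraMap R A r • s := (algebraMap_smul A r s).symm
    have h2 : ι (r • x) = algebraMap R A r • ι x := by
      apply Subtype.ext
      change algebraMap R A (r * x) = algebraMap R A r * algebraMap R A x
      rw [map_mul]
    rw [h1, h2, TensorProduct.smul_tmul]
  let φ : S₁ ⊗[R] (maximalIdeal R) →+ S₁ ⊗[A] (maximalIdeal A) := TensorProduct.liftAddHom f hf
  have hφ : ∀ (s : S₁) (x : maximalIdeal R), φ (s ⊗ₜ[R] x) = s ⊗ₜ[A] ι x := fun s x => rfl
  have hspan : ∀ a ∈ (maximalIdeal R).map (algebraMap R A), ∀ ha : a ∈ maximalIdeal A,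
      ∀ s : S₁, ∃ w, φ w = s ⊗ₜ[A] (⟨a, ha⟩ : maximalIdeal A) := by
    intro a ha
    induction ha using Submodule.span_induction with
    | mem a h =>
      obtain ⟨x, hx, rfl⟩ := h
      intro ha s
      exact ⟨s ⊗ₜ[R] (⟨x, hx⟩ : maximalIdeal R), rfl⟩
    | zero =>
      intro ha s
      refine ⟨0, ?_⟩
      rw [map_zero]
      have : (⟨0, ha⟩ : maximalIdeal A) = 0 := rfl
      rw [this, TensorProduct.tmul_zero]
    | add a b ha' hb' iha ihb =>
      intro hab s
      have ha1 : a ∈ maximalIdeal A := by rw [hmax]; exact ha'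
      have hb1 : b ∈ maximalIdeal A := by rw [hmax]; exact hb'
      obtain ⟨u, hu⟩ := iha ha1 s
      obtain ⟨v, hv⟩ := ihb hb1 s
      refine ⟨u + v, ?_⟩
      rw [map_add, hu, hv, ← TensorProduct.tmul_add]
      rfl
    | smul c a ha' iha =>
      intro hca s
      have ha1 : a ∈ maximalIdeal A := by rw [hmax]; exact ha'
      obtain ⟨u, hu⟩ := iha ha1 (c • s)
      refine ⟨u, ?_⟩
      rw [hu, TensorProduct.smul_tmul]
      rfl
  have hsurj : Function.Surjective φ := by
    intro z
    induction z using TensorProduct.induction_on with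
    | zero => exact ⟨0, map_zero _⟩
    | tmul s y =>
      obtain ⟨a, ha⟩ := y
      exact hspan a (by rw [← hmax]; exact ha) ha s
    | add x y hx hy =>
      obtain ⟨u, rfl⟩ := hx
      obtain ⟨v, rfl⟩ := hy
      exact ⟨u + v, map_add _ _ _⟩
  have hinj : Function.Injective ((maximalIdeal R).subtype.lTensor S₁) :=
    Module.Flat.lTensor_preserves_injective_linearMap _ (Submodule.injective_subtype _)
  have hcomp : ∀ w : S₁ ⊗[R] (maximalIdeal R),
      TensorProduct.rid A S₁ ((maximalIdeal A).subtype.lTensor S₁ (φ w)) =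
        TensorProduct.rid R S₁ ((maximalIdeal R).subtype.lTensor S₁ w) := by
    intro w
    induction w using TensorProduct.induction_on with
    | zero => simp only [map_zero]
    | tmul s x =>
      rw [hφ, LinearMap.lTensor_tmul, LinearMap.lTensor_tmul, TensorProduct.rid_tmul,
        TensorProduct.rid_tmul]
      change (algebraMap R A x) • s = (x : R) • s
      exact algebraMap_smul A (x : R) s
    | add x y hx hy => simp only [map_add, hx, hy]
  rw [injective_iff_map_eq_zero]
  intro z hz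
  obtain ⟨w, rfl⟩ := hsurj z
  have h1 := hcomp w
  rw [hz, map_zero] at h1
  have h2 : (maximalIdeal R).subtype.lTensor S₁ w = 0 :=
    (TensorProduct.rid R S₁).injective (by rw [← h1, map_zero])
  have h3 : w = 0 := hinj (by rw [h2, map_zero])
  rw [h3, map_zero]

end Vale.Agent.P202.CharP.ArbK
end

section

/-!
P202-AK-6: the relative Frobenius `A = R ⊗ k[[x]]`.
-/

set_option linter.unusedSectionVars false

namespace Vale.Agent.P202.CharP.ArbK

open IsLocalRing TensorProduct MvPowerSeries

universe u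

/-- ring homomorphisms out of tensor products. -/
theorem exists_tensor_hom {L R P S : Type*} [CommRing L] [CommRing R] [CommRing P] [CommRing S]
    [Algebra L R] [Algebra L P] (f : R →+* S) (g : P →+* S)
    (h : ∀ l, f (algebraMap L R l) = g (algebraMap L P l)) :
    ∃ F : R ⊗[L] P →+* S, ∀ r s, F (r ⊗ₜ s) = f r * g s := by
  let : Algebra L S := (f.comp (algebraMap L R)).toAlgebra
  let f' : R →ₐ[L] S := { f with commutes' := fun _ => rfl }
  let g' : P →ₐ[L] S := { g with commutes' := fun l => (h l).symm }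
  exact ⟨(Algebra.TensorProduct.productMap f' g').toRingHom, fun r s =>
    Algebra.TensorProduct.productMap_apply_tmul f' g' r s⟩

theorem includeRight_finite {L R P : Type*} [CommRing L] [CommRing R] [CommRing P]
    [Algebra L R] [Algebra L P] [Module.Finite L R] :
    (Algebra.TensorProduct.includeRight : P →ₐ[L] R ⊗[L] P).toRingHom.Finite := by
  have h1 : (algebraMap P (P ⊗[L] R)).Finite := by
    rw [RingHom.finite_algebraMap]
    infer_instance
  have h2 : (Algebra.TensorProduct.comm L P R).toRingEquiv.toRingHom.Finite :=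
    RingHom.Finite.of_surjective _ (Algebra.TensorProduct.comm L P R).surjective
  have h3 := h2.comp h1
  have h4 : (Algebra.TensorProduct.includeRight : P →ₐ[L] R ⊗[L] P).toRingHom =
      ((Algebra.TensorProduct.comm L P R).toRingEquiv.toRingHom).comp
        (algebraMap P (P ⊗[L] R)) := by
    ext x
    simp [Algebra.TensorProduct.algebraMap_apply]
  rw [h4]
  exact h3

instance (p n : ℕ) [Fact p.Prime] (k : Type*) [Field k] [CharP k p] (e : ℕ) :
    IsLocalRing (PSc p n k e) := inferInstanceAs (IsLocalRing (MvPowerSeries (Fin n) k))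

instance (p n : ℕ) [Fact p.Prime] (k : Type*) [Field k] [CharP k p] (e : ℕ) :
    IsNoetherianRing (PSc p n k e) :=
  inferInstanceAs (IsNoetherianRing (MvPowerSeries (Fin n) k))

section Core

variable (p : ℕ) [Fact p.Prime] {k : Type u} [Field k] [CharP k p] {R : Type u} [CommRing R]
  [IsLocalRing R] [CharP R p] {n : ℕ} [Algebra (MvPowerSeries (Fin n) k) R]
  (e : ℕ)

/-- the image of the variables. -/
theorem one_tmul_X (i : Fin n) :
    (1 : R) ⊗ₜ[MvPowerSeries (Fin n) k] (toPSc p n k e (X i)) =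
      algebraMap R (R ⊗[MvPowerSeries (Fin n) k] PSc p n k e)
        (algebraMap (MvPowerSeries (Fin n) k) R (X i)) := by
  have h : toPSc p n k e (X i) = algebraMap (MvPowerSeries (Fin n) k) (PSc p n k e) (X i) := by
    change (X i : MvPowerSeries (Fin n) k) = cfrob p n k e (X i)
    rw [cfrob, MvPowerSeries.map_X]
  rw [h, Algebra.TensorProduct.algebraMap_apply, Algebra.algebraMap_eq_smul_one,
    TensorProduct.tmul_smul, TensorProduct.smul_tmul', Algebra.smul_def, mul_one]
  rfl

theorem tmul_C (a : k) (f : PSc p n k e) :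
    (algebraMap (MvPowerSeries (Fin n) k) R (C a)) ⊗ₜ[MvPowerSeries (Fin n) k] f =
      (1 : R) ⊗ₜ[MvPowerSeries (Fin n) k] (toPSc p n k e (C (a ^ p ^ e)) * f) := by
  have h : toPSc p n k e (C (a ^ p ^ e)) = algebraMap (MvPowerSeries (Fin n) k) (PSc p n k e)
      (C a) := by
    change (C (a ^ p ^ e) : MvPowerSeries (Fin n) k) = cfrob p n k e (C a)
    rw [cfrob, MvPowerSeries.map_C, iterateFrobenius_def]
  rw [h, Algebra.algebraMap_eq_smul_one, TensorProduct.smul_tmul, Algebra.smul_def]

/-- every element is a constant modulo the maximal ideal. -/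
theorem exists_const [Module.Finite (MvPowerSeries (Fin n) k) R] (σ : k →+* R)
    (hC : ∀ a, algebraMap (MvPowerSeries (Fin n) k) R (C a) = σ a)
    (hX : ∀ i, algebraMap (MvPowerSeries (Fin n) k) R (X i) ∈ maximalIdeal R)
    (hσ : ∀ r : R, ∃ a : k, r - σ a ∈ maximalIdeal R)
    (a : R ⊗[MvPowerSeries (Fin n) k] PSc p n k e) :
    ∃ c : k, a - (1 : R) ⊗ₜ[MvPowerSeries (Fin n) k] (toPSc p n k e (C c)) ∈
      (maximalIdeal R).map (algebraMap R (R ⊗[MvPowerSeries (Fin n) k] PSc p n k e)) := by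
  set L := MvPowerSeries (Fin n) k with hL
  set J := (maximalIdeal R).map (algebraMap R (R ⊗[L] PSc p n k e)) with hJ
  -- multiples of the variables
  have h1 : ∀ f : L, constantCoeff f = 0 → (1 : R) ⊗ₜ[L] (toPSc p n k e f) ∈ J := by
    intro f hf
    have h2 : f ∈ Ideal.span (Set.range (X : Fin n → L)) := CZ.mem_span_X_iff.2 hf
    have h3 : ∀ g ∈ Ideal.span (Set.range (X : Fin n → L)), (1 : R) ⊗ₜ[L] (toPSc p n k e g) ∈ J := by
      intro g hg
      refine Submodule.span_induction ?_ ?_ ?_ ?_ hg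
      · rintro _ ⟨i, rfl⟩
        rw [one_tmul_X]
        exact Ideal.mem_map_of_mem _ (hX i)
      · rw [map_zero, TensorProduct.tmul_zero]
        exact J.zero_mem
      · intro x y _ _ hx hy
        rw [map_add, TensorProduct.tmul_add]
        exact J.add_mem hx hy
      · intro b x _ hx
        rw [smul_eq_mul, map_mul]
        have : (1 : R) ⊗ₜ[L] (toPSc p n k e b * toPSc p n k e x) =
            ((1 : R) ⊗ₜ[L] (toPSc p n k e b)) * ((1 : R) ⊗ₜ[L] (toPSc p n k e x)) := by
          rw [Algebra.TensorProduct.tmul_mul_tmul, one_mul]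
        rw [this]
        exact J.mul_mem_left _ hx
    exact h3 f h2
  induction a using TensorProduct.induction_on with
  | zero => exact ⟨0, by simp⟩
  | tmul r f =>
    obtain ⟨a, ha⟩ := hσ r
    obtain ⟨f, rfl⟩ := (toPSc p n k e).surjective f
    refine ⟨a ^ p ^ e * constantCoeff f, ?_⟩
    have e1 : r ⊗ₜ[L] (toPSc p n k e f) = (r - σ a) ⊗ₜ[L] (toPSc p n k e f) +
        (σ a) ⊗ₜ[L] (toPSc p n k e f) := by
      rw [← TensorProduct.add_tmul, sub_add_cancel]
    have e2 : (σ a) ⊗ₜ[L] (toPSc p n k e f) =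
        (1 : R) ⊗ₜ[L] (toPSc p n k e (C (a ^ p ^ e) * f)) := by
      rw [← hC, tmul_C, map_mul]
    have e3 : (1 : R) ⊗ₜ[L] (toPSc p n k e (C (a ^ p ^ e) * f)) -
        (1 : R) ⊗ₜ[L] (toPSc p n k e (C (a ^ p ^ e * constantCoeff f))) =
        (1 : R) ⊗ₜ[L] (toPSc p n k e (C (a ^ p ^ e) * f - C (a ^ p ^ e * constantCoeff f))) := by
      rw [← TensorProduct.tmul_sub, ← map_sub]
    have e4 : (r - σ a) ⊗ₜ[L] (toPSc p n k e f) =
        algebraMap R (R ⊗[L] PSc p n k e) (r - σ a) * ((1 : R) ⊗ₜ[L] (toPSc p n k e f)) := by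
      rw [Algebra.TensorProduct.algebraMap_apply, Algebra.TensorProduct.tmul_mul_tmul]
      simp
    rw [e1, e2, add_sub_assoc, e3, e4]
    refine J.add_mem (J.mul_mem_right _ (Ideal.mem_map_of_mem _ ha)) (h1 _ ?_)
    simp
  | add x y hx hy =>
    obtain ⟨c, hc⟩ := hx
    obtain ⟨d, hd⟩ := hy
    refine ⟨c + d, ?_⟩
    have : x + y - (1 : R) ⊗ₜ[L] (toPSc p n k e (C (c + d))) =
        (x - (1 : R) ⊗ₜ[L] (toPSc p n k e (C c))) + (y - (1 : R) ⊗ₜ[L] (toPSc p n k e (C d))) := by
      rw [map_add, map_add, TensorProduct.tmul_add]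
      ring
    rw [this]
    exact J.add_mem hc hd

variable [IsNoetherianRing R] [Module.Finite (MvPowerSeries (Fin n) k) R] (σ : k →+* R)
    (hC : ∀ a, algebraMap (MvPowerSeries (Fin n) k) R (C a) = σ a)
    (hX : ∀ i, algebraMap (MvPowerSeries (Fin n) k) R (X i) ∈ maximalIdeal R)
    (ψ : MvPowerSeries (Fin n) k →+* R) (hψC : ∀ a, ψ (C a) = σ a)
    (hψX : ∀ i, ψ (X i) = algebraMap (MvPowerSeries (Fin n) k) R (X i) ^ p ^ e)

include hC hX hψC hψX in
theorem exists_rho :
    ∃ ρ : R ⊗[MvPowerSeries (Fin n) k] PSc p n k e →+* R,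
      ∀ r f, ρ (r ⊗ₜ toPSc p n k e f) = r ^ p ^ e * ψ f := by
  set L := MvPowerSeries (Fin n) k with hL
  have h1 : (iterateFrobenius R p e).comp (algebraMap L R) = ψ.comp (cfrob p n k e) := by
    apply powerSeries_hom_ext (maximalIdeal R)
    · intro a
      rw [RingHom.comp_apply, RingHom.comp_apply, hC, cfrob, MvPowerSeries.map_C, hψC,
        iterateFrobenius_def, iterateFrobenius_def, map_pow]
    · intro i
      rw [RingHom.comp_apply, RingHom.comp_apply, cfrob, MvPowerSeries.map_X, hψX,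
        iterateFrobenius_def]
    · intro i
      rw [RingHom.comp_apply, iterateFrobenius_def]
      exact Ideal.pow_mem_of_mem _ (hX i) _ (pow_pos (Fact.out : p.Prime).pos e)
  obtain ⟨F, hF⟩ := exists_tensor_hom (L := L) (R := R) (P := PSc p n k e) (S := R)
    (iterateFrobenius R p e) (ψ.comp (toPSc p n k e).symm.toRingHom) (fun l => congr($h1 l))
  exact ⟨F, fun r f => by rw [hF]; rfl⟩

variable (hσ : ∀ r : R, ∃ a : k, r - σ a ∈ maximalIdeal R)
  (ρ : R ⊗[MvPowerSeries (Fin n) k] PSc p n k e →+* R)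
  (hρ : ∀ r f, ρ (r ⊗ₜ toPSc p n k e f) = r ^ p ^ e * ψ f)

include hC hX hψC hψX hρ in
theorem rho_fr : ∀ a : R ⊗[MvPowerSeries (Fin n) k] PSc p n k e,
    algebraMap R (R ⊗[MvPowerSeries (Fin n) k] PSc p n k e) (ρ a) = a ^ p ^ e := by
  set L := MvPowerSeries (Fin n) k with hL
  set A := R ⊗[L] PSc p n k e with hA
  have hchar : (p : A) = 0 := by
    rw [← map_natCast (algebraMap R A) p, CharP.cast_eq_zero, map_zero]
  -- `A` is Hausdorff
  let : Algebra (PSc p n k e) A :=
    (Algebra.TensorProduct.includeRight : PSc p n k e →ₐ[L] A).toRingHom.toAlgebra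
  have hfin : Module.Finite (PSc p n k e) A := includeRight_finite (L := L)
  have h1 : IsHausdorff (maximalIdeal (PSc p n k e)) A :=
    IsHausdorff.of_le_jacobson _ _ (maximalIdeal_le_jacobson _)
  have h2 : IsHausdorff ((maximalIdeal (PSc p n k e)).map (algebraMap (PSc p n k e) A)) A :=
    IsHausdorff.map_algebraMap_iff.2 h1
  by_cases hnt : Nontrivial A
  swap
  · have := not_nontrivial_iff_subsingleton.1 hnt
    exact fun _ => Subsingleton.elim _ _
  have hA : CharP A p := (CharP.charP_iff_prime_eq_zero Fact.out).2 hchar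
  have h3 : (algebraMap R A).comp ψ = (iterateFrobenius A p e).comp
      ((Algebra.TensorProduct.includeRight : PSc p n k e →ₐ[L] A).toRingHom.comp
        (toPSc p n k e).toRingHom) := by
    have hq : ∀ f : PSc p n k e, (((1 : R) ⊗ₜ[L] f : A)) ^ p ^ e = (1 : R) ⊗ₜ[L] (f ^ p ^ e) := by
      intro f
      rw [Algebra.TensorProduct.tmul_pow, one_pow]
    apply powerSeries_hom_ext ((maximalIdeal (PSc p n k e)).map (algebraMap (PSc p n k e) A))
    · intro a
      change algebraMap R A (ψ (C a)) = ((1 : R) ⊗ₜ[L] (toPSc p n k e (C a)) : A) ^ p ^ e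
      rw [hψC, hq, ← hC, Algebra.TensorProduct.algebraMap_apply, ← map_pow, ← map_pow]
      have := tmul_C p e (R := R) a (1 : PSc p n k e)
      rw [mul_one] at this
      exact this
    · intro i
      change algebraMap R A (ψ (X i)) = ((1 : R) ⊗ₜ[L] (toPSc p n k e (X i)) : A) ^ p ^ e
      rw [hψX, map_pow, one_tmul_X]
    · intro i
      change algebraMap R A (ψ (X i)) ∈ _
      rw [hψX, map_pow, ← one_tmul_X]
      refine Ideal.pow_mem_of_mem _ ?_ _ (pow_pos (Fact.out : p.Prime).pos e)
      have : toPSc p n k e (X i) ∈ maximalIdeal (PSc p n k e) := by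
        change (X i : MvPowerSeries (Fin n) k) ∈ maximalIdeal (MvPowerSeries (Fin n) k)
        rw [mem_maximalIdeal, mem_nonunits_iff, MvPowerSeries.isUnit_iff_constantCoeff]
        simp
      exact Ideal.mem_map_of_mem (algebraMap (PSc p n k e) A) this
  have h4 : (algebraMap R A).comp ρ = iterateFrobenius A p e := by
    ext a
    · change algebraMap R A (ρ (a ⊗ₜ (toPSc p n k e 1))) = (a ⊗ₜ[L] (1 : PSc p n k e)) ^ p ^ e
      rw [hρ, map_one, mul_one, map_pow]
      rfl
    · obtain ⟨f, rfl⟩ := (toPSc p n k e).surjective a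
      change algebraMap R A (ρ (1 ⊗ₜ (toPSc p n k e f))) =
        (1 ⊗ₜ[L] (toPSc p n k e f)) ^ p ^ e
      rw [hρ, one_pow, one_mul]
      exact congr($h3 f)
  intro a
  have h5 := RingHom.congr_fun h4 a
  rw [RingHom.comp_apply, iterateFrobenius_def] at h5
  exact h5

include hC hX hψC hψX hρ hσ in
theorem relFrob_core (hψ : ψ.Finite)
    (hflat : Module.Flat (MvPowerSeries (Fin n) k) (PSc p n k e)) :
    ∃ (_ : IsLocalRing (R ⊗[MvPowerSeries (Fin n) k] PSc p n k e))
      (_ : IsNoetherianRing (R ⊗[MvPowerSeries (Fin n) k] PSc p n k e))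
      (_ : CharP (R ⊗[MvPowerSeries (Fin n) k] PSc p n k e) p),
      RelFrob p e R (R ⊗[MvPowerSeries (Fin n) k] PSc p n k e) ρ := by
  have hfr := rho_fr p e σ hC hX ψ hψC hψX ρ hρ
  have hcst := exists_const p e (R := R) σ hC hX hσ
  set L := MvPowerSeries (Fin n) k with hL
  set A := R ⊗[L] PSc p n k e with hA
  have hq : 0 < p ^ e := pow_pos (Fact.out : p.Prime).pos e
  have hrf : ∀ r : R, ρ (algebraMap R A r) = r ^ p ^ e := by
    intro r
    have h := hρ r 1
    rw [map_one, map_one, mul_one] at h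
    exact h
  have hρC : ∀ c : k, ρ ((1 : R) ⊗ₜ[L] toPSc p n k e (C c)) = σ c := by
    intro c
    rw [hρ, one_pow, one_mul, hψC]
  have hnt : Nontrivial A := ρ.domain_nontrivial
  have hlocρ : IsLocalHom ρ := by
    refine ⟨fun a ha => ?_⟩
    have h1 : IsUnit (a ^ p ^ e) := by
      rw [← hfr]
      exact ha.map _
    exact (isUnit_pow_iff hq.ne').1 h1
  have hloc : IsLocalRing A := RingHom.domain_isLocalRing ρ
  have hnoeth : IsNoetherianRing A := by
    let : Algebra (PSc p n k e) A :=
      (Algebra.TensorProduct.includeRight : PSc p n k e →ₐ[L] A).toRingHom.toAlgebra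
    have hfin : Module.Finite (PSc p n k e) A := includeRight_finite (L := L)
    exact IsNoetherianRing.of_finite (PSc p n k e) A
  have hchar : CharP A p := by
    refine (CharP.charP_iff_prime_eq_zero Fact.out).2 ?_
    rw [← map_natCast (algebraMap R A) p, CharP.cast_eq_zero, map_zero]
  refine ⟨hloc, hnoeth, hchar, ?_, ?_, hrf, hfr, ?_, ?_⟩
  · infer_instance
  · -- the maximal ideal
    have hle : (maximalIdeal R).map (algebraMap R A) ≤ (maximalIdeal R).comap ρ := by
      rw [Ideal.map_le_iff_le_comap]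
      intro r hr
      rw [Ideal.mem_comap, Ideal.mem_comap, hrf]
      exact Ideal.pow_mem_of_mem _ hr _ hq
    have hmax : maximalIdeal A = (maximalIdeal R).comap ρ := by
      ext a
      rw [Ideal.mem_comap, mem_maximalIdeal, mem_maximalIdeal, mem_nonunits_iff,
        mem_nonunits_iff, isUnit_map_iff]
    rw [hmax]
    refine le_antisymm ?_ hle
    intro a ha
    obtain ⟨c, hc⟩ := hcst a
    have h1 := hle hc
    rw [Ideal.mem_comap, map_sub, hρC] at h1
    rw [Ideal.mem_comap] at ha
    have h2 : σ c ∈ maximalIdeal R := by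
      have := sub_mem ha h1
      rwa [sub_sub_cancel] at this
    have h3 : c = 0 := by
      by_contra hne
      have h4 : IsUnit (σ c) := (isUnit_iff_ne_zero.2 hne).map σ
      exact (mem_maximalIdeal _).1 h2 h4
    rw [h3, map_zero, map_zero, TensorProduct.tmul_zero, sub_zero] at hc
    exact hc
  · -- finiteness
    have h1 : ψ = ρ.comp
        ((Algebra.TensorProduct.includeRight : PSc p n k e →ₐ[L] A).toRingHom.comp
          (toPSc p n k e).toRingHom) := by
      ext f
      change ψ f = ρ ((1 : R) ⊗ₜ[L] (toPSc p n k e f))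
      rw [hρ, one_pow, one_mul]
    rw [h1] at hψ
    exact RingHom.Finite.of_comp_finite hψ
  · intro r
    obtain ⟨a, ha⟩ := hσ r
    exact ⟨(1 : R) ⊗ₜ[L] toPSc p n k e (C a), by rwa [hρC]⟩

end Core

/-- TASK AK-6: the relative Frobenius. -/
theorem exists_relFrob (p : ℕ) [Fact p.Prime] {R : Type u} [CommRing R] [IsLocalRing R]
    [IsNoetherianRing R] [IsAdicComplete (maximalIdeal R) R] [CharP R p]
    [CharP (ResidueField R) p] {n : ℕ}
    (x : Fin n → R) (hx : ∀ i, x i ∈ maximalIdeal R)
    (hxl : Module.length R (R ⧸ Ideal.span (Set.range x)) ≠ ⊤)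
    (σ : ResidueField R →+* R) (hσ : ∀ a, residue R (σ a) = a) (e : ℕ) :
    ∃ (A : Type u) (_ : CommRing A) (_ : IsLocalRing A) (_ : IsNoetherianRing A) (_ : CharP A p)
      (_ : Algebra R A) (ρ : A →+* R), RelFrob p e R A ρ ∧
      ∀ (S₁ : Type u) [CommRing S₁] [IsLocalRing S₁] [IsAdicComplete (maximalIdeal S₁) S₁]
        (g : R →+* S₁) (_ : ∀ r ∈ maximalIdeal R, g r ∈ maximalIdeal S₁)
        (τ : ResidueField R →+* S₁) (_ : ∀ a, τ a ^ p ^ e = g (σ a)),
        ∃ h : A →+* S₁, ∀ r, h (algebraMap R A r) = g r := by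
  have hq : 0 < p ^ e := pow_pos (Fact.out : p.Prime).pos e
  have hσ' : ∀ r : R, ∃ a : ResidueField R, r - σ a ∈ maximalIdeal R := by
    intro r
    refine ⟨residue R r, ?_⟩
    rw [← residue_eq_zero_iff, map_sub, hσ, sub_self]
  -- `m^M ≤ (x)`
  obtain ⟨M, hM⟩ : ∃ M, maximalIdeal R ^ M ≤ Ideal.span (Set.range x) := by
    have : Vale.Agent.P202.ell (Ideal.span (Set.range x)) ≠ ⊤ := hxl
    exact Vale.Agent.P202.exists_pow_le_of_ell_ne_top this
  obtain ⟨M', hM'⟩ : ∃ M', maximalIdeal R ^ M' ≤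
      Ideal.span (Set.range fun i => x i ^ p ^ e) := by
    have h1 := Ideal.exists_pow_le_of_le_radical_of_fg (R := R) (I := Ideal.span (Set.range x))
      (J := Ideal.span (Set.range fun i => x i ^ p ^ e)) (by
        rw [Ideal.span_le]
        rintro _ ⟨i, rfl⟩
        exact ⟨p ^ e, Ideal.subset_span ⟨i, rfl⟩⟩) (IsNoetherian.noetherian _)
    obtain ⟨N, hN⟩ := h1
    refine ⟨M * N, ?_⟩
    rw [pow_mul]
    exact (Ideal.pow_right_mono hM N).trans hN
  obtain ⟨ψ₀, hψ₀C, hψ₀X⟩ := CZ.exists_powerSeries_hom (maximalIdeal R) σ x hx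
  obtain ⟨ψ, hψC, hψX⟩ := CZ.exists_powerSeries_hom (maximalIdeal R) σ (fun i => x i ^ p ^ e)
    (fun i => Ideal.pow_mem_of_mem _ (hx i) _ hq)
  have hψfin : ψ.Finite := by
    let : Algebra (MvPowerSeries (Fin n) (ResidueField R)) R := ψ.toAlgebra
    refine CZ.finite_over_powerSeries (M := M') (fun z => ?_) (fun i => ?_) ?_
    · obtain ⟨a, ha⟩ := hσ' z
      refine ⟨a, ?_⟩
      change z - ψ (C a) ∈ _
      rwa [hψC]
    · change ψ (X i) ∈ _
      rw [hψX]
      exact Ideal.pow_mem_of_mem _ (hx i) _ hq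
    · change _ ≤ Ideal.span (Set.range fun i => ψ (X i))
      simp only [hψX]
      exact hM'
  let : Algebra (MvPowerSeries (Fin n) (ResidueField R)) R := ψ₀.toAlgebra
  have hfin : Module.Finite (MvPowerSeries (Fin n) (ResidueField R)) R := by
    refine CZ.finite_over_powerSeries (M := M) (fun z => ?_) (fun i => ?_) ?_
    · obtain ⟨a, ha⟩ := hσ' z
      refine ⟨a, ?_⟩
      change z - ψ₀ (C a) ∈ _
      rwa [hψ₀C]
    · change ψ₀ (X i) ∈ _
      rw [hψ₀X]
      exact hx i
    · change _ ≤ Ideal.span (Set.range fun i => ψ₀ (X i))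
      simp only [hψ₀X]
      exact hM
  have hC : ∀ a, algebraMap (MvPowerSeries (Fin n) (ResidueField R)) R (C a) = σ a := hψ₀C
  have hX : ∀ i, algebraMap (MvPowerSeries (Fin n) (ResidueField R)) R (X i) ∈
      maximalIdeal R := by
    intro i
    change ψ₀ (X i) ∈ _
    rw [hψ₀X]
    exact hx i
  have hψX' : ∀ i, ψ (X i) =
      algebraMap (MvPowerSeries (Fin n) (ResidueField R)) R (X i) ^ p ^ e := by
    intro i
    change ψ (X i) = ψ₀ (X i) ^ p ^ e
    rw [hψX, hψ₀X]
  obtain ⟨ρ, hρ⟩ := exists_rho p e σ hC hX ψ hψC hψX'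
  obtain ⟨h1, h2, h3, h4⟩ := relFrob_core p e σ hC hX ψ hψC hψX' hσ' ρ hρ hψfin
    (flat_PSc p n (ResidueField R) e)
  refine ⟨_, _, h1, h2, h3, _, ρ, h4, ?_⟩
  intro S₁ _ _ _ g hg τ hτ
  obtain ⟨χ, hχC, hχX⟩ := CZ.exists_powerSeries_hom (maximalIdeal S₁) τ (fun i => g (x i))
    (fun i => hg _ (hx i))
  have h5 : g.comp ψ₀ = χ.comp (cfrob p n (ResidueField R) e) := by
    apply powerSeries_hom_ext (maximalIdeal S₁)
    · intro a
      rw [RingHom.comp_apply, RingHom.comp_apply, hψ₀C, cfrob, MvPowerSeries.map_C, hχC,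
        iterateFrobenius_def, map_pow, hτ]
    · intro i
      rw [RingHom.comp_apply, RingHom.comp_apply, hψ₀X, cfrob, MvPowerSeries.map_X, hχX]
    · intro i
      rw [RingHom.comp_apply, hψ₀X]
      exact hg _ (hx i)
  obtain ⟨F, hF⟩ := exists_tensor_hom (L := MvPowerSeries (Fin n) (ResidueField R)) (R := R)
    (P := PSc p n (ResidueField R) e) (S := S₁) g
    (χ.comp (toPSc p n (ResidueField R) e).symm.toRingHom) (fun l => congr($h5 l))
  refine ⟨F, fun r => ?_⟩
  have h6 := hF r 1
  rw [map_one, mul_one] at h6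
  exact h6

end Vale.Agent.P202.CharP.ArbK
end

section

/-!
P202-AK-12: existence of the data `A`, `S₁`, `ρ`.
-/

namespace Vale.Agent.P202.CharP.ArbK

open IsLocalRing TensorProduct MvPowerSeries Filter Topology

universe u

/-- a local ring which is an algebra over a ring of prime characteristic `p` has
characteristic `p`. -/
theorem charP_of_algebra_local (p : ℕ) [Fact p.Prime] (R : Type*) [CommRing R] [CharP R p]
    (S : Type*) [CommRing S] [IsLocalRing S] [Algebra R S] : CharP S p :=
  (CharP.charP_iff_prime_eq_zero Fact.out).mpr (by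
    rw [← map_natCast (algebraMap R S), CharP.cast_eq_zero, map_zero])

/-- AK-12: existence of the data. -/
theorem exists_datum (p : ℕ) [Fact p.Prime] {R S : Type u} [CommRing R] [IsLocalRing R]
    [IsNoetherianRing R] [IsAdicComplete (maximalIdeal R) R] [CharP R p]
    [CharP (ResidueField R) p] [CommRing S] [IsLocalRing S] [IsNoetherianRing S]
    [IsAdicComplete (maximalIdeal S) S] [Algebra R S] [IsLocalHom (algebraMap R S)]
    [Module.Flat R S] {n : ℕ} (x : Fin n → R) (hx : ∀ i, x i ∈ maximalIdeal R)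
    (hxl : Module.length R (R ⧸ Ideal.span (Set.range x)) ≠ ⊤) (e : ℕ) :
    ∃ (A S₁ : Type u) (_ : CommRing A) (_ : IsLocalRing A) (_ : IsNoetherianRing A)
      (_ : CharP A p) (_ : CommRing S₁) (_ : IsLocalRing S₁) (_ : IsNoetherianRing S₁)
      (_ : Algebra R A) (_ : Algebra A S₁) (_ : Algebra R S₁) (_ : Algebra S S₁)
      (_ : IsScalarTower R A S₁) (_ : IsScalarTower R S S₁) (_ : IsLocalHom (algebraMap A S₁))
      (_ : IsLocalHom (algebraMap S S₁)) (_ : Module.Flat A S₁) (_ : Module.Flat S S₁)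
      (ρ : A →+* R), RelFrob p e R A ρ ∧
      Module.length S₁ (S₁ ⧸ (maximalIdeal S).map (algebraMap S S₁)) ≠ ⊤ := by
  have hSp : CharP S p := charP_of_algebra_local p R S
  obtain ⟨σ, hσ⟩ := exists_coefficient_field p (R := R)
  obtain ⟨S₁, i1, i2, i3, i4, i5, i6, i7, i8, τ, hlen, hτ⟩ :=
    exists_root_ext p (S := S) (k := ResidueField R) ((algebraMap R S).comp σ) e
  obtain ⟨A, j1, j2, j3, j4, j5, ρ, hrel, hlift⟩ := exists_relFrob p x hx hxl σ hσ e
  have hg : ∀ r ∈ maximalIdeal R,
      ((algebraMap S S₁).comp (algebraMap R S)) r ∈ maximalIdeal S₁ := by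
    intro r hr
    have h1 : algebraMap R S r ∈ maximalIdeal S :=
      ((local_hom_TFAE (algebraMap R S)).out 0 2 rfl rfl).mp inferInstance
        (Ideal.mem_map_of_mem _ hr)
    exact ((local_hom_TFAE (algebraMap S S₁)).out 0 2 rfl rfl).mp inferInstance
        (Ideal.mem_map_of_mem _ h1)
  obtain ⟨h, hh⟩ := hlift S₁ ((algebraMap S S₁).comp (algebraMap R S)) hg τ
    (fun a => by rw [hτ a]; rfl)
  let a1 : Algebra A S₁ := h.toAlgebra
  let a2 : Algebra R S₁ := ((algebraMap S S₁).comp (algebraMap R S)).toAlgebra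
  have t1 : IsScalarTower R A S₁ := IsScalarTower.of_algebraMap_eq fun r => (hh r).symm
  have t2 : IsScalarTower R S S₁ := IsScalarTower.of_algebraMap_eq fun r => rfl
  have f1 : Module.Flat R S₁ := Module.Flat.trans R S S₁
  have f2 : Module.Flat R A := hrel.flat
  have hmax : (maximalIdeal A).map (algebraMap A S₁) ≤ maximalIdeal S₁ := by
    rw [hrel.max, Ideal.map_map, ← IsScalarTower.algebraMap_eq R A S₁, Ideal.map_le_iff_le_comap]
    exact hg
  have l1 : IsLocalHom (algebraMap A S₁) :=
    ((local_hom_TFAE (algebraMap A S₁)).out 0 2 rfl rfl).mpr hmax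
  have f3 : Module.Flat A S₁ := flat_of_unramified (R := R) hrel.max hmax
  exact ⟨A, S₁, j1, j2, j3, j4, i1, i2, i3, j5, a1, a2, i6, t1, t2, l1, i8, f3, i7, ρ, hrel, hlen⟩

end Vale.Agent.P202.CharP.ArbK
end
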