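import Vale.Agent.P202.MathlibUsed
import Vale.Agent.P202.Bdl.B19
import Vale.Agent.P202.Bdl.B11
import Vale.Agent.P202.Bdl.B22
import Vale.Agent.P202.Bdl.B18
import Vale.Agent.P202.Bdl.B10
import Vale.Agent.P202.Bdl.B20
import Vale.Agent.P202.Bdl.B3
import Vale.Agent.P202.Bdl.B17
import Vale.Agent.P202.Bdl.B21
import Vale.Agent.P202.Bdl.B12
import Vale.Agent.P202.Bdl.B6
import Vale.Agent.P202.Bdl.B2
import Vale.Agent.P202.Bdl.B13
import Vale.Agent.P202.Bdl.B15
import Vale.Agent.P202.Bdl.B16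
import Vale.Agent.P202.Bdl.B1
import Vale.Agent.P202.Bdl.B4

set_option linter.all false

section

/-!
P202 MIX, M11: the package over `A` from the homomorphisms `φ_π` and the reduction data.
-/

namespace Vale.Agent.P202.Mix

open Polynomial TensorProduct

universe u

section general

variable {R E : Type*} [CommRing R] [CommRing E] (ι : R →+* E) (D D' : R)
  (φ : E →+* R ⧸ annI D)

theorem reg_transfer (hφ : ∀ b, φ (ι b) = Ideal.Quotient.mk _ b) (hD : D * D' = 0) (c : R)
    (J1 J2 : Ideal R) (H : ∀ b, c * b ∈ J1 → b ∈ J2) (y : E)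
    (hy : ι c * y ∈ J1.map ι ⊔ RingHom.ker φ) :
    ι (D + D') * y ∈ J2.map ι ⊔ RingHom.ker φ := by
  obtain ⟨b, hb⟩ := Ideal.Quotient.mk_surjective (φ y)
  have h1 : Ideal.Quotient.mk (annI D) (c * b) ∈ J1.map (Ideal.Quotient.mk (annI D)) := by
    have h2 := Ideal.mem_map_of_mem φ hy
    rw [Ideal.map_sup, Ideal.map_map, map_mul, hφ, ← hb, ← map_mul] at h2
    have h3 : φ.comp ι = Ideal.Quotient.mk (annI D) := by
      ext b
      exact hφ b
    rw [h3] at h2
    have h4 : (RingHom.ker φ).map φ = ⊥ := by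
      rw [Ideal.map_eq_bot_iff_le_ker]
    rwa [h4, sup_bot_eq] at h2
  rw [Ideal.mem_map_iff_of_surjective _ Ideal.Quotient.mk_surjective] at h1
  obtain ⟨j, hj, hjc⟩ := h1
  have h5 : c * b - j ∈ annI D := by
    rw [← Ideal.Quotient.eq_zero_iff_mem, map_sub, hjc, sub_self]
  rw [mem_annI] at h5
  have h6 : c * (b * D) ∈ J1 := by
    have : c * (b * D) = (c * b - j) * D + j * D := by ring
    rw [this, h5, zero_add]
    exact J1.mul_mem_right _ hj
  have h7 := H _ h6
  have h8 : ι (D + D') * y = ι (b * D) + (ι (D + D') * y - ι (b * D)) := by ring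
  rw [h8]
  refine Submodule.add_mem_sup (Ideal.mem_map_of_mem ι h7) ?_
  rw [RingHom.mem_ker, map_sub, map_mul, hφ, hφ, ← hb, ← map_mul, ← map_sub,
    Ideal.Quotient.eq_zero_iff_mem, mem_annI]
  have : ((D + D') * b - b * D) * D = (D * D') * b := by ring
  rw [this, hD, zero_mul]

end general

variable {p : ℕ} [Fact p.Prime] {k : Type u} [Field k] [CharP k p] {r : ℕ}
variable {Λ : Type u} [CommRing Λ] {u : Fin r → Λ} {ψ : Λ →+* WittVector p (Rp p k r)}
  {red : Λ →+* R0 k r ⧸ Ideal.span {(MvPowerSeries.X 0 : R0 k r)}}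
variable {A : Type u} [CommRing A] [Algebra Λ A] {s D : ℕ} {a : Fin s → A}
  {F : Fin s → Λ[X]} {E : MvPolynomial (Fin s) Λ} {g : Λ} {I r0 : ℕ}

theorem exists_apkg_of (hb : IsBase p k r Λ u ψ red)
    (d : CData.{u} ψ (D := D) F E g I r0)
    (ha : Function.Surjective (MvPolynomial.aeval a : MvPolynomial (Fin s) Λ →ₐ[Λ] A))
    (hF : ∀ j, aeval (a j) (F j) = 0)
    (hEg : MvPolynomial.aeval a E = algebraMap Λ A g)
    (hE : ∀ f : MvPolynomial (Fin s) Λ, MvPolynomial.aeval a f = 0 →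
      E * f ∈ Ideal.span (Set.range fun j => Polynomial.toMvPolynomial j (F j)))
    (e N w w' : ℕ) (hN : 1 ≤ N) (he : p ^ e * N ≤ I + 1)
    (ζ : (Fin s → Fin D) → Fin (r + 1) → BN ψ d.C N)
    (hz : ∀ π, ∀ φ : A ⊗[Λ] BN ψ d.C N →+* BN ψ d.C N ⧸ annI (dq d e N π),
      (∀ b, φ (1 ⊗ₜ b) = Ideal.Quotient.mk _ b) →
      (∀ j, φ (a j ⊗ₜ 1) = Ideal.Quotient.mk _ (teN ψ d.C N (d.c j (π j)))) →
      (Ideal.span (Set.range a)).map (algebraMap A (A ⊗[Λ] BN ψ d.C N)) ≤
        Ideal.span (Set.range fun l => (1 : A) ⊗ₜ[Λ] ζ π l) ^ w ⊔ RingHom.ker φ)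
    (hz' : ∀ π, ∀ φ : A ⊗[Λ] BN ψ d.C N →+* BN ψ d.C N ⧸ annI (dq d e N π),
      (∀ b, φ (1 ⊗ₜ b) = Ideal.Quotient.mk _ b) →
      (∀ j, φ (a j ⊗ₜ 1) = Ideal.Quotient.mk _ (teN ψ d.C N (d.c j (π j)))) →
      ∀ l, ((1 : A) ⊗ₜ[Λ] ζ π l) ^ w' ∈
        (Ideal.span (Set.range a)).map (algebraMap A (A ⊗[Λ] BN ψ d.C N)) ⊔ RingHom.ker φ) :
    ∃ P : APkg (A := A) p (Ideal.span (Set.range a))
      (Fin.cons (p : A) fun i => algebraMap Λ A (u i) : Fin (r + 1) → A)
      (Fin s → Fin D) (∏ j, aeval (a j) (derivative (F j)))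
      (algebraMap Λ A g * ∏ j, aeval (a j) (derivative (F j)))
      w w' N (A ⊗[Λ] BN ψ d.C N),
      ∀ π, P.h π = 1 ⊗ₜ (dq d e N π + teN ψ d.C N (rt p e (d.δ' π))) := by
  choose φ hφ1 hφ2 using fun π => exists_phi d ha hE e N he π
  obtain ⟨n1, n2, n3, n4⟩ := norm_package d ha hF hEg e N he φ hφ1 hφ2
  let ι : BN ψ d.C N →+* A ⊗[Λ] BN ψ d.C N :=
    (Algebra.TensorProduct.includeRight (R := Λ) (A := A) (B := BN ψ d.C N)).toRingHom
  have hιΛ : ∀ l : Λ, algebraMap A (A ⊗[Λ] BN ψ d.C N) (algebraMap Λ A l) =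
      ι (algebraMap Λ (BN ψ d.C N) l) := by
    intro l
    change (algebraMap Λ A l) ⊗ₜ[Λ] (1 : BN ψ d.C N) = (1 : A) ⊗ₜ[Λ] (algebraMap Λ _ l)
    rw [Algebra.algebraMap_eq_smul_one, Algebra.algebraMap_eq_smul_one, TensorProduct.smul_tmul]
  have hιp : algebraMap A (A ⊗[Λ] BN ψ d.C N) (p : A) = ι (p : BN ψ d.C N) := by
    rw [map_natCast, map_natCast]
  refine ⟨{
    K := fun π => RingHom.ker (φ π)
    h := fun π => 1 ⊗ₜ (dq d e N π + teN ψ d.C N (rt p e (d.δ' π)))
    z := fun π l => (1 : A) ⊗ₜ[Λ] ζ π l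
    η := fun π => epsPi a d N π * 1 ⊗ₜ dq d e N π
    θ := fun π => epsPi a d N π
    hη := n1
    hη' := n4
    hθ := n2
    hθ' := n3
    hz := fun π => hz π (φ π) (hφ1 π) (hφ2 π)
    hz' := fun π => hz' π (φ π) (hφ1 π) (hφ2 π)
    hp := ?_
    regp := ?_
    regu := ?_ }, fun π => rfl⟩
  · rw [hιp, ← map_pow]
    have h1 : (p : BN ψ d.C N) ^ N = 0 := by
      have h2 := (mkN_eq_zero_iff (ψ := ψ) d.C N (x := (p : Bt p d.C (tC p k r d.C)) ^ N)).mpr
        (Ideal.mem_span_singleton_self _)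
      rwa [map_pow, map_natCast] at h2
    rw [h1, map_zero]
  · intro π y hy
    have h1 := reg_transfer ι (dq d e N π) (teN ψ d.C N (rt p e (d.δ' π))) (φ π) (hφ1 π)
      (dq_mul_dq' d hEg hE e N he π) (p : BN ψ d.C N) ⊥ (Ideal.span {(p : BN ψ d.C N) ^ (N - 1)})
      (fun b hb => BN_p d.toPExt N b (by simpa using hb)) y (by
        rw [Ideal.map_bot, bot_sup_eq, ← hιp]
        exact hy)
    rw [Ideal.map_span, Set.image_singleton, map_pow, ← hιp] at h1
    exact h1
  · intro π i hi y hy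
    obtain ⟨l, rfl⟩ : ∃ l : Fin r, i = l.succ := ⟨i.pred (by
      intro h
      rw [h] at hi
      exact lt_irrefl _ hi), by simp⟩
    have himg : Ideal.span ((fun l' => algebraMap A (A ⊗[Λ] BN ψ d.C N)
        ((Fin.cons (p : A) fun i => algebraMap Λ A (u i) : Fin (r + 1) → A) l')) ''
          {l' | l' < l.succ}) = (Ideal.span (insert (p : BN ψ d.C N)
      ((fun l => algebraMap Λ (BN ψ d.C N) (u l)) '' {l' | l' < l}))).map ι := by
      rw [Ideal.map_span]
      congr 1
      ext x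
      simp only [Set.mem_image, Set.mem_ofPred_eq, Set.mem_insert_iff]
      constructor
      · rintro ⟨l', hl', rfl⟩
        revert hl'
        refine Fin.cases ?_ (fun i => ?_) l'
        · intro _
          exact ⟨(p : BN ψ d.C N), Or.inl rfl, hιp.symm⟩
        · intro hl'
          exact ⟨_, Or.inr ⟨i, Fin.succ_lt_succ_iff.mp hl', rfl⟩, (hιΛ (u i)).symm⟩
      · rintro ⟨z, (rfl | ⟨i, hi, rfl⟩), rfl⟩
        · exact ⟨0, Fin.succ_pos l, hιp⟩
        · exact ⟨i.succ, Fin.succ_lt_succ_iff.mpr hi, hιΛ (u i)⟩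
    rw [himg] at hy ⊢
    refine reg_transfer ι (dq d e N π) (teN ψ d.C N (rt p e (d.δ' π))) (φ π) (hφ1 π)
      (dq_mul_dq' d hEg hE e N he π) (algebraMap Λ (BN ψ d.C N) (u l)) _ _
      (fun b hb' => BN_u hb d.toPExt N hN l b hb') y ?_
    rw [← hιΛ]
    exact hy

end Vale.Agent.P202.Mix
end

section

/-!
P202, mixed characteristic, M11: the package over `A`.
-/

namespace Vale.Agent.P202.Mix

open Polynomial TensorProduct

universe u

variable {p : ℕ} [Fact p.Prime] {k : Type u} [Field k] [CharP k p] {r : ℕ}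
variable {Λ : Type u} [CommRing Λ] {u : Fin r → Λ} {ψ : Λ →+* WittVector p (Rp p k r)}
  {red : Λ →+* R0 k r ⧸ Ideal.span {(MvPowerSeries.X 0 : R0 k r)}}
variable {A : Type u} [CommRing A] [Algebra Λ A] {s D : ℕ} {a : Fin s → A}
  {F : Fin s → Λ[X]} {E : MvPolynomial (Fin s) Λ} {g : Λ} {I r0 : ℕ}

/-- M11: assembly of the package over `A`. -/
theorem exists_apkg [Infinite k] (hb : IsBase p k r Λ u ψ red)
    (d : CData.{u} ψ (D := D) F E g I r0)
    (ha : Function.Surjective (MvPolynomial.aeval a : MvPolynomial (Fin s) Λ →ₐ[Λ] A))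
    (hF : ∀ j, aeval (a j) (F j) = 0) (hFm : ∀ j, (F j).Monic) (hFD : ∀ j, (F j).natDegree = D)
    (hFc : ∀ j, ∀ i < D, (F j).coeff i ∈ Ideal.span (insert (p : Λ) (Set.range u)))
    (hp : (p : A) ∈ Ideal.span (Set.range a)) (hu : ∀ i, algebraMap Λ A (u i) ∈ Ideal.span (Set.range a))
    (hEg : MvPolynomial.aeval a E = algebraMap Λ A g)
    (hE : ∀ f : MvPolynomial (Fin s) Λ, MvPolynomial.aeval a f = 0 →
      E * f ∈ Ideal.span (Set.range fun j => Polynomial.toMvPolynomial j (F j)))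
    (e N b : ℕ) (hN : 1 ≤ N) (he : p ^ e * N ≤ I + 1) :
    ∃ P : APkg (A := A) p (Ideal.span (Set.range a))
      (Fin.cons (p : A) fun i => algebraMap Λ A (u i) : Fin (r + 1) → A)
      (Fin s → Fin D) (∏ j, aeval (a j) (derivative (F j)))
      (algebraMap Λ A g * ∏ j, aeval (a j) (derivative (F j)))
      (p ^ b - (r + 1) - 1 - (r + 1)) (p ^ b) N (A ⊗[Λ] BN ψ d.C N),
      ∀ π, P.h π = 1 ⊗ₜ (dq d e N π + teN ψ d.C N (rt p e (d.δ' π))) := by
  choose ζ hζ using fun π => exists_z (A := A) (a := a) hb d hFm hFD hFc hp hu N b π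
  exact exists_apkg_of hb d ha hF hEg hE e N _ _ hN he ζ
    (fun π φ h1 h2 => (hζ π φ fun j => by rw [h1, h2]).1)
    (fun π φ h1 h2 => (hζ π φ fun j => by rw [h1, h2]).2)

end Vale.Agent.P202.Mix
end

section

/-!
P202-MIX: the normalized length as a total additive length function (`⊤` on modules which are not
locally finite).
-/

namespace Vale.Agent.P202.Mix

open Submodule
open scoped ENNReal

universe u v w

/-- `M` is locally finite over `R0`, after restriction of scalars. -/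
def LFr (R0 : Type v) (Ri : Type w) [CommRing R0] [CommRing Ri] [Algebra R0 Ri] (R : Type*)
    [CommRing R] [Algebra Ri R] (M : Type*) [AddCommGroup M] [Module R M] : Prop :=
  letI : Module R0 M := Module.compHom M ((algebraMap Ri R).comp (algebraMap R0 Ri))
  Tower.LF (R0 := R0) M

section

variable {R0 : Type v} [CommRing R0]

lemma lf_of_injective {M N : Type*} [AddCommGroup M] [Module R0 M] [AddCommGroup N]
    [Module R0 N] (f : M →ₗ[R0] N) (hf : Function.Injective f) (h : Tower.LF (R0 := R0) N) :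
    Tower.LF (R0 := R0) M := by
  intro X hX
  have h1 := h (X.map f) (hX.map f)
  rwa [LinearEquiv.length_eq (Submodule.equivMapOfInjective f hf X)]

lemma lf_of_surjective {M N : Type*} [AddCommGroup M] [Module R0 M] [AddCommGroup N]
    [Module R0 N] (f : M →ₗ[R0] N) (hf : Function.Surjective f) (h : Tower.LF (R0 := R0) M) :
    Tower.LF (R0 := R0) N := by
  classical
  rintro X ⟨s, rfl⟩
  have hc : ∀ x : N, ∃ y : M, f y = x := hf
  choose g hg using hc
  have h1 : (span R0 (g '' (s : Set N))).FG := ⟨s.image g, by rw [Finset.coe_image]⟩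
  have h2 : (span R0 (g '' (s : Set N))).map f = span R0 (s : Set N) := by
    rw [Submodule.map_span, Set.image_image]
    simp [hg]
  rw [← h2]
  exact ne_top_of_le_ne_top (h _ h1) (len_map_le f _)

lemma lf_of_exact [IsNoetherianRing R0] {M N K : Type*} [AddCommGroup M] [Module R0 M]
    [AddCommGroup N] [Module R0 N] [AddCommGroup K] [Module R0 K] (f : M →ₗ[R0] N)
    (g : N →ₗ[R0] K) (hfg : Function.Exact f g)
    (hM : Tower.LF (R0 := R0) M) (hK : Tower.LF (R0 := R0) K) : Tower.LF (R0 := R0) N := by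
  intro X hX
  have : IsNoetherian R0 X := isNoetherian_of_fg_of_noetherian _ hX
  have h1 : Module.length R0 (X.map g) ≠ ⊤ := hK _ (hX.map g)
  -- the kernel part
  let Y : Submodule R0 X := LinearMap.ker (g ∘ₗ X.subtype)
  have h2 : Module.length R0 X = Module.length R0 Y + Module.length R0 (X ⧸ Y) :=
    Module.length_eq_add_of_exact Y.subtype Y.mkQ Y.subtype_injective Y.mkQ_surjective
      (LinearMap.exact_subtype_mkQ Y)
  have h3 : Module.length R0 (X ⧸ Y) = Module.length R0 (X.map g) := by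
    refine LinearEquiv.length_eq ?_
    refine ((g ∘ₗ X.subtype).quotKerEquivRange).trans (LinearEquiv.ofEq _ _ ?_)
    rw [LinearMap.range_comp, Submodule.range_subtype]
  have hYfg : (Y.map X.subtype).FG := (IsNoetherian.noetherian Y).map _
  have h4 : Module.length R0 Y ≠ ⊤ := by
    have e1 : Module.length R0 Y = Module.length R0 (Y.map X.subtype) :=
      LinearEquiv.length_eq (Submodule.equivMapOfInjective _ X.subtype_injective Y)
    rw [e1]
    have hle : Y.map X.subtype ≤ LinearMap.range f := by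
      rintro _ ⟨y, hy, rfl⟩
      exact (hfg _).mp hy
    obtain ⟨s, hs⟩ := hYfg
    classical
    have hsub : ∀ x ∈ s, ∃ m, f m = x := fun x hx => by
      have : x ∈ Y.map X.subtype := by rw [← hs]; exact subset_span hx
      exact hle this
    choose! g' hg' using hsub
    have hfin : (span R0 (g' '' (s : Set N))).FG := ⟨s.image g', by rw [Finset.coe_image]⟩
    have h6 : (span R0 (g' '' (s : Set N))).map f = Y.map X.subtype := by
      rw [Submodule.map_span, Set.image_image, ← hs]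
      congr 1
      ext x
      constructor
      · rintro ⟨a, ha, rfl⟩
        change f (g' a) ∈ _
        rw [hg' a ha]
        exact ha
      · intro hx
        exact ⟨x, hx, hg' x hx⟩
    rw [← h6]
    exact ne_top_of_le_ne_top (hM _ hfin) (len_map_le f _)
  rw [h2, h3]
  exact WithTop.add_ne_top.mpr ⟨h4, h1⟩

end

section

variable {R0 : Type v} {Ri : Type w} [CommRing R0] [IsNoetherianRing R0] [CommRing Ri]
  [Algebra R0 Ri] {ι : Type*} [Preorder ι] (T : Tower R0 Ri ι) (R : Type*) [CommRing R]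
  [Algebra Ri R]

theorem lfr_add {M N K : Type*} [AddCommGroup M] [Module R M] [AddCommGroup N] [Module R N]
    [AddCommGroup K] [Module R K] (f : M →ₗ[R] N) (g : N →ₗ[R] K)
    (hf : Function.Injective f) (hg : Function.Surjective g) (hfg : Function.Exact f g) :
    LFr R0 Ri R N ↔ LFr R0 Ri R M ∧ LFr R0 Ri R K := by
  let φ := (algebraMap Ri R).comp (algebraMap R0 Ri)
  let _ : Module R0 M := Module.compHom M φ
  let _ : Module R0 N := Module.compHom N φ
  let _ : Module R0 K := Module.compHom K φ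
  let f' : M →ₗ[R0] N := { f with map_smul' := fun a x => map_smul f (φ a) x }
  let g' : N →ₗ[R0] K := { g with map_smul' := fun a x => map_smul g (φ a) x }
  constructor
  · intro h
    exact ⟨lf_of_injective f' hf h, lf_of_surjective g' hg h⟩
  · rintro ⟨h1, h2⟩
    exact lf_of_exact f' g' hfg h1 h2

omit [IsNoetherianRing R0] in
/-- additivity on locally finite modules. -/
theorem Tower.lenR_add' [IsDirectedOrder ι]
    {M N K : Type*} [AddCommGroup M] [Module R M] [AddCommGroup N] [Module R N]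
    [AddCommGroup K] [Module R K] (f : M →ₗ[R] N) (g : N →ₗ[R] K)
    (hf : Function.Injective f) (hg : Function.Surjective g) (hfg : Function.Exact f g)
    (h : LFr R0 Ri R N) :
    T.lenR R N = T.lenR R M + T.lenR R K := by
  let _ : Module Ri M := Module.compHom M (algebraMap Ri R)
  let _ : Module R0 M := Module.compHom M ((algebraMap Ri R).comp (algebraMap R0 Ri))
  let _ : Module Ri N := Module.compHom N (algebraMap Ri R)
  let _ : Module R0 N := Module.compHom N ((algebraMap Ri R).comp (algebraMap R0 Ri))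
  let _ : Module Ri K := Module.compHom K (algebraMap Ri R)
  let _ : Module R0 K := Module.compHom K ((algebraMap Ri R).comp (algebraMap R0 Ri))
  have sM : IsScalarTower Ri R M := ⟨fun a b x => by
    change (a • b) • x = (algebraMap Ri R a) • (b • x)
    rw [smul_smul, Algebra.smul_def]⟩
  have sN : IsScalarTower Ri R N := ⟨fun a b x => by
    change (a • b) • x = (algebraMap Ri R a) • (b • x)
    rw [smul_smul, Algebra.smul_def]⟩
  have sK : IsScalarTower Ri R K := ⟨fun a b x => by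
    change (a • b) • x = (algebraMap Ri R a) • (b • x)
    rw [smul_smul, Algebra.smul_def]⟩
  have tM : IsScalarTower R0 Ri M := ⟨fun a b x => by
    change (algebraMap Ri R (a • b)) • x = (algebraMap Ri R (algebraMap R0 Ri a)) •
      ((algebraMap Ri R b) • x)
    rw [smul_smul, ← map_mul, Algebra.smul_def]⟩
  have tN : IsScalarTower R0 Ri N := ⟨fun a b x => by
    change (algebraMap Ri R (a • b)) • x = (algebraMap Ri R (algebraMap R0 Ri a)) •
      ((algebraMap Ri R b) • x)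
    rw [smul_smul, ← map_mul, Algebra.smul_def]⟩
  have tK : IsScalarTower R0 Ri K := ⟨fun a b x => by
    change (algebraMap Ri R (a • b)) • x = (algebraMap Ri R (algebraMap R0 Ri a)) •
      ((algebraMap Ri R b) • x)
    rw [smul_smul, ← map_mul, Algebra.smul_def]⟩
  rw [T.lenR_eq R M, T.lenR_eq R N, T.lenR_eq R K]
  exact T.lam_eq_add h (f := f.restrictScalars Ri) (g := g.restrictScalars Ri) hf hg hfg

end

section

variable {R0 : Type v} {Ri : Type w} [CommRing R0] [IsNoetherianRing R0] [CommRing Ri]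
  [Algebra R0 Ri] {ι : Type*} [Preorder ι] (T : Tower R0 Ri ι)

open Classical in
/-- the total additive length. -/
noncomputable def Tower.totLen [IsDirectedOrder ι] [Nonempty ι] (R : Type u) [CommRing R]
    [Algebra Ri R] : AddLen R where
  len M _ _ := if LFr R0 Ri R M then T.lenR R M else ⊤
  zero := by
    have h : LFr R0 Ri R PUnit.{u+1} := by
      let _ : Module R0 PUnit.{u+1} :=
        Module.compHom PUnit.{u+1} ((algebraMap Ri R).comp (algebraMap R0 Ri))
      intro X _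
      rw [Module.length_eq_zero]
      simp
    rw [if_pos h]
    exact T.lenR_subsingleton R PUnit
  add {M N K} _ _ _ _ _ _ f g hf hg hfg := by
    by_cases h : LFr R0 Ri R N
    · have h' := (lfr_add R f g hf hg hfg).mp h
      rw [if_pos h, if_pos h'.1, if_pos h'.2]
      exact T.lenR_add' R f g hf hg hfg h
    · have h' : ¬ (LFr R0 Ri R M ∧ LFr R0 Ri R K) := fun h' =>
        h ((lfr_add R f g hf hg hfg).mpr h')
      rw [if_neg h]
      by_cases h1 : LFr R0 Ri R M
      · have h2 : ¬ LFr R0 Ri R K := fun h2 => h' ⟨h1, h2⟩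
        rw [if_neg h2, add_top]
      · rw [if_neg h1, top_add]

theorem Tower.totLen_eq [IsDirectedOrder ι] [Nonempty ι] (R : Type u) [CommRing R]
    [Algebra Ri R] (M : Type u) [AddCommGroup M] [Module R M] (h : LFr R0 Ri R M) :
    (T.totLen R).len M = T.lenR R M := if_pos h

omit [IsNoetherianRing R0] in
/-- modules killed by an ideal of finite colength are locally finite. -/
theorem lfr_of_smul_eq_zero (R : Type u) [CommRing R] [Algebra Ri R] (J : Ideal R0)
    (hJ : Module.length R0 (R0 ⧸ J) ≠ ⊤) (M : Type u) [AddCommGroup M] [Module R M]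
    (h : ∀ a ∈ J, ∀ x : M, algebraMap Ri R (algebraMap R0 Ri a) • x = 0) :
    LFr R0 Ri R M := by
  let _ : Module R0 M := Module.compHom M ((algebraMap Ri R).comp (algebraMap R0 Ri))
  exact Tower.lf_of_smul_eq_zero J hJ h

end

end Vale.Agent.P202.Mix
end

section

/-!
P202 MIX, task M12: the additive length on `E = S ⊗_A (A ⊗_Λ B/p^N)` with `L(E/n_S E) = 1`
(helper677).
-/

namespace Vale.Agent.P202.Mix

open Polynomial TensorProduct IsLocalRing UL
open scoped ENNReal

universe u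

variable {p : ℕ} [Fact p.Prime] {k : Type u} [Field k] [CharP k p] {r : ℕ}
variable {Λ : Type u} [CommRing Λ] [IsLocalRing Λ] {u : Fin r → Λ}
  {ψ : Λ →+* WittVector p (Rp p k r)}
  {red : Λ →+* R0 k r ⧸ Ideal.span {(MvPowerSeries.X 0 : R0 k r)}}
  {ι : Type u} {b : ι → Λ} {β : ι → k} {res : ResidueField Λ →+* k}
variable {A S : Type u} [CommRing A] [CommRing S] [IsLocalRing A] [IsLocalRing S]
  [IsNoetherianRing A] [IsNoetherianRing S]
  [Algebra Λ A] [Algebra A S] [IsLocalHom (algebraMap Λ A)] [IsLocalHom (algebraMap A S)]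

namespace UL

omit [IsLocalRing A] [IsNoetherianRing A] [IsNoetherianRing S] in
theorem exists_Theta (hX : IsBaseX p k r u ψ red b β res) {r0 : ℕ} (d : PExt.{u} p k r r0)
    (N : ℕ) (hN : 1 ≤ N) :
    letI : Algebra (ResidueField Λ) (d.C ⧸ vI p k r d.C) := ((kCb p k r d.C).comp res).toAlgebra
    letI : Algebra (ResidueField Λ) (ResidueField S) :=
      (ResidueField.map ((algebraMap A S).comp (algebraMap Λ A))).toAlgebra
    ∃ Θ : (ES ψ A S d.C N ⧸ nE ψ A S d.C N) →+*
      (ResidueField S) ⊗[ResidueField Λ] (d.C ⧸ vI p k r d.C),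
      (∀ s : S, Θ (Ideal.Quotient.mk _ (algebraMap S (ES ψ A S d.C N) s)) =
        residue S s ⊗ₜ 1) ∧
      ∀ c : d.C, Θ (Ideal.Quotient.mk _ (toES ψ A S d.C N (teN ψ d.C N c))) =
        1 ⊗ₜ Ideal.Quotient.mk _ c := by
  let _ : Algebra (ResidueField Λ) (d.C ⧸ vI p k r d.C) := ((kCb p k r d.C).comp res).toAlgebra
  let _ : Algebra (ResidueField Λ) (ResidueField S) :=
    (ResidueField.map ((algebraMap A S).comp (algebraMap Λ A))).toAlgebra
  obtain ⟨π, hπ⟩ := exists_piN ψ d N hN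
  let i1 : S →+* (ResidueField S) ⊗[ResidueField Λ] (d.C ⧸ vI p k r d.C) :=
    (Algebra.TensorProduct.includeLeftRingHom).comp (residue S)
  let i2 : BN ψ d.C N →+* (ResidueField S) ⊗[ResidueField Λ] (d.C ⧸ vI p k r d.C) :=
    (Algebra.TensorProduct.includeRight (R := ResidueField Λ) (A := ResidueField S)
      (B := d.C ⧸ vI p k r d.C)).toRingHom.comp π
  obtain ⟨Θ, h1, h2⟩ := exists_theta (A := A) i1 i2 (fun x => by
    change (residue S (algebraMap A S (algebraMap Λ A x))) ⊗ₜ[ResidueField Λ] 1 =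
      1 ⊗ₜ[ResidueField Λ] π (algebraMap Λ (BN ψ d.C N) x)
    rw [piN_algebraMap hX d N π hπ]
    have e1 : residue S (algebraMap A S (algebraMap Λ A x)) =
        algebraMap (ResidueField Λ) (ResidueField S) (residue Λ x) := rfl
    have e2 : kCb p k r d.C (res (residue Λ x)) =
        algebraMap (ResidueField Λ) (d.C ⧸ vI p k r d.C) (residue Λ x) := rfl
    rw [e1, e2, Algebra.algebraMap_eq_smul_one, Algebra.algebraMap_eq_smul_one,
      TensorProduct.smul_tmul])
  have h3 : ∀ x ∈ nE ψ A S d.C N, Θ x = 0 := by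
    have : nE ψ A S d.C N ≤ RingHom.ker Θ := by
      rw [nE, Ideal.map_le_iff_le_comap]
      intro s hs
      rw [Ideal.mem_comap, RingHom.mem_ker, h1]
      change (residue S s) ⊗ₜ[ResidueField Λ] 1 = _
      rw [(residue_eq_zero_iff s).mpr hs, TensorProduct.zero_tmul]
    exact fun x hx => this hx
  refine ⟨Ideal.Quotient.lift _ Θ h3, fun s => h1 s, fun c => ?_⟩
  change Θ (toES ψ A S d.C N (teN ψ d.C N c)) = _
  refine (h2 _).trans ?_
  change 1 ⊗ₜ[ResidueField Λ] π (mkN ψ d.C N (toB p d.C (tC p k r d.C)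
    (WittVector.teichmuller p c))) = _
  rw [hπ, WittVector.teichmuller_coeff_zero]

/-- exponents with support in `F`. -/
noncomputable def toBx {ι : Type u} (F : Finset ι) (q : ℕ) (hq : 0 < q) (φ : F → Fin q) :
    Bx ι q :=
  ⟨Finsupp.embDomain (Function.Embedding.subtype _)
    (Finsupp.equivFunOnFinite.symm fun i => (φ i : ℕ)), fun i => by
      classical
      rw [Finsupp.embDomain_apply]
      split_ifs with h
      · exact (φ _).2
      · exact hq⟩

theorem toBx_injective {ι : Type u} (F : Finset ι) (q : ℕ) (hq : 0 < q) :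
    Function.Injective (toBx F q hq) := by
  intro φ φ' h
  have h1 := Finsupp.embDomain_injective _ (congrArg Subtype.val h)
  have h2 := Finsupp.equivFunOnFinite.symm.injective h1
  funext i
  exact Fin.ext (congrFun h2 i)

theorem toBx_support {ι : Type u} (F : Finset ι) (q : ℕ) (hq : 0 < q) (φ : F → Fin q) :
    ∀ i ∈ (toBx F q hq φ).1.support, i ∈ F := by
  intro i hi
  rw [toBx, Finsupp.support_embDomain, Finset.mem_map] at hi
  obtain ⟨j, -, rfl⟩ := hi
  exact j.2

omit [IsLocalRing A] [IsNoetherianRing A] [IsNoetherianRing S] in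
theorem indep (hX : IsBaseX p k r u ψ red b β res) {r0 : ℕ} (d : PExt.{u} p k r r0)
    (N : ℕ) (hN : 1 ≤ N) (e : ℕ) {J : Type*} [Fintype J] (g : J → Bx (Fin (r + 1) ⊕ ι) (p ^ e))
    (hg : Function.Injective g) (c : J → S)
    (h : ∑ j, c j • (Ideal.Quotient.mk (nE ψ A S d.C N) (toES ψ A S d.C N (teN ψ d.C N
      ((g j).1.prod fun i m => rt p e (cR p k r d.C β i) ^ m)))) = 0) (j : J) :
    c j ∈ maximalIdeal S := by
  let _ : Algebra (ResidueField Λ) (d.C ⧸ vI p k r d.C) := ((kCb p k r d.C).comp res).toAlgebra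
  let _ : Algebra (ResidueField Λ) (ResidueField S) :=
    (ResidueField.map ((algebraMap A S).comp (algebraMap Λ A))).toAlgebra
  obtain ⟨Θ, h1, h2⟩ := exists_Theta (A := A) (S := S) hX d N hN
  have h3 := ((li_sum hX d e).comp g hg)
  have h4 := Module.Flat.linearIndependent_one_tmul (S := ResidueField S) h3
  have h5 := congrArg Θ h
  rw [map_zero, map_sum] at h5
  have h6 : ∑ j, residue S (c j) • ((1 : ResidueField S) ⊗ₜ[ResidueField Λ]
      (Ideal.Quotient.mk (vI p k r d.C)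
        ((g j).1.prod fun i m => rt p e (cR p k r d.C β i) ^ m))) = 0 := by
    rw [← h5]
    refine Finset.sum_congr rfl fun j _ => ?_
    have e1 : ∀ (s : S) (z : ES ψ A S d.C N ⧸ nE ψ A S d.C N), s • z =
        Ideal.Quotient.mk _ (algebraMap S (ES ψ A S d.C N) s) * z := fun s z =>
      Algebra.smul_def s z
    rw [e1, map_mul, h1, h2, Algebra.TensorProduct.tmul_mul_tmul, mul_one, one_mul,
      TensorProduct.smul_tmul', smul_eq_mul, mul_one]
  rw [← residue_eq_zero_iff]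
  exact Fintype.linearIndependent_iff.mp h4 (fun j => residue S (c j)) h6 j

omit [IsLocalRing A] [IsNoetherianRing A] [IsNoetherianRing S] in
/-- the images of the elements of `Rp` come from the algebra of roots. -/
theorem range_root (hX : IsBaseX p k r u ψ red b β res) {r0 : ℕ} (d : PExt.{u} p k r r0)
    (N : ℕ) (ω : d.C →+* ES ψ A S d.C N ⧸ nE ψ A S d.C N)
    (hω : ∀ c, ω c = Ideal.Quotient.mk _ (toES ψ A S d.C N (teN ψ d.C N c)))
    (G : Subring (ES ψ A S d.C N ⧸ nE ψ A S d.C N))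
    (hGS : ∀ s : S, Ideal.Quotient.mk _ (algebraMap S (ES ψ A S d.C N) s) ∈ G)
    (hGr : ∀ i e, ω (rt p e (cR p k r d.C β i)) ∈ G) (g : Rp p k r) :
    ω (algebraMap (Rp p k r) d.C g) ∈ G := by
  have hx : ∀ l, ω (algebraMap (Rp p k r) d.C (xp p k r l)) = 0 := by
    intro l
    have e1 : algebraMap (Rp p k r) d.C (xp p k r l) = cR p k r d.C β (Sum.inl l) := rfl
    rw [hω, e1, teN_cR hX, Ideal.Quotient.eq_zero_iff_mem]
    refine toES_mem d.C N _ ?_
    rw [hX.max]
    refine Ideal.subset_span ?_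
    refine Fin.cases (Set.mem_insert _ _) (fun j => Set.mem_insert_of_mem _ ⟨j, rfl⟩) l
  refine range_gen hX (ω.comp (algebraMap (Rp p k r) d.C)) hx G (fun c => ?_) (fun e i => ?_)
    (fun e l => ?_) g
  · obtain ⟨l, rfl⟩ := residue_surjective c
    have h1 : ω (algebraMap (Rp p k r) d.C ((ψ l).coeff 0)) =
        ω (algebraMap (Rp p k r) d.C (kR p k r (res (residue Λ l)))) := by
      have h2 := psi_coeff hX l
      have h3 : Ideal.span (Set.range (xp p k r)) ≤
          RingHom.ker (ω.comp (algebraMap (Rp p k r) d.C)) := by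
        rw [Ideal.span_le]
        rintro _ ⟨l, rfl⟩
        exact hx l
      have h4 := h3 h2
      rw [RingHom.mem_ker, map_sub, sub_eq_zero] at h4
      exact h4
    have h2 : ω (algebraMap (Rp p k r) d.C ((ψ l).coeff 0)) =
        Ideal.Quotient.mk _ (toES ψ A S d.C N (algebraMap Λ (BN ψ d.C N) l)) := by
      rw [hω, Ideal.Quotient.eq, algebraMap_BN, teN, ← map_sub, ← map_sub]
      refine toES_p_mem hX d.C N _ ?_
      obtain ⟨π, h1, -, h3⟩ := exists_proj p d.C (tC p k r d.C)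
      rw [← h3, RingHom.mem_ker, map_sub, te, h1, h1, WittVector.teichmuller_coeff_zero,
        WittVector.map_coeff, sub_self]
    change ω (algebraMap (Rp p k r) d.C (kR p k r (res (residue Λ l)))) ∈ G
    rw [← h1, h2, toES_algebraMap]
    exact hGS _
  · have h := hGr (Sum.inr i) e
    have e1 : rt p e (cR p k r d.C β (Sum.inr i)) =
        algebraMap (Rp p k r) d.C (rt p e (kR p k r (β i))) :=
      (rt_map (algebraMap (Rp p k r) d.C) e (kR p k r (β i))).symm
    rw [e1] at h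
    exact h
  · have h := hGr (Sum.inl l) e
    have e1 : rt p e (cR p k r d.C β (Sum.inl l)) =
        algebraMap (Rp p k r) d.C (rt p e (xp p k r l)) :=
      (rt_map (algebraMap (Rp p k r) d.C) e (xp p k r l)).symm
    rw [e1] at h
    exact h

end UL

/-- scaling of an additive length. -/
noncomputable def AddLen.divc {R : Type u} [CommRing R] (L : AddLen R) (c : ℝ≥0∞) : AddLen R where
  len M _ _ := L.len M / c
  zero := by rw [L.zero, ENNReal.zero_div]
  add f g hf hg hfg := by rw [L.add f g hf hg hfg, ENNReal.add_div]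

/-- TASK M12: an additive length on the modules over `E = S ⊗_A (A ⊗_Λ B/p^N)` with
`L(E/n_S E) = 1`. -/
theorem exists_unit_len (hX : IsBaseX p k r u ψ red b β res) {r0 : ℕ} (d : PExt.{u} p k r r0)
    (N : ℕ) (hN : 1 ≤ N) :
    ∃ L : AddLen (ES ψ A S d.C N),
      L.len (ES ψ A S d.C N ⧸ (maximalIdeal S).map (algebraMap S (ES ψ A S d.C N))) = 1 := by
  classical
  let a : Fin (r + 1) ⊕ ι → S := fun i => algebraMap A S (algebraMap Λ A (cL p u b i))
  obtain ⟨f, hf⟩ := exists_lift p S a (T := ES ψ A S d.C N)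
    (fun i e => toES ψ A S d.C N (teN ψ d.C N (rt p e (cR p k r d.C β i))))
    (fun i => by rw [rt_zero_exp, teN_cR hX, toES_algebraMap])
    (fun i e => by rw [← map_pow, teN, ← map_pow, ← te_pow, rt_succ_pow]; rfl)
  let _ : Algebra (RootAlg p S a) (ES ψ A S d.C N) := f.toRingHom.toAlgebra
  have hst : IsScalarTower S (RootAlg p S a) (ES ψ A S d.C N) :=
    IsScalarTower.of_algebraMap_eq fun s => (f.commutes s).symm
  obtain ⟨T, hT1, hT2⟩ := exists_rootTower p S a
  change ∃ L : AddLen (ES ψ A S d.C N), L.len (ES ψ A S d.C N ⧸ nE ψ A S d.C N) = 1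
  have hsm : ∀ (y : RootAlg p S a) (z : ES ψ A S d.C N ⧸ nE ψ A S d.C N),
      y • z = Ideal.Quotient.mk _ (f y) * z := fun y z => Algebra.smul_def y z
  have hsmS : ∀ (s : S) (z : ES ψ A S d.C N ⧸ nE ψ A S d.C N),
      s • z = Ideal.Quotient.mk _ (algebraMap S (ES ψ A S d.C N) s) * z :=
    fun s z => Algebra.smul_def s z
  have hkill : ∀ s ∈ maximalIdeal S, ∀ x : ES ψ A S d.C N ⧸ nE ψ A S d.C N, s • x = 0 := by
    intro s hs x
    have h1 : Ideal.Quotient.mk (nE ψ A S d.C N) (algebraMap S (ES ψ A S d.C N) s) = 0 :=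
      Ideal.Quotient.eq_zero_iff_mem.mpr (Ideal.mem_map_of_mem _ hs)
    rw [hsmS, h1]
    exact zero_mul x
  have hlf : LFr S (RootAlg p S a) (ES ψ A S d.C N) (ES ψ A S d.C N ⧸ nE ψ A S d.C N) := by
    refine lfr_of_smul_eq_zero _ (maximalIdeal S) ?_ _ fun s hs x => ?_
    · rw [length_residue]
      exact ENat.one_ne_top
    · have h1 := hkill s hs x
      rw [← h1, ← algebraMap_smul (ES ψ A S d.C N) s x]
      congr 1
      exact f.commutes s
  have hL0 : (T.totLen (ES ψ A S d.C N)).len (ES ψ A S d.C N ⧸ nE ψ A S d.C N) =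
      T.lam (ES ψ A S d.C N ⧸ nE ψ A S d.C N) := by
    rw [T.totLen_eq _ _ hlf, T.lenR_eq]
  obtain ⟨ω, hω⟩ := exists_omega (A := A) (S := S) hX d N
  have hωr : ∀ i e, ω (rt p e (cR p k r d.C β i)) = Ideal.Quotient.mk _ (f (rx p S a i e)) := by
    intro i e
    rw [hω, hf]
  -- upper bound
  have hup : T.lam (ES ψ A S d.C N ⧸ nE ψ A S d.C N) ≤ r0 := by
    refine lam_le_of_cover T hkill (∅, 0) (fun i => ⟨Finset.empty_subset _, Nat.zero_le _⟩) ?_ ?_
      r0 fun X hX' => ?_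
    · rw [hT1, rsub]
      simp
    · rw [hT2]
      simp
    · obtain ⟨s, rfl⟩ := hX'
      have h1 : ∀ x : ES ψ A S d.C N ⧸ nE ψ A S d.C N, ∃ c : d.C →₀ S,
          (c.sum fun i a => a • ω i) = x := by
        intro x
        have h2 := span_omega hX d N x
        simp only [← hω] at h2
        exact Finsupp.mem_span_range_iff_exists_finsupp.mp h2
      choose c hc using h1
      obtain ⟨v, hv⟩ := d.fin (s.biUnion fun x => (c x).support)
      refine ⟨fun j => ω (v j), Submodule.span_le.mpr fun x hx => ?_⟩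
      have h3 : ∀ y ∈ Submodule.span (Rp p k r) (Set.range v),
          ω y ∈ Submodule.span (RootAlg p S a) (Set.range fun j => ω (v j)) := by
        intro y hy
        induction hy using Submodule.span_induction with
        | mem y hy =>
          obtain ⟨j, rfl⟩ := hy
          exact Submodule.subset_span ⟨j, rfl⟩
        | zero => rw [map_zero]; exact zero_mem _
        | add y z _ _ hy hz => rw [map_add]; exact add_mem hy hz
        | smul g y _ hy =>
          have h4 := range_root hX d N ω hω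
            ((Ideal.Quotient.mk (nE ψ A S d.C N)).comp f.toRingHom).range
            (fun s => ⟨algebraMap S _ s, congrArg _ (f.commutes s)⟩)
            (fun i e => ⟨rx p S a i e, (hωr i e).symm⟩) g
          obtain ⟨z, hz⟩ := h4
          rw [Algebra.smul_def, map_mul, ← hz]
          change Ideal.Quotient.mk (nE ψ A S d.C N) (f z) * ω y ∈ _
          rw [← hsm]
          exact Submodule.smul_mem _ _ hy
      rw [← hc x]
      refine sum_mem fun i hi => ?_
      have h5 : ω i ∈ Submodule.span (RootAlg p S a) (Set.range fun j => ω (v j)) :=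
        h3 i (hv (Finset.mem_coe.mpr (Finset.mem_biUnion.mpr ⟨x, hx, hi⟩)))
      exact ((Submodule.span (RootAlg p S a) (Set.range fun j => ω (v j))).restrictScalars
        S).smul_mem _ h5
  -- lower bound
  have hlow : 1 ≤ T.lam (ES ψ A S d.C N ⧸ nE ψ A S d.C N) := by
    refine one_le_lam T 1 fun i => ?_
    obtain ⟨F, e⟩ := i
    have hq : 0 < p ^ e := pow_pos (Fact.out : p.Prime).pos e
    refine ⟨F → Fin (p ^ e), inferInstance, fun φ =>
      (toBx F (p ^ e) hq φ).1.prod fun i m => rx p S a i e ^ m, ?_, fun φ => ?_, fun c hc => ?_⟩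
    · rw [hT2, Fintype.card_fun, Fintype.card_fin, Fintype.card_coe, pow_mul]
    · rw [hT1]
      exact prod_mem fun i hi => pow_mem (rx_mem_rsub p S a (toBx_support F _ hq φ i hi)) _
    · refine indep (A := A) hX d N hN e (toBx F (p ^ e) hq) (toBx_injective F _ hq) c ?_
      rw [← hc]
      refine Finset.sum_congr rfl fun φ _ => ?_
      congr 1
      rw [hsm]
      refine Eq.trans ?_ (mul_one (Ideal.Quotient.mk (nE ψ A S d.C N)
        (f ((toBx F (p ^ e) hq φ).1.prod fun i m => rx p S a i e ^ m)))).symm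
      rw [← hω, map_finsuppProd, map_finsuppProd, map_finsuppProd]
      refine Finsupp.prod_congr fun i _ => ?_
      rw [map_pow, map_pow, map_pow, hωr]
  have h0 : T.lam (ES ψ A S d.C N ⧸ nE ψ A S d.C N) ≠ 0 := (zero_lt_one.trans_le hlow).ne'
  have htop : T.lam (ES ψ A S d.C N ⧸ nE ψ A S d.C N) ≠ ⊤ :=
    ne_top_of_le_ne_top (ENNReal.natCast_ne_top r0) hup
  refine ⟨(T.totLen (ES ψ A S d.C N)).divc (T.lam (ES ψ A S d.C N ⧸ nE ψ A S d.C N)), ?_⟩
  change (T.totLen (ES ψ A S d.C N)).len (ES ψ A S d.C N ⧸ nE ψ A S d.C N) / _ = 1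
  rw [hL0, ENNReal.div_self h0 htop]

end Vale.Agent.P202.Mix
end

section

/-!
P202, mixed characteristic: the base of a complete local domain (assembly).
-/

namespace Vale.Agent.P202.Mix

open IsLocalRing

universe u

/-- divisibility by the powers of `p` in `Cr[[X]]`. -/
theorem powerSeries_p_adic (p : ℕ) {Cr : Type*} [CommRing Cr] [IsDomain Cr]
    [IsLocalRing Cr] [IsNoetherianRing Cr] (hCr : maximalIdeal Cr = Ideal.span {(p : Cr)}) {r : ℕ}
    (g : MvPowerSeries (Fin r) Cr) (hg : g ≠ 0) :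
    ∃ (n : ℕ) (g' : MvPowerSeries (Fin r) Cr),
      g = (p : MvPowerSeries (Fin r) Cr) ^ n * g' ∧
      g' ∉ Ideal.span {(p : MvPowerSeries (Fin r) Cr)} := by
  obtain ⟨d, hd⟩ : ∃ d, MvPowerSeries.coeff d g ≠ 0 := by
    by_contra hcon
    push Not at hcon
    exact hg (MvPowerSeries.ext fun n => by rw [hcon n, map_zero])
  have hnu : ¬ IsUnit (p : Cr) := by
    intro h
    have h1 : (p : Cr) ∈ maximalIdeal Cr := by
      rw [hCr]
      exact Ideal.mem_span_singleton_self _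
    exact (mem_maximalIdeal _).mp h1 h
  have hfin : FiniteMultiplicity (p : Cr) (MvPowerSeries.coeff d g) :=
    FiniteMultiplicity.of_not_isUnit hnu hd
  have hfin' : FiniteMultiplicity (p : MvPowerSeries (Fin r) Cr) g := by
    obtain ⟨n, hn⟩ := hfin
    refine ⟨n, fun h => hn ?_⟩
    obtain ⟨h', rfl⟩ := h
    refine ⟨MvPowerSeries.coeff d h', ?_⟩
    have h2 : (p : MvPowerSeries (Fin r) Cr) ^ (n + 1) = MvPowerSeries.C ((p : Cr) ^ (n + 1)) := by
      rw [map_pow, map_natCast]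
    rw [h2, MvPowerSeries.coeff_C_mul]
  obtain ⟨c, hc1, hc2⟩ := hfin'.exists_eq_pow_mul_and_not_dvd
  exact ⟨_, c, hc1, fun h => hc2 (Ideal.mem_span_singleton.mp h)⟩

/-- TASK M17-0: the base of a complete local domain of mixed characteristic. -/
theorem exists_base (p : ℕ) [Fact p.Prime] {A : Type u} [CommRing A] [IsDomain A] [IsLocalRing A]
    [IsNoetherianRing A] [CharZero A] [CharP (ResidueField A) p]
    [IsAdicComplete (maximalIdeal A) A] [Infinite (ResidueField A)] {r : ℕ}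
    (hdim : ringKrullDim A = (r + 1 : ℕ)) :
    ∃ (k : Type u) (_ : Field k) (_ : CharP k p) (_ : Infinite k)
      (Λ : Type u) (_ : CommRing Λ) (_ : IsDomain Λ) (_ : IsLocalRing Λ) (_ : Algebra Λ A)
      (_ : IsLocalHom (algebraMap Λ A)) (_ : Module.Finite Λ A)
      (u : Fin r → Λ) (ψ : Λ →+* WittVector p (Rp p k r))
      (red : Λ →+* R0 k r ⧸ Ideal.span {(MvPowerSeries.X 0 : R0 k r)})
      (ι : Type u) (b : ι → Λ) (β : ι → k) (res : ResidueField Λ →+* k)
      (s : ℕ) (a : Fin s → A),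
      IsBaseX p k r u ψ red b β res ∧ Function.Injective (algebraMap Λ A) ∧
      (∀ g : Λ, g ≠ 0 → ∃ (n : ℕ) (g' : Λ), g = (p : Λ) ^ n * g' ∧ g' ∉ Ideal.span {(p : Λ)}) ∧
      Ideal.span (Set.range a) = maximalIdeal A ∧
      (∀ x : A, ∃ (l : Λ) (c : Fin s → Λ), x = algebraMap Λ A l + ∑ j, algebraMap Λ A (c j) * a j) ∧
      ∃ M : ℕ, maximalIdeal A ^ M ≤ (maximalIdeal Λ).map (algebraMap Λ A) := by
  obtain ⟨ι, b, hb⟩ := exists_pbasis p (ResidueField A)
  obtain ⟨Cr, iC, iD, iV, iA, χ, κ, π, β, hCr, hπ, hπk, hπχ, hχ, hκ, hκβ, hχβ⟩ :=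
    exists_cohen p (A := A) hb
  have hpA : (p : A) ∈ maximalIdeal A := by
    rw [← residue_eq_zero_iff, map_natCast, CharP.cast_eq_zero]
  obtain ⟨φ, hφC, hφfin, hφinj, hφX, ⟨M, hM⟩, s, a, ha1, ha2⟩ :=
    exists_noether_norm p hCr hpA χ hχ hdim
  obtain ⟨ψ, red, res, hbase⟩ := exists_baseX p r hCr π hπ hπk κ hκ hb β hκβ
  let _ : Algebra (MvPowerSeries (Fin r) Cr) A := φ.toAlgebra
  have hdom : IsDomain (MvPowerSeries (Fin r) Cr) := NoZeroDivisors.to_isDomain _
  have halg : algebraMap (MvPowerSeries (Fin r) Cr) A = φ := rfl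
  have hmax := maximalIdeal_powerSeries p (r := r) hCr
  have hle : maximalIdeal (MvPowerSeries (Fin r) Cr) ≤ (maximalIdeal A).comap φ := by
    rw [hmax, Ideal.span_le]
    rintro l (rfl | ⟨i, rfl⟩)
    · rw [SetLike.mem_coe, Ideal.mem_comap, map_natCast]
      exact hpA
    · exact hφX i
  have hloc : IsLocalHom (algebraMap (MvPowerSeries (Fin r) Cr) A) := by
    refine ⟨fun l hl => ?_⟩
    by_contra hcon
    exact (mem_maximalIdeal _).mp (hle ((mem_maximalIdeal _).mpr hcon)) hl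
  refine ⟨PerfectClosure (ResidueField A) p, inferInstance, inferInstance,
    Infinite.of_injective (PerfectClosure.of (ResidueField A) p) (RingHom.injective _),
    MvPowerSeries (Fin r) Cr, inferInstance, hdom, inferInstance, φ.toAlgebra, hloc,
    hφfin, _, ψ, red, ι, _, _, res, s, a, hbase, hφinj,
    fun g hg => powerSeries_p_adic p hCr g hg, ha1, ha2, M, hM.trans ?_⟩
  rw [hmax, Ideal.map_span, Ideal.span_le]
  rintro x (rfl | ⟨i, rfl⟩)
  · refine Ideal.subset_span ⟨(p : MvPowerSeries (Fin r) Cr), Set.mem_insert _ _, ?_⟩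
    rw [map_natCast]
  · exact Ideal.subset_span ⟨MvPowerSeries.X i, Set.mem_insert_of_mem _ ⟨i, rfl⟩, rfl⟩

end Vale.Agent.P202.Mix
end

section

/-!
P202 MIX, M17-D stage 1: the packages over `A` and the additive lengths over `S`.
-/

namespace Vale.Agent.P202.Mix

open Polynomial TensorProduct IsLocalRing
open scoped ENNReal

universe u

theorem sup_span_pow_eq {E : Type*} [CommRing E] (J : Ideal E) (x y : E) (h : x - y ∈ J) (c : ℕ) :
    J ⊔ Ideal.span {x ^ c} = J ⊔ Ideal.span {y ^ c} := by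
  have key : ∀ x y : E, x - y ∈ J → J ⊔ Ideal.span {x ^ c} ≤ J ⊔ Ideal.span {y ^ c} := by
    intro x y h
    refine sup_le le_sup_left ?_
    rw [Ideal.span_singleton_le_iff_mem]
    have h1 : x ^ c - y ^ c ∈ J := by
      obtain ⟨z, hz⟩ := sub_dvd_pow_sub_pow x y c
      rw [hz]
      exact J.mul_mem_right _ h
    have h2 : x ^ c = (x ^ c - y ^ c) + y ^ c := by ring
    rw [h2]
    exact Submodule.add_mem_sup h1 (Ideal.mem_span_singleton_self _)
  refine le_antisymm (key x y h) (key y x ?_)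
  rw [← neg_sub]
  exact J.neg_mem h

theorem stage1 (p : ℕ) [Fact p.Prime] {A S : Type u} [CommRing A] [IsDomain A] [IsLocalRing A]
    [IsNoetherianRing A] [CharZero A] [CharP (ResidueField A) p]
    [IsAdicComplete (maximalIdeal A) A] [Infinite (ResidueField A)] [CommRing S] [IsLocalRing S]
    [IsNoetherianRing S] [Algebra A S] [IsLocalHom (algebraMap A S)] [Module.Flat A S] {r : ℕ}
    (hdim : ringKrullDim A = (r + 1 : ℕ)) :
    ∃ (P : Type) (_ : Fintype P) (x : Fin (r + 1) → A) (g0 g1 : A) (CC : ℕ),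
      x 0 = (p : A) ∧ (∀ l, x l ∈ maximalIdeal A) ∧ g0 ≠ 0 ∧ g1 ≠ 0 ∧
      ∀ b e N : ℕ, 1 ≤ N → ∃ (E : Type u) (_ : CommRing E) (_ : Algebra A E)
        (Pk : APkg p (maximalIdeal A) x P g0 g1 (p ^ b - (r + 1) - 1 - (r + 1)) (p ^ b) N E)
        (L : AddLen (S ⊗[A] E)),
        (∀ 𝔟 : Ideal S, (p : S) ^ N ∈ 𝔟 → Module.length S (S ⧸ 𝔟) ≠ ⊤ →
          L.len ((S ⊗[A] E) ⧸ 𝔟.map (algebraMap S (S ⊗[A] E))) =
            ENat.toENNReal (Module.length S (S ⧸ 𝔟))) ∧
        ∀ π (c : ℕ), 1 ≤ c →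
          L.len ((S ⊗[A] E) ⧸ ((maximalIdeal S).map (algebraMap S (S ⊗[A] E)) ⊔
            Ideal.span {((1 : S) ⊗ₜ[A] Pk.h π : S ⊗[A] E) ^ c})) ≤
            ((c * CC : ℕ) : ℝ≥0∞) / (p : ℝ≥0∞) ^ e := by
  obtain ⟨k, _, _, _, Λ, _, _, _, _, _, _, u, ψ, red, ι, b, β, res, s, a, hX, hinj, hsep, hspan,
    hgen, M, hM⟩ := exists_base p hdim
  have hb := hX.toIsBase
  have hpA : (p : A) ∈ maximalIdeal A := by
    rw [← residue_eq_zero_iff, map_natCast, CharP.cast_eq_zero]
  have hp0 : (p : Λ) ≠ 0 := by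
    intro h
    have h1 := congr(algebraMap Λ A $h)
    rw [map_natCast, map_zero] at h1
    exact (Fact.out : p.Prime).ne_zero (Nat.cast_eq_zero.mp h1)
  have h𝔪 : maximalIdeal Λ ≠ ⊥ := by
    intro h
    have h1 : (p : Λ) ∈ maximalIdeal Λ := by
      rw [hX.max]
      exact Ideal.subset_span (Set.mem_insert _ _)
    rw [h] at h1
    exact hp0 h1
  have ham : ∀ j, a j ∈ maximalIdeal A := fun j => by
    rw [← hspan]
    exact Ideal.subset_span ⟨j, rfl⟩
  -- the polynomials
  choose D0 hD0 using fun j : Fin s => exists_simple_root hinj (maximalIdeal Λ) h𝔪 (a j) M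
    (hM (Ideal.pow_mem_pow (ham j) M))
  set D : ℕ := ∑ j, D0 j with hD
  choose F hFm hFD hFc hF0 hF1 using fun j : Fin s => hD0 j D
    (Finset.single_le_sum (f := D0) (fun _ _ => Nat.zero_le _) (Finset.mem_univ j))
  have hsurj : Function.Surjective (MvPolynomial.aeval a : MvPolynomial (Fin s) Λ →ₐ[Λ] A) := by
    intro x
    obtain ⟨l, c, rfl⟩ := hgen x
    refine ⟨MvPolynomial.C l + ∑ j, MvPolynomial.C (c j) * MvPolynomial.X j, ?_⟩
    simp
  have hadj : Algebra.adjoin Λ (Set.range a) = ⊤ := by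
    rw [Algebra.adjoin_range_eq_range_aeval, AlgHom.range_eq_top]
    exact hsurj
  obtain ⟨g, E, hg, hEg, hE⟩ := exists_idem hinj a hadj F hFm hF0 hF1
  obtain ⟨a0, g', I0, hg', hform⟩ := gamma_form (A := A) hb g (hsep g hg)
  obtain ⟨Cg, hCg⟩ := length_estimate k r g' hg'
  have hu : ∀ i, algebraMap Λ A (u i) ∈ maximalIdeal A := by
    intro i
    have h1 : u i ∈ maximalIdeal Λ := by
      rw [hX.max]
      exact Ideal.subset_span (Set.mem_insert_of_mem _ ⟨i, rfl⟩)
    rw [mem_maximalIdeal, mem_nonunits_iff] at h1 ⊢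
    exact fun h => h1 (isUnit_of_map_unit _ _ h)
  refine ⟨Fin s → Fin D, inferInstance, Fin.cons (p : A) fun i => algebraMap Λ A (u i),
    ∏ j, aeval (a j) (derivative (F j)),
    algebraMap Λ A g * ∏ j, aeval (a j) (derivative (F j)), p * (a0 + Cg), rfl, ?_,
    Finset.prod_ne_zero_iff.mpr fun j _ => hF1 j,
    mul_ne_zero (fun h => hg (hinj (by rw [h, map_zero])))
      (Finset.prod_ne_zero_iff.mpr fun j _ => hF1 j), ?_⟩
  · intro l
    refine Fin.cases ?_ (fun i => ?_) l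
    · exact hpA
    · exact hu i
  intro bb e N hN
  have hI : p ^ e * N ≤ (p ^ e * N + I0) + 1 := by omega
  obtain ⟨r0, ⟨d⟩⟩ := exists_cdata p k r ψ F hFm hFD E g (p ^ e * N + I0)
  obtain ⟨Pk, hPk⟩ : ∃ P : APkg (A := A) p (maximalIdeal A)
      (Fin.cons (p : A) fun i => algebraMap Λ A (u i) : Fin (r + 1) → A)
      (Fin s → Fin D) (∏ j, aeval (a j) (derivative (F j)))
      (algebraMap Λ A g * ∏ j, aeval (a j) (derivative (F j)))
      (p ^ bb - (r + 1) - 1 - (r + 1)) (p ^ bb) N (A ⊗[Λ] BN ψ d.C N),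
      ∀ π, P.h π = 1 ⊗ₜ (dq d e N π + teN ψ d.C N (rt p e (d.δ' π))) := by
    rw [← hspan]
    refine exists_apkg hb d hsurj hF0 hFm hFD (fun j i hi => ?_) ?_ (fun i => ?_) hEg hE e N bb
      hN hI
    · rw [← hX.max]
      exact hFc j i hi
    · rw [hspan]
      exact hpA
    · rw [hspan]
      exact hu i
  obtain ⟨L, hL⟩ := exists_unit_len (A := A) (S := S) hX d.toPExt N hN
  refine ⟨A ⊗[Λ] BN ψ d.C N, inferInstance, inferInstance, Pk, L,
    fun 𝔟 hp𝔟 hfin => len_quot_eq hb d.toPExt N L hL 𝔟 hp𝔟 hfin, fun π c hc => ?_⟩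
  obtain ⟨x, hx⟩ := hform a F E hEg hE (p ^ e * N + I0) r0 (Nat.le_add_left _ _) d π
  have h1 := len_small hb hX.max d.toPExt N hN L hL g' Cg hCg a0 x (d.δ π + d.δ' π) hx e c hc
  have h2 : (maximalIdeal S).map (algebraMap S (ES ψ A S d.C N)) ⊔
      Ideal.span {((1 : S) ⊗ₜ[A] Pk.h π : ES ψ A S d.C N) ^ c} =
      (maximalIdeal S).map (algebraMap S (ES ψ A S d.C N)) ⊔
      Ideal.span {toES ψ A S d.C N (teN ψ d.C N (rt p e (d.δ π + d.δ' π))) ^ c} := by
    refine sup_span_pow_eq _ _ _ ?_ c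
    have h3 : ((1 : S) ⊗ₜ[A] Pk.h π : ES ψ A S d.C N) =
        toES ψ A S d.C N (dq d e N π + teN ψ d.C N (rt p e (d.δ' π))) := by
      rw [hPk]
      rfl
    rw [h3, ← map_sub]
    have h4 : dq d e N π + teN ψ d.C N (rt p e (d.δ' π)) -
        teN ψ d.C N (rt p e (d.δ π + d.δ' π)) ∈ Ideal.span {(p : BN ψ d.C N)} := by
      have h5 := te_add_mem p d.C (tC p k r d.C) (rt p e (d.δ π)) (rt p e (d.δ' π))
      have h6 : rt p e (d.δ π + d.δ' π) = rt p e (d.δ π) + rt p e (d.δ' π) := by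
        unfold rt
        rw [map_add]
      have h7 := Ideal.mem_map_of_mem (mkN ψ d.C N) h5
      rw [Ideal.map_span, Set.image_singleton, map_natCast, ← h6, map_sub, map_add] at h7
      rw [← neg_sub]
      exact neg_mem h7
    obtain ⟨q, hq⟩ := Ideal.mem_span_singleton'.mp h4
    rw [← hq, map_mul, map_natCast]
    refine Ideal.mul_mem_left _ _ ?_
    rw [← map_natCast (algebraMap S (ES ψ A S d.C N))]
    refine Ideal.mem_map_of_mem _ ?_
    rw [← map_natCast (algebraMap A S)]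
    rw [mem_maximalIdeal, mem_nonunits_iff] at hpA ⊢
    exact fun h => hpA (isUnit_of_map_unit _ _ h)
  rw [h2]
  refine h1.trans (le_of_eq ?_)
  congr 2
  ring

end Vale.Agent.P202.Mix
end

section

/-!
P202 MIX, M17-H: right exactness and restriction of additive lengths.
-/

namespace Vale.Agent.P202.Mix

open Polynomial TensorProduct IsLocalRing
open scoped ENNReal

universe u

section aux

theorem AddLen.lr_congr {R : Type u} [CommRing R] (L : AddLen R) {M N : Type u} [AddCommGroup M]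
    [Module R M] [AddCommGroup N] [Module R N] (e : M ≃ₗ[R] N) : L.len M = L.len N := by
  have := L.add (e : M →ₗ[R] N) (0 : N →ₗ[R] PUnit.{u + 1}) e.injective
    (fun x => ⟨0, Subsingleton.elim _ _⟩) (fun x => ⟨fun _ => ⟨e.symm x, by simp⟩,
      fun _ => Subsingleton.elim _ _⟩)
  rw [L.zero, add_zero] at this
  exact this.symm

theorem AddLen.lr_le {R : Type u} [CommRing R] (L : AddLen R) {M N : Type u} [AddCommGroup M]
    [Module R M] [AddCommGroup N] [Module R N] (g : M →ₗ[R] N) (hg : Function.Surjective g) :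
    L.len N ≤ L.len M := by
  have := L.add (LinearMap.ker g).subtype g (Submodule.subtype_injective _) hg
    (LinearMap.exact_subtype_ker_map g)
  rw [this]
  exact le_add_self

/-- subadditivity on right exact sequences. -/
theorem AddLen.lr_right {R : Type u} [CommRing R] (L : AddLen R) {M N K : Type u} [AddCommGroup M]
    [Module R M] [AddCommGroup N] [Module R N] [AddCommGroup K] [Module R K] (f : M →ₗ[R] N)
    (g : N →ₗ[R] K) (hg : Function.Surjective g) (hfg : Function.Exact f g) :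
    L.len N ≤ L.len M + L.len K := by
  have h1 := L.add (LinearMap.ker g).subtype g (Submodule.subtype_injective _) hg
    (LinearMap.exact_subtype_ker_map g)
  rw [h1]
  refine add_le_add ?_ le_rfl
  have hk : ∀ x, f x ∈ LinearMap.ker g := fun x => (hfg (f x)).2 ⟨x, rfl⟩
  refine L.lr_le (f.codRestrict (LinearMap.ker g) hk) ?_
  rintro ⟨y, hy⟩
  obtain ⟨x, hx⟩ := (hfg y).1 hy
  exact ⟨x, Subtype.ext hx⟩

end aux

/-- right exactness: `L(E/(K + 𝔟E + J)) ≤ l(S/𝔟) L(E/(n_S E + J))`. -/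
theorem len_quot_le_mul {S E : Type u} [CommRing S] [IsLocalRing S] [IsNoetherianRing S]
    [CommRing E] [Algebra S E] (L : AddLen E) (K J : Ideal E) (𝔟 : Ideal S)
    (hfin : Module.length S (S ⧸ 𝔟) ≠ ⊤) :
    L.len (E ⧸ (K ⊔ 𝔟.map (algebraMap S E) ⊔ J)) ≤
      ENat.toENNReal (Module.length S (S ⧸ 𝔟)) *
        L.len (E ⧸ ((maximalIdeal S).map (algebraMap S E) ⊔ J)) := by
  have key := devissage_le (S := S)
    (fun Y _ _ => L.len ((E ⧸ (K ⊔ J)) ⊗[S] Y)) ?_ ?_ (S ⧸ 𝔟) hfin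
  · refine le_trans ?_ (key.trans (mul_le_mul_right ?_ _))
    · -- surjection `(E/(K+J)) ⊗ (S/𝔟) → E/(K+𝔟E+J)`
      let W := E ⧸ (K ⊔ 𝔟.map (algebraMap S E) ⊔ J)
      have hW : ∀ a ∈ 𝔟, ∀ w : W, a • w = 0 := by
        intro a ha w
        obtain ⟨e, rfl⟩ := Ideal.Quotient.mk_surjective w
        rw [← algebraMap_smul E a]
        change Ideal.Quotient.mk _ (algebraMap S E a * e) = 0
        rw [Ideal.Quotient.eq_zero_iff_mem]
        refine Ideal.mul_mem_right _ _ ?_
        exact (le_sup_right.trans le_sup_left : 𝔟.map (algebraMap S E) ≤ _)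
          (Ideal.mem_map_of_mem _ ha)
      let c : W →ₗ[E] (S ⧸ 𝔟) →ₗ[S] W :=
        { toFun := fun w => Submodule.liftQ 𝔟 (LinearMap.toSpanSingleton S W w)
            (fun a ha => by
              rw [LinearMap.mem_ker, LinearMap.toSpanSingleton_apply]
              exact hW a ha w)
          map_add' := fun w w' => by
            ext
            change (1 : S) • (w + w') = (1 : S) • w + (1 : S) • w'
            rw [smul_add]
          map_smul' := fun a w => by
            ext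
            change (1 : S) • (a • w) = a • ((1 : S) • w)
            rw [one_smul, one_smul] }
      let q : (E ⧸ (K ⊔ J)) →ₗ[E] W := Submodule.mapQ _ _ LinearMap.id (by
        rw [Submodule.comap_id]
        exact sup_le (le_sup_left.trans le_sup_left) le_sup_right)
      refine L.lr_le (TensorProduct.AlgebraTensorModule.lift (c ∘ₗ q)) ?_
      intro w
      obtain ⟨e, rfl⟩ := Ideal.Quotient.mk_surjective w
      refine ⟨(Ideal.Quotient.mk _ e) ⊗ₜ (Ideal.Quotient.mk _ 1), ?_⟩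
      rw [TensorProduct.AlgebraTensorModule.lift_tmul]
      change (1 : S) • (Ideal.Quotient.mk _ e : W) = _
      rw [one_smul]
    · -- surjection `E/(n_S E + J) → (E/(K+J)) ⊗ (S/n_S)`
      let one : (E ⧸ (K ⊔ J)) ⊗[S] (S ⧸ maximalIdeal S) :=
        (Ideal.Quotient.mk _ 1) ⊗ₜ (Ideal.Quotient.mk _ 1)
      have h1 : (maximalIdeal S).map (algebraMap S E) ⊔ J ≤
          LinearMap.ker (LinearMap.toSpanSingleton E _ one) := by
        refine sup_le (Ideal.map_le_iff_le_comap.2 fun a ha => ?_) fun j hj => ?_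
        · change (algebraMap S E a) • one = 0
          rw [algebraMap_smul]
          change a • ((Ideal.Quotient.mk _ 1) ⊗ₜ (Ideal.Quotient.mk _ 1)) = _
          rw [← TensorProduct.tmul_smul]
          have : a • (Ideal.Quotient.mk (maximalIdeal S) 1) = 0 := by
            rw [Algebra.smul_def, mul_comm, map_one, one_mul]
            exact Ideal.Quotient.eq_zero_iff_mem.2 ha
          rw [this, TensorProduct.tmul_zero]
        · change j • one = 0
          change j • ((Ideal.Quotient.mk _ 1) ⊗ₜ (Ideal.Quotient.mk _ 1)) = _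
          rw [TensorProduct.smul_tmul']
          have : j • (Ideal.Quotient.mk (K ⊔ J) 1) = 0 := by
            rw [Algebra.smul_def, map_one, mul_one]
            exact Ideal.Quotient.eq_zero_iff_mem.2 (Ideal.mem_sup_right hj)
          rw [this, TensorProduct.zero_tmul]
      refine L.lr_le (Submodule.liftQ _ (LinearMap.toSpanSingleton E _ one) h1) ?_
      intro z
      induction z using TensorProduct.induction_on with
      | zero => exact ⟨0, map_zero _⟩
      | add x y hx hy =>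
        obtain ⟨x', rfl⟩ := hx
        obtain ⟨y', rfl⟩ := hy
        exact ⟨x' + y', map_add _ _ _⟩
      | tmul x y =>
        obtain ⟨e, rfl⟩ := Ideal.Quotient.mk_surjective x
        obtain ⟨s, rfl⟩ := Ideal.Quotient.mk_surjective y
        refine ⟨Ideal.Quotient.mk _ (algebraMap S E s * e), ?_⟩
        change (algebraMap S E s * e) • one = _
        rw [mul_smul, algebraMap_smul]
        change s • e • ((Ideal.Quotient.mk _ 1) ⊗ₜ (Ideal.Quotient.mk _ 1)) = _
        rw [TensorProduct.smul_tmul', ← TensorProduct.tmul_smul]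
        congr 1
        · rw [Algebra.smul_def, map_one, mul_one]
          rfl
        · rw [Algebra.smul_def, map_one, mul_one]
          rfl
  · have : Subsingleton ((E ⧸ (K ⊔ J)) ⊗[S] PUnit.{u + 1}) := by
      refine ⟨fun a b => ?_⟩
      have h : ∀ z : (E ⧸ (K ⊔ J)) ⊗[S] PUnit.{u + 1}, z = 0 := by
        intro z
        induction z using TensorProduct.induction_on with
        | zero => rfl
        | add x y hx hy => rw [hx, hy, add_zero]
        | tmul x y =>
          rw [Subsingleton.elim y 0, TensorProduct.tmul_zero]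
      rw [h a, h b]
    rw [← L.zero]
    exact L.lr_congr
      { toFun := fun _ => PUnit.unit
        map_add' := fun _ _ => rfl
        map_smul' := fun _ _ => rfl
        invFun := fun _ => 0
        left_inv := fun _ => Subsingleton.elim _ _
        right_inv := fun _ => rfl }
  · intro M N P _ _ _ _ _ _ f g _ hg hfg
    refine L.lr_right (TensorProduct.AlgebraTensorModule.lTensor E (E ⧸ (K ⊔ J)) f)
      (TensorProduct.AlgebraTensorModule.lTensor E (E ⧸ (K ⊔ J)) g) ?_ ?_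
    · exact LinearMap.lTensor_surjective (E ⧸ (K ⊔ J)) hg
    · exact lTensor_exact (E ⧸ (K ⊔ J)) hfg hg

/-- semilinear isomorphisms. -/
theorem restrict_len_congr {R R' : Type u} [CommRing R] [CommRing R'] (L : AddLen R)
    (φ : R →+* R') {M N : Type u} [AddCommGroup M] [Module R' M] [AddCommGroup N] [Module R N]
    (f : M ≃+ N) (hf : ∀ (a : R) (x : M), f (φ a • x) = a • f x) :
    (L.restrict φ).len M = L.len N := by
  let _ : Module R M := Module.compHom M φ
  exact L.lr_congr { f with map_smul' := hf }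

/-- restriction of a length along a quotient map. -/
theorem restrict_len_quot {R : Type u} [CommRing R] (L : AddLen R) (K : Ideal R)
    (J : Ideal (R ⧸ K)) :
    (L.restrict (Ideal.Quotient.mk K)).len ((R ⧸ K) ⧸ J) =
      L.len (R ⧸ J.comap (Ideal.Quotient.mk K)) := by
  have hs : Function.Surjective ((Ideal.Quotient.mk J).comp (Ideal.Quotient.mk K)) :=
    Ideal.Quotient.mk_surjective.comp Ideal.Quotient.mk_surjective
  have hk : J.comap (Ideal.Quotient.mk K) =
      RingHom.ker ((Ideal.Quotient.mk J).comp (Ideal.Quotient.mk K)) := by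
    ext x
    rw [Ideal.mem_comap, RingHom.mem_ker, RingHom.comp_apply, Ideal.Quotient.eq_zero_iff_mem]
  let e := (Ideal.quotEquivOfEq hk).trans (RingHom.quotientKerEquivOfSurjective hs)
  refine restrict_len_congr L (Ideal.Quotient.mk K) e.symm.toAddEquiv fun a x => ?_
  change e.symm _ = a • e.symm x
  obtain ⟨y, rfl⟩ := e.surjective x
  rw [e.symm_apply_apply, RingEquiv.symm_apply_eq]
  obtain ⟨r, rfl⟩ := Ideal.Quotient.mk_surjective y
  rfl

end Vale.Agent.P202.Mix
end

section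

/-!
P202 MIX, M17-D: lengths of quotients of `R/K`.
-/

namespace Vale.Agent.P202.Mix

open scoped ENNReal

universe u

section

variable {R : Type u} [CommRing R] (L : AddLen R) (K : Ideal R)

theorem comap_map_mk (J : Ideal R) :
    (J.map (Ideal.Quotient.mk K)).comap (Ideal.Quotient.mk K) = K ⊔ J := by
  rw [Ideal.comap_map_of_surjective' _ Ideal.Quotient.mk_surjective, Ideal.mk_ker, sup_comm]

theorem restrict_len_map (J : Ideal R) :
    (L.restrict (Ideal.Quotient.mk K)).len ((R ⧸ K) ⧸ J.map (Ideal.Quotient.mk K)) =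
      L.len (R ⧸ (K ⊔ J)) := by
  rw [restrict_len_quot, comap_map_mk]

theorem span_range_mk {n : ℕ} (y : Fin n → R) :
    Ideal.span (Set.range fun l => Ideal.Quotient.mk K (y l)) =
      (Ideal.span (Set.range y)).map (Ideal.Quotient.mk K) := by
  rw [Ideal.map_span, ← Set.range_comp]
  rfl

theorem conv_Q {n : ℕ} (y : Fin n → R) :
    (L.restrict (Ideal.Quotient.mk K)).len ((R ⧸ K) ⧸ ys (R ⧸ K) fun l => Ideal.Quotient.mk K (y l)) =
      L.len (R ⧸ (K ⊔ Ideal.span (Set.range y))) := by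
  rw [conv_ys_self, span_range_mk]
  exact restrict_len_map L K _

theorem conv_Qz {n : ℕ} (y z : Fin n → R) :
    (L.restrict (Ideal.Quotient.mk K)).len
      (((R ⧸ K) ⧸ ys (R ⧸ K) fun l => Ideal.Quotient.mk K (y l)) ⧸
        ys ((R ⧸ K) ⧸ ys (R ⧸ K) fun l => Ideal.Quotient.mk K (y l))
          fun l => Ideal.Quotient.mk K (z l)) =
      L.len (R ⧸ (K ⊔ (Ideal.span (Set.range y) ⊔ Ideal.span (Set.range z)))) := by
  rw [conv_quot _ _ (Ideal.span (Set.range fun l => Ideal.Quotient.mk K (z l))) _ (conv_ys _ _),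
    conv_ys_self, span_range_mk, span_range_mk, ← Ideal.map_sup]
  exact restrict_len_map L K _

theorem conv_Qh {n : ℕ} (y : Fin n → R) (h : R) :
    (L.restrict (Ideal.Quotient.mk K)).len
      (((R ⧸ K) ⧸ ys (R ⧸ K) fun l => Ideal.Quotient.mk K (y l)) ⧸
        LinearMap.range ((Ideal.Quotient.mk K h) • (LinearMap.id :
          ((R ⧸ K) ⧸ ys (R ⧸ K) fun l => Ideal.Quotient.mk K (y l)) →ₗ[R ⧸ K] _))) =
      L.len (R ⧸ (K ⊔ (Ideal.span (Set.range y) ⊔ Ideal.span {h}))) := by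
  rw [conv_quot _ _ (Ideal.span {Ideal.Quotient.mk K h}) _ (conv_range _ _),
    conv_ys_self, span_range_mk]
  have h1 : Ideal.span {Ideal.Quotient.mk K h} = (Ideal.span {h}).map (Ideal.Quotient.mk K) := by
    rw [Ideal.map_span, Set.image_singleton]
  rw [h1, ← Ideal.map_sup]
  exact restrict_len_map L K _

theorem conv_P {n : ℕ} (y : Fin n → R) (j : ℕ) :
    (L.restrict (Ideal.Quotient.mk K)).len
      ((R ⧸ K) ⧸ (Ideal.span (Set.range fun l => Ideal.Quotient.mk K (y l)) ^ j •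
        (⊤ : Submodule (R ⧸ K) (R ⧸ K)))) =
      L.len (R ⧸ (K ⊔ Ideal.span (Set.range y) ^ j)) := by
  rw [smul_eq_mul, Ideal.mul_top, span_range_mk, ← Ideal.map_pow]
  exact restrict_len_map L K _

end

end Vale.Agent.P202.Mix
end

section

/-!
P202-MIX, part GEO: relative length of the cell families.
-/

namespace Vale.Agent.P202.Mix

open Vale.Agent.P202.CharP
open scoped ENNReal

universe u

section

variable {R : Type u} [CommRing R] (L : AddLen R) {Q : Type u} [AddCommGroup Q] [Module R Q]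
  {r : ℕ}

/-- relative length via restriction to a finite set of coordinates. -/
theorem CellLen_restrict {ι κ : Type} [Fintype κ] (f : κ → ι) (hf : Function.Injective f)
    (C C' : ι → Submodule R Q) (hCC : ∀ i, C i ≤ C' i) (h : ∀ i, i ∉ Set.range f → C i = C' i)
    {M : Type u} [AddCommGroup M] [Module R M] (e : M ≃ₗ[R] (ι → Q))
    (X Y : Submodule R M) (hX : ∀ m, m ∈ X ↔ ∀ i, e m i ∈ C i)
    (hY : ∀ m, m ∈ Y ↔ ∀ i, e m i ∈ C' i) :
    L.rl X Y = ∑ k, L.rl (C (f k)) (C' (f k)) := by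
  classical
  set ρ : M →ₗ[R] (κ → Q) := LinearMap.pi fun k => (LinearMap.proj (f k)) ∘ₗ (e : M →ₗ[R] (ι → Q))
    with hρ
  have hρa : ∀ m k, ρ m k = e m (f k) := fun m k => rfl
  set P : Submodule R (κ → Q) := Submodule.pi Set.univ fun k => C (f k) with hP
  set P' : Submodule R (κ → Q) := Submodule.pi Set.univ fun k => C' (f k) with hP'
  -- extension by zero
  have hext : ∀ w ∈ P', ∃ m ∈ Y, ρ m = w := by
    intro w hw
    refine ⟨e.symm (fun i => if hi : ∃ k, f k = i then w hi.choose else 0), ?_, ?_⟩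
    · rw [hY]
      intro i
      rw [LinearEquiv.apply_symm_apply]
      by_cases hi : ∃ k, f k = i
      · rw [dif_pos hi]
        have h1 : w hi.choose ∈ C' (f hi.choose) := hw hi.choose (Set.mem_univ _)
        rw [hi.choose_spec] at h1
        exact h1
      · rw [dif_neg hi]
        exact Submodule.zero_mem _
    · funext k
      rw [hρa, LinearEquiv.apply_symm_apply]
      have hi : ∃ k', f k' = f k := ⟨k, rfl⟩
      rw [dif_pos hi, hf hi.choose_spec]
  have hsurj : Function.Surjective ρ := by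
    intro w
    refine ⟨e.symm (fun i => if hi : ∃ k, f k = i then w hi.choose else 0), ?_⟩
    funext k
    rw [hρa, LinearEquiv.apply_symm_apply]
    have hi : ∃ k', f k' = f k := ⟨k, rfl⟩
    rw [dif_pos hi, hf hi.choose_spec]
  have hXeq : X = P.comap ρ ⊓ Y := by
    ext m
    rw [Submodule.mem_inf, Submodule.mem_comap, hX, hY]
    constructor
    · intro hm
      exact ⟨fun k _ => hm (f k), fun i => hCC i (hm i)⟩
    · rintro ⟨h1, h2⟩ i
      by_cases hi : i ∈ Set.range f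
      · obtain ⟨k, rfl⟩ := hi
        exact h1 k (Set.mem_univ _)
      · rw [h i hi]
        exact h2 i
  have hYmap : Y.map ρ = P' := by
    apply le_antisymm
    · rintro _ ⟨m, hm, rfl⟩ k _
      exact (hY m).1 hm (f k)
    · intro w hw
      obtain ⟨m, hm, rfl⟩ := hext w hw
      exact ⟨m, hm, rfl⟩
  have hPmap : (P.comap ρ).map ρ = P := Submodule.map_comap_eq_of_surjective hsurj P
  have hker : P.comap ρ ⊔ LinearMap.ker ρ = P.comap ρ := by
    rw [sup_eq_left]
    intro m hm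
    rw [Submodule.mem_comap, LinearMap.mem_ker.mp hm]
    exact Submodule.zero_mem _
  rw [hXeq, rl_inf_left, ← hker, ← rl_map, hPmap, hYmap, hP, hP', rl_pi]

/-- uncurrying. -/
def CellLen_e (R : Type u) [CommRing R] (Q : Type u) [AddCommGroup Q] [Module R Q] (r : ℕ) :
    KV r Q ≃ₗ[R] (Finset (Fin (r + 1)) × Finset (Fin r) × Gz r → Q) where
  toFun v c := v c.1 c.2.1 c.2.2
  map_add' _ _ := rfl
  map_smul' _ _ := rfl
  invFun w J I g := w (J, I, g)
  left_inv _ := rfl
  right_inv _ := rfl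

variable (a : Fin r → ℤ) (B : ℤ)

theorem CellLen_sum (p j₀ j₁ : ℤ) (φ : ℤ → ℝ≥0∞) :
    ∑ c ∈ (cellset_finite a B p j₀ j₁).toFinset, φ c.2.2 =
      ∑ j ∈ Finset.Ico j₀ j₁, (ncell a B p j (j + 1) : ℝ≥0∞) * φ j := by
  classical
  rw [← Finset.sum_fiberwise_of_maps_to (t := Finset.Ico j₀ j₁) (g := fun c => c.2.2)]
  · refine Finset.sum_congr rfl fun j hj => ?_
    rw [Finset.mem_Ico] at hj
    have h1 : (cellset_finite a B p j₀ j₁).toFinset.filter (fun c => c.2.2 = j) =
        (cellset_finite a B p j (j + 1)).toFinset := by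
      ext c
      simp only [Finset.mem_filter, Set.Finite.mem_toFinset, cellset, Set.mem_ofPred_eq]
      constructor
      · rintro ⟨⟨h1, h2, h3, h4⟩, h5⟩
        exact ⟨h1, h2, by omega, by omega⟩
      · rintro ⟨h1, h2, h3, h4⟩
        exact ⟨⟨h1, h2, by omega, by omega⟩, by omega⟩
    have h2 : ∀ c ∈ (cellset_finite a B p j₀ j₁).toFinset.filter (fun c => c.2.2 = j),
        φ c.2.2 = φ j := by
      intro c hc
      rw [(Finset.mem_filter.mp hc).2]
    rw [Finset.sum_congr rfl h2, Finset.sum_const, nsmul_eq_mul, h1, ncell,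
      Set.ncard_eq_toFinset_card _ (cellset_finite a B p j (j + 1))]
  · intro c hc
    rw [Set.Finite.mem_toFinset] at hc
    exact Finset.mem_Ico.mpr ⟨hc.2.2.1, hc.2.2.2⟩

/-- relative length of cell families. -/
theorem rl_CF (c c' : ℤ → Gz r → Submodule R Q) (i p : ℕ) (hcc : ∀ g, c i g ≤ c' i g)
    (φ : ℤ → ℝ≥0∞) (h : ∀ g, L.rl (c i g) (c' i g) = φ g.2) (j₀ j₁ : ℤ)
    (h0 : ∀ g : Gz r, (g.2 < j₀ ∨ j₁ ≤ g.2) → c i g = c' i g) :
    L.rl (CF a B c i p) (CF a B c' i p) =
      ((r + 1).choose i : ℝ≥0∞) * ∑ j ∈ Finset.Ico j₀ j₁, (ncell a B p j (j + 1) : ℝ≥0∞) * φ j := by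
  classical
  set E : Finset (Finset (Fin (r + 1)) × Finset (Fin r) × Gz r) :=
    (Finset.univ.powersetCard i) ×ˢ (cellset_finite a B p j₀ j₁).toFinset with hE
  have hmemE : ∀ x, x ∈ E ↔ x.1.card = i ∧ valid a B x.2.1 x.2.2 ∧ (x.2.1.card : ℤ) = p ∧
      j₀ ≤ x.2.2.2 ∧ x.2.2.2 < j₁ := by
    intro x
    rw [hE, Finset.mem_product, Finset.mem_powersetCard, Set.Finite.mem_toFinset]
    simp [cellset]
  have hval : ∀ x ∈ E, ∀ d : ℤ → Gz r → Submodule R Q,
      CV a B d i p x.1 x.2.1 x.2.2 = d i x.2.2 := by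
    intro x hx d
    obtain ⟨h1, h2, h3, h4, h5⟩ := (hmemE x).mp hx
    rw [CV, if_pos ⟨by exact_mod_cast h1, h3, h2.1⟩, if_neg h2.2]
  rw [CellLen_restrict L (ι := Finset (Fin (r + 1)) × Finset (Fin r) × Gz r) (κ := ↥E)
    (fun k => k.1) Subtype.coe_injective (fun x => CV a B c i p x.1 x.2.1 x.2.2)
    (fun x => CV a B c' i p x.1 x.2.1 x.2.2) ?_ ?_ (CellLen_e R Q r) (CF a B c i p)
    (CF a B c' i p) ?_ ?_]
  · rw [Finset.sum_coe_sort E (fun x => L.rl (CV a B c i p x.1 x.2.1 x.2.2)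
      (CV a B c' i p x.1 x.2.1 x.2.2))]
    have h1 : ∀ x ∈ E, L.rl (CV a B c i p x.1 x.2.1 x.2.2)
      (CV a B c' i p x.1 x.2.1 x.2.2) = φ x.2.2.2 := by
      intro x hx
      rw [hval x hx, hval x hx, h]
    have h2 : ∀ x ∈ Finset.powersetCard i (Finset.univ : Finset (Fin (r + 1))),
        ∑ y ∈ (cellset_finite a B p j₀ j₁).toFinset, φ (x, y).2.2.2 =
          ∑ j ∈ Finset.Ico j₀ j₁, (ncell a B p j (j + 1) : ℝ≥0∞) * φ j :=
      fun x _ => CellLen_sum a B p j₀ j₁ φ
    rw [Finset.sum_congr rfl h1, hE, Finset.sum_product, Finset.sum_congr rfl h2,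
      Finset.sum_const, Finset.card_powersetCard, Finset.card_univ, Fintype.card_fin,
      nsmul_eq_mul]
  · intro x
    simp only [CV]
    split_ifs
    · exact le_rfl
    · exact hcc _
    · exact le_rfl
  · intro x hx
    have hx' : x ∉ E := fun h => hx ⟨⟨x, h⟩, rfl⟩
    rw [hmemE] at hx'
    simp only [CV]
    split_ifs with h1 h2
    · rfl
    · apply h0
      by_contra h3
      rw [not_or, not_lt, not_le] at h3
      exact hx' ⟨by exact_mod_cast h1.1, ⟨h1.2.2, h2⟩, h1.2.1, h3.1, h3.2⟩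
    · rfl
  · intro m
    exact ⟨fun hm x => hm x.1 x.2.1 x.2.2, fun hm J I g => hm (J, I, g)⟩
  · intro m
    exact ⟨fun hm x => hm x.1 x.2.1 x.2.2, fun hm J I g => hm (J, I, g)⟩

end

end Vale.Agent.P202.Mix
end

section

/-!
P202-MIX, part GEO: the core inequality for additive lengths (assembly).
-/

namespace Vale.Agent.P202.Mix

open Vale.Agent.P202.CharP
open scoped ENNReal

universe u

section Core

variable {R : Type u} [CommRing R] (L : AddLen R) {r q : ℕ} {Q : Type u} [AddCommGroup Q]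
  [Module R Q] {x : Fin (r + 1) → R}

theorem core_len_mono {M : Type u} [AddCommGroup M] [Module R M] (X : Submodule R M) :
    L.len X ≤ L.len M := by
  rw [len_sub_quot L X]
  exact le_self_add

theorem core_rl_le {M : Type u} [AddCommGroup M] [Module R M] (X Y : Submodule R M) :
    L.rl X Y ≤ L.len M :=
  (rl_anti_left L bot_le).trans ((rl_bot L Y).le.trans (core_len_mono L Y))

theorem core_xp_top {ν : ℤ} (h : ν ≤ 0) : xpw Q x ν = ⊤ := by
  rw [xpw, Int.toNat_of_nonpos h, pow_zero, Ideal.one_eq_top, Submodule.top_smul]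

theorem core_xp_bot {N : ℕ} (hN : xpw Q x N = ⊥) {ν : ℤ} (h : (N : ℤ) ≤ ν) : xpw Q x ν = ⊥ := by
  rw [eq_bot_iff, ← hN, xpw, xpw, Int.toNat_natCast]
  exact Submodule.smul_mono_left (Ideal.pow_le_pow_right (by omega))

theorem core_tele (f : ℤ → ℝ) (a : ℤ) (k : ℕ) :
    ∑ j ∈ Finset.Ico a (a + k), (f (j + 1) - f j) = f (a + k) - f a := by
  induction k with
  | zero => simp
  | succ k ih =>
    have h1 : Finset.Ico a (a + ((k + 1 : ℕ) : ℤ)) = insert (a + k) (Finset.Ico a (a + k)) := by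
      ext j
      simp only [Finset.mem_Ico, Finset.mem_insert]
      push_cast
      omega
    rw [h1, Finset.sum_insert (by simp), ih]
    push_cast
    rw [← add_assoc]
    ring

theorem core_card (a : Fin r → ℤ) (B p j₀ j₁ : ℤ) :
    Fintype.card (winRep a B p j₀ j₁).ι = ncell a B p j₀ j₁ := by
  rw [ncell, ← Nat.card_coe_set_eq, Nat.card_eq_fintype_card]
  rfl

/-- homology of `Z / Y_w` in positive degrees. -/
theorem core_null_pos (hq : 1 ≤ q) (m : Fin (r + 1)) (hCL : CLnull L (r + 1) q Q x) (N : ℕ)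
    (hN : xpw Q x N = ⊥) (w : ℤ) (hw : 2 * (q : ℤ) + r + 1 + N ≤ w) (B : ℤ)
    (hB : ((r : ℤ) + 1) * q + 2 * r + 2 + N ≤ B) (hB' : ∀ l, tw r q m l ≤ B) (δ : ℤ)
    (hδ : 1 ≤ δ) :
    L.hh (totD (dK R Q r) (eK Q x)) (TT (ZF Q x (tw r q m) B q))
      (TT (YF Q x (tw r q m) B w)) δ = 0 := by
  have hdd := dK_sq (R := R) (Q := Q) (r := r)
  have hee := eK_sq (R := R) (Q := Q) x
  have hde := dK_eK (R := R) (Q := Q) x
  have hD := totD_sq (dK R Q r) (eK Q x) hdd hee hde
  have hT : ∀ {X : ℤ → ℤ → Submodule R (KV r Q)}, BStab (dK R Q r) (eK Q x) X →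
      Stab (totD (dK R Q r) (eK Q x)) (TT X) := fun {X} hX =>
    stab_TT (dK R Q r) (eK Q x) hdd hee hde X hX
  have hTT : ∀ {X Y : ℤ → ℤ → Submodule R (KV r Q)}, (∀ i p, X i p ≤ Y i p) →
      ∀ δ, TT X δ ≤ TT Y δ := fun {X Y} h δ => Submodule.pi_mono fun i _ => h i _
  have s1 := hT (bstab_YF (R := R) (Q := Q) (tw r q m) B x w)
  have s2 := hT (bstab_ZF (R := R) (Q := Q) (tw r q m) B x q)
  have s3 := hT (bstab_ZZF (R := R) (Q := Q) (tw r q m) B x q)
  have s4 := hT (bstab_YF (R := R) (Q := Q) (tw r q m) B x (-((r : ℤ) + 1) * q))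
  have i1 := hTT (YF_le_ZF (R := R) (Q := Q) (tw r q m) B x q N hN w hw)
  have i2 := hTT (ZF_le_ZZF (R := R) (Q := Q) (tw r q m) B x q)
  have i3 := hTT (ZZF_le_YF (R := R) (Q := Q) (tw r q m) B x q hq)
  have h0 : (0 : ℤ) ≤ ((r : ℤ) + 1) * q := by positivity
  have e1 : L.hh (totD (dK R Q r) (eK Q x)) (TT (ZZF Q x (tw r q m) B q))
      (TT (YF Q x (tw r q m) B w)) δ = 0 := by
    refine le_antisymm ((hh_sub_le L _ hD _ _ _ s1 s3 s4 (fun δ => (i1 δ).trans (i2 δ)) i3 δ).trans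
      ?_) bot_le
    rw [YF_acyclic L (tw r q m) B x N hN (-((r : ℤ) + 1) * q) w (by nlinarith) hB'
      (by nlinarith) δ, YF_ZZF L Q x B q hq m hCL N hN w hw hB hB' (δ + 1) (by omega), add_zero]
  refine le_antisymm ((hh_sub_le L _ hD _ _ _ s1 s2 s3 i1 i2 δ).trans ?_) bot_le
  rw [e1, ZZF_ZF L Q x B q hq m hCL N hN w hw hB hB' (δ + 1), add_zero]

/-- the lengths. -/
theorem core_rl (hfin : L.len Q ≠ ⊤) (hq : 1 ≤ q) (hCL : CLnull L (r + 1) q Q x) (N : ℕ)
    (hN : xpw Q x N = ⊥) (w : ℤ) (hw : 2 * (q : ℤ) + r + 1 + N ≤ w) (a : Fin r → ℤ) (B : ℤ)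
    (i p : ℕ) (hi : i ≤ r + 1) :
    L.rl (YF Q x a B w i p) (ZF Q x a B q i p) =
      ((r + 1).choose i : ℝ≥0∞) * ∑ j ∈ Finset.Ico ((2 - (i : ℤ)) * q) (w - i),
        (ncell a B p j (j + 1) : ℝ≥0∞) * L.rl (xpw Q x (w - i - j)) ⊤ +
      (ncell a B p ((1 - (i : ℤ)) * q) ((2 - (i : ℤ)) * q) : ℝ≥0∞) *
        L.len ↥(kcyc (fun l => -(x l • (LinearMap.id : Q →ₗ[R] Q))) i) := by
  have hi' : (i : ℤ) ≤ r + 1 := by exact_mod_cast hi
  have hbot : ∀ g : Gz r, g.2 < (2 - (i : ℤ)) * q → xpw Q x (w - i - g.2) = ⊥ := by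
    intro g hg
    refine core_xp_bot hN ?_
    have h1 : (0 : ℤ) ≤ (i : ℤ) * q := by positivity
    nlinarith
  have hcc : ∀ g : Gz r, xpw Q x (w - i - g.2) ≤ (if (2 - (i : ℤ)) * q ≤ g.2 then ⊤ else ⊥) := by
    intro g
    split_ifs with h
    · exact le_top
    · rw [hbot g (not_le.1 h)]
  have h1 : YF Q x a B w i p ≤ KG R Q a B ((2 - (i : ℤ)) * q) i p := CF_mono a B _ _ i p hcc
  have hKG : ∀ {j j' : ℤ}, j ≤ j' → ∀ i p : ℤ, KG R Q a B j' i p ≤ KG R Q a B j i p := by
    intro j j' hj i p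
    refine CF_mono a B _ _ i p fun g => ?_
    split_ifs with h1 h2
    · exact le_rfl
    · exact absurd (hj.trans h1) h2
    · exact bot_le
    · exact le_rfl
  have h2 : KG R Q a B ((2 - (i : ℤ)) * q) i p ≤ ZF Q x a B q i p := by
    refine le_inf (hKG (by nlinarith) i p) ?_
    intro v hv
    exact (bstab_KG (R := R) (Q := Q) a B x ((2 - (i : ℤ)) * q)).he i p v hv
  rw [rl_add L h1 h2, rl_KG_ZF L Q x a B q i p]
  have hnil : (winRep a B p ((1 - (i : ℤ)) * q) ((2 - (i : ℤ)) * q)).IsNil q := by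
    have h3 := (winCx_isCx (r := r) a B ((1 - (i : ℤ)) * q) q).nil p
    have h4 : (1 - (i : ℤ)) * q + q = (2 - (i : ℤ)) * q := by ring
    rw [h4] at h3
    exact h3
  rw [len_cyc_rep L Q x hfin hCL hq _ hnil i, core_card]
  congr 1
  have h5 := rl_CF L a B (fun i g => xpw Q x (w - i - g.2))
    (fun i g => if (2 - (i : ℤ)) * q ≤ g.2 then ⊤ else ⊥) i p hcc
    (fun j => L.rl (xpw Q x (w - i - j)) (if (2 - (i : ℤ)) * q ≤ j then ⊤ else ⊥))
    (fun g => rfl) ((2 - (i : ℤ)) * q) (w - i) (fun g hg => ?_)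
  · refine Eq.trans h5 ?_
    congr 1
    refine Finset.sum_congr rfl fun j hj => ?_
    rw [if_pos (Finset.mem_Ico.1 hj).1]
  · rcases hg with hg | hg
    · rw [hbot g hg, if_neg (not_le.2 hg)]
    · have h6 : (0 : ℤ) ≤ (i : ℤ) * q := by positivity
      rw [core_xp_top (by linarith), if_pos (by nlinarith)]

/-- real version of the lengths. -/
theorem core_rl_real (hfin : L.len Q ≠ ⊤) (hq : 1 ≤ q) (hCL : CLnull L (r + 1) q Q x) (N : ℕ)
    (hN : xpw Q x N = ⊥) (w : ℤ) (hw : 2 * (q : ℤ) + r + 1 + N ≤ w) (a : Fin r → ℤ) (B : ℤ)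
    (i p : ℕ) (hi : i ≤ r + 1) :
    L.rl (YF Q x a B w i p) (ZF Q x a B q i p) ≠ ⊤ ∧
    (L.rl (YF Q x a B w i p) (ZF Q x a B q i p)).toReal =
      ((r + 1).choose i : ℝ) * ∑ j ∈ Finset.Ico ((2 - (i : ℤ)) * q) (w - i),
        (ncell a B p j (j + 1) : ℝ) * (L.rl (xpw Q x (w - i - j)) ⊤).toReal +
      (∑ j ∈ Finset.Ico ((1 - (i : ℤ)) * q) ((2 - (i : ℤ)) * q), (ncell a B p j (j + 1) : ℝ)) *
        (L.len ↥(kcyc (fun l => -(x l • (LinearMap.id : Q →ₗ[R] Q))) i)).toReal := by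
  rw [core_rl L hfin hq hCL N hN w hw a B i p hi, ncell_window a B p ((1 - (i : ℤ)) * q)]
  have f1 : ∀ ν : ℤ, L.rl (xpw Q x ν) ⊤ ≠ ⊤ := fun ν => ne_top_of_le_ne_top hfin (core_rl_le L _ _)
  have f2 : L.len ↥(kcyc (fun l => -(x l • (LinearMap.id : Q →ₗ[R] Q))) i) ≠ ⊤ := by
    refine ne_top_of_le_ne_top ?_ (core_len_mono L _)
    rw [len_pi]
    exact ENNReal.mul_ne_top (ENNReal.natCast_ne_top _) hfin
  have f3 : (∑ j ∈ Finset.Ico ((2 - (i : ℤ)) * q) (w - i),
        (ncell a B p j (j + 1) : ℝ≥0∞) * L.rl (xpw Q x (w - i - j)) ⊤) ≠ ⊤ :=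
    ENNReal.sum_ne_top.2 fun j _ => ENNReal.mul_ne_top (ENNReal.natCast_ne_top _) (f1 _)
  have f4 : ((r + 1).choose i : ℝ≥0∞) * ∑ j ∈ Finset.Ico ((2 - (i : ℤ)) * q) (w - i),
        (ncell a B p j (j + 1) : ℝ≥0∞) * L.rl (xpw Q x (w - i - j)) ⊤ ≠ ⊤ :=
    ENNReal.mul_ne_top (ENNReal.natCast_ne_top _) f3
  have f5 : ((∑ j ∈ Finset.Ico ((1 - (i : ℤ)) * q) ((2 - (i : ℤ)) * q), ncell a B p j (j + 1) :
      ℕ) : ℝ≥0∞) * L.len ↥(kcyc (fun l => -(x l • (LinearMap.id : Q →ₗ[R] Q))) i) ≠ ⊤ :=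
    ENNReal.mul_ne_top (ENNReal.natCast_ne_top _) f2
  refine ⟨ENNReal.add_ne_top.2 ⟨f4, f5⟩, ?_⟩
  rw [ENNReal.toReal_add f4 f5, ENNReal.toReal_mul, ENNReal.toReal_mul, ENNReal.toReal_natCast,
    ENNReal.toReal_natCast, ENNReal.toReal_sum fun j _ =>
      ENNReal.mul_ne_top (ENNReal.natCast_ne_top _) (f1 _)]
  push_cast
  congr 2
  refine Finset.sum_congr rfl fun j _ => ?_
  rw [ENNReal.toReal_mul, ENNReal.toReal_natCast]

/-- the Euler characteristic of one twist. -/
theorem core_euler (hfin : L.len Q ≠ ⊤) (hq : 1 ≤ q) (hCL : CLnull L (r + 1) q Q x) (N : ℕ)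
    (hN : xpw Q x N = ⊥) (w : ℤ) (hw : 2 * (q : ℤ) + r + 1 + N ≤ w) (m : Fin (r + 1)) :
    0 ≤ ∑ i ∈ Finset.range (r + 2), (-1 : ℝ) ^ i *
      ((L.len ↥(kcyc (fun l => -(x l • (LinearMap.id : Q →ₗ[R] Q))) i)).toReal *
          (∑ j ∈ Finset.Ico ((1 - (i : ℤ)) * q) ((2 - (i : ℤ)) * q),
            ∏ l, (((tw r q m l + j + 1 : ℤ)) : ℝ)) +
        ((r + 1).choose i : ℝ) * ∑ j ∈ Finset.Ico ((2 - (i : ℤ)) * q) (w - i),
          (∏ l, (((tw r q m l + j + 1 : ℤ)) : ℝ)) * (L.rl (xpw Q x (w - i - j)) ⊤).toReal) := by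
  have hq' : (1 : ℤ) ≤ q := by exact_mod_cast hq
  obtain ⟨B, hBdef⟩ : ∃ B : ℤ, B = ((r : ℤ) + 1) * q + 2 * r + 2 + N := ⟨_, rfl⟩
  have hB : ((r : ℤ) + 1) * q + 2 * r + 2 + N ≤ B := hBdef.ge
  have hB' : ∀ l, tw r q m l ≤ B := by
    intro l
    have hl : (l : ℤ) ≤ r := by exact_mod_cast l.2.le
    have hl0 : (0 : ℤ) ≤ l := by positivity
    have h1 : (l : ℤ) * q ≤ r * q := mul_le_mul_of_nonneg_right hl (by omega)
    unfold tw
    split_ifs <;> nlinarith
  have hdd := dK_sq (R := R) (Q := Q) (r := r)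
  have hee := eK_sq (R := R) (Q := Q) x
  have hde := dK_eK (R := R) (Q := Q) x
  have hle : ∀ i p : ℤ, ZF Q x (tw r q m) B q i p ≤ KG R Q (tw r q m) B ((1 - i) * q) i p :=
    fun i p => inf_le_left
  have key := euler_nonneg L (r + 1) (dK R Q r) (eK Q x) hdd hee hde r
    (YF Q x (tw r q m) B w) (ZF Q x (tw r q m) B q) (bstab_YF (tw r q m) B x w)
    (bstab_ZF (tw r q m) B x q) (YF_le_ZF (tw r q m) B x q N hN w hw)
    (fun i p h => le_bot_iff.1 ((hle i p).trans (CF_box (tw r q m) B _ i p h).le))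
    (fun i p h => le_bot_iff.1 ((hle i p).trans (CF_out (tw r q m) B _ i p h).le)) ?_ ?_
  · refine key.trans (le_of_eq ?_)
    refine Finset.sum_congr rfl fun i hi => ?_
    have hi' : i ≤ r + 1 := Nat.lt_succ_iff.1 (Finset.mem_range.1 hi)
    have hi'' : (i : ℤ) ≤ r + 1 := by exact_mod_cast hi'
    have hcast : ∀ j : ℤ, (1 - (i : ℤ)) * q ≤ j →
        ∑ p ∈ Finset.range (r + 1), (-1 : ℝ) ^ p * (ncell (tw r q m) B p j (j + 1) : ℝ) =
          ∏ l, (((tw r q m l + j + 1 : ℤ)) : ℝ) := by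
      intro j hj
      have h1 := ncell_euler (tw r q m) B j hB' (by nlinarith)
      have h2 := congrArg (Int.cast : ℤ → ℝ) h1
      push_cast at h2 ⊢
      exact h2
    have h1 : ∀ p ∈ Finset.range (r + 1), (-1 : ℝ) ^ (i + p) *
        (L.rl (YF Q x (tw r q m) B w i p) (ZF Q x (tw r q m) B q i p)).toReal =
        (-1 : ℝ) ^ i * ((L.len ↥(kcyc (fun l => -(x l • (LinearMap.id : Q →ₗ[R] Q))) i)).toReal *
          (∑ j ∈ Finset.Ico ((1 - (i : ℤ)) * q) ((2 - (i : ℤ)) * q),
            (-1 : ℝ) ^ p * (ncell (tw r q m) B p j (j + 1) : ℝ)) +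
        ((r + 1).choose i : ℝ) * ∑ j ∈ Finset.Ico ((2 - (i : ℤ)) * q) (w - i),
          ((-1 : ℝ) ^ p * (ncell (tw r q m) B p j (j + 1) : ℝ)) *
            (L.rl (xpw Q x (w - i - j)) ⊤).toReal) := by
      intro p _
      rw [(core_rl_real L hfin hq hCL N hN w hw (tw r q m) B i p hi').2, pow_add,
        ← Finset.mul_sum]
      simp only [mul_assoc]
      rw [← Finset.mul_sum]
      ring
    rw [Finset.sum_congr rfl h1, ← Finset.mul_sum, Finset.sum_add_distrib, ← Finset.mul_sum,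
      ← Finset.mul_sum, Finset.sum_comm]
    congr 3
    · refine Finset.sum_congr rfl fun j hj => ?_
      exact hcast j (Finset.mem_Ico.1 hj).1
    · rw [Finset.sum_comm]
      refine Finset.sum_congr rfl fun j hj => ?_
      rw [← Finset.sum_mul, hcast j (le_trans (by nlinarith) (Finset.mem_Ico.1 hj).1)]
  · intro i p
    by_cases hi : i < 0 ∨ ((r + 1 : ℕ) : ℤ) < i
    · have h1 : ZF Q x (tw r q m) B q i p = ⊥ :=
        le_bot_iff.1 ((hle i p).trans (CF_box (tw r q m) B _ i p hi).le)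
      rw [h1, rl_eq_zero_of_le L bot_le]
      exact ENNReal.zero_ne_top
    by_cases hp : p < 0 ∨ (r : ℤ) < p
    · have h1 : ZF Q x (tw r q m) B q i p = ⊥ :=
        le_bot_iff.1 ((hle i p).trans (CF_out (tw r q m) B _ i p hp).le)
      rw [h1, rl_eq_zero_of_le L bot_le]
      exact ENNReal.zero_ne_top
    push Not at hi hp
    obtain ⟨i, rfl⟩ := Int.eq_ofNat_of_zero_le hi.1
    obtain ⟨p, rfl⟩ := Int.eq_ofNat_of_zero_le hp.1
    exact (core_rl_real L hfin hq hCL N hN w hw (tw r q m) B i p (by exact_mod_cast hi.2)).1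
  · intro δ hδ
    rcases lt_or_gt_of_ne hδ with h | h
    · exact ZF_YF_neg L Q x B q hq m hCL N hN w hw hB hB' δ h
    · exact core_null_pos L hq m hCL N hN w hw B hB hB' δ h

end Core

/-- **The core inequality.** -/
theorem core_len {R : Type u} [CommRing R] (L : AddLen R) (r q : ℕ) (hq : 1 ≤ q) (Q : Type u)
    [AddCommGroup Q] [Module R Q] (hfin : L.len Q ≠ ⊤) (x : Fin (r + 1) → R)
    (hx : ∃ N : ℕ, Ideal.span (Set.range x) ^ N • (⊤ : Submodule R Q) = ⊥)
    (hCL : CLnull L (r + 1) q Q x) :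
    (q : ℝ≥0∞) ^ (r + 1) * L.len (Q ⧸ (Ideal.span (Set.range x) • (⊤ : Submodule R Q))) ≤
      L.len Q := by
  obtain ⟨N, hN'⟩ := hx
  have hN : xpw Q x (N : ℤ) = ⊥ := by rw [xpw, Int.toNat_natCast]; exact hN'
  obtain ⟨w, hwdef⟩ : ∃ w : ℤ, w = 2 * (q : ℤ) + r + 1 + N := ⟨_, rfl⟩
  have hw : 2 * (q : ℤ) + r + 1 + N ≤ w := hwdef.ge
  have fQ : ∀ X : Submodule R Q, L.len (Q ⧸ X) ≠ ⊤ := fun X =>
    ne_top_of_le_ne_top hfin (by rw [len_sub_quot L X]; exact le_add_self)
  have fκ : ∀ i, L.len ↥(kcyc (fun l => -(x l • (LinearMap.id : Q →ₗ[R] Q))) i) ≠ ⊤ := by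
    intro i
    refine ne_top_of_le_ne_top ?_ (core_len_mono L _)
    rw [len_pi]
    exact ENNReal.mul_ne_top (ENNReal.natCast_ne_top _) hfin
  have h0 := Finset.sum_nonneg fun (m : Fin (r + 1)) (_ : m ∈ Finset.univ) =>
    core_euler L hfin hq hCL N hN w hw m
  rw [Finset.sum_comm] at h0
  have h1 := arith r q hq (L.len Q).toReal
    (L.len (Q ⧸ (Ideal.span (Set.range x) • (⊤ : Submodule R Q)))).toReal
    (fun i => (L.len ↥(kcyc (fun l => -(x l • (LinearMap.id : Q →ₗ[R] Q))) (i : ℤ))).toReal)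
    ?_ ?_ (fun ν => (L.rl (xpw Q x ν) ⊤).toReal) ?_ N ?_ w hw
  · have h2 : (0 : ℝ) ≤ ((r + 1).factorial : ℝ) * ((L.len Q).toReal - (q : ℝ) ^ (r + 1) *
        (L.len (Q ⧸ (Ideal.span (Set.range x) • (⊤ : Submodule R Q)))).toReal) := by
      rw [← h1]
      refine h0.trans (le_of_eq ?_)
      refine Finset.sum_congr rfl fun i hi => ?_
      rw [← Finset.mul_sum, Finset.sum_add_distrib, ← Finset.mul_sum, ← Finset.mul_sum]
      congr 3
      · rw [Finset.sum_comm]
        rw [Finset.sum_congr rfl fun j _ => sum_tw r q j]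
        have h5 := core_tele (ff r q) ((1 - (i : ℤ)) * q) q
        rw [show (1 - (i : ℤ)) * q + q = (2 - (i : ℤ)) * q by ring] at h5
        exact h5
      · rw [Finset.sum_comm]
        refine Finset.sum_congr rfl fun j _ => ?_
        rw [← Finset.sum_mul, sum_tw]
    have h3 : (0 : ℝ) < ((r + 1).factorial : ℝ) := by positivity
    have h4 := (mul_nonneg_iff_of_pos_left h3).1 h2
    rw [← ENNReal.toReal_le_toReal (ENNReal.mul_ne_top (ENNReal.pow_ne_top
      (ENNReal.natCast_ne_top _)) (fQ _)) hfin, ENNReal.toReal_mul, ENNReal.toReal_pow,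
      ENNReal.toReal_natCast]
    linarith
  · show (L.len ↥(kcyc (fun l => -(x l • (LinearMap.id : Q →ₗ[R] Q))) ((0 : ℕ) : ℤ))).toReal = _
    rw [Nat.cast_zero, len_cyc_zero]
  · have h2 := len_cyc_one L (V := Q) x
    have h3 := congrArg ENNReal.toReal h2
    rw [ENNReal.toReal_add (fκ 1) hfin, ENNReal.toReal_add (ENNReal.mul_ne_top
      (ENNReal.natCast_ne_top _) hfin) (fQ _), ENNReal.toReal_mul, ENNReal.toReal_natCast] at h3
    show (L.len ↥(kcyc (fun l => -(x l • (LinearMap.id : Q →ₗ[R] Q))) ((1 : ℕ) : ℤ))).toReal = _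
    push_cast at h3 ⊢
    linarith
  · intro ν hν
    show (L.rl (xpw Q x ν) ⊤).toReal = 0
    rw [core_xp_top hν, rl_eq_zero_of_le L le_rfl, ENNReal.toReal_zero]
  · intro ν hν
    show (L.rl (xpw Q x ν) ⊤).toReal = _
    rw [core_xp_bot hN hν, rl_bot]
    congr 1
    exact len_congr L Submodule.topEquiv

end Vale.Agent.P202.Mix
end

section

/-!
P202-MIX, TASK HON-9: the limit inequality.
-/

namespace Vale.Agent.P202.Mix

open Vale.Agent.P202.CharP
open scoped ENNReal Topology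

universe u

theorem geo_hon (R : ℕ → Type u) [∀ e, CommRing (R e)] (X : ℕ → Type u) [∀ e, AddCommGroup (X e)]
    [∀ e, Module (R e) (X e)] (p : ℕ) {r : ℕ} (h : ∀ e, R e) (v y z : ∀ e, Fin (r + 1) → R e)
    (w : ℕ) (hw : 1 ≤ w) (H : HonData R X p h v y z w)
    (hnil : ∃ N : ℕ, ∀ e, Ideal.span (Set.range (z e)) ^ N • (⊤ : Submodule (R e) (X e)) ≤
      ys (X e) (y e))
    (L : ∀ e, AddLen (R e)) (ρ : ℕ → ℝ≥0∞) (hρ0 : ∀ e, ρ e ≠ 0) (hρ : ∀ e, ρ e ≠ ⊤)
    (hfin : ∃ C : ℝ≥0∞, C ≠ ⊤ ∧ ∀ e, (L e).len (QQ R X y e) ≤ C * ρ e)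
    (hsmall : ∀ c : ℕ, Filter.Tendsto (fun e => (L e).len
      (QQ R X y e ⧸ LinearMap.range (h e ^ c • (LinearMap.id : QQ R X y e →ₗ[R e] QQ R X y e))) /
        ρ e) Filter.atTop (𝓝 0))
    (ε : ℝ≥0∞) (hε : ε ≠ 0) :
    ∀ᶠ e in Filter.atTop, (w : ℝ≥0∞) ^ (r + 1) * (L e).len
        (QQ R X y e ⧸ ys (QQ R X y e) (z e)) ≤ (L e).len (QQ R X y e) + ε * ρ e := by
  obtain ⟨N, hN⟩ := hnil
  refine geo_hon_of R (fun e => QQ R X y e) h z w ⟨N, fun e => ?_⟩ L ρ hρ0 hρ hfin hsmall ε hε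
    (fun W W' hW hW' f i => hon R X p h v y z w H W W' hW hW' f i)
    (fun U => exists_ultra R U L ρ)
    (fun LU hLU x hx hCL => core_len LU r w hw (∀ e, QQ R X y e) hLU x hx hCL)
  have h1 := Submodule.map_mono (f := (ys (X e) (y e)).mkQ) (hN e)
  rw [Submodule.map_smul'', Submodule.map_top, Submodule.range_mkQ, Submodule.mkQ_map_self] at h1
  exact le_bot_iff.mp h1

end Vale.Agent.P202.Mix
end

section

/-!
P202 MIX, M17-D stage 2: the inequality for a sequence of packages.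
-/

namespace Vale.Agent.P202.Mix

open TensorProduct IsLocalRing Filter
open scoped ENNReal Topology

universe u

section

variable {p : ℕ} [Fact p.Prime] {A S : Type u} [CommRing A] [IsLocalRing A] [IsNoetherianRing A]
  [CommRing S] [IsLocalRing S] [IsNoetherianRing S] [Algebra A S]
  [IsLocalHom (algebraMap A S)] [Module.Flat A S] {r : ℕ}

theorem map_range_eq {R R' : Type*} [CommRing R] [CommRing R'] (f : R →+* R') {n : ℕ}
    (y : Fin n → R) :
    (Ideal.span (Set.range y)).map f = Ideal.span (Set.range fun l => f (y l)) := by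
  rw [Ideal.map_span, ← Set.range_comp]
  rfl

omit [Fact p.Prime] in
theorem tendsto_div_pow (C : ℝ≥0∞) (hC : C ≠ ⊤) (hp : 2 ≤ p) :
    Tendsto (fun e : ℕ => C / (p : ℝ≥0∞) ^ e) atTop (𝓝 0) := by
  have h1 : Tendsto (fun e : ℕ => ((p : ℝ≥0∞)⁻¹) ^ e) atTop (𝓝 0) := by
    refine ENNReal.tendsto_pow_atTop_nhds_zero_of_lt_one ?_
    rw [ENNReal.inv_lt_one]
    exact_mod_cast (by omega : 1 < p)
  have h2 : Tendsto (fun e : ℕ => C * ((p : ℝ≥0∞)⁻¹) ^ e) atTop (𝓝 (C * 0)) :=
    ENNReal.Tendsto.const_mul h1 (Or.inr hC)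
  rw [mul_zero] at h2
  refine h2.congr fun e => ?_
  rw [ENNReal.div_eq_inv_mul, mul_comm, ENNReal.inv_pow]

theorem level_ineq (P : Type) [Fintype P] (x : Fin (r + 1) → A) (g0 g1 : A) (CC w w' : ℕ)
    (hw : 1 ≤ w) (hx0 : x 0 = (p : A)) (hx : ∀ l, x l ∈ maximalIdeal A)
    (E : ℕ → Type u) [∀ e, CommRing (E e)] [∀ e, Algebra A (E e)]
    (Pk : ∀ e, APkg p (maximalIdeal A) x P g0 g1 w w' (e + 1) (E e))
    (L : ∀ e, AddLen (S ⊗[A] E e))
    (hL : ∀ e (𝔟 : Ideal S), (p : S) ^ (e + 1) ∈ 𝔟 → Module.length S (S ⧸ 𝔟) ≠ ⊤ →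
      (L e).len ((S ⊗[A] E e) ⧸ 𝔟.map (algebraMap S (S ⊗[A] E e))) =
        ENat.toENNReal (Module.length S (S ⧸ 𝔟)))
    (hsm : ∀ e π (c : ℕ), 1 ≤ c →
      (L e).len ((S ⊗[A] E e) ⧸ ((maximalIdeal S).map (algebraMap S (S ⊗[A] E e)) ⊔
        Ideal.span {((1 : S) ⊗ₜ[A] (Pk e).h π : S ⊗[A] E e) ^ c})) ≤
        ((c * CC : ℕ) : ℝ≥0∞) / (p : ℝ≥0∞) ^ e)
    (y : Fin (r + 1) → S) (hy : ∀ i, y i ∈ maximalIdeal S)
    (hyl : Module.length S (S ⧸ Ideal.span (Set.range y)) ≠ ⊤)
    (hTl : Module.length S (S ⧸ (maximalIdeal A).map (algebraMap A S)) ≠ ⊤)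
    (m j : ℕ) (hj : 1 ≤ j) :
    ((r + j).choose (r + 1) : ℝ≥0∞) * (w : ℝ≥0∞) ^ (r + 1) *
        ENat.toENNReal (Module.length S (S ⧸ ((maximalIdeal A).map (algebraMap A S) ⊔
          Ideal.span (Set.range y)))) *
        ENat.toENNReal (Module.length S (S ⧸ (maximalIdeal A ^ m).map (algebraMap A S))) ≤
      ((r + m).choose (r + 1) : ℝ≥0∞) * (w' : ℝ≥0∞) ^ (r + 1) *
        ENat.toENNReal (Module.length S (S ⧸ (maximalIdeal A).map (algebraMap A S))) *
        (ENat.toENNReal (Module.length S (S ⧸ Ideal.span (Set.range y) ^ j)) +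
          Fintype.card P * ENat.toENNReal (Module.length S
            (S ⧸ (Ideal.span (Set.range y) ^ j ⊔ Ideal.span {algebraMap A S g0})))) +
      ((r + j).choose (r + 1) : ℝ≥0∞) * (w : ℝ≥0∞) ^ (r + 1) *
        ENat.toENNReal (Module.length S (S ⧸ ((maximalIdeal A).map (algebraMap A S) ⊔
          Ideal.span (Set.range y)))) *
        ENat.toENNReal (Module.length S (S ⧸ ((maximalIdeal A ^ m).map (algebraMap A S) ⊔
          Ideal.span {algebraMap A S g1}))) := by
  classical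
  have hp2 : 2 ≤ p := (Fact.out : p.Prime).two_le
  -- notation
  let i1 : ∀ e, E e →ₐ[A] S ⊗[A] E e := fun e =>
    (Algebra.TensorProduct.includeRight (R := A) (A := S) (B := E e))
  let iS : ∀ e, S →+* S ⊗[A] E e := fun e => algebraMap S (S ⊗[A] E e)
  let K : ∀ e, P → Ideal (S ⊗[A] E e) := fun e π => ((Pk e).K π).map (i1 e)
  let Q0 : ∀ e, P → Ideal (E e) := fun e π => (Pk e).K π ⊔ Ideal.span (Set.range ((Pk e).z π))
  let y' : ∀ e, Fin (r + 1) → S ⊗[A] E e := fun e l => (y l) ⊗ₜ[A] (1 : E e)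
  let z' : ∀ e, P → Fin (r + 1) → S ⊗[A] E e := fun e π l => (1 : S) ⊗ₜ[A] ((Pk e).z π l)
  -- base change of the packages
  choose Q hQh hQz hQK using fun e => apkg_baseChange (Pk e) S
  have hmapA : ∀ e (I : Ideal A), (I.map (algebraMap A S)).map (iS e) =
      (I.map (algebraMap A (E e))).map (i1 e) := by
    intro e I
    rw [Ideal.map_map]
    change _ = Ideal.map (i1 e).toRingHom _
    rw [Ideal.map_map]
    congr 1
    ext a
    change algebraMap A S a ⊗ₜ[A] (1 : E e) = (1 : S) ⊗ₜ[A] (algebraMap A (E e) a)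
    rw [Algebra.algebraMap_eq_smul_one, Algebra.algebraMap_eq_smul_one, TensorProduct.smul_tmul]
  have hmQ : ∀ e π, (maximalIdeal A).map (algebraMap A (E e)) ≤ Q0 e π := by
    intro e π
    refine ((Pk e).hz π).trans ?_
    refine sup_le ?_ le_sup_left
    exact (Ideal.pow_le_self (by omega)).trans le_sup_right
  have hy' : ∀ e, Ideal.span (Set.range (y' e)) = (Ideal.span (Set.range y)).map (iS e) := by
    intro e
    rw [map_range_eq]
    rfl
  have hQ0 : ∀ e π, (Q0 e π).map (i1 e) = K e π ⊔ Ideal.span (Set.range (z' e π)) := by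
    intro e π
    change (Q0 e π).map (i1 e).toRingHom = _
    rw [Ideal.map_sup, map_range_eq]
    rfl
  have hmS : ∀ e π, ((maximalIdeal A).map (algebraMap A S)).map (iS e) ≤ (Q0 e π).map (i1 e) := by
    intro e π
    rw [hmapA]
    exact Ideal.map_mono (hmQ e π)
  have hpS : (p : S) ∈ maximalIdeal S := by
    have h1 := hx 0
    rw [hx0] at h1
    rw [← map_natCast (algebraMap A S)]
    rw [mem_maximalIdeal, mem_nonunits_iff] at h1 ⊢
    exact fun h => h1 (isUnit_of_map_unit _ _ h)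
  -- finite lengths
  obtain ⟨D1, hD1⟩ := exists_pow_le_of_ell_ne_top (I := Ideal.span (Set.range y)) hyl
  obtain ⟨D2, hD2⟩ := exists_pow_le_of_ell_ne_top
    (I := (maximalIdeal A).map (algebraMap A S)) hTl
  have hyj : maximalIdeal S ^ (D1 * j) ≤ Ideal.span (Set.range y) ^ j := by
    rw [pow_mul]
    exact Ideal.pow_right_mono hD1 j
  have hmm : maximalIdeal S ^ (D2 * m) ≤ (maximalIdeal A ^ m).map (algebraMap A S) := by
    rw [pow_mul, Ideal.map_pow]
    exact Ideal.pow_right_mono hD2 m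
  have hev : ∀ (𝔟 : Ideal S) (D : ℕ), maximalIdeal S ^ D ≤ 𝔟 →
      ∀ᶠ e in atTop, (L e).len ((S ⊗[A] E e) ⧸ 𝔟.map (iS e)) =
        ENat.toENNReal (Module.length S (S ⧸ 𝔟)) := by
    intro 𝔟 D hD
    filter_upwards [eventually_ge_atTop D] with e he
    refine hL e 𝔟 (hD ?_) (ell_ne_top_of_pow_le hD)
    exact Ideal.pow_le_pow_right (by omega) (Ideal.pow_mem_pow hpS (e + 1))
  have hn1 : ∀ e, (L e).len ((S ⊗[A] E e) ⧸ (maximalIdeal S).map (iS e)) = 1 := by
    intro e
    rw [hL e (maximalIdeal S) (Ideal.pow_mem_of_mem _ hpS _ (Nat.succ_pos e))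
      (ell_ne_top_of_pow_le (I := maximalIdeal S) (s := 1) (by rw [pow_one]))]
    have : IsSimpleModule S (S ⧸ maximalIdeal S) := by
      rw [isSimpleModule_iff_isCoatom]
      exact Ideal.isMaximal_def.mp inferInstance
    rw [Module.length_eq_one]
    exact ENat.toENNReal_one
  -- ideals
  have hyS : ∃ L : ℕ, ∀ l, algebraMap A S (x l) ^ L ∈ Ideal.span (Set.range y) := by
    refine ⟨D1, fun l => hD1 (Ideal.pow_mem_pow ?_ D1)⟩
    have h1 := hx l
    rw [mem_maximalIdeal, mem_nonunits_iff] at h1 ⊢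
    exact fun h => h1 (isUnit_of_map_unit _ _ h)
  have hmax : (maximalIdeal A).map (algebraMap A S) ≤ maximalIdeal S := by
    rw [Ideal.map_le_iff_le_comap]
    intro a ha
    rw [Ideal.mem_comap]
    rw [mem_maximalIdeal, mem_nonunits_iff] at ha ⊢
    exact fun h => ha (isUnit_of_map_unit _ _ h)
  have hmL : ∃ L : ℕ, (maximalIdeal A ^ L).map (algebraMap A S) ≤ Ideal.span (Set.range y) := by
    refine ⟨D1, ?_⟩
    rw [Ideal.map_pow]
    exact (Ideal.pow_right_mono hmax D1).trans hD1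
  have hN : Tendsto (fun e : ℕ => e + 1) atTop atTop := tendsto_add_atTop_nat 1
  -- the data of `geo_hon`
  have HH : ∀ π : P, HonData (fun e => XS A S (E e) ((Pk e).K π))
      (fun e => XS A S (E e) ((Pk e).K π)) p
      (fun e => bX ((Pk e).K π) ((Pk e).h π))
      (fun e k => sX ((Pk e).K π) (algebraMap A S (x k)))
      (fun e l => sX ((Pk e).K π) (y l))
      (fun e l => bX ((Pk e).K π) ((Pk e).z π l)) w := fun π =>
    honData_of_apkg S p x hx0 hx P g0 g1 w w' hw (fun e => e + 1) hN E Pk π y hyS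
  have HN : ∀ π : P, ∃ M : ℕ, ∀ e, Ideal.span (Set.range fun l =>
        bX (A := A) (S := S) ((Pk e).K π) ((Pk e).z π l)) ^ M •
        (⊤ : Submodule (XS A S (E e) ((Pk e).K π)) (XS A S (E e) ((Pk e).K π))) ≤
      ys (XS A S (E e) ((Pk e).K π)) (fun l => sX ((Pk e).K π) (y l)) := fun π =>
    hnil_of_apkg S p x P g0 g1 w w' (fun e => e + 1) E Pk π y hmL
  let Lr : ∀ (π : P) e, AddLen (XS A S (E e) ((Pk e).K π)) := fun π e =>
    (L e).restrict (Ideal.Quotient.mk (K e π))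
  have hρ0 : ∀ e : ℕ, (1 : ℝ≥0∞) ≠ 0 := fun _ => one_ne_zero
  have hρ : ∀ e : ℕ, (1 : ℝ≥0∞) ≠ ⊤ := fun _ => ENNReal.one_ne_top
  have hfin : ∀ π, ∃ C : ℝ≥0∞, C ≠ ⊤ ∧ ∀ e, (Lr π e).len (QQ (fun e => XS A S (E e) ((Pk e).K π))
      (fun e => XS A S (E e) ((Pk e).K π)) (fun e l => sX ((Pk e).K π) (y l)) e) ≤
        C * (fun _ : ℕ => (1 : ℝ≥0∞)) e := by
    intro π
    refine ⟨ENat.toENNReal (Module.length S (S ⧸ Ideal.span (Set.range y))), ?_, fun e => ?_⟩
    · simpa using hyl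
    · have h1 := conv_Q (L e) (K e π) (y' e)
      refine (le_of_eq h1).trans ?_
      have h2 := len_quot_le_mul (L e) (K e π) ⊥ (Ideal.span (Set.range y)) hyl
      rw [sup_bot_eq, sup_bot_eq] at h2
      rw [hy']
      refine h2.trans (le_of_eq ?_)
      rw [hn1]
  have hsmall : ∀ π (c : ℕ), Tendsto (fun e => (Lr π e).len
      (QQ (fun e => XS A S (E e) ((Pk e).K π)) (fun e => XS A S (E e) ((Pk e).K π))
        (fun e l => sX ((Pk e).K π) (y l)) e ⧸
        LinearMap.range (bX (A := A) (S := S) ((Pk e).K π) ((Pk e).h π) ^ c •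
          (LinearMap.id : QQ (fun e => XS A S (E e) ((Pk e).K π))
            (fun e => XS A S (E e) ((Pk e).K π))
            (fun e l => sX ((Pk e).K π) (y l)) e →ₗ[XS A S (E e) ((Pk e).K π)] _))) /
        (fun _ : ℕ => (1 : ℝ≥0∞)) e) atTop (𝓝 0) := by
    intro π c
    have h0 : ∀ c : ℕ, 1 ≤ c → ∀ e, (Lr π e).len
      (QQ (fun e => XS A S (E e) ((Pk e).K π)) (fun e => XS A S (E e) ((Pk e).K π))
        (fun e l => sX ((Pk e).K π) (y l)) e ⧸
        LinearMap.range (bX (A := A) (S := S) ((Pk e).K π) ((Pk e).h π) ^ c •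
          (LinearMap.id : QQ (fun e => XS A S (E e) ((Pk e).K π))
            (fun e => XS A S (E e) ((Pk e).K π))
            (fun e l => sX ((Pk e).K π) (y l)) e →ₗ[XS A S (E e) ((Pk e).K π)] _))) ≤
        ENat.toENNReal (Module.length S (S ⧸ Ideal.span (Set.range y))) *
          (((c * CC : ℕ) : ℝ≥0∞) / (p : ℝ≥0∞) ^ e) := by
      intro c hc e
      have h1 := conv_Qh (L e) (K e π) (y' e) (((1 : S) ⊗ₜ[A] (Pk e).h π : S ⊗[A] E e) ^ c)
      have h2 : bX (A := A) (S := S) ((Pk e).K π) ((Pk e).h π) ^ c =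
          Ideal.Quotient.mk (K e π) (((1 : S) ⊗ₜ[A] (Pk e).h π : S ⊗[A] E e) ^ c) := by
        rw [map_pow]
        rfl
      rw [h2]
      refine (le_of_eq h1).trans ?_
      rw [hy', ← sup_assoc]
      refine (len_quot_le_mul (L e) (K e π) _ (Ideal.span (Set.range y)) hyl).trans ?_
      exact mul_le_mul_right (hsm e π c hc) _
    simp only [div_one]
    have hl : ENat.toENNReal (Module.length S (S ⧸ Ideal.span (Set.range y))) ≠ ⊤ := by
      simpa using hyl
    rcases Nat.eq_zero_or_pos c with rfl | hc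
    · have h1 : ∀ e, LinearMap.range (bX (A := A) (S := S) ((Pk e).K π) ((Pk e).h π) ^ 0 •
          (LinearMap.id : QQ (fun e => XS A S (E e) ((Pk e).K π))
            (fun e => XS A S (E e) ((Pk e).K π))
            (fun e l => sX ((Pk e).K π) (y l)) e →ₗ[XS A S (E e) ((Pk e).K π)] _)) = ⊤ := by
        intro e
        rw [LinearMap.range_eq_top]
        intro q
        refine ⟨q, ?_⟩
        rw [pow_zero]
        exact one_smul (XS A S (E e) ((Pk e).K π)) q
      refine tendsto_const_nhds.congr fun e => ?_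
      have : Subsingleton (QQ (fun e => XS A S (E e) ((Pk e).K π))
        (fun e => XS A S (E e) ((Pk e).K π)) (fun e l => sX ((Pk e).K π) (y l)) e ⧸
        LinearMap.range (bX (A := A) (S := S) ((Pk e).K π) ((Pk e).h π) ^ 0 •
          (LinearMap.id : QQ (fun e => XS A S (E e) ((Pk e).K π))
            (fun e => XS A S (E e) ((Pk e).K π))
            (fun e l => sX ((Pk e).K π) (y l)) e →ₗ[XS A S (E e) ((Pk e).K π)] _))) :=
        Submodule.Quotient.subsingleton_iff.mpr (h1 e)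
      exact (len_subsingleton_aux (Lr π e)).symm
    · refine tendsto_of_tendsto_of_tendsto_of_le_of_le tendsto_const_nhds ?_
        (fun e => bot_le) (h0 c hc)
      have h1 : Tendsto (fun e : ℕ => ENat.toENNReal (Module.length S
          (S ⧸ Ideal.span (Set.range y))) * (((c * CC : ℕ) : ℝ≥0∞) / (p : ℝ≥0∞) ^ e)) atTop
          (𝓝 (ENat.toENNReal (Module.length S (S ⧸ Ideal.span (Set.range y))) * 0)) :=
        ENNReal.Tendsto.const_mul (tendsto_div_pow _ (ENNReal.natCast_ne_top _) hp2) (Or.inr hl)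
      rwa [mul_zero] at h1
  -- the two limit inequalities
  have H1 : ∀ ε : ℝ≥0∞, ε ≠ 0 → ∀ π, ∀ᶠ e in atTop, (w : ℝ≥0∞) ^ (r + 1) *
      (L e).len ((S ⊗[A] E e) ⧸ (K e π ⊔ (Ideal.span (Set.range (y' e)) ⊔
        Ideal.span (Set.range (z' e π))))) ≤
      (L e).len ((S ⊗[A] E e) ⧸ (K e π ⊔ Ideal.span (Set.range (y' e)))) + ε := by
    intro ε hε π
    have h1 := geo_hon (fun e => XS A S (E e) ((Pk e).K π)) (fun e => XS A S (E e) ((Pk e).K π)) p
      (fun e => bX ((Pk e).K π) ((Pk e).h π))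
      (fun e k => sX ((Pk e).K π) (algebraMap A S (x k)))
      (fun e l => sX ((Pk e).K π) (y l))
      (fun e l => bX ((Pk e).K π) ((Pk e).z π l)) w hw (HH π) (HN π) (Lr π) (fun _ => 1) hρ0 hρ
      (hfin π) (hsmall π) ε hε
    filter_upwards [h1] with e he
    rw [mul_one] at he
    rw [← conv_Q (L e) (K e π) (y' e), ← conv_Qz (L e) (K e π) (y' e) (z' e π)]
    exact he
  have H2 : ∀ ε : ℝ≥0∞, ε ≠ 0 → ∀ π, ∀ᶠ e in atTop, ((r + j).choose (r + 1) : ℝ≥0∞) *
      (L e).len ((S ⊗[A] E e) ⧸ (K e π ⊔ Ideal.span (Set.range (y' e)))) ≤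
      (L e).len ((S ⊗[A] E e) ⧸ (K e π ⊔ Ideal.span (Set.range (y' e)) ^ j)) + ε := by
    intro ε hε π
    have h1 := hon_pow (fun e => XS A S (E e) ((Pk e).K π))
      (fun e => XS A S (E e) ((Pk e).K π)) p
      (fun e => bX ((Pk e).K π) ((Pk e).h π))
      (fun e k => sX ((Pk e).K π) (algebraMap A S (x k)))
      (fun e l => sX ((Pk e).K π) (y l))
      (fun e l => bX ((Pk e).K π) ((Pk e).z π l)) w hw (HH π) (Lr π) (fun _ => 1) hρ0 hρ
      (hfin π) (hsmall π) j hj ε hε
    filter_upwards [h1] with e he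
    rw [mul_one] at he
    rw [← conv_Q (L e) (K e π) (y' e), ← conv_P (L e) (K e π) (y' e) j]
    exact he
  -- lengths over the residue field
  have hid : ∀ (e : ℕ) (π : P) (𝔟 : Ideal S), (maximalIdeal A).map (algebraMap A S) ≤ 𝔟 →
      𝔟.map (algebraMap S (S ⊗[A] E e)) ⊔ (Q0 e π).map
        (Algebra.TensorProduct.includeRight (R := A) (A := S) (B := E e)).toRingHom =
      𝔟.map (iS e) ⊔ (K e π ⊔ Ideal.span (Set.range (z' e π))) := by
    intro e π 𝔟 _
    rw [← hQ0 e π]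
    rfl
  have hZ : ∀ (e : ℕ) (π : P), (L e).len ((S ⊗[A] E e) ⧸ (K e π ⊔ (Ideal.span (Set.range (y' e)) ⊔
        Ideal.span (Set.range (z' e π))))) =
      ENat.toENNReal (Module.length S (S ⧸ ((maximalIdeal A).map (algebraMap A S) ⊔
          Ideal.span (Set.range y)))) *
        (L e).len ((S ⊗[A] E e) ⧸ ((maximalIdeal S).map (algebraMap S (S ⊗[A] E e)) ⊔
          (Q0 e π).map
          (Algebra.TensorProduct.includeRight (R := A) (A := S) (B := E e)).toRingHom)) := by
    intro e π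
    rw [← len_quot_vec (L e) (Q0 e π) (hmQ e π) _ le_sup_left
      (ne_top_of_le_ne_top hTl (ell_mono le_sup_left)), hid e π _ le_sup_left]
    have h1 : K e π ⊔ (Ideal.span (Set.range (y' e)) ⊔ Ideal.span (Set.range (z' e π))) =
        ((maximalIdeal A).map (algebraMap A S) ⊔ Ideal.span (Set.range y)).map (iS e) ⊔
          (K e π ⊔ Ideal.span (Set.range (z' e π))) := by
      rw [Ideal.map_sup, ← hy']
      have h2 := hmS e π
      rw [hQ0] at h2
      refine le_antisymm ?_ ?_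
      · refine sup_le (le_sup_of_le_right le_sup_left) (sup_le (le_sup_of_le_left le_sup_right)
          (le_sup_of_le_right le_sup_right))
      · refine sup_le (sup_le (h2.trans (sup_le le_sup_left (le_sup_of_le_right le_sup_right)))
          (le_sup_of_le_right le_sup_left)) (sup_le le_sup_left
          (le_sup_of_le_right le_sup_right))
    rw [h1]
  have hT : ∀ (e : ℕ) (π : P), (L e).len ((S ⊗[A] E e) ⧸ (K e π ⊔
        Ideal.span (Set.range (z' e π)))) =
      ENat.toENNReal (Module.length S (S ⧸ (maximalIdeal A).map (algebraMap A S))) *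
        (L e).len ((S ⊗[A] E e) ⧸ ((maximalIdeal S).map (algebraMap S (S ⊗[A] E e)) ⊔
          (Q0 e π).map
          (Algebra.TensorProduct.includeRight (R := A) (A := S) (B := E e)).toRingHom)) := by
    intro e π
    rw [← len_quot_vec (L e) (Q0 e π) (hmQ e π) _ le_rfl hTl, hid e π _ le_rfl]
    have h2 := hmS e π
    rw [hQ0] at h2
    rw [sup_eq_right.mpr h2]
  have h3 : ∀ (e : ℕ) (π : P), (L e).len ((S ⊗[A] E e) ⧸ (K e π ⊔
        ((maximalIdeal A).map (algebraMap A S)).map (iS e) ^ m)) ≤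
      ((r + m).choose (r + 1) : ℝ≥0∞) * ((w' : ℝ≥0∞) ^ (r + 1) *
        (L e).len ((S ⊗[A] E e) ⧸ (K e π ⊔ Ideal.span (Set.range (z' e π))))) := by
    intro e π
    refine len_pow_le (L e) (K e π) _ (z' e π) w' (fun l => ?_) m
    have h1 := (Q e).hz' π l
    rw [hQz, hQK] at h1
    exact h1
  have h4 : ∀ᶠ e in atTop, ENat.toENNReal (Module.length S
        (S ⧸ (maximalIdeal A ^ m).map (algebraMap A S))) ≤
      ∑ π, (L e).len ((S ⊗[A] E e) ⧸ (K e π ⊔
        ((maximalIdeal A).map (algebraMap A S)).map (iS e) ^ m)) +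
      ENat.toENNReal (Module.length S (S ⧸ ((maximalIdeal A ^ m).map (algebraMap A S) ⊔
          Ideal.span {algebraMap A S g1}))) := by
    filter_upwards [hev _ _ hmm, hev ((maximalIdeal A ^ m).map (algebraMap A S) ⊔
      Ideal.span {algebraMap A S g1}) _ (hmm.trans le_sup_left)] with e h1 h2
    have h5 := len_le_sum (L e) (Q e).K (Q e).η (Q e).hη _ (Q e).hη'
      (((maximalIdeal A ^ m).map (algebraMap A S)).map (iS e))
    have h6 : ((maximalIdeal A ^ m).map (algebraMap A S)).map (iS e) =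
        ((maximalIdeal A).map (algebraMap A S)).map (iS e) ^ m := by
      rw [Ideal.map_pow, Ideal.map_pow]
    rw [h1] at h5
    rw [Ideal.map_sup, Ideal.map_span, Set.image_singleton] at h2
    rw [show Ideal.span {(algebraMap S (S ⊗[A] E e)) (algebraMap A S g1)} =
      Ideal.span {(iS e) (algebraMap A S g1)} from rfl, h2, h6] at h5
    refine h5.trans (le_of_eq ?_)
    congr 1
    refine Finset.sum_congr rfl fun π _ => ?_
    rw [hQK]
  have h5 : ∀ᶠ e in atTop, ∑ π, (L e).len ((S ⊗[A] E e) ⧸ (K e π ⊔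
        Ideal.span (Set.range (y' e)) ^ j)) ≤
      ENat.toENNReal (Module.length S (S ⧸ Ideal.span (Set.range y) ^ j)) +
          Fintype.card P * ENat.toENNReal (Module.length S
            (S ⧸ (Ideal.span (Set.range y) ^ j ⊔ Ideal.span {algebraMap A S g0}))) := by
    filter_upwards [hev _ _ hyj, hev (Ideal.span (Set.range y) ^ j ⊔
      Ideal.span {algebraMap A S g0}) _ (hyj.trans le_sup_left)] with e h1 h2
    have h5 := sum_le_len (L e) (Q e).K (Q e).θ (Q e).hθ _ (Q e).hθ'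
      ((Ideal.span (Set.range y) ^ j).map (iS e))
    rw [h1] at h5
    rw [Ideal.map_sup, Ideal.map_span (iS e) {algebraMap A S g0}, Set.image_singleton] at h2
    rw [show Ideal.span {(algebraMap S (S ⊗[A] E e)) (algebraMap A S g0)} =
      Ideal.span {(iS e) (algebraMap A S g0)} from rfl, h2] at h5
    refine (le_of_eq ?_).trans h5
    refine Finset.sum_congr rfl fun π _ => ?_
    rw [hQK, hy', Ideal.map_pow]
  exact arith_limit _ _ _ _ _ _ _ _ _ _ (ENNReal.pow_ne_top (ENNReal.natCast_ne_top w))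
    (ENNReal.pow_ne_top (ENNReal.natCast_ne_top w')) (ENNReal.natCast_ne_top _)
    (ENNReal.natCast_ne_top _)
    (fun h => ne_top_of_le_ne_top hTl (ell_mono le_sup_left) (ENat.toENNReal_eq_top.mp h))
    (by simpa using hTl) _ _ _ _ _ _ hZ hT H1 H2 h3 h4 h5

end

end Vale.Agent.P202.Mix
end

section

/-!
P202 MIX, M17-D stage 3: Theorem M.
-/

namespace Vale.Agent.P202.Mix

open TensorProduct IsLocalRing
open scoped ENNReal

universe u

theorem theoremM (p : ℕ) [hp : Fact p.Prime] : TheoremM.{u} p := by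
  intro A S _ _ _ _ _ _ _ _ _ _ _ _ _ _ _ r hA hS y hy hyl t0 ht0
  obtain ⟨P, _, x, g0, g1, CC, hx0, hx, hg0, hg1, H⟩ := stage1 p (S := S) hA
  -- finiteness of lengths
  have hTl : Module.length S (S ⧸ (maximalIdeal A).map (algebraMap A S)) ≠ ⊤ :=
    ell_fibre_ne_top (R := A) (S := S) (by rw [hA, hS])
  obtain ⟨lT, hlT⟩ := ENat.ne_top_iff_exists.mp hTl
  have hy' : Ideal.span (Set.range y) ≤ maximalIdeal S := by
    rw [Ideal.span_le]
    rintro _ ⟨i, rfl⟩
    exact hy i
  have hyj : ∀ j : ℕ, Module.length S (S ⧸ Ideal.span (Set.range y) ^ j) ≠ ⊤ := by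
    intro j
    obtain ⟨D, hD⟩ := exists_pow_le_of_ell_ne_top hyl
    refine ell_ne_top_of_pow_le (s := D * j) ?_
    rw [pow_mul]
    exact Ideal.pow_right_mono hD j
  have hmL : ∀ L : ℕ, Module.length A (A ⧸ maximalIdeal A ^ L) ≠ ⊤ := fun L =>
    ell_ne_top_of_pow_le le_rfl
  -- error terms
  have hg0S : algebraMap A S g0 ∈ nonZeroDivisors S := by
    rw [mem_nonZeroDivisors_iff_right]
    intro z hz
    have h1 : IsSMulRegular A g0 := by
      intro a b hab
      exact mul_left_cancel₀ hg0 hab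
    have h2 : IsSMulRegular S (algebraMap A S g0) := IsSMulRegular.of_flat h1
    refine h2 ?_
    change algebraMap A S g0 * z = algebraMap A S g0 * 0
    rw [mul_zero, mul_comm]
    exact hz
  obtain ⟨C0, hC0⟩ := hs_bound hS (Ideal.span (Set.range y)) hy' hyl _ hg0S
  obtain ⟨C1, hC1⟩ := hs_bound hA (maximalIdeal A) le_rfl (by
    have := hmL 1
    rwa [pow_one] at this) g1 (mem_nonZeroDivisors_of_ne_zero hg1)
  have hlT1 : 1 ≤ lT := by
    have h1 : ell ((maximalIdeal A).map (algebraMap A S)) ≠ 0 := by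
      rw [Ne, ell_eq_zero_iff]
      intro h
      have h2 : (maximalIdeal A).map (algebraMap A S) ≤ maximalIdeal S := by
        rw [Ideal.map_le_iff_le_comap]
        intro a ha
        exact (IsLocalRing.mem_maximalIdeal _).mpr fun h =>
          (IsLocalRing.mem_maximalIdeal _).mp ha (isUnit_of_map_unit (algebraMap A S) a h)
      rw [h, top_le_iff] at h2
      exact (IsLocalRing.maximalIdeal.isMaximal S).ne_top h2
    have h2 : ell ((maximalIdeal A).map (algebraMap A S)) = (lT : ℕ∞) := hlT.symm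
    rw [h2] at h1
    have h3 : lT ≠ 0 := by exact_mod_cast h1
    omega
  refine ⟨Fintype.card P * C0, C1, fun L j hL hj => ?_⟩
  -- the lengths
  obtain ⟨a, ha⟩ := ENat.ne_top_iff_exists.mp (hmL L)
  obtain ⟨s, hs⟩ := ENat.ne_top_iff_exists.mp (hyj j)
  have h0j := hC0 j hj
  have h1L := hC1 L hL
  obtain ⟨s', hs'⟩ := ENat.ne_top_iff_exists.mp (ne_top_of_le_ne_top (ENat.natCast_ne_top _) h0j)
  obtain ⟨a1, ha1⟩ := ENat.ne_top_iff_exists.mp (ne_top_of_le_ne_top (ENat.natCast_ne_top _) h1L)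
  rw [← hs'] at h0j
  rw [← ha1] at h1L
  have h0j' : s' ≤ C0 * j ^ r := by exact_mod_cast h0j
  have h1L' : a1 ≤ C1 * L ^ r := by exact_mod_cast h1L
  have hmLS : Module.length S (S ⧸ (maximalIdeal A ^ L).map (algebraMap A S)) = (lT * a : ℕ) := by
    rw [length_flat_quot (A := A) (S := S) _ (hmL L), ← hlT, ← ha]
    push_cast
    rfl
  have hmLg : Module.length S (S ⧸ ((maximalIdeal A ^ L).map (algebraMap A S) ⊔
      Ideal.span {algebraMap A S g1})) = (lT * a1 : ℕ) := by
    have h1 : (maximalIdeal A ^ L).map (algebraMap A S) ⊔ Ideal.span {algebraMap A S g1} =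
        (maximalIdeal A ^ L ⊔ Ideal.span {g1}).map (algebraMap A S) := by
      rw [Ideal.map_sup, Ideal.map_span, Set.image_singleton]
    rw [h1, length_flat_quot (A := A) (S := S) _ (by rw [← ha1]; exact ENat.natCast_ne_top _),
      ← hlT, ← ha1]
    push_cast
    rfl
  have key := arith_final p hp.out.two_le r ((r + j).choose (r + 1)) ((r + L).choose (r + 1))
    t0 lT a a1 s (Fintype.card P * s') hlT1 (by
      intro b hw
      choose E i1 i2 Pk Lx hLx hsm using fun e : ℕ => H b e (e + 1) (Nat.succ_pos e)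
      have h1 := level_ineq (S := S) P x g0 g1 CC _ _ hw hx0 hx E Pk Lx hLx hsm y hy hyl hTl L j hj
      rw [ht0, hmLS, hmLg, ← hlT, ← hs, ← hs'] at h1
      simp only [ENat.toENNReal_coe] at h1
      simp only [Nat.cast_mul] at h1 ⊢
      exact h1)
  have ha' : (Module.length A (A ⧸ maximalIdeal A ^ L)).toNat = a := by
    rw [← ha, ENat.toNat_natCast]
  have hs'' : (Module.length S (S ⧸ Ideal.span (Set.range y) ^ j)).toNat = s := by
    rw [← hs, ENat.toNat_natCast]
  rw [ha', hs'']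
  have key' : (((r + j).choose (r + 1) : ℕ) : ℝ) * t0 * a ≤
      (((r + L).choose (r + 1) : ℕ) : ℝ) * (s + Fintype.card P * s') +
        (((r + j).choose (r + 1) : ℕ) : ℝ) * t0 * a1 := by
    exact_mod_cast key
  have h1 : (s' : ℝ) ≤ C0 * (j : ℝ) ^ r := by exact_mod_cast h0j'
  have h2 : (a1 : ℝ) ≤ C1 * (L : ℝ) ^ r := by exact_mod_cast h1L'
  have h3 : (((r + L).choose (r + 1) : ℕ) : ℝ) * (s + Fintype.card P * s') ≤
      (((r + L).choose (r + 1) : ℕ) : ℝ) * (s + Fintype.card P * C0 * (j : ℝ) ^ r) := by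
    refine mul_le_mul_of_nonneg_left ?_ (Nat.cast_nonneg _)
    have : (Fintype.card P : ℝ) * s' ≤ Fintype.card P * (C0 * (j : ℝ) ^ r) :=
      mul_le_mul_of_nonneg_left h1 (Nat.cast_nonneg _)
    linarith
  have h4 : (((r + j).choose (r + 1) : ℕ) : ℝ) * t0 * a1 ≤
      (((r + j).choose (r + 1) : ℕ) : ℝ) * t0 * (C1 * (L : ℝ) ^ r) :=
    mul_le_mul_of_nonneg_left h2 (by positivity)
  calc (t0 : ℝ) * ((a : ℝ) - C1 * (L : ℝ) ^ r) * (((r + j).choose (r + 1) : ℕ) : ℝ) =
      (((r + j).choose (r + 1) : ℕ) : ℝ) * t0 * a -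
        (((r + j).choose (r + 1) : ℕ) : ℝ) * t0 * (C1 * (L : ℝ) ^ r) := by ring
    _ ≤ _ := by linarith

end Vale.Agent.P202.Mix
end
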