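import Vale.Agent.P202.MathlibUsed
import Vale.Agent.P202.Bdl.B6
import Vale.Agent.P202.Bdl.B14
import Vale.Agent.P202.Bdl.B1
import Vale.Agent.P202.Bdl.B20
import Vale.Agent.P202.Bdl.B2
import Vale.Agent.P202.Bdl.B17
import Vale.Agent.P202.Bdl.B4
import Vale.Agent.P202.Bdl.B13
import Vale.Agent.P202.Bdl.B9
import Vale.Agent.P202.Bdl.B19
import Vale.Agent.P202.Bdl.B7
import Vale.Agent.P202.Bdl.B12
import Vale.Agent.P202.Bdl.B5
import Vale.Agent.P202.Bdl.B15
import Vale.Agent.P202.Bdl.B22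
import Vale.Agent.P202.Bdl.B16

set_option linter.all false

section

set_option linter.all false

/-!
P202-AK, task AK-11: the Euler characteristic of the relative Frobenius.
-/

namespace Vale.Agent.P202.CharP.ArbK

open IsLocalRing TensorProduct

universe u

section RMod

variable {A R : Type*} [CommRing A] [CommRing R] (ρ : A →+* R)

local instance akchi_mod (N : Type*) [AddCommGroup N] [Module R N] : Module (RA ρ) (RM ρ N) :=
  inferInstanceAs (Module R N)

local instance akchi_tower (N : Type*) [AddCommGroup N] [Module R N] :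
    IsScalarTower A (RA ρ) (RM ρ N) where
  smul_assoc a b x := by
    rw [Algebra.smul_def, mul_smul]
    rfl

/-- functoriality. -/
def akchi_map {N N' : Type*} [AddCommGroup N] [Module R N] [AddCommGroup N'] [Module R N']
    (f : N →ₗ[R] N') : RM ρ N →ₗ[A] RM ρ N' where
  toFun x := f x
  map_add' x y := f.map_add x y
  map_smul' a x := f.map_smul (ρ a) x

lemma akchi_finite [Module.Finite A (RA ρ)] (N : Type*) [AddCommGroup N] [Module R N]
    [h : Module.Finite R N] : Module.Finite A (RM ρ N) := by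
  have h1 : Module.Finite (RA ρ) (RM ρ N) := h
  exact Module.Finite.trans (RA ρ) (RM ρ N)

lemma akchi_kk [IsLocalRing A] [IsLocalRing R] [IsLocalHom (algebraMap A (RA ρ))]
    (hres : Module.length (ResidueField A) (ResidueField (RA ρ)) = 1)
    {n : ℕ} (x : Fin n → A) (N : Type*) [AddCommGroup N] [Module R N] (i : ℤ) :
    kk x (RM ρ N) i = kk (fun j => ρ (x j)) N i := by
  rw [kk_restrict (A := A) (A' := RA ρ) (N := RM ρ N) x 1 (fun X Y => by
    rw [length_restrict (A := A) (A' := RA ρ), hres]), mul_one]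
  rfl

end RMod

section rho

variable {A S S' : Type*} [CommRing A] [IsLocalRing A] [IsNoetherianRing A]
    [CommRing S] [IsLocalRing S] [IsNoetherianRing S] [Algebra A S]
    [IsLocalHom (algebraMap A S)] [Module.Flat A S]
    [CommRing S'] [IsLocalRing S'] [IsNoetherianRing S'] [Algebra A S']
    [IsLocalHom (algebraMap A S')] [Module.Flat A S'] {n : ℕ} (y : Fin n → S) (y' : Fin n → S')

lemma akchi_rho (hfib : ∃ s, maximalIdeal S ^ s ≤ (maximalIdeal A).map (algebraMap A S))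
    (hy : ∀ i, y i ∈ maximalIdeal S)
    (hyl : Module.length S (S ⧸ Ideal.span (Set.range y)) ≠ ⊤)
    (hfib' : ∃ s, maximalIdeal S' ^ s ≤ (maximalIdeal A).map (algebraMap A S'))
    (hy' : ∀ i, y' i ∈ maximalIdeal S')
    (hyl' : Module.length S' (S' ⧸ Ideal.span (Set.range y')) ≠ ⊤)
    (J Q0 : Ideal A) (hJ : ∀ Q : Ideal A, Q.IsPrime → J ≤ Q → Q = Q0 ∨ ringKrullDim (A ⧸ Q) < n)
    (N : Type*) [AddCommGroup N] [Module A N] (hN : Module.Finite A N)
    (hPN : J ≤ Module.annihilator A N) :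
    ∃ r : ℤ, kchi y (S ⊗[A] N) = r * kchi y (S ⊗[A] (A ⧸ Q0)) ∧
      kchi y' (S' ⊗[A] N) = r * kchi y' (S' ⊗[A] (A ⧸ Q0)) := by
  revert hPN
  refine IsNoetherianRing.induction_on_isQuotientEquivQuotientPrime A hN
    (motive := fun N _ _ _ => J ≤ Module.annihilator A N →
      ∃ r : ℤ, kchi y (S ⊗[A] N) = r * kchi y (S ⊗[A] (A ⧸ Q0)) ∧
        kchi y' (S' ⊗[A] N) = r * kchi y' (S' ⊗[A] (A ⧸ Q0))) ?_ ?_ ?_
  · intro N _ _ _ _ _
    have hI : (⊤ : Ideal A) ≤ Module.annihilator A N := by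
      rw [Module.annihilator_eq_top_iff.mpr inferInstance]
    have hd : ringKrullDim (A ⧸ (⊤ : Ideal A)) < n := by
      have hs : Subsingleton (A ⧸ (⊤ : Ideal A)) := Ideal.Quotient.subsingleton_iff.mpr rfl
      rw [ringKrullDim_eq_bot_of_subsingleton]
      exact WithBot.bot_lt_coe _
    exact ⟨0, by rw [psi_eq_zero y hfib hy hyl N ⊤ hI hd, zero_mul],
      by rw [psi_eq_zero y' hfib' hy' hyl' N ⊤ hI hd, zero_mul]⟩
  · intro N _ _ _ Q f hPN
    rw [f.annihilator_eq, Ideal.annihilator_quotient] at hPN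
    rcases hJ Q.1 Q.2 hPN with h | hd
    · rw [← h]
      exact ⟨1, by rw [one_mul, psi_congr y f], by rw [one_mul, psi_congr y' f]⟩
    · refine ⟨0, ?_, ?_⟩
      · rw [psi_congr y f, psi_eq_zero y hfib hy hyl _ Q.1 (by rw [Ideal.annihilator_quotient]) hd,
          zero_mul]
      · rw [psi_congr y' f,
          psi_eq_zero y' hfib' hy' hyl' _ Q.1 (by rw [Ideal.annihilator_quotient]) hd, zero_mul]
  · intro N₁ _ _ _ N₂ _ _ _ N₃ _ _ _ f g hf hg hfg h1 h3 hPN
    obtain ⟨r1, h11, h12⟩ := h1 (hPN.trans (f.annihilator_le_of_injective hf))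
    obtain ⟨r3, h31, h32⟩ := h3 (hPN.trans (g.annihilator_le_of_surjective hg))
    refine ⟨r1 + r3, ?_, ?_⟩
    · rw [psi_add y hyl f g hf hg hfg, h11, h31, add_mul]
    · rw [psi_add y' hyl' f g hf hg hfg, h12, h32, add_mul]

end rho

section RelF

variable (p : ℕ) [Fact p.Prime] {e : ℕ} {R A : Type u} [CommRing R] [IsLocalRing R]
  [IsNoetherianRing R] [CharP R p] [CommRing A] [IsLocalRing A] [IsNoetherianRing A]
  [CharP A p] [Algebra R A] {ρ : A →+* R} (H : RelFrob p e R A ρ)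

include H

variable {S₁ : Type u} [CommRing S₁] [IsLocalRing S₁] [IsNoetherianRing S₁] [Algebra A S₁]
  [Algebra R S₁] [IsScalarTower R A S₁] [IsLocalHom (algebraMap A S₁)] [Module.Flat A S₁]

/-- TASK AK-11: the Euler characteristic of the relative Frobenius. -/
theorem kchi_RA {n : ℕ} (hdim : ringKrullDim R = n) (x : Fin n → R)
    (hx : ∀ i, x i ∈ maximalIdeal R)
    (hxl : Module.length R (R ⧸ Ideal.span (Set.range x)) ≠ ⊤) (y : Fin n → S₁)
    (hy : ∀ i, y i ∈ maximalIdeal S₁)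
    (hyl : Module.length S₁ (S₁ ⧸ Ideal.span (Set.range y)) ≠ ⊤) :
    kchi y (S₁ ⊗[A] (RA ρ)) = ((p ^ e : ℕ) : ℤ) ^ n * kchi y S₁ := by
  obtain ⟨hlocρ, hfinρ, hres⟩ := relFrob_basic p H
  have hq : 1 ≤ p ^ e := Nat.one_le_pow _ _ (Fact.out : p.Prime).pos
  have hfl : Module.Flat R A := H.flat
  have hRS : Module.Flat R S₁ := Module.Flat.trans R A S₁
  have hlocRA : IsLocalHom (algebraMap R A) :=
    ((IsLocalRing.local_hom_TFAE (algebraMap R A)).out 0 2).mpr H.max.ge
  have hlocRS : IsLocalHom (algebraMap R S₁) := by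
    rw [IsScalarTower.algebraMap_eq R A S₁]
    infer_instance
  have hfibR := exists_pow_le_fibre (A := R) (S := S₁) hdim y hy hyl
  have hfibA : ∃ s, maximalIdeal S₁ ^ s ≤ (maximalIdeal A).map (algebraMap A S₁) := by
    obtain ⟨s, hs⟩ := hfibR
    refine ⟨s, ?_⟩
    rw [H.max, Ideal.map_map, ← IsScalarTower.algebraMap_eq]
    exact hs
  have hfibRA : ∃ s, maximalIdeal A ^ s ≤ (maximalIdeal R).map (algebraMap R A) :=
    ⟨1, by rw [pow_one, H.max]⟩
  have hlocA : IsLocalHom (algebraMap A A) := by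
    rw [Algebra.algebraMap_self]
    exact isLocalHom_id A
  have hfibAA : ∃ s, maximalIdeal A ^ s ≤ (maximalIdeal A).map (algebraMap A A) :=
    ⟨1, by rw [pow_one, Algebra.algebraMap_self, Ideal.map_id]⟩
  set xA : Fin n → A := fun j => algebraMap R A (x j) with hxA
  have hxAm : ∀ i, xA i ∈ maximalIdeal A := fun i => by
    rw [H.max]
    exact Ideal.mem_map_of_mem _ (hx i)
  have hxAl : Module.length A (A ⧸ Ideal.span (Set.range xA)) ≠ ⊤ := by
    obtain ⟨s, hs⟩ := exists_pow_le_of_ell_ne_top (I := Ideal.span (Set.range x)) hxl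
    refine ell_ne_top_of_pow_le (s := s) ?_
    rw [H.max, ← Ideal.map_pow]
    refine (Ideal.map_mono hs).trans ?_
    rw [Ideal.map_span, ← Set.range_comp]
    rfl
  have hxq : (fun j => ρ (xA j)) = fun j => x j ^ p ^ e := funext fun j => H.rf (x j)
  have hlenx : ∀ (N : Type u) [AddCommGroup N] [Module R N] [Module.Finite R N],
      Module.length R (N ⧸ (Ideal.span (Set.range x) • (⊤ : Submodule R N))) ≠ ⊤ := by
    intro N _ _ _
    refine length_ne_top_of_killed hxl _ ?_
    intro r hr m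
    obtain ⟨m, rfl⟩ := Submodule.Quotient.mk_surjective _ m
    rw [← Submodule.Quotient.mk_smul, Submodule.Quotient.mk_eq_zero]
    exact Submodule.smul_mem_smul hr Submodule.mem_top
  have hlen1 : Module.length A (A ⧸ (maximalIdeal R).map (algebraMap R A)) = (1 : ℕ) := by
    rw [← H.max, Nat.cast_one, Module.length_eq_one_iff]
    exact isSimpleModule_iff_isCoatom.mpr (maximalIdeal.isMaximal A).out
  have key : ∀ (N : Type u) [AddCommGroup N] [Module R N] [Module.Finite R N],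
      kchi y (S₁ ⊗[A] (RM ρ N)) = ((p ^ e : ℕ) : ℤ) ^ n * kchi y (S₁ ⊗[R] N) := by
    intro N _ _ hN
    refine IsNoetherianRing.induction_on_isQuotientEquivQuotientPrime R hN
      (motive := fun N _ _ _ => kchi y (S₁ ⊗[A] (RM ρ N)) =
        ((p ^ e : ℕ) : ℤ) ^ n * kchi y (S₁ ⊗[R] N)) ?_ ?_ ?_
    · intro N _ _ _ hs
      have hs' : Subsingleton (RM ρ N) := hs
      have := akchi_finite ρ N
      have hI : (⊤ : Ideal R) ≤ Module.annihilator R N := by
        rw [Module.annihilator_eq_top_iff.mpr inferInstance]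
      have hI' : (⊤ : Ideal A) ≤ Module.annihilator A (RM ρ N) := by
        rw [Module.annihilator_eq_top_iff.mpr inferInstance]
      have hd : ringKrullDim (R ⧸ (⊤ : Ideal R)) < n := by
        have hs : Subsingleton (R ⧸ (⊤ : Ideal R)) := Ideal.Quotient.subsingleton_iff.mpr rfl
        rw [ringKrullDim_eq_bot_of_subsingleton]
        exact WithBot.bot_lt_coe _
      have hd' : ringKrullDim (A ⧸ (⊤ : Ideal A)) < n := by
        have hs : Subsingleton (A ⧸ (⊤ : Ideal A)) := Ideal.Quotient.subsingleton_iff.mpr rfl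
        rw [ringKrullDim_eq_bot_of_subsingleton]
        exact WithBot.bot_lt_coe _
      rw [psi_eq_zero y hfibR hy hyl N ⊤ hI hd, psi_eq_zero y hfibA hy hyl _ ⊤ hI' hd', mul_zero]
    · intro N _ _ _ P f
      have := akchi_finite ρ N
      have hfin1 := akchi_finite ρ (R ⧸ P.1)
      let f' : RM ρ N ≃ₗ[A] RM ρ (R ⧸ P.1) :=
        LinearEquiv.ofBijective (akchi_map ρ f.toLinearMap) f.bijective
      rw [psi_congr y f, psi_congr y f']
      have hPp : P.1.IsPrime := P.2
      set J : Ideal A := P.1.map (algebraMap R A) with hJdef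
      have hJ1 : J ≤ Module.annihilator A (RM ρ (R ⧸ P.1)) := by
        rw [hJdef, Ideal.map_le_iff_le_comap]
        intro a ha
        rw [Ideal.mem_comap, Module.mem_annihilator]
        intro z
        have h1 : a ^ p ^ e ∈ P.1 := Ideal.pow_mem_of_mem _ ha _ (by omega)
        have h2 : a ^ p ^ e ∈ Module.annihilator R (R ⧸ P.1) := by
          rw [Ideal.annihilator_quotient]
          exact h1
        have h3 := Module.mem_annihilator.mp h2 z
        rw [← H.rf] at h3
        exact h3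
      have hle : ringKrullDim (R ⧸ P.1) ≤ n := hdim ▸ ringKrullDim_quotient_le P.1
      rcases hle.lt_or_eq with hlt | heq
      · rw [psi_eq_zero y hfibR hy hyl (R ⧸ P.1) P.1 (by rw [Ideal.annihilator_quotient]) hlt,
          psi_eq_zero y hfibA hy hyl _ J hJ1 (dim_quot_lt hfibRA P.1 hlt), mul_zero]
      · -- the prime over `P`
        have hQ : ∀ Q : Ideal A, Q.IsPrime → J ≤ Q →
            Q = P.1.comap ρ ∨ ringKrullDim (A ⧸ Q) < n := by
          intro Q hQp hJQ
          have hPQ : P.1 ≤ Q.comap (algebraMap R A) := Ideal.map_le_iff_le_comap.mp hJQ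
          rcases eq_or_lt_of_le hPQ with h | h
          · left
            ext a
            rw [Ideal.mem_comap, h, Ideal.mem_comap, H.fr]
            exact ⟨fun ha => Ideal.pow_mem_of_mem _ ha _ (by omega),
              fun ha => hQp.mem_of_pow_mem _ ha⟩
          · right
            have h1 := dim_quot_prime_lt h hle
            have h2 := dim_quot_lt hfibRA _ h1
            refine lt_of_le_of_lt ?_ h2
            exact ringKrullDim_le_of_surjective (Ideal.Quotient.factor Ideal.map_comap_le)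
              (Ideal.Quotient.factor_surjective _)
        have hJ2 : J ≤ Module.annihilator A (A ⊗[R] (R ⧸ P.1)) := by
          rw [hJdef, Ideal.map_le_iff_le_comap]
          intro a ha
          rw [Ideal.mem_comap, Module.mem_annihilator]
          intro z
          rw [algebraMap_smul]
          have ha' : a ∈ Module.annihilator R (R ⧸ P.1) := by
            rw [Ideal.annihilator_quotient]
            exact ha
          induction z with
          | zero => rw [smul_zero]
          | add u v hu hv => rw [smul_add, hu, hv, add_zero]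
          | tmul s v =>
            rw [← TensorProduct.tmul_smul, (Module.mem_annihilator.mp ha') v,
              TensorProduct.tmul_zero]
        obtain ⟨r1, h11, h12⟩ := akchi_rho y xA hfibA hy hyl hfibAA hxAm hxAl J
          (P.1.comap ρ) hQ (RM ρ (R ⧸ P.1)) inferInstance hJ1
        obtain ⟨r2, h21, h22⟩ := akchi_rho y xA hfibA hy hyl hfibAA hxAm hxAl J
          (P.1.comap ρ) hQ (A ⊗[R] (R ⧸ P.1)) inferInstance hJ2
        rw [kchi_congr xA (TensorProduct.lid A _)] at h12 h22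
        have e1 : kchi xA (RM ρ (R ⧸ P.1)) = ((p ^ e : ℕ) : ℤ) ^ n * kchi x (R ⧸ P.1) := by
          rw [← kchi_pow x hx _ hq (R ⧸ P.1) (hlenx _)]
          unfold kchi
          refine Finset.sum_congr rfl fun i _ => ?_
          rw [akchi_kk ρ hres, hxq]
        have e2 : kchi xA (A ⊗[R] (R ⧸ P.1)) = kchi x (R ⧸ P.1) := by
          unfold kchi
          refine Finset.sum_congr rfl fun i _ => ?_
          rw [hxA, kk_flat x (R ⧸ P.1) 1 hlen1 i (kk_ne_top x _ (hlenx _) i), Nat.cast_one,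
            one_mul]
        rw [e1] at h12
        rw [e2] at h22
        have h3 : 0 < kchi x (R ⧸ P.1) := by
          refine kchi_pos x hx P.1 ?_ heq
          exact ne_top_of_le_ne_top hxl (Module.length_le_of_surjective
            (Submodule.factor le_sup_right) (Submodule.factor_surjective _))
        have h4 : kchi xA (A ⊗[A] (A ⧸ P.1.comap ρ)) ≠ 0 := by
          intro h0
          rw [h0, mul_zero] at h22
          exact h3.ne' h22
        have h5 : r1 = ((p ^ e : ℕ) : ℤ) ^ n * r2 := by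
          refine mul_right_cancel₀ h4 ?_
          rw [← h12, mul_assoc, ← h22]
        rw [h11, h5, mul_assoc, ← h21]
        congr 1
        exact kchi_congr y (TensorProduct.AlgebraTensorModule.cancelBaseChange R A S₁ S₁ (R ⧸ P.1))
    · intro N₁ _ _ _ N₂ _ _ _ N₃ _ _ _ f g hf hg hfg h1 h3
      have := akchi_finite ρ N₁
      have := akchi_finite ρ N₂
      have := akchi_finite ρ N₃
      rw [psi_add y hyl (akchi_map ρ f) (akchi_map ρ g) hf hg hfg, h1, h3,
        psi_add y hyl f g hf hg hfg, mul_add]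
  let φ : RA ρ ≃ₗ[A] RM ρ R :=
    { toFun := fun a => a
      invFun := fun a => a
      map_add' := fun _ _ => rfl
      map_smul' := fun _ _ => rfl
      left_inv := fun _ => rfl
      right_inv := fun _ => rfl }
  rw [psi_congr y φ, key R, kchi_congr y (TensorProduct.AlgebraTensorModule.rid R S₁ S₁)]

end RelF

end Vale.Agent.P202.CharP.ArbK
end

section

/-!
P202-GEN3, E1: the minimal length of the graded pieces is at most the Euler characteristic.
-/

set_option linter.unusedSectionVars false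
set_option linter.unusedVariables false

namespace Vale.Agent.P202.CharP.Gen3

open Submodule IsLocalRing

universe u v

theorem pow_span_pow_le {B : Type*} [CommRing B] {n : ℕ} (x : Fin n → B) (t w : ℕ) :
    Ideal.span (Set.range fun i => x i ^ t) ^ w ≤ Ideal.span (Set.range x) ^ (t * w) := by
  rw [pow_mul]
  refine Ideal.pow_right_mono ?_ w
  rw [Ideal.span_le]
  rintro _ ⟨i, rfl⟩
  exact Ideal.pow_mem_pow (Ideal.subset_span (Set.mem_range_self i)) t

theorem ell_pow_le_card_mul {B : Type*} [CommRing B] {n : ℕ} (x : Fin n → B) (w : ℕ) :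
    ell (Ideal.span (Set.range x) ^ w) ≤
      ((tri (Fin n) w).card : ℕ∞) * ell (Ideal.span (Set.range x)) := by
  rw [ell_pow_eq, ← gp_zero_eq, ← nsmul_eq_mul, ← Finset.sum_const]
  exact Finset.sum_le_sum fun u _ => gp_le_zero x u

/-- E1a. -/
theorem emin_mul_pow_le {B : Type*} [CommRing B] {n : ℕ} (hn : 0 < n) (x : Fin n → B) (t : ℕ)
    (ht : 1 ≤ t) (lam L : ℕ) (hlam : emin x = lam)
    (hL : ell (Ideal.span (Set.range fun i => x i ^ t)) = L) : lam * t ^ n ≤ L := by
  refine le_of_forall_pow_le hn (lam * t ^ n) L 0 n fun w hw => ?_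
  have h1 := emin_mul_card_le x (t * w)
  have h2 : ell (Ideal.span (Set.range x) ^ (t * w)) ≤
      ell (Ideal.span (Set.range fun i => x i ^ t) ^ w) := ell_mono (pow_span_pow_le x t w)
  have h3 := ell_pow_le_card_mul (fun i => x i ^ t) w
  rw [hL] at h3
  rw [hlam] at h1
  have h4 : lam * (tri (Fin n) (t * w)).card ≤ (tri (Fin n) w).card * L := by
    exact_mod_cast h1.trans (h2.trans h3)
  have h5 := pow_le_factorial_mul_card_tri (σ := Fin n) (t * w) (by positivity)
  have h6 := factorial_mul_card_tri_le (σ := Fin n) w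
  rw [Fintype.card_fin] at h5 h6
  calc lam * t ^ n * w ^ n = lam * (t * w) ^ n := by rw [mul_pow]; ring
    _ ≤ lam * (n.factorial * (tri (Fin n) (t * w)).card) := Nat.mul_le_mul_left _ h5
    _ = n.factorial * (lam * (tri (Fin n) (t * w)).card) := by ring
    _ ≤ n.factorial * ((tri (Fin n) w).card * L) := Nat.mul_le_mul_left _ h4
    _ = L * (n.factorial * (tri (Fin n) w).card) := by ring
    _ ≤ L * (w + n) ^ n := Nat.mul_le_mul_left _ h6
    _ = L * (w + n) ^ n + 0 * (w + n) ^ (n - 1) := by ring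

variable {B : Type u} [CommRing B] [IsNoetherianRing B] [IsLocalRing B]

/-- E1. -/
theorem emin_le_kchi {n : ℕ} (hn : 0 < n) (x : Fin n → B) (hx : ∀ i, x i ∈ maximalIdeal B)
    (hxl : ell (Ideal.span (Set.range x)) ≠ ⊤) (lam : ℕ) (hlam : emin x = lam) :
    (lam : ℤ) ≤ kchi x B := by
  have e : ∀ z : Fin n → B, (Ideal.span (Set.range z) • (⊤ : Submodule B B)) =
      Ideal.span (Set.range z) := fun z => by
    rw [smul_eq_mul, Ideal.mul_top]
  have hxl' : Module.length B (B ⧸ (Ideal.span (Set.range x) • (⊤ : Submodule B B))) ≠ ⊤ := by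
    rw [e]
    exact hxl
  have hpf : PF x B := pf_of_length_ne_top hxl'
  obtain ⟨C, hC⟩ := kk_growth (M := B) hpf
  have h0 := kchi_nonneg x hx B hxl'
  obtain ⟨K, hK⟩ := Int.eq_ofNat_of_zero_le h0
  rw [hK]
  have key : lam ≤ K := le_of_forall_pow_le (d := n + 1) (Nat.succ_pos n) lam K (n * C) 0
      fun t ht => by
    have hpt : PF (fun i => x i ^ t) B := pf_pow hpf t
    have hfin : ell (Ideal.span (Set.range fun i => x i ^ t)) ≠ ⊤ := by
      have := hpt.length_ne_top
      rw [e] at this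
      exact this
    obtain ⟨L, hL⟩ := ENat.ne_top_iff_exists.mp hfin
    have h1 := emin_mul_pow_le hn x t ht lam L hlam hL.symm
    have h2 : kk (fun i => x i ^ t) B 0 = L := by
      rw [kk_zero, e, hL]
      rfl
    have h3 := kchi_pow x hx t ht B hxl'
    -- bound of the higher homology
    have hfk : ∀ i : ℤ, kk (fun i => x i ^ t) B i ≠ ⊤ := fun i => hpt.kk_ne_top i
    have h4 : ∀ i : ℤ, 1 ≤ i → t * (kk (fun i => x i ^ t) B i).toNat ≤ C * t ^ n := by
      intro i hi
      have h5 := (hC t ht i).2 hi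
      have h6 := ENat.toNat_le_toNat h5 (ENat.natCast_ne_top _)
      rw [ENat.toNat_mul, ENat.toNat_natCast, ENat.toNat_natCast] at h6
      exact h6
    have h7 : (t : ℤ) * ((kk (fun i => x i ^ t) B 0).toNat : ℤ) ≤
        t * kchi (fun i => x i ^ t) B + n * (C * (t : ℤ) ^ n) := by
      unfold kchi
      rw [Finset.sum_range_succ']
      have h8 : ∀ i ∈ Finset.range n, -((C : ℤ) * (t : ℤ) ^ n) ≤
          t * ((-1 : ℤ) ^ (i + 1) * ((kk (fun i => x i ^ t) B ((i + 1 : ℕ) : ℤ)).toNat : ℤ)) := by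
        intro i _
        have h9 : (t : ℤ) * ((kk (fun i => x i ^ t) B ((i + 1 : ℕ) : ℤ)).toNat : ℤ) ≤
            C * (t : ℤ) ^ n := by
          exact_mod_cast h4 ((i + 1 : ℕ) : ℤ) (by push_cast; omega)
        have h10 : (0 : ℤ) ≤ (t : ℤ) * ((kk (fun i => x i ^ t) B ((i + 1 : ℕ) : ℤ)).toNat : ℤ) :=
          by positivity
        rcases neg_one_pow_eq_or ℤ (i + 1) with h6 | h6 <;> rw [h6] <;> linarith
      have h11 := Finset.sum_le_sum h8
      rw [Finset.sum_const, Finset.card_range, nsmul_eq_mul, ← Finset.mul_sum] at h11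
      simp only [pow_zero, one_mul, Nat.cast_zero]
      rw [mul_add]
      linarith
    rw [h2, h3, hK, ENat.toNat_natCast] at h7
    have h12 : t * L ≤ t * (t ^ n * K) + n * (C * t ^ n) := by exact_mod_cast h7
    rw [Nat.add_sub_cancel, add_zero]
    calc lam * t ^ (n + 1) = t * (lam * t ^ n) := by ring
      _ ≤ t * L := Nat.mul_le_mul_left _ h1
      _ ≤ t * (t ^ n * K) + n * (C * t ^ n) := h12
      _ = K * t ^ (n + 1) + n * C * t ^ n := by ring
  exact_mod_cast key

end Vale.Agent.P202.CharP.Gen3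
end

section

/-!
P202-CHARP, REAL: multiplication by elements of `A'` on `S ⊗ (A' ⊗ Λ)`.
-/

namespace Vale.Agent.P202.CharP

open Submodule TensorProduct IsLocalRing

section

variable {B : Type*} [CommRing B] {Λ : Type*} [AddCommGroup Λ] [Module B Λ]
  (A : Type*) {A' : Type*} [CommRing A] [CommRing A'] [Algebra A A'] [Algebra B A']

variable (S : Type*) [CommRing S] [Algebra A S]

end

end Vale.Agent.P202.CharP
end

section

/-!
P202-CHARP, REAL: the inequality for one twist.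
-/

namespace Vale.Agent.P202.CharP

open Submodule TensorProduct IsLocalRing

section MonPart

variable {κ : Type*} [Field κ] {r : ℕ}

end MonPart

section Transfer

variable {B : Type*} [CommRing B] {Λ : Type*} [AddCommGroup Λ] [Module B Λ]
  (A A' : Type*) [CommRing A] [CommRing A'] [Algebra A A'] [Algebra B A']

end Transfer

section Real

variable {κ : Type*} [Field κ] {r : ℕ} {A A' S : Type*} [CommRing A] [CommRing A'] [CommRing S]
  [Algebra (PP κ r) A'] [Algebra A A'] [Algebra A S]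

end Real

end Vale.Agent.P202.CharP
end

section

namespace Vale.Agent.P202.CharP

open Submodule TensorProduct IsLocalRing Filter Topology

/-- ranks attached to the Betti-type numbers `t`. -/
lemma exists_ranks (n : ℕ) (t : ℤ → ℕ) (ht : ∀ i, (n : ℤ) < i → t i = 0) :
    ∃ rr : ℤ → ℤ, (∀ i, (t i : ℤ) = rr i + rr (i + 1)) ∧ ∀ i, (n : ℤ) < i → rr i = 0 := by
  refine ⟨fun i => ∑ k ∈ Finset.range ((n + 1 - i : ℤ)).toNat, (-1) ^ k * (t (i + k) : ℤ),
    fun i => ?_, fun i hi => ?_⟩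
  · by_cases h : i ≤ n
    · obtain ⟨K, hK⟩ : ∃ K : ℕ, ((n + 1 - i : ℤ)).toNat = K + 1 :=
        ⟨((n - i : ℤ)).toNat, by omega⟩
      have hK' : ((n + 1 - (i + 1) : ℤ)).toNat = K := by omega
      simp only [hK, hK']
      rw [Finset.sum_range_succ', add_right_comm, ← Finset.sum_add_distrib,
        Finset.sum_eq_zero, zero_add]
      · simp
      · intro k _
        have : i + ((k + 1 : ℕ) : ℤ) = i + 1 + k := by push_cast; ring
        rw [this, pow_succ]
        ring
    · have h1 : ((n + 1 - i : ℤ)).toNat = 0 := by omega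
      have h2 : ((n + 1 - (i + 1) : ℤ)).toNat = 0 := by omega
      simp only [h1, h2, ht i (by omega), Finset.range_zero, Finset.sum_empty, Nat.cast_zero,
        add_zero]
  · have : ((n + 1 - i : ℤ)).toNat = 0 := by omega
    simp [this]

/-- the final limit argument. -/
lemma le_of_frobenius_growth (p : ℕ) (hp : 2 ≤ p) (n s : ℕ) (hn : 0 < n) (f : ℤ) (hf : 0 < f)
    (t0 lam C K : ℤ) (hC : 0 ≤ lam * C)
    (h : ∀ e Q : ℕ, 1 ≤ Q → p ^ e = Q + s →
      lam * (f * (Q : ℤ) ^ n * t0 - C * (Q : ℤ) ^ (n - 1)) ≤ f * ((p ^ e : ℕ) : ℤ) ^ n * K) :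
    t0 * lam ≤ K := by
  have hN : Tendsto (fun e : ℕ => p ^ e) atTop atTop :=
    tendsto_pow_atTop_atTop_of_one_lt (by omega)
  have h1 : Tendsto (fun N : ℕ => (lam * f * t0 : ℝ) * (((N - s : ℕ) : ℝ) ^ n / (N : ℝ) ^ n) -
      (lam * C : ℝ) * (((N + 0 : ℕ) : ℝ) ^ (n - 1) / (N : ℝ) ^ n)) atTop
      (𝓝 ((lam * f * t0 : ℝ) * 1 - (lam * C : ℝ) * 0)) :=
    ((tendsto_shift_down s n).const_mul _).sub ((tendsto_lower_ratio 0 n hn).const_mul _)
  have h2 := h1.comp hN
  have h3 : (lam * f * t0 : ℝ) * 1 - (lam * C : ℝ) * 0 ≤ f * K := by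
    refine le_of_tendsto h2 ?_
    filter_upwards [hN.eventually_gt_atTop s] with e he
    simp only [Function.comp_apply]
    have hq : (0 : ℝ) < ((p ^ e : ℕ) : ℝ) ^ n := by
      have : 0 < p ^ e := by positivity
      positivity
    have h4 := h e (p ^ e - s) (by omega) (by omega)
    have h5 : (lam : ℝ) * (f * ((p ^ e - s : ℕ) : ℝ) ^ n * t0 -
        C * ((p ^ e - s : ℕ) : ℝ) ^ (n - 1)) ≤ f * ((p ^ e : ℕ) : ℝ) ^ n * K := by
      exact_mod_cast h4
    have h6 : (lam * C : ℝ) * ((p ^ e - s : ℕ) : ℝ) ^ (n - 1) ≤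
        (lam * C : ℝ) * ((p ^ e + 0 : ℕ) : ℝ) ^ (n - 1) := by
      have hC' : (0 : ℝ) ≤ lam * C := by exact_mod_cast hC
      refine mul_le_mul_of_nonneg_left ?_ hC'
      refine pow_le_pow_left₀ (by positivity) ?_ _
      exact_mod_cast (by omega : p ^ e - s ≤ p ^ e + 0)
    rw [mul_div_assoc', mul_div_assoc', ← sub_div, div_le_iff₀ hq]
    nlinarith
  have h7 : (f : ℝ) * (t0 * lam) ≤ f * K := by linarith
  have hf' : (0 : ℝ) < f := by exact_mod_cast hf
  have h8 := le_of_mul_le_mul_left h7 hf'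
  exact_mod_cast h8

section

variable (p : ℕ) [Fact p.Prime] {A : Type*} [CommRing A] [CharP A p] {r : ℕ}

/-- the `P`-algebra structure on `A` given by a sequence `x`. -/
@[reducible] noncomputable def algX (e : ℕ) (x : Fin (r + 1) → A) :
    Algebra (PP (ZMod p) r) (Fr p A e) :=
  letI := ZMod.algebra (Fr p A e) p
  (MvPolynomial.aeval (fun l => toFr p A e (x l))).toRingHom.toAlgebra

end

lemma length_fibre_quot {B : Type*} [CommRing B] (I J : Ideal B) :
    Module.length B ((B ⧸ I) ⧸ (J • (⊤ : Submodule B (B ⧸ I)))) =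
      Module.length B (B ⧸ (I ⊔ J)) := by
  let f : B →ₗ[B] ((B ⧸ I) ⧸ (J • (⊤ : Submodule B (B ⧸ I)))) :=
    (Submodule.mkQ _).comp (Submodule.mkQ I)
  have hf : Function.Surjective f :=
    (Submodule.mkQ_surjective _).comp (Submodule.mkQ_surjective _)
  have hk : LinearMap.ker f = I ⊔ J := by
    ext a
    rw [LinearMap.mem_ker]
    change Submodule.Quotient.mk (Submodule.Quotient.mk a : B ⧸ I) = _ ↔ _
    rw [Submodule.Quotient.mk_eq_zero]
    have h1 : J • (⊤ : Submodule B (B ⧸ I)) = (J • (⊤ : Submodule B B)).map (Submodule.mkQ I) := by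
      rw [Submodule.map_smul'', Submodule.map_top, Submodule.range_mkQ]
    rw [h1]
    change a ∈ ((J • (⊤ : Submodule B B)).map (Submodule.mkQ I)).comap (Submodule.mkQ I) ↔ _
    rw [Submodule.comap_map_eq, Submodule.ker_mkQ, smul_eq_mul, Ideal.mul_top, sup_comm]
  rw [← hk]
  exact (LinearEquiv.length_eq (f.quotKerEquivOfSurjective hf)).symm

end Vale.Agent.P202.CharP
end

section

/-!
P202-G3-H7, algebraic properties of the concrete rings: towers, pushout, flatness, noetherian.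
-/

namespace Vale.Agent.P202.CharP.Gen2

open Submodule TensorProduct IsLocalRing Gen

universe u

section

/-- `F_p[X] → B[X]` is flat for every ring `B` of characteristic `p`. -/
theorem flat_mapChar (p : ℕ) [Fact p.Prime] (σ : Type*) (B : Type*) [CommRing B]
    (f : ZMod p →+* B) :
    @Module.Flat (MvPolynomial σ (ZMod p)) (MvPolynomial σ B) _ _
      (MvPolynomial.map f).toAlgebra.toModule := by
  let : Algebra (ZMod p) B := f.toAlgebra
  let : Algebra (MvPolynomial σ (ZMod p)) (MvPolynomial σ B) := (MvPolynomial.map f).toAlgebra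
  have : IsScalarTower (ZMod p) (MvPolynomial σ (ZMod p)) (MvPolynomial σ B) := by
    refine IsScalarTower.of_algebraMap_eq fun a => ?_
    show algebraMap (ZMod p) (MvPolynomial σ B) a =
      MvPolynomial.map f (algebraMap (ZMod p) (MvPolynomial σ (ZMod p)) a)
    rw [MvPolynomial.algebraMap_apply, MvPolynomial.algebraMap_apply, MvPolynomial.map_C]
    rfl
  have hp : Algebra.IsPushout (ZMod p) B (MvPolynomial σ (ZMod p)) (MvPolynomial σ B) := by
    constructor
    refine IsBaseChange.of_equiv (MvPolynomial.algebraTensorAlgEquiv (ZMod p) B).toLinearEquiv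
      fun x => ?_
    show MvPolynomial.algebraTensorAlgEquiv (ZMod p) B (1 ⊗ₜ[ZMod p] x) = MvPolynomial.map f x
    rw [MvPolynomial.algebraTensorAlgEquiv_tmul, one_smul]
    rfl
  exact Module.Flat.isBaseChange (ZMod p) (MvPolynomial σ (ZMod p)) B (MvPolynomial σ B)
    hp.symm.out

theorem rTensor_one_tmul {A S A' : Type*} [CommRing A] [CommRing S] [CommRing A'] [Algebra A S]
    [Algebra A A'] {σ : Type*} (x : MvPolynomial σ A') :
    MvPolynomial.rTensorAlgEquiv (R := A) (S := S) (1 ⊗ₜ[A] x) =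
      MvPolynomial.map (Algebra.TensorProduct.includeRight : A' →ₐ[A] S ⊗[A] A').toRingHom x := by
  refine MvPolynomial.ext _ _ fun d => ?_
  rw [MvPolynomial.coeff_rTensorAlgEquiv_tmul, MvPolynomial.coeff_map]
  rfl

end

section

variable (p r : ℕ) [Fact p.Prime] {A S A' : Type u} [CommRing A] [CommRing S] [CommRing A']
  [Algebra A S] [Algebra A A'] [CharP A' p]

/-- TASK G3-H7: algebraic properties of the rings. -/
theorem smulComm_Om : SMulCommClass (PP (ZMod p) r) A (OmR p r A') := by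
  refine ⟨fun q a x => ?_⟩
  rw [Algebra.smul_def, Algebra.smul_def, Algebra.smul_def, Algebra.smul_def, mul_left_comm]

/-- TASK G3-H7. -/
theorem towers : IsScalarTower A S (SgR p r A S A') ∧ IsScalarTower A (OmR p r A') (SgR p r A S A') ∧
    IsScalarTower (PP (ZMod p) r) (OmR p r A') (SgR p r A S A') := by
  refine ⟨?_, ?_, ?_⟩
  · show IsScalarTower A S (MvPolynomial (Fin (r + 1)) (S ⊗[A] A'))
    infer_instance
  · refine IsScalarTower.of_algebraMap_eq fun a => ?_
    show (algebraMap A (MvPolynomial (Fin (r + 1)) (S ⊗[A] A')) a) =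
      MvPolynomial.map (Algebra.TensorProduct.includeRight : A' →ₐ[A] S ⊗[A] A').toRingHom
        (algebraMap A (MvPolynomial (Fin (r + 1)) A') a)
    rw [MvPolynomial.algebraMap_apply, MvPolynomial.algebraMap_apply, MvPolynomial.map_C]
    congr 1
    exact ((Algebra.TensorProduct.includeRight : A' →ₐ[A] S ⊗[A] A').commutes a).symm
  · exact IsScalarTower.of_algebraMap_eq fun a => rfl

/-- TASK G3-H7. -/
theorem pushout_Sg : letI := (towers p r (A := A) (S := S) (A' := A')).1
    letI := (towers p r (A := A) (S := S) (A' := A')).2.1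
    Algebra.IsPushout A S (OmR p r A') (SgR p r A S A') := by
  have := (towers p r (A := A) (S := S) (A' := A')).1
  have := (towers p r (A := A) (S := S) (A' := A')).2.1
  constructor
  refine IsBaseChange.of_equiv (MvPolynomial.rTensorAlgEquiv (σ := Fin (r + 1)) (R := A) (N := A')
    (S := S)).toLinearEquiv fun x => ?_
  exact rTensor_one_tmul (σ := Fin (r + 1)) x

/-- TASK G3-H7. -/
theorem flat_Om : Module.Flat (PP (ZMod p) r) (OmR p r A') :=
  flat_mapChar p (Fin (r + 1)) A' (ZMod.castHom (dvd_refl p) A')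

/-- TASK G3-H7. -/
theorem flat_Sg : Module.Flat (PP (ZMod p) r) (SgR p r A S A') := by
  have h := flat_mapChar p (Fin (r + 1)) (S ⊗[A] A')
    ((Algebra.TensorProduct.includeRight : A' →ₐ[A] S ⊗[A] A').toRingHom.comp
      (ZMod.castHom (dvd_refl p) A'))
  have e : MvPolynomial.map (σ := Fin (r + 1))
      ((Algebra.TensorProduct.includeRight : A' →ₐ[A] S ⊗[A] A').toRingHom.comp
        (ZMod.castHom (dvd_refl p) A')) = (toSg p r A S A').comp (toOm p r A') := by
    refine RingHom.ext fun x => ?_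
    exact (MvPolynomial.map_map _ _ x).symm
  rw [e] at h
  exact h

/-- TASK G3-H7. -/
theorem noeth_Sg [IsNoetherianRing S] [Module.Finite A A'] :
    IsNoetherianRing (SgR p r A S A') := by
  have : IsNoetherianRing (S ⊗[A] A') := IsNoetherianRing.of_finite S (S ⊗[A] A')
  show IsNoetherianRing (MvPolynomial (Fin (r + 1)) (S ⊗[A] A'))
  infer_instance

/-- TASK G3-H7: the maximal ideal of the polynomial ring. -/
theorem mX_maximal (κ : Type*) [Field κ] (r : ℕ) : (mX κ r).IsMaximal := by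
  have h : mX κ r = RingHom.ker (MvPolynomial.constantCoeff (σ := Fin (r + 1)) (R := κ)) := by
    refine le_antisymm (Ideal.span_le.2 ?_) fun q hq => ?_
    · rintro _ ⟨l, rfl⟩
      exact MvPolynomial.constantCoeff_X κ l
    · rw [RingHom.mem_ker, MvPolynomial.constantCoeff_eq] at hq
      have h1 : q ∈ MvPolynomial.idealOfVars (Fin (r + 1)) κ ^ 1 := by
        rw [MvPolynomial.mem_pow_idealOfVars_iff']
        intro x hx
        have h0 : x = 0 := by
          rw [← Finsupp.degree_eq_zero_iff]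
          omega
        rw [h0, hq]
      rwa [pow_one] at h1
  rw [h]
  exact RingHom.ker_isMaximal_of_surjective _ fun x => ⟨MvPolynomial.C x, by simp⟩

end

end Vale.Agent.P202.CharP.Gen2
end

section

/-!
P202-G3-N6: vanishing of the inclusion of levels in the box model.
-/

namespace Vale.Agent.P202.CharP.Gen2

open Submodule TensorProduct Gen

namespace VanBoxAux

section Abs

variable {S : Type*} [CommRing S]

/-- null-homotopies for the elements of the ideal `(y)`. -/
theorem homotopy {n : ℕ} (y : Fin n → S) (c : S) (hc : c ∈ Ideal.span (Set.range y)) :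
    ∃ h : Matrix (KIdx n) (KIdx n) S,
    (∀ a b, h a b ≠ 0 → kdeg n a = kdeg n b + 1) ∧ kos n y * h + h * kos n y = c • 1 := by
  obtain ⟨c', hc'⟩ := (Ideal.mem_span_range_iff_exists_fun).mp hc
  choose h h1 h2 using kos_homotopy n y
  refine ⟨∑ l, c' l • h l, ?_, ?_⟩
  · intro a b hab
    by_contra hne
    apply hab
    rw [Matrix.sum_apply]
    refine Finset.sum_eq_zero fun l _ => ?_
    rw [Matrix.smul_apply]
    by_cases h0 : h l a b = 0
    · rw [h0, smul_zero]
    · exact absurd (h1 l a b h0) hne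
  · rw [Finset.mul_sum, Finset.sum_mul, ← Finset.sum_add_distrib, ← hc', Finset.sum_smul]
    refine Finset.sum_congr rfl fun l _ => ?_
    rw [Matrix.mul_smul, Matrix.smul_mul, ← smul_add, h2, smul_smul]

variable {ι : Type*} [Fintype ι] [DecidableEq ι] {M : Type*} [AddCommGroup M] [Module S M]

/-- one column: the lowest column of a relative cycle is a boundary modulo higher columns, after
raising the level. -/
theorem col_step (deg : ι → ℤ) (K h : Matrix ι ι S) (hK : ∀ a b, K a b ≠ 0 → deg b = deg a + 1)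
    (hh : ∀ a b, h a b ≠ 0 → deg a = deg b + 1) (ξ : S) (hξ : K * h + h * K = ξ • 1)
    (d : M →ₗ[S] M) (W W' X : ℤ → Submodule S M) (ρ ρ' : M →ₗ[S] M) (p δ : ℤ)
    (h1 : ∀ q, q < p → ∀ v ∈ W q, ρ v = v)
    (h2 : ∀ q, p < q → ∀ v ∈ W q, ρ' v = 0) (h3 : ∀ v ∈ W' (p + 1), ρ' v = 0)
    (hd : ∀ v ∈ W' p, d v ∈ W' (p + 1))
    (surj : ∀ v ∈ W p, ∃ v' ∈ W' p, v - ξ • v' ∈ X p)
    (inj : ∀ v ∈ W' p, ξ • v ∈ X p → v ∈ X p)
    (x : ι → M) (hx : x ∈ lift deg W δ) (hρ : ∀ a, ρ (x a) = 0)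
    (hD : tot deg K d x ∈ lift deg X (δ - 1)) :
    ∃ w ∈ lift deg W' (δ + 1), ∃ g ∈ lift deg X δ, ∀ a, ρ' ((x - tot deg K d w - g) a) = 0 := by
  rw [mem_lift] at hx hD
  have hx0 : ∀ b, deg b - δ < p → x b = 0 := fun b hb => by
    rw [← h1 _ hb _ (hx b), hρ]
  have hex : ∀ b, ∃ v', v' ∈ W' p ∧ (deg b - δ = p → x b - ξ • v' ∈ X p) ∧
      (deg b - δ ≠ p → v' = 0) := by
    intro b
    by_cases hb : deg b - δ = p
    · obtain ⟨v', hv', hv⟩ := surj (x b) (hb ▸ hx b)
      exact ⟨v', hv', fun _ => hv, fun h => absurd hb h⟩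
    · exact ⟨0, zero_mem _, fun h => absurd h hb, fun _ => rfl⟩
  choose x' hx'1 hx'2 hx'3 using hex
  have key : act K M x' ∈ lift deg X (δ - 1) := by
    rw [mem_lift]
    intro a
    by_cases ha : deg a - (δ - 1) = p
    · rw [ha]
      have hb : ∀ b, K a b ≠ 0 → deg b - δ = p := fun b hb => by
        have := hK a b hb
        omega
      refine inj _ (by
        rw [act_apply]
        exact sum_mem fun b _ => Submodule.smul_mem _ _ (hx'1 b)) ?_
      have e1 : ξ • act K M x' a = tot deg K d x a - ∑ b, K a b • (x b - ξ • x' b) := by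
        rw [tot_apply, hx0 a (by omega), map_zero, smul_zero, add_zero, act_apply,
          Finset.smul_sum, ← Finset.sum_sub_distrib]
        refine Finset.sum_congr rfl fun b _ => ?_
        rw [← smul_sub, sub_sub_cancel, smul_comm]
      rw [e1]
      refine sub_mem (ha ▸ hD a) (sum_mem fun b _ => ?_)
      by_cases hKb : K a b = 0
      · rw [hKb, zero_smul]
        exact zero_mem _
      · exact Submodule.smul_mem _ _ (hx'2 b (hb b hKb))
    · have : act K M x' a = 0 := by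
        rw [act_apply]
        refine Finset.sum_eq_zero fun b _ => ?_
        by_cases hKb : K a b = 0
        · rw [hKb, zero_smul]
        · rw [hx'3 b (by have := hK a b hKb; omega), smul_zero]
      rw [this]
      exact zero_mem _
  have hw0 : ∀ a, deg a - (δ + 1) ≠ p → act h M x' a = 0 := by
    intro a ha
    rw [act_apply]
    refine Finset.sum_eq_zero fun b _ => ?_
    by_cases hb : h a b = 0
    · rw [hb, zero_smul]
    · rw [hx'3 b (by have := hh a b hb; omega), smul_zero]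
  have hwp : ∀ a, act h M x' a ∈ W' p := fun a => act_mem h hx'1 a
  refine ⟨act h M x', ?_, (fun a => if deg a - δ = p then x a - ξ • x' a else 0) +
    act h M (act K M x'), ?_, ?_⟩
  · rw [mem_lift]
    intro a
    by_cases ha : deg a - (δ + 1) = p
    · rw [ha]
      exact hwp a
    · rw [hw0 a ha]
      exact zero_mem _
  · refine add_mem ?_ ?_
    · rw [mem_lift]
      intro a
      by_cases ha : deg a - δ = p
      · simp only [if_pos ha]
        rw [ha]
        exact hx'2 a ha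
      · simp only [if_neg ha]
        exact zero_mem _
    · rw [mem_lift] at key ⊢
      intro a
      rw [act_apply]
      refine sum_mem fun b _ => ?_
      by_cases hb : h a b = 0
      · rw [hb, zero_smul]
        exact zero_mem _
      · refine Submodule.smul_mem _ _ ?_
        have := key b
        rwa [show deg b - (δ - 1) = deg a - δ by have := hh a b hb; omega] at this
  · intro a
    have e1 : act K M (act h M x') = ξ • x' - act h M (act K M x') := by
      rw [← act_mul, ← act_mul, eq_sub_iff_add_eq, ← act_add, hξ, act_smul, act_one]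
    have e2 : (x - tot deg K d (act h M x') -
        ((fun a => if deg a - δ = p then x a - ξ • x' a else 0) + act h M (act K M x'))) a =
        (x a - ξ • x' a - (if deg a - δ = p then x a - ξ • x' a else 0)) -
          ((deg a).negOnePow : ℤ) • d (act h M x' a) := by
      rw [Pi.sub_apply, Pi.sub_apply, Pi.add_apply, tot_eq, e1, Pi.sub_apply, Pi.smul_apply]
      abel
    rw [e2, map_sub, map_zsmul]
    have e3 : ρ' (d (act h M x' a)) = 0 := by
      by_cases ha : deg a - (δ + 1) = p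
      · exact h3 _ (hd _ (hwp a))
      · rw [hw0 a ha, map_zero, map_zero]
    rw [e3, smul_zero, sub_zero]
    by_cases ha : deg a - δ = p
    · rw [if_pos ha, sub_self, map_zero]
    · rw [if_neg ha, sub_zero, hx'3 a ha, smul_zero, sub_zero]
      rcases lt_or_gt_of_ne ha with h' | h'
      · rw [hx0 a h', map_zero]
      · exact h2 _ h' _ (hx a)

end Abs

section BC

variable {A : Type*} [CommRing A] {V : Type*} [AddCommGroup V] [Module A V]
  (S : Type*) [CommRing S] [Algebra A S]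

theorem bc_congr (φ ψ : V →ₗ[A] V) (X : Submodule A V) (h : ∀ x ∈ X, φ x = ψ x) :
    ∀ y ∈ X.baseChange S, φ.baseChange S y = ψ.baseChange S y := by
  have h1 : X.baseChange S ≤ LinearMap.eqLocus (φ.baseChange S) (ψ.baseChange S) := by
    rw [Submodule.baseChange_eq_span S X, span_le]
    rintro _ ⟨x, hx, rfl⟩
    change φ.baseChange S (1 ⊗ₜ[A] x) = ψ.baseChange S (1 ⊗ₜ[A] x)
    rw [LinearMap.baseChange_tmul, LinearMap.baseChange_tmul, h x hx]
  exact fun y hy => h1 hy

theorem bc_lsmul (a : A) (y : S ⊗[A] V) :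
    (LinearMap.lsmul A V a).baseChange S y = algebraMap A S a • y := by
  induction y using TensorProduct.induction_on with
  | zero => rw [map_zero, smul_zero]
  | tmul s v =>
    rw [LinearMap.baseChange_tmul, LinearMap.lsmul_apply, TensorProduct.tmul_smul,
      TensorProduct.smul_tmul', TensorProduct.smul_tmul', Algebra.smul_def, smul_eq_mul]
  | add y z hy hz => rw [map_add, hy, hz, smul_add]

end BC

section Col

variable (κ : Type*) [Field κ] (r : ℕ)

/-- projection onto the columns `< p`. -/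
noncomputable def plt (p : ℕ) : Lam κ r →ₗ[PP κ r] Lam κ r where
  toFun f I := if I.card < p then f I else 0
  map_add' f g := by
    funext I
    by_cases h : I.card < p <;> simp [h]
  map_smul' c f := by
    funext I
    by_cases h : I.card < p <;> simp [h]

variable {κ r}

theorem plt_apply (p : ℕ) (f : Lam κ r) (I : Finset (Fin r)) :
    plt κ r p f I = if I.card < p then f I else 0 := rfl

theorem plt_zero (f : Lam κ r) : plt κ r 0 f = (0 : Lam κ r →ₗ[PP κ r] Lam κ r) f := by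
  funext I
  rw [plt_apply, if_neg (by omega)]
  rfl

theorem plt_top (f : Lam κ r) : plt κ r (r + 1) f = (LinearMap.id : Lam κ r →ₗ[PP κ r] Lam κ r) f := by
  funext I
  have h : I.card ≤ r := by
    have := Finset.card_le_univ I
    rwa [Fintype.card_fin] at this
  rw [plt_apply, if_pos (by omega)]
  rfl

theorem MF_col {E : Set (Finset (Fin r) × Gx r)} (hE : Up E) {q : ℤ} {f : Lam κ r}
    (hf : f ∈ MF κ E q) (I : Finset (Fin r)) (hI : (I.card : ℤ) ≠ q) : f I = 0 := by
  rw [MF, mem_Mon (up_grd hE _)] at hf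
  apply mb_lau_ext
  intro g
  rw [cf_zero]
  by_contra hg
  exact hI (hf I g hg).2

theorem plt_lt {E : Set (Finset (Fin r) × Gx r)} (hE : Up E) {q : ℤ} {p : ℕ} (hq : q < p)
    (f : Lam κ r) (hf : f ∈ MF κ E q) :
    plt κ r p f = (LinearMap.id : Lam κ r →ₗ[PP κ r] Lam κ r) f := by
  funext I
  rw [plt_apply]
  split_ifs with h
  · rfl
  · rw [LinearMap.id_apply, MF_col hE hf I (by omega)]

theorem plt_ge {E : Set (Finset (Fin r) × Gx r)} (hE : Up E) {q : ℤ} {p : ℕ} (hq : (p : ℤ) ≤ q)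
    (f : Lam κ r) (hf : f ∈ MF κ E q) :
    plt κ r p f = (0 : Lam κ r →ₗ[PP κ r] Lam κ r) f := by
  funext I
  rw [plt_apply]
  split_ifs with h
  · rw [MF_col hE hf I (by omega)]
    rfl
  · rfl

theorem plt_dC (p : ℕ) (f : Lam κ r) (hf : plt κ r p f = 0) : plt κ r p (dC κ r f) = 0 := by
  funext I
  rw [plt_apply]
  split_ifs with h
  · rw [mb_dC_apply]
    refine Finset.sum_eq_zero fun i hi => ?_
    have h1 := congrFun hf (I.erase i)
    rw [plt_apply, if_pos (by
      have := Finset.card_erase_add_one hi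
      omega)] at h1
    rw [h1]
    exact smul_zero _
  · rfl

end Col

end VanBoxAux

open VanBoxAux

section

universe v w

variable {κ : Type w} [Field κ] {r : ℕ} {S : Type v} [CommRing S] [IsNoetherianRing S]
  [Algebra (PP κ r) S] [Module.Flat (PP κ r) S]

omit [Module.Flat (PP κ r) S] [IsNoetherianRing S] in
theorem VanBoxAux.dd_bc (y : S ⊗[PP κ r] Lam κ r) :
    (dC κ r).baseChange S ((dC κ r).baseChange S y) = 0 := by
  have : (dC κ r).baseChange S ∘ₗ (dC κ r).baseChange S = 0 := by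
    rw [← LinearMap.baseChange_comp]
    have h0 : dC κ r ∘ₗ dC κ r = 0 := LinearMap.ext fun v => dC_dC v
    rw [h0, LinearMap.baseChange_zero]
  exact LinearMap.congr_fun this y

omit [Module.Flat (PP κ r) S] [IsNoetherianRing S] in
theorem VanBoxAux.DB_DB {n : ℕ} (L : Fin n → S) (x : KIdx n → S ⊗[PP κ r] Lam κ r) :
    DB κ r S L (DB κ r S L x) = 0 :=
  tot_tot (kdeg n) (kos n L) (kos_isCx n L) _ VanBoxAux.dd_bc x

theorem VanBoxAux.cstab_SW (a : Fin r → ℤ) (Q k' : ℕ) : CStab (dC κ r) (MF κ (SW a Q k')) := by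
  refine cstab_MF (up_SW a Q k') ?_
  rintro I g i (⟨h1, j, hj, h2⟩ | ⟨h1, h2⟩) hi
  · exact Or.inl ⟨fun l hl => h1 l fun h => hl (Finset.mem_insert_of_mem h), j,
      Finset.mem_insert_of_mem hj, h2⟩
  · exact Or.inr ⟨fun l hl => h1 l fun h => hl (Finset.mem_insert_of_mem h), h2⟩

omit [IsNoetherianRing S] in
theorem VanBoxAux.cstab_bcf (Y : ℤ → Submodule (PP κ r) (Lam κ r)) (hY : CStab (dC κ r) Y) :
    CStab ((dC κ r).baseChange S) (bcf S Y) := by
  intro p x hx
  have h1 : (Y p).baseChange S ≤ ((Y (p + 1)).baseChange S).comap ((dC κ r).baseChange S) := by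
    rw [← baseChange_comap]
    exact baseChange_mono S fun v hv => hY p v hv
  exact h1 hx

omit [IsNoetherianRing S] in
theorem VanBoxAux.van_box1 (a : Fin r → ℤ) (Q : ℕ) (hQ : 1 ≤ Q) (M k : ℕ) {n : ℕ} (L : Fin n → S)
    (hM : ∀ l : Fin (r + 1), (algebraMap (PP κ r) S (MvPolynomial.X l)) ^ M ∈
      Ideal.span (Set.range L)) (δ : ℤ) :
    zz (DB κ r S L) (lift (kdeg n) (bcf S (MF κ (SW a Q k)))) (WI κ a S n) δ ≤
      bb (DB κ r S L) (lift (kdeg n) (bcf S (MF κ (SW a Q (k + (r + 1) * M))))) (WI κ a S n) δ := by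
  have hSGSW : ∀ k' p, MF κ (SG a) p ≤ MF κ (SW a Q k') p := by
    intro k' p f hf
    rw [MF, mem_Mon (up_grd (up_SG a) _)] at hf
    rw [MF, mem_Mon (up_grd (up_SW a Q k') _)]
    exact fun I g hg => ⟨Or.inl (hf I g hg).1, (hf I g hg).2⟩
  have hSWSF : ∀ k' p, MF κ (SW a Q k') p ≤ MF κ (SF r) p := by
    intro k' p f hf
    rw [MF, mem_Mon (up_grd (up_SW a Q k') _)] at hf
    rw [MF, mem_Mon (up_grd up_SF _)]
    intro I g hg
    obtain ⟨h1, h2⟩ := hf I g hg
    refine ⟨?_, h2⟩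
    rcases h1 with h1 | h1
    · exact h1.1
    · exact h1.1
  have hmono : ∀ k₁ k₂, k₁ ≤ k₂ → ∀ p, MF κ (SW a Q k₁) p ≤ MF κ (SW a Q k₂) p := by
    intro k₁ k₂ h12 p f hf
    rw [MF, mem_Mon (up_grd (up_SW a Q _) _)] at hf ⊢
    intro I g hg
    obtain ⟨h1, h2⟩ := hf I g hg
    refine ⟨?_, h2⟩
    rcases h1 with h1 | ⟨h1, h3⟩
    · exact Or.inl h1
    · refine Or.inr ⟨h1, le_trans ?_ h3⟩
      refine mul_le_mul_of_nonneg_right ?_ (by positivity)
      have : (k₁ : ℤ) ≤ k₂ := by exact_mod_cast h12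
      linarith
  have hcsSG : CStab (dC κ r) (MF κ (SG a)) := by
    refine cstab_MF (up_SG a) ?_
    rintro I g i ⟨h1, j, hj, h2⟩ hi
    refine ⟨fun l hl => h1 l fun h => hl (Finset.mem_insert_of_mem h), j,
      Finset.mem_insert_of_mem hj, h2⟩
  have hcsSW : ∀ k', CStab (dC κ r) (MF κ (SW a Q k')) := VanBoxAux.cstab_SW a Q
  have hcbc : ∀ (Y : ℤ → Submodule (PP κ r) (Lam κ r)), CStab (dC κ r) Y →
      CStab ((dC κ r).baseChange S) (bcf S Y) := VanBoxAux.cstab_bcf
  have hDD : ∀ x, DB κ r S L (DB κ r S L x) = 0 := VanBoxAux.DB_DB L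
  let U : ℕ → ℤ → Submodule S (KIdx n → S ⊗[PP κ r] Lam κ r) := fun c =>
    lift (kdeg n) (bcf S (MF κ (SW a Q (k + c * M))))
  let Fil : ℕ → Submodule S (KIdx n → S ⊗[PP κ r] Lam κ r) := fun p =>
    Submodule.pi Set.univ fun _ => LinearMap.ker ((plt κ r p).baseChange S)
  have hFil : ∀ p x, x ∈ Fil p ↔ ∀ b, (plt κ r p).baseChange S (x b) = 0 := by
    intro p x
    simp [Fil, Submodule.mem_pi]
  have hmain := gacyc_el (DB κ r S L) hDD (WI κ a S n)
    (lift_stab (kdeg n) (kos n L) (kos_isCx n L) _ _ (hcbc _ hcsSG)) U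
    (fun c => lift_stab (kdeg n) (kos n L) (kos_isCx n L) _ _ (hcbc _ (hcsSW _)))
    (fun c δ => lift_mono (kdeg n) (fun p => baseChange_mono S
      (hmono _ _ (by nlinarith) p)) δ)
    (fun δ => lift_mono (kdeg n) (fun p => baseChange_mono S (hSGSW _ p)) δ)
    (r + 1) Fil ?_ ?_ ?_ ?_ δ
  · have e0 : U 0 = lift (kdeg n) (bcf S (MF κ (SW a Q k))) := by
      simp only [U]
      rw [zero_mul, add_zero]
    rw [e0] at hmain
    exact hmain
  · rw [eq_top_iff]
    intro x _
    rw [hFil]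
    intro b
    have := bc_congr S (plt κ r 0) 0 ⊤ (fun v _ => plt_zero v) (x b)
      (by rw [Submodule.baseChange_top]; trivial)
    rw [this, LinearMap.baseChange_zero, LinearMap.zero_apply]
  · intro c δ x hx
    have h1 := (hFil _ _).1 hx.2
    have : x = 0 := by
      funext b
      have h2 := bc_congr S (plt κ r (r + 1)) LinearMap.id ⊤ (fun v _ => plt_top v) (x b)
        (by rw [Submodule.baseChange_top]; trivial)
      rw [h1 b, LinearMap.baseChange_id, LinearMap.id_apply] at h2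
      exact h2.symm
    rw [this]
    exact zero_mem _
  · intro p x hx
    rw [hFil] at hx ⊢
    intro b
    rw [DB, tot_apply, map_add, map_sum, map_zsmul]
    have h1 : ∀ y : S ⊗[PP κ r] Lam κ r, (plt κ r p).baseChange S y = 0 →
        (plt κ r p).baseChange S ((dC κ r).baseChange S y) = 0 := by
      intro y hy
      have h2 : LinearMap.ker ((plt κ r p).baseChange S) ≤
          (LinearMap.ker ((plt κ r p).baseChange S)).comap ((dC κ r).baseChange S) := by
        rw [ker_baseChange, ← baseChange_comap]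
        exact baseChange_mono S fun v hv => plt_dC p v hv
      exact h2 hy
    rw [h1 _ (hx b), smul_zero, add_zero]
    refine Finset.sum_eq_zero fun b' _ => ?_
    rw [map_smul, hx, smul_zero]
  · intro p hp c δ x hxU hxF hDx
    obtain ⟨h, hh1, hh2⟩ := homotopy L _ (hM ⟨p, hp⟩)
    have hk : k + (c + 1) * M = k + c * M + M := by ring
    have hbij := fun k' => bij_pow_X (κ := κ) a Q M M (by nlinarith) ⟨p, hp⟩ k'
    have hξ : ∀ y : S ⊗[PP κ r] Lam κ r,
        (LinearMap.lsmul (PP κ r) (Lam κ r) ((MvPolynomial.X ⟨p, hp⟩ : PP κ r) ^ M)).baseChange S y =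
          (algebraMap (PP κ r) S (MvPolynomial.X ⟨p, hp⟩)) ^ M • y := by
      intro y
      rw [bc_lsmul, map_pow]
    have hsurj : ∀ v ∈ bcf S (MF κ (SW a Q (k + c * M))) p,
        ∃ v' ∈ bcf S (MF κ (SW a Q (k + (c + 1) * M))) p,
        v - (algebraMap (PP κ r) S (MvPolynomial.X ⟨p, hp⟩)) ^ M • v' ∈ bcf S (MF κ (SG a)) p := by
      intro v hv
      have h1 : MF κ (SW a Q (k + c * M)) p ≤
          (MF κ (SW a Q (k + (c + 1) * M)) p).map
            (LinearMap.lsmul (PP κ r) (Lam κ r) ((MvPolynomial.X ⟨p, hp⟩ : PP κ r) ^ M)) ⊔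
            MF κ (SG a) p := by
        intro u hu
        obtain ⟨u', hu', hu''⟩ := (hbij (k + c * M)).2 u hu
        rw [hk]
        exact Submodule.mem_sup.2 ⟨_, Submodule.mem_map_of_mem hu', _, hu'', by
          rw [LinearMap.lsmul_apply]; abel⟩
      have h2 := baseChange_mono S h1 hv
      rw [baseChange_sup', baseChange_map] at h2
      obtain ⟨_, ⟨v', hv', rfl⟩, g, hg, e⟩ := Submodule.mem_sup.1 h2
      refine ⟨v', hv', ?_⟩
      rw [hξ] at e
      rw [← e, add_sub_cancel_left]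
      exact hg
    have hinj : ∀ v ∈ bcf S (MF κ (SW a Q (k + (c + 1) * M))) p,
        (algebraMap (PP κ r) S (MvPolynomial.X ⟨p, hp⟩)) ^ M • v ∈ bcf S (MF κ (SG a)) p →
        v ∈ bcf S (MF κ (SG a)) p := by
      intro v hv hv'
      have h1 : MF κ (SF r) p ⊓ (MF κ (SG a) p).comap
          (LinearMap.lsmul (PP κ r) (Lam κ r) ((MvPolynomial.X ⟨p, hp⟩ : PP κ r) ^ M)) ≤
            MF κ (SG a) p := by
        intro u hu
        exact (hbij 0).1 u hu.1 hu.2
      have h2 := baseChange_mono S h1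
      rw [baseChange_inf, baseChange_comap] at h2
      refine h2 ⟨baseChange_mono S (hSWSF _ p) hv, ?_⟩
      rw [SetLike.mem_coe, Submodule.mem_comap, hξ]
      exact hv'
    obtain ⟨w, hw, g, hg, hwg⟩ := col_step (kdeg n) (kos n L) h (kos_isCx n L).deg_eq hh1 _ hh2
      ((dC κ r).baseChange S) (bcf S (MF κ (SW a Q (k + c * M))))
      (bcf S (MF κ (SW a Q (k + (c + 1) * M)))) (bcf S (MF κ (SG a)))
      ((plt κ r p).baseChange S) ((plt κ r (p + 1)).baseChange S) p δ
      (fun q hq v hv => by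
        have := bc_congr S (plt κ r p) LinearMap.id _ (fun u hu => plt_lt (up_SW a Q _) hq u hu) v hv
        rw [this, LinearMap.baseChange_id, LinearMap.id_apply])
      (fun q hq v hv => by
        have := bc_congr S (plt κ r (p + 1)) 0 _
          (fun u hu => plt_ge (up_SW a Q _) (by push_cast; omega) u hu) v hv
        rw [this, LinearMap.baseChange_zero, LinearMap.zero_apply])
      (fun v hv => by
        have := bc_congr S (plt κ r (p + 1)) 0 _
          (fun u hu => plt_ge (up_SW a Q _) (by push_cast; omega) u hu) v hv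
        rw [this, LinearMap.baseChange_zero, LinearMap.zero_apply])
      (fun v hv => hcbc _ (hcsSW _) _ _ hv) hsurj hinj x hxU ((hFil _ _).1 hxF) hDx
    refine ⟨w, hw, Submodule.mem_sup.2 ⟨x - DB κ r S L w - g, ?_, g, hg, by abel⟩⟩
    rw [hFil]
    exact hwg

omit [IsNoetherianRing S] in
/-- TASK G3-N6: vanishing of the inclusion of levels. -/
theorem van_box (m : Fin (r + 1)) (Q : ℕ) (hQ : 1 ≤ Q) (B : ℤ) (M k : ℕ)
    (hB : ((k + (r + 1) * M : ℕ) : ℤ) * Q ≤ B) (hB' : (r : ℤ) * Q ≤ B) {n : ℕ} (L : Fin n → S)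
    (hM : ∀ l : Fin (r + 1), (algebraMap (PP κ r) S (MvPolynomial.X l)) ^ M ∈
      Ideal.span (Set.range L)) (δ : ℤ) :
    zz (DB κ r S L) (WB κ (am m Q) Q B S n k) (WI κ (am m Q) S n) δ ≤
      bb (DB κ r S L) (WB κ (am m Q) Q B S n (k + (r + 1) * M)) (WI κ (am m Q) S n) δ := by
  have hstabB : ∀ k', Stab (DB κ r S L) (WB κ (am m Q) Q B S n k') := fun k' =>
    lift_stab (kdeg n) (kos n L) (kos_isCx n L) _ _
      (VanBoxAux.cstab_bcf _ (cstab_SWB (am m Q) Q B k'))
  have hmono : ∀ c p, MF κ (SWB (am m Q) Q B k) p ≤ MF κ (SWB (am m Q) Q B (k + c)) p := by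
    intro c p
    induction c with
    | zero => exact le_rfl
    | succ c ih => exact ih.trans (SWB_mono (am m Q) Q B (k + c) p)
  intro z hz
  obtain ⟨hz1, hz2⟩ := hz
  have h1 := VanBoxAux.van_box1 (am m Q) Q hQ M k L hM δ
    (show z ∈ zz (DB κ r S L) (lift (kdeg n) (bcf S (MF κ (SW (am m Q) Q k))))
      (WI κ (am m Q) S n) δ from
      ⟨lift_mono (kdeg n) (fun p => baseChange_mono S (SWB_le_SW (am m Q) Q B k p)) δ hz1,
        hz2⟩)
  obtain ⟨b, hb, hx0⟩ := TR.mem_bb.1 h1
  have hDb : DB κ r S L b ∈ WB κ (am m Q) Q B S n (k + (r + 1) * M) (δ + 1 - 1) := by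
    rw [add_sub_cancel_right]
    have e : DB κ r S L b = z - (z - DB κ r S L b) := by abel
    rw [e]
    refine sub_mem (lift_mono (kdeg n) (fun p => baseChange_mono S (hmono _ p)) δ hz1)
      (lift_mono (kdeg n) (fun p => baseChange_mono S (SG_le_SWB (am m Q) Q B _ p)) δ hx0)
  have hex := hh_lift_eq_zero (kdeg n) (kos n L) (kos_isCx n L) ((dC κ r).baseChange S)
    VanBoxAux.dd_bc (bcf S (MF κ (SWB (am m Q) Q B (k + (r + 1) * M))))
    (bcf S (MF κ (SW (am m Q) Q (k + (r + 1) * M))))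
    (VanBoxAux.cstab_bcf _ (cstab_SWB (am m Q) Q B _))
    (VanBoxAux.cstab_bcf _ (VanBoxAux.cstab_SW (am m Q) Q _))
    (fun p => baseChange_mono S (SWB_le_SW (am m Q) Q B _ p)) (δ + 1)
    (fun a => by
      have h2 := ex_SW_SWB (κ := κ) m Q hQ B (k + (r + 1) * M) hB hB' (kdeg n a - (δ + 1))
      unfold Ex at h2 ⊢
      rw [cz_bcf, cb_bcf]
      exact baseChange_mono S h2)
  obtain ⟨b', -, hb''⟩ := hh_eq_zero_iff.1 hex b hb hDb
  refine TR.mem_bb.2 ⟨b - DB κ r S L b', hb'', ?_⟩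
  rw [map_sub, VanBoxAux.DB_DB, sub_zero]
  exact hx0

end

end Vale.Agent.P202.CharP.Gen2
end

section

/-!
P202-G3-M2: the windows of the box model have finite length.
-/

namespace Vale.Agent.P202.CharP.Gen2

open Submodule TensorProduct Gen

variable {κ : Type*} [Field κ] {r : ℕ}

namespace BoxFin

theorem up_box (a : Fin r → ℤ) (Q : ℕ) (B : ℤ) (k : ℕ) : Up (SWB a Q B k) := by
  intro I g L h
  rcases h with h | ⟨h1, h2, h3⟩
  · exact Or.inl (up_SG a I g L h)
  · refine Or.inr ⟨up_SF I g L h1, ?_, fun i => ?_⟩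
    · change (1 - (k : ℤ)) * Q ≤ g.2 + (ex L).2
      have := mb_ex_snd L
      change (1 - (k : ℤ)) * Q ≤ g.2 at h2
      omega
    · change g.1 i + (ex L).1 i ≤ B + (g.2 + (ex L).2)
      have e1 := mb_ex_snd L
      have e2 := mb_ex_fst_le L i
      have := h3 i
      change g.1 i ≤ B + g.2 at this
      omega

/-- the difference of two consecutive levels is finite. -/
theorem finite_diff (a : Fin r → ℤ) (Q : ℕ) (B : ℤ) (k : ℕ) (p : ℤ) :
    (grd (SWB a Q B (k + 1)) p \ grd (SWB a Q B k) p).Finite := by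
  classical
  set lo : Gx r := (fun i => min 0 (a i + (1 - ((k + 1 : ℕ) : ℤ)) * Q), (1 - ((k + 1 : ℕ) : ℤ)) * Q)
  set hi : Gx r := (fun _ => B + (1 - (k : ℤ)) * Q, (1 - (k : ℤ)) * Q)
  refine Set.Finite.subset (Set.Finite.prod (Set.finite_univ (α := Finset (Fin r)))
    (Set.finite_Icc lo hi)) ?_
  rintro ⟨I, g⟩ ⟨⟨h1, hp⟩, h2⟩
  have h2' : (I, g) ∉ SWB a Q B k := fun h => h2 ⟨h, hp⟩
  have hG : (I, g) ∉ SG a := fun h => h2' (Or.inl h)
  rcases h1 with h1 | ⟨hF, hj, hB⟩
  · exact absurd h1 hG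
  change ((1 : ℤ) - ((k + 1 : ℕ) : ℤ)) * Q ≤ g.2 at hj
  change ∀ i, g.1 i ≤ B + g.2 at hB
  have hj2 : g.2 < (1 - (k : ℤ)) * Q := by
    by_contra hc
    exact h2' (Or.inr ⟨hF, not_lt.1 hc, hB⟩)
  refine ⟨trivial, ⟨⟨fun i => ?_, hj⟩, ⟨fun i => ?_, hj2.le⟩⟩⟩
  · change min 0 (a i + (1 - ((k + 1 : ℕ) : ℤ)) * Q) ≤ g.1 i
    by_cases hi : i ∈ I
    · have : ¬ g.1 i ≤ a i + g.2 := fun h => hG ⟨hF, i, hi, h⟩
      refine (min_le_right _ _).trans ?_
      omega
    · exact (min_le_left _ _).trans (hF i hi)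
  · change g.1 i ≤ B + (1 - (k : ℤ)) * Q
    have := hB i
    omega

/-- a quotient of monomial submodules with finitely many monomials has finite length. -/
theorem rl_ne_top_of_finite {E E' : Set (Finset (Fin r) × Gx r)} (hE : Up E) (hE' : Up E')
    (hfin : (E' \ E).Finite) : rl (Mon κ E) (Mon κ E') ≠ ⊤ := by
  classical
  have : Fintype ↥(E' \ E) := hfin.fintype
  let N := Mon κ E'
  let K := Mon κ E
  let φ : ↥N →ₗ[κ] (↥(E' \ E) → κ) :=
    { toFun := fun f x => cf ((f : Lam κ r) x.1.1) x.1.2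
      map_add' := fun f f' => by
        funext x
        exact cf_add _ _ _
      map_smul' := fun c f => by
        funext x
        exact WinAux.cf_smul c _ _ }
  have hφ : LinearMap.ker φ ≤ (K.submoduleOf N).restrictScalars κ := by
    intro f hf
    change (f : Lam κ r) ∈ K
    rw [mem_Mon hE]
    intro I g hg
    by_contra hc
    have hN : (I, g) ∈ E' := (mem_Mon hE' _).1 f.2 I g hg
    have := congrFun (LinearMap.mem_ker.1 hf) ⟨(I, g), hN, hc⟩
    exact hg this
  have h1 : Module.Finite κ (↥N ⧸ LinearMap.ker φ) :=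
    Module.Finite.of_injective (φ.quotKerEquivRange.toLinearMap) φ.quotKerEquivRange.injective
  have h2 : Module.Finite κ (↥N ⧸ K.submoduleOf N) := by
    let ψ : ↥N ⧸ LinearMap.ker φ →ₗ[κ] (↥N ⧸ (K.submoduleOf N).restrictScalars κ) :=
      Submodule.factor hφ
    have hψ : Function.Surjective ψ := Submodule.factor_surjective hφ
    have : Module.Finite κ (↥N ⧸ (K.submoduleOf N).restrictScalars κ) :=
      Module.Finite.of_surjective ψ hψ
    exact this
  have h3 : IsNoetherian κ (↥N ⧸ K.submoduleOf N) := inferInstance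
  have h4 : IsArtinian κ (↥N ⧸ K.submoduleOf N) := inferInstance
  have h5 : IsNoetherian (PP κ r) (↥N ⧸ K.submoduleOf N) := isNoetherian_of_tower κ h3
  have h6 : IsArtinian (PP κ r) (↥N ⧸ K.submoduleOf N) := isArtinian_of_tower κ h4
  change Module.length (PP κ r) (↥N ⧸ K.submoduleOf N) ≠ ⊤
  rw [Module.length_ne_top_iff]
  exact isFiniteLength_iff_isNoetherian_isArtinian.2 ⟨h5, h6⟩

end BoxFin

/-- TASK G3-M2: the windows of the box model are finite dimensional. -/
theorem rl_SWB (a : Fin r → ℤ) (Q : ℕ) (B : ℤ) (k : ℕ) (p : ℤ) :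
    rl (MF κ (SWB a Q B k) p) (MF κ (SWB a Q B (k + 1)) p) ≠ ⊤ :=
  BoxFin.rl_ne_top_of_finite (up_grd (BoxFin.up_box a Q B k) p)
    (up_grd (BoxFin.up_box a Q B (k + 1)) p) (BoxFin.finite_diff a Q B k p)

end Vale.Agent.P202.CharP.Gen2
end

section

/-!
P202-G3-R1: the model inequality.
-/

set_option linter.all false

namespace Vale.Agent.P202.CharP.Gen2

open Submodule TensorProduct Gen

universe v w

namespace ModelIneq


/-- splitting of a sum over `range (r + 1)`. -/
lemma split_sum {r : ℕ} (m : Fin (r + 1)) (f : ℕ → ℤ) :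
    ∑ j ∈ Finset.range (r + 1), f j =
      f 0 + ∑ j ∈ Finset.Icc 1 (m : ℕ), f j + ∑ j ∈ Finset.Icc ((m : ℕ) + 1) r, f j := by
  have h1 : Finset.Icc 1 (m : ℕ) = Finset.Ico 1 ((m : ℕ) + 1) := by
    ext x; simp only [Finset.mem_Icc, Finset.mem_Ico]; omega
  have h2 : Finset.Icc ((m : ℕ) + 1) r = Finset.Ico ((m : ℕ) + 1) (r + 1) := by
    ext x; simp only [Finset.mem_Icc, Finset.mem_Ico]; omega
  have hm : (m : ℕ) + 1 ≤ r + 1 := m.isLt
  rw [h1, h2, Finset.range_eq_Ico,
    ← Finset.sum_Ico_consecutive f (Nat.zero_le ((m : ℕ) + 1)) hm,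
    Finset.sum_eq_sum_Ico_succ_bot (Nat.succ_pos (m : ℕ)) f]

variable {κ : Type w} [Field κ] {r : ℕ}

lemma cstab_SG (a : Fin r → ℤ) : CStab (dC κ r) (MF κ (SG a)) := by
  refine cstab_MF (up_SG a) ?_
  rintro I g i ⟨h1, i', hi', h2⟩ hi
  refine ⟨?_, i', Finset.mem_insert_of_mem hi', h2⟩
  intro j hj
  exact h1 j fun h' => hj (Finset.mem_insert_of_mem h')

/-- the signs. -/
lemma sign_le {m j : ℕ} (h : j ≤ m) : (-1 : ℤ) ^ j * ((pdeg m j).negOnePow : ℤ) = 1 := by
  unfold pdeg
  rw [if_pos h, Int.negOnePow_def]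
  simp only [zpow_natCast]
  push_cast
  rw [← mul_pow]
  norm_num

lemma sign_gt {m j : ℕ} (h : m < j) : (-1 : ℤ) ^ j * ((pdeg m j).negOnePow : ℤ) = -1 := by
  unfold pdeg
  rw [if_neg (not_le.2 h)]
  obtain ⟨i, rfl⟩ : ∃ i, j = i + 1 := ⟨j - 1, by omega⟩
  have e : ((i + 1 : ℕ) : ℤ) - 1 = (i : ℤ) := by push_cast; ring
  rw [e, Int.negOnePow_def]
  simp only [zpow_natCast]
  push_cast
  rw [pow_succ]
  have : (-1 : ℤ) ^ i * (-1) ^ i = 1 := by rw [← mul_pow]; norm_num
  linear_combination (-1 : ℤ) * this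

/-- a bound for the lengths of the windows. -/
noncomputable def Dm (κ : Type w) [Field κ] {r : ℕ} (a : Fin r → ℤ) (Q : ℕ) (B : ℤ) (K : ℕ) : ℕ :=
  ∑ j ∈ Finset.range K, ∑ p ∈ Finset.range (r + 1),
    (rl (MF κ (SWB a Q B j) (p : ℤ)) (MF κ (SWB a Q B (j + 1)) (p : ℤ))).toNat

lemma le_Dm (a : Fin r → ℤ) (Q : ℕ) (B : ℤ) (K j : ℕ) (hj : j < K) (p : ℤ) :
    (rl (MF κ (SWB a Q B j) p) (MF κ (SWB a Q B (j + 1)) p)).toNat ≤ Dm κ a Q B K := by
  by_cases hp : p < 0 ∨ ((r + 1 : ℕ) : ℤ) ≤ p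
  · rw [MF_out _ p hp, MF_out _ p hp]
    simp
  · push Not at hp
    obtain ⟨p', rfl⟩ : ∃ p' : ℕ, p = p' := ⟨p.toNat, by omega⟩
    have hp' : p' < r + 1 := by omega
    unfold Dm
    calc (rl (MF κ (SWB a Q B j) (p' : ℤ)) (MF κ (SWB a Q B (j + 1)) (p' : ℤ))).toNat
        ≤ ∑ p ∈ Finset.range (r + 1),
          (rl (MF κ (SWB a Q B j) (p : ℤ)) (MF κ (SWB a Q B (j + 1)) (p : ℤ))).toNat :=
          Finset.single_le_sum (f := fun p : ℕ =>
            (rl (MF κ (SWB a Q B j) (p : ℤ)) (MF κ (SWB a Q B (j + 1)) (p : ℤ))).toNat)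
            (fun _ _ => Nat.zero_le _) (Finset.mem_range.2 hp')
      _ ≤ _ := Finset.single_le_sum (f := fun j : ℕ => ∑ p ∈ Finset.range (r + 1),
          (rl (MF κ (SWB a Q B j) (p : ℤ)) (MF κ (SWB a Q B (j + 1)) (p : ℤ))).toNat)
          (fun _ _ => Nat.zero_le _) (Finset.mem_range.2 hj)

end ModelIneq

open ModelIneq

/-- TASK G3-R1: the model inequality, with an error independent of `c`. -/
theorem model_ineq_c {κ : Type w} [Field κ] {r : ℕ} (m : Fin (r + 1)) (Q : ℕ) (hQ : 1 ≤ Q)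
    (M n' : ℕ) (hn' : r + 1 ≤ n') : ∃ C : ℕ, ∀ (S : Type v) [CommRing S] [IsNoetherianRing S]
    [Algebra (PP κ r) S] [Module.Flat (PP κ r) S] (L : Fin n' → S)
    (_ : Module.length S (S ⧸ Ideal.span (Set.range L)) ≠ ⊤)
    (_ : ∀ l : Fin (r + 1), (algebraMap (PP κ r) S (MvPolynomial.X l)) ^ M ∈
      Ideal.span (Set.range L))
    (c lam η : ℕ) (_ : 1 ≤ c) (t : ℤ → ℕ) (_ : ∀ i, ((r + 1 : ℕ) : ℤ) < i → t i = 0)
    (rr : ℤ → ℤ) (_ : ∀ i, (t i : ℤ) = rr i + rr (i + 1))
    (_ : ∀ i, ((r + 1 : ℕ) : ℤ) < i → rr i = 0) (_ : rr 1 = t 0)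
    (_ : EstAll κ r Q S (kdeg n') (kos n' L) c lam t η),
    (lam : ℤ) * ((wc m Q 0 : ℤ) * t 0 + ∑ j ∈ Finset.Icc 1 (m : ℕ), (wc m Q j : ℤ) * rr (j + 1) -
        ∑ j ∈ Finset.Icc ((m : ℕ) + 1) r, (wc m Q j : ℤ) * rr (j + 1)) -
          (C : ℤ) * (η : ℤ) ≤
      (c : ℤ) * ((r.factorial : ℤ) * kchi L S) := by
  set M' : ℕ := max M 1 with hM'
  set N : ℕ := (r + 1) * M' with hN
  set B : ℤ := (((r + 1) + N + r + 1 : ℕ) : ℤ) * Q with hB
  have hQ0 : (0 : ℤ) ≤ Q := by positivity
  have hBk : ∀ k : ℕ, k ≤ (r + 1) + N + r + 1 → (k : ℤ) * Q ≤ B := fun k hk => by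
    rw [hB]
    exact mul_le_mul_of_nonneg_right (by exact_mod_cast hk) hQ0
  have hB0 : 0 ≤ B := by rw [hB]; positivity
  have hBr : (r : ℤ) * Q ≤ B := hBk r (by omega)
  set D : ℕ := Dm κ (am m Q) Q B ((r + 1) + N) with hD
  refine ⟨(((r + 1) + n' + 1) * ((r + 1) + N) * ((r + 1) + 3) +
    (r + 1) * (r + 1) * (n' + 1)) * D, ?_⟩
  intro S _ _ _ _ L hL hLM c lam η hc t ht rr hrr hrr' hrr1 hE
  have hLM' : ∀ l : Fin (r + 1), (algebraMap (PP κ r) S (MvPolynomial.X l)) ^ M' ∈
      Ideal.span (Set.range L) := fun l => by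
    obtain ⟨e, he⟩ := Nat.exists_eq_add_of_le (le_max_left M 1)
    rw [hM', he, pow_add]
    exact Ideal.mul_mem_right _ _ (hLM l)
  obtain ⟨low, fin, bot⟩ := bottom_box (κ := κ) m Q hQ B hBr hB0 L hL
  have van := fun δ => van_box (κ := κ) m Q hQ B M' (r + 1) (hBk _ (by omega)) hBr L hLM' δ
  have key := core3_c S (kdeg n') (kos n' L) (kos_isCx n' L) (r + 1) n' (by omega) hn'
    (kdeg_range n') (dC κ r) dC_dC N (fun j => MF κ (SWB (am m Q) Q B j))
    (fun j => cstab_SWB _ _ _ _) (fun j p => SWB_mono _ _ _ _ _) (MF κ (SG (am m Q)))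
    (cstab_SG _) (fun p => SG_le_SWB _ _ _ _ _)
    (fun j p hp => by rw [MF_out _ p hp]; exact bot_le)
    (fun j => pos r m j)
    (fun j hj => by
      unfold pos pdeg
      rw [if_pos hj]
      split_ifs <;> omega)
    (fun j hj => by
      unfold pos
      rw [if_neg (not_lt.2 hj)]
      push_cast
      ring)
    (fun j hj p hp => ex_SWB m Q hQ B j p hp)
    c lam hc t ht rr hrr hrr' (D * η)
    (fun j hj p => by
      refine ⟨rl_SWB _ _ _ _ _, ?_⟩
      intro X Y hX hXY hY i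
      have h1 : rl X Y ≤ rl (MF κ (SWB (am m Q) Q B j) p) (MF κ (SWB (am m Q) Q B (j + 1)) p) :=
        (rl_anti_left hX).trans (rl_mono_right hY)
      have h2 : rl X Y ≠ ⊤ := fun h => rl_SWB (κ := κ) (am m Q) Q B j p (top_le_iff.1 (h ▸ h1))
      have h3 : (mX κ r) ^ Q • Y ≤ X :=
        (Submodule.smul_mono le_rfl hY).trans ((push_SWB _ _ _ _ _).trans hX)
      obtain ⟨h4, h5⟩ := hE X Y hXY h3 h2 i
      refine ⟨h4, h5.trans ?_⟩
      have h6 : (rl X Y).toNat ≤ D :=
        (ENat.toNat_le_toNat h1 (rl_SWB _ _ _ _ _)).trans (le_Dm _ _ _ _ _ hj _)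
      push_cast
      exact mul_le_mul_of_nonneg_right (by exact_mod_cast h6) (by positivity))
    low fin (fun δ _ => van δ)
  have bot' : ∑ i ∈ Finset.range (n' + 1), (-1 : ℤ) ^ i *
      ((hh (tot (kdeg n') (kos n' L) ((dC κ r).baseChange S))
        (lift (kdeg n') (bcf S (MF κ (SWB (am m Q) Q B 0))))
        (lift (kdeg n') (bcf S (MF κ (SG (am m Q))))) (i : ℤ)).toNat : ℤ) =
      (r.factorial : ℤ) * kchi L S := bot
  rw [bot'] at key
  have eul : ∀ j ∈ Finset.range (r + 1), (-1 : ℤ) ^ j * (lam : ℤ) *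
      (∑ p ∈ Finset.range (r + 1), (-1 : ℤ) ^ p *
        ((rl (MF κ (SWB (am m Q) Q B j) (p : ℤ))
          (MF κ (SWB (am m Q) Q B (j + 1)) (p : ℤ))).toNat : ℤ)) * rr (j + 1) =
      (lam : ℤ) * (((-1 : ℤ) ^ j * ((pdeg m j).negOnePow : ℤ)) * ((wc m Q j : ℤ) * rr (j + 1))) := by
    intro j hj
    have hj' := Finset.mem_range.1 hj
    rw [euler_SWB m Q hQ B j (hBk _ (by omega)) hBr hj']
    ring
  rw [Finset.sum_congr rfl eul, ← Finset.mul_sum, split_sum m, sign_le (Nat.zero_le _)] at key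
  have s1 : ∑ j ∈ Finset.Icc 1 (m : ℕ),
      ((-1 : ℤ) ^ j * ((pdeg m j).negOnePow : ℤ)) * ((wc m Q j : ℤ) * rr (j + 1)) =
      ∑ j ∈ Finset.Icc 1 (m : ℕ), (wc m Q j : ℤ) * rr (j + 1) :=
    Finset.sum_congr rfl fun j hj => by
      rw [sign_le (Finset.mem_Icc.1 hj).2, one_mul]
  have s2 : ∑ j ∈ Finset.Icc ((m : ℕ) + 1) r,
      ((-1 : ℤ) ^ j * ((pdeg m j).negOnePow : ℤ)) * ((wc m Q j : ℤ) * rr (j + 1)) =
      - ∑ j ∈ Finset.Icc ((m : ℕ) + 1) r, (wc m Q j : ℤ) * rr (j + 1) := by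
    rw [← Finset.sum_neg_distrib]
    refine Finset.sum_congr rfl fun j hj => ?_
    have := (Finset.mem_Icc.1 hj).1
    rw [sign_gt (by omega)]
    ring
  rw [s1, s2] at key
  have e0 : rr (((0 : ℕ) : ℤ) + 1) = t 0 := by
    rw [← hrr1]
    norm_num
  rw [e0, one_mul] at key
  have hCη : ((((r + 1 : ℕ) : ℤ) + n' + 1) * (((r + 1 : ℕ) : ℤ) + N) *
      (((r + 1 : ℕ) : ℤ) + 3) + ((r + 1 : ℕ) : ℤ) * ((r + 1 : ℕ) : ℤ) * (n' + 1)) *
        ((D * η : ℕ) : ℤ) =
      (((((r + 1) + n' + 1) * ((r + 1) + N) * ((r + 1) + 3) +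
        (r + 1) * (r + 1) * (n' + 1)) * D : ℕ) : ℤ) * (η : ℤ) := by
    push_cast
    ring
  linarith [key, hCη]

end Vale.Agent.P202.CharP.Gen2
end

section

/-!
P202-G3, task G3-H6: the estimate of Koszul homology.
-/

namespace Vale.Agent.P202.CharP.Gen2

open Submodule TensorProduct IsLocalRing Gen

universe u w

namespace EstB

section Homot

variable {S : Type*} [CommRing S]

/-- null-homotopies for the elements of the ideal `(y)`. -/
theorem homotopy {n : ℕ} (y : Fin n → S) (c : S) (hc : c ∈ Ideal.span (Set.range y)) :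
    ∃ h : Matrix (KIdx n) (KIdx n) S,
    (∀ a b, h a b ≠ 0 → kdeg n a = kdeg n b + 1) ∧ kos n y * h + h * kos n y = c • 1 := by
  obtain ⟨c', hc'⟩ := (Ideal.mem_span_range_iff_exists_fun).mp hc
  choose h h1 h2 using kos_homotopy n y
  refine ⟨∑ l, c' l • h l, ?_, ?_⟩
  · intro a b hab
    by_contra hne
    apply hab
    rw [Matrix.sum_apply]
    refine Finset.sum_eq_zero fun l _ => ?_
    rw [Matrix.smul_apply]
    by_cases h0 : h l a b = 0
    · rw [h0, smul_zero]
    · exact absurd (h1 l a b h0) hne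
  · rw [Finset.mul_sum, Finset.sum_mul, ← Finset.sum_add_distrib, ← hc', Finset.sum_smul]
    refine Finset.sum_congr rfl fun l _ => ?_
    rw [Matrix.mul_smul, Matrix.smul_mul, ← smul_add, h2, smul_smul]

end Homot

section Push

variable {A P Om : Type*} [CommRing A] [CommRing P] [CommRing Om] [Algebra A Om]
  [Algebra P Om] [SMulCommClass P A Om] {V : Type*} [AddCommGroup V] [Module P V] {n : ℕ}

lemma map_smul_baseChange (I : Ideal P) (X Y : Submodule P V) (hK : I • Y ≤ X) {e : Om}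
    (he : e ∈ I.map (algebraMap P Om)) {z : Om ⊗[P] V} (hz : z ∈ Y.baseChange Om) :
    e • z ∈ X.baseChange Om := by
  induction he using Submodule.span_induction with
  | mem e he =>
    obtain ⟨q, hq, rfl⟩ := he
    have h : Y.baseChange Om ≤ (X.baseChange Om).comap
        (LinearMap.lsmul Om (Om ⊗[P] V) (algebraMap P Om q)) := by
      rw [Submodule.baseChange_eq_span Om Y, span_le]
      rintro _ ⟨x, hx, rfl⟩
      show algebraMap P Om q • ((1 : Om) ⊗ₜ[P] x) ∈ X.baseChange Om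
      rw [algebraMap_smul, TensorProduct.smul_tmul', TensorProduct.smul_tmul]
      exact tmul_mem_baseChange_of_mem _ (hK (Submodule.smul_mem_smul hq hx))
    exact h hz
  | zero => rw [zero_smul]; exact zero_mem _
  | add a b _ _ ha hb => rw [add_smul]; exact add_mem ha hb
  | smul c a _ ha => rw [smul_assoc]; exact Submodule.smul_mem _ _ ha

lemma push0 [IsLocalRing A] (v : Fin n → Om) (m : Ideal P) (K : ℕ)
    (hpush : ∀ a ∈ maximalIdeal A, algebraMap A Om a ∈
      Ideal.span (Set.range v) ⊔ (m ^ K).map (algebraMap P Om))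
    (X Y : Submodule P V) (hK : m ^ K • Y ≤ X) :
    maximalIdeal A • cz (DA A V v) (KA A Om n Y) (KA A Om n X) 0 ≤
      cb (DA A V v) (KA A Om n Y) (KA A Om n X) 0 := by
  rw [Submodule.smul_le]
  intro a ha f hf
  obtain ⟨c, hc, e, he, hce⟩ := Submodule.mem_sup.mp (hpush a ha)
  have h1 : a • f = c • f + e • f := by
    rw [← add_smul, hce]
    ext b
    rw [Pi.smul_apply, Pi.smul_apply, algebraMap_smul]
  rw [h1]
  have hfY : f ∈ KA A Om n Y 0 := hf.1
  rw [SmallDev.mem_KA] at hfY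
  have hfX : ∀ b, DA A V v f b = 0 := by
    have h2 : DA A V v f ∈ KA A Om n X (0 + 1) := hf.2
    rw [SmallDev.mem_KA] at h2
    intro b
    have := (kdeg_range n b).1
    exact (h2 b).2 (by omega)
  refine add_mem ?_ (Submodule.mem_sup_right ?_)
  · obtain ⟨h, hh1, hh2⟩ := homotopy v c hc
    refine Submodule.mem_sup_left ⟨act h (Om ⊗[P] V) f, ?_, ?_⟩
    · rw [SetLike.mem_coe, SmallDev.mem_KA]
      intro b
      constructor
      · intro _
        rw [act_apply]
        refine Submodule.sum_mem _ fun b' _ => ?_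
        by_cases h0 : kdeg n b' + 0 = 0
        · exact Submodule.smul_mem _ _ ((hfY b').1 h0)
        · rw [(hfY b').2 h0, smul_zero]
          exact zero_mem _
      · intro hb
        rw [act_apply]
        refine Finset.sum_eq_zero fun b' _ => ?_
        by_cases h0 : h b b' = 0
        · rw [h0, zero_smul]
        · have h3 := hh1 b b' h0
          rw [(hfY b').2 (by omega), smul_zero]
    · have h4 : act (kos n v) (Om ⊗[P] V) (act h (Om ⊗[P] V) f) +
          act h (Om ⊗[P] V) (act (kos n v) (Om ⊗[P] V) f) = c • f := by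
        rw [← act_mul, ← act_mul, ← act_add, hh2, act_smul, act_one]
      have h5 : act (kos n v) (Om ⊗[P] V) f = 0 := by
        ext b
        exact hfX b
      rw [h5, map_zero, add_zero] at h4
      exact h4
  · rw [SmallDev.mem_KA]
    intro b
    refine ⟨fun hb => map_smul_baseChange _ X Y hK he ((hfY b).1 hb), fun hb => ?_⟩
    rw [Pi.smul_apply, (hfY b).2 hb, smul_zero]

end Push

end EstB

section Trans

variable {A P Om S : Type*} {Sg : Type u} [CommRing A] [CommRing P] [CommRing Om]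
  [Algebra A Om] [Algebra P Om] [SMulCommClass P A Om] [CommRing S] [Algebra A S]
  [CommRing Sg] [Algebra A Sg] [Algebra P Sg] [Algebra S Sg] [Algebra Om Sg]
  [IsScalarTower A S Sg] [IsScalarTower A Om Sg] [IsScalarTower P Om Sg]
  [Algebra.IsPushout A S Om Sg] [Module.Flat A S] [Module.Flat P Om]
  {V : Type w} [AddCommGroup V] [Module P V] {n : ℕ}

/-- TASK G3-H6: the estimate. -/
theorem est_main [IsLocalRing A] (y : Fin n → S) (v : Fin n → Om) (m : Ideal P) [m.IsMaximal]
    (K : ℕ)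
    (hpush : ∀ a ∈ maximalIdeal A, algebraMap A Om a ∈
      Ideal.span (Set.range v) ⊔ (m ^ K).map (algebraMap P Om))
    (c : ℕ)
    (hlen : ∀ (N : Type (max u w)) [AddCommGroup N] [Module Sg N] [Module S N]
      [IsScalarTower S Sg N], (∀ q ∈ m ^ K, ∀ x : N, algebraMap P Sg q • x = 0) →
      Module.length S N = (c : ℕ∞) * Module.length Sg N) (hc : 1 ≤ c)
    (lam η : ℕ) (hη : ∀ b, 1 ≤ b → hA A v (⊤ : Submodule P P) m b ≤ η)
    (h0 : hA A v (⊤ : Submodule P P) m 0 ≠ ⊤)
    (hlam : xic n 1 (fun p => hA A v (⊤ : Submodule P P) m (-p)) = lam)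
    (t : ℤ → ℕ)
    (ht : ∀ i, kk y (S ⧸ (maximalIdeal A).map (algebraMap A S)) i = t i)
    (τ : ℕ) (hτ : ∀ i, t i ≤ τ) (X Y : Submodule P V) (hXY : X ≤ Y) (hK : m ^ K • Y ≤ X)
    (hfin : rl X Y ≠ ⊤) (i : ℤ) :
    khs (kdeg (n + n)) (kos (n + n) (cat (fun l => algebraMap Om Sg (v l)) n
        fun l => algebraMap S Sg (y l))) (Y.baseChange Sg) (X.baseChange Sg) i ≠ ⊤ ∧
    |(c : ℤ) * ((khs (kdeg (n + n)) (kos (n + n) (cat (fun l => algebraMap Om Sg (v l)) n
        fun l => algebraMap S Sg (y l))) (Y.baseChange Sg) (X.baseChange Sg) i).toNat : ℤ) -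
      (lam : ℤ) * ((rl X Y).toNat : ℤ) * (t i : ℤ)| ≤
      ((rl X Y).toNat : ℤ) * ((3 * n * τ * η : ℕ) : ℤ) := by
  obtain ⟨D, hD⟩ := ENat.ne_top_iff_exists.mp hfin
  have hDn : (rl X Y).toNat = D := by rw [← hD, ENat.toNat_natCast]
  -- the homology over `A`
  have hneg : ∀ b : ℤ, b < 0 → hA A v (⊤ : Submodule P P) m b = 0 := by
    intro b hb
    rw [hA, Gen.hc, rl_eq_zero_iff]
    exact inf_le_left.trans ((SmallDev.KA_out m ⊤ (-b) (Or.inr (by omega))).trans le_sup_right)
  have hb : ∀ b, hA A v (⊤ : Submodule P P) m b ≠ ⊤ := by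
    intro b
    rcases lt_trichotomy b 0 with h | h | h
    · rw [hneg b h]
      exact ENat.zero_ne_top
    · rw [h]
      exact h0
    · exact ne_top_of_le_ne_top (ENat.natCast_ne_top _) (hη b (by omega))
  have hle := hA_le (A := A) v m K X Y hXY hK hfin
  have hxi := hA_xi (A := A) v m K X Y hXY hK hfin hb
  rw [hlam, hDn] at hxi
  have hAe : ∀ p, Gen.hc (DA A V v) (KA A Om n Y) (KA A Om n X) p = hA A v Y X (-p) := fun p => by
    rw [hA, neg_neg]
  have hp1 : ∀ p : ℤ, p ≠ 0 → Gen.hc (DA A V v) (KA A Om n Y) (KA A Om n X) p ≤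
      ((D * η : ℕ) : ℕ∞) := by
    intro p hp
    rw [hAe]
    refine (hle (-p)).trans ?_
    rw [← hD]
    push_cast
    refine mul_le_mul_right ?_ _
    rcases lt_or_gt_of_ne hp with h | h
    · exact hη _ (by omega)
    · rw [hneg _ (by omega)]
      exact zero_le
  have hp0 : Gen.hc (DA A V v) (KA A Om n Y) (KA A Om n X) 0 ≠ ⊤ := by
    rw [hAe]
    refine ne_top_of_le_ne_top ?_ (hle _)
    rw [neg_zero]
    exact WithTop.mul_ne_top hfin h0
  obtain ⟨k1, k2⟩ := kun_err S (kdeg n) (kos n y) (kos_isCx n y) n (DA A V v)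
    (SmallDev.DA_sq v) (KA A Om n Y) (KA A Om n X) (SmallDev.KA_cstab v X)
    (SmallDev.KA_cstab v Y) (SmallDev.KA_mono hXY) (fun p hp => SmallDev.KA_out X Y p hp)
    (EstB.push0 v m K hpush X Y hK) (D * η) hp1 hp0 t ht τ hτ i
  rw [khs_trans y v m K X Y hXY hK c hlen i, ← khs_cat] at k1 k2
  set H := khs (kdeg (n + n)) (kos (n + n) (cat (fun l => algebraMap Om Sg (v l)) n
        fun l => algebraMap S Sg (y l))) (Y.baseChange Sg) (X.baseChange Sg) i with hH
  have hHt : H ≠ ⊤ := by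
    intro h
    apply k1
    rw [h]
    exact ENat.mul_top (by exact_mod_cast (by omega : c ≠ 0))
  obtain ⟨h, hh⟩ := ENat.ne_top_iff_exists.mp hHt
  refine ⟨hHt, ?_⟩
  rw [← hh] at k2 ⊢
  rw [ENat.toNat_natCast, hDn]
  have e1 : ((c : ℕ∞) * (h : ℕ∞)).toNat = c * h := by
    rw [← Nat.cast_mul, ENat.toNat_natCast]
  rw [e1] at k2
  -- the Euler characteristic
  obtain ⟨g, hg⟩ := ENat.ne_top_iff_exists.mp hp0
  rw [← hg, ENat.toNat_natCast] at k2
  have e2 : |(g : ℤ) - (D : ℤ) * lam| ≤ n * (D * η : ℕ) := by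
    rw [← hxi]
    unfold xic
    have e3 : Finset.Ico (-(n : ℤ)) ((1 : ℕ) : ℤ) = insert 0 (Finset.Ico (-(n : ℤ)) 0) := by
      ext p
      simp only [Finset.mem_Ico, Finset.mem_insert, Nat.cast_one]
      omega
    rw [e3, Finset.sum_insert (by simp)]
    have e4 : ((Int.negOnePow 0 : ℤˣ) : ℤ) * ((hA A v Y X (-0)).toNat : ℤ) = g := by
      rw [← hAe, ← hg, ENat.toNat_natCast]
      simp
    rw [e4]
    have e5 : (g : ℤ) - (g + ∑ x ∈ Finset.Ico (-(n : ℤ)) 0,
        ((Int.negOnePow x : ℤˣ) : ℤ) * ((hA A v Y X (-x)).toNat : ℤ)) =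
        -∑ x ∈ Finset.Ico (-(n : ℤ)) 0,
        ((Int.negOnePow x : ℤˣ) : ℤ) * ((hA A v Y X (-x)).toNat : ℤ) := by ring
    rw [e5, abs_neg]
    refine (Finset.abs_sum_le_sum_abs _ _).trans ?_
    refine (Finset.sum_le_card_nsmul _ _ ((D * η : ℕ) : ℤ) fun x hx => ?_).trans ?_
    · rw [Finset.mem_Ico] at hx
      have e6 := hp1 x (by omega)
      rw [hAe] at e6
      obtain ⟨w, hw⟩ := ENat.ne_top_iff_exists.mp
        (ne_top_of_le_ne_top (ENat.natCast_ne_top _) e6)
      rw [← hw] at e6 ⊢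
      rw [ENat.toNat_natCast, abs_mul]
      have e7 : |((Int.negOnePow x : ℤˣ) : ℤ)| = 1 := by
        rcases Int.units_eq_one_or (Int.negOnePow x) with h | h <;> rw [h] <;> simp
      rw [e7, one_mul, abs_of_nonneg (by positivity)]
      exact_mod_cast e6
    · rw [Int.card_Ico, nsmul_eq_mul]
      simp
  have ht0 : (0 : ℤ) ≤ t i := by positivity
  have htτ : (t i : ℤ) ≤ τ := by exact_mod_cast hτ i
  have e8 : (c : ℤ) * (h : ℤ) - (lam : ℤ) * D * (t i : ℤ) =
      (((c * h : ℕ) : ℤ) - g * t i) + ((g : ℤ) - D * lam) * t i := by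
    push_cast
    ring
  rw [e8]
  refine (abs_add_le _ _).trans ?_
  have e9 : |((g : ℤ) - D * lam) * t i| ≤ (n * (D * η : ℕ)) * τ := by
    rw [abs_mul, abs_of_nonneg ht0]
    exact mul_le_mul e2 htτ ht0 (by positivity)
  refine (add_le_add k2 e9).trans (le_of_eq ?_)
  push_cast
  ring

end Trans

end Vale.Agent.P202.CharP.Gen2
end

section

/-!
P202-GEN3: the geometric inequality with errors.
-/

namespace Vale.Agent.P202.CharP.Gen3

open Submodule TensorProduct IsLocalRing Gen2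

universe u

/-- the Euler characteristic in terms of Koszul degrees -/
theorem iq_xic (n : ℕ) (g : ℤ → ℕ∞) : Gen.xic n 1 (fun p => g (-p)) =
    ∑ i ∈ Finset.range (n + 1), (-1 : ℤ) ^ i * ((g i).toNat : ℤ) := by
  unfold Gen.xic
  symm
  refine Finset.sum_nbij' (fun i : ℕ => -(i : ℤ)) (fun p : ℤ => (-p).toNat) ?_ ?_ ?_ ?_ ?_
  · intro i hi
    rw [Finset.mem_range] at hi
    rw [Finset.mem_Ico]
    push_cast
    omega
  · intro p hp
    rw [Finset.mem_Ico] at hp
    rw [Finset.mem_range]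
    push_cast at hp
    omega
  · intro i _
    simp
  · intro p hp
    rw [Finset.mem_Ico] at hp
    push_cast at hp
    omega
  · intro i _
    simp only [neg_neg, Int.negOnePow_neg]
    congr 1

/-- a module of finite length has vanishing Euler characteristic -/
theorem iq_kchi_zero {B : Type u} [CommRing B] [IsNoetherianRing B] [IsLocalRing B] {n : ℕ}
    (hn : 1 ≤ n) (y : Fin n → B) (hy : ∀ i, y i ∈ maximalIdeal B) (M : Type u) [AddCommGroup M]
    [Module B M] [Module.Finite B M] (h : Module.length B M ≠ ⊤) : kchi y M = 0 := by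
  have h1 : Module.length B
      (M ⧸ (Ideal.span (Set.range y) • (⊤ : Submodule B M))) ≠ ⊤ :=
    ne_top_of_le_ne_top h (Module.length_le_of_surjective _ (Submodule.mkQ_surjective _))
  have h2 : Module.length B
      (M ⧸ (Ideal.span (Set.range (Fin.elim0 : Fin 0 → B)) • (⊤ : Submodule B M))) ≠ ⊤ :=
    ne_top_of_le_ne_top h (Module.length_le_of_surjective _ (Submodule.mkQ_surjective _))
  have h3 : Module.supportDim B M ≤ (0 : ℕ) :=
    (pf_of_length_ne_top h2).supportDim_le (fun i => i.elim0)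
  refine (pf_of_length_ne_top h1).kchi_eq_zero hy (lt_of_le_of_lt h3 ?_)
  exact_mod_cast hn

theorem iq_alt (n : ℕ) (t : ℤ → ℕ) (rr : ℤ → ℤ) (hr : ∀ i, (t i : ℤ) = rr i + rr (i + 1)) :
    ∑ i ∈ Finset.range (n + 1), (-1 : ℤ) ^ i * (t i : ℤ) =
      rr 0 + (-1) ^ n * rr ((n : ℤ) + 1) := by
  induction n with
  | zero =>
    simp only [zero_add, Finset.sum_range_one, pow_zero, one_mul]
    exact hr 0
  | succ n ih =>
    rw [Finset.sum_range_succ, ih, hr]
    push_cast
    ring

/-- the Euler characteristic of the small ring has a finite bottom term -/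
theorem iq_ne_top {A A' : Type u} [CommRing A] [IsLocalRing A] [IsNoetherianRing A]
    [CommRing A'] [IsLocalRing A'] [IsNoetherianRing A'] [Algebra A A']
    [IsLocalHom (algebraMap A A')] [Module.Finite A A'] {n : ℕ} (z : Fin n → A') (Q : ℕ)
    (hQ : 1 ≤ Q)
    (hzQ : ∀ a ∈ maximalIdeal A, algebraMap A A' a ∈ Ideal.span (Set.range z) ^ Q) :
    Module.length (ResidueField A) (ResidueField A') * kk z A' 0 ≠ ⊤ := by
  rw [kk_zero z A', mul_comm, ← length_restrict]
  have hart : IsArtinianRing (A ⧸ maximalIdeal A) := by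
    let := Ideal.Quotient.field (maximalIdeal A)
    infer_instance
  refine length_ne_top_of_quot (maximalIdeal A) ?_
  intro a ha v
  obtain ⟨v, rfl⟩ := Submodule.mkQ_surjective _ v
  have h1 : algebraMap A A' a ∈ Ideal.span (Set.range z) :=
    Ideal.pow_le_self (by omega) (hzQ a ha)
  rw [← algebraMap_smul A' a, ← map_smul, ← LinearMap.mem_ker, Submodule.ker_mkQ]
  exact Submodule.smul_mem_smul h1 Submodule.mem_top

/-- the geometric inequality with errors, uniform version: the constant depends only on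
`p`, `r`, `m`, `Q`, `N₀`. -/
theorem gen3_ineq_unif (p : ℕ) [Fact p.Prime] {r : ℕ} (m : Fin (r + 1)) (Q : ℕ) (hQ : 1 ≤ Q)
    (N₀ : ℕ) : ∃ C : ℕ, ∀ (A S : Type u) [CommRing A] [IsLocalRing A]
      [IsNoetherianRing A] [CharP A p] [CommRing S] [IsLocalRing S] [IsNoetherianRing S]
      [Algebra A S] [IsLocalHom (algebraMap A S)] [Module.Flat A S]
      (_ : Module.length S (S ⧸ (maximalIdeal A).map (algebraMap A S)) ≠ ⊤)
      (y : Fin (r + 1) → S) (_ : ∀ i, y i ∈ maximalIdeal S)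
      (_ : Module.length S (S ⧸ Ideal.span (Set.range y)) ≠ ⊤)
      (t : ℤ → ℕ) (_ : ∀ i, kk y (S ⧸ (maximalIdeal A).map (algebraMap A S)) i = t i)
      (rr : ℤ → ℤ) (_ : ∀ i, (t i : ℤ) = rr i + rr (i + 1))
      (_ : ∀ i, ((r + 1 : ℕ) : ℤ) < i → rr i = 0) (τ : ℕ) (_ : ∀ i, t i ≤ τ)
      (A' : Type u) [CommRing A'] [IsLocalRing A'] [IsNoetherianRing A']
      [CharP A' p] [Algebra A A'] [IsLocalHom (algebraMap A A')] [Module.Finite A A']
      [IsLocalRing (S ⊗[A] A')]
      (z : Fin (r + 1) → A') (_ : ∀ i, z i ∈ maximalIdeal A')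
      (_ : ∀ a ∈ maximalIdeal A, algebraMap A A' a ∈ Ideal.span (Set.range z) ^ Q)
      (_ : ∀ l, (1 : S) ⊗ₜ[A] (z l ^ N₀) ∈
        (Ideal.span (Set.range y)).map (algebraMap S (S ⊗[A] A')))
      (f : ℕ) (_ : Module.length (ResidueField A) (ResidueField A') = f)
      (lam η : ℕ) (_ : (f : ℤ) * kchi z A' = lam)
      (_ : ∀ i : ℤ, 1 ≤ i → (f : ℕ∞) * kk z A' i ≤ η),
      (lam : ℤ) * ((wc m Q 0 : ℤ) * t 0 + ∑ j ∈ Finset.Icc 1 (m : ℕ), (wc m Q j : ℤ) * rr (j + 1) -
        ∑ j ∈ Finset.Icc ((m : ℕ) + 1) r, (wc m Q j : ℤ) * rr (j + 1)) -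
          (C : ℤ) * ((τ : ℤ) * η) ≤
      (r.factorial : ℤ) * kchi y (S ⊗[A] A') := by
  obtain ⟨C, hC⟩ := model_ineq_c (κ := ZMod p) m Q hQ N₀ ((r + 1) + (r + 1)) (by omega)
  refine ⟨C * (3 * (r + 1)), ?_⟩
  intro A S _ _ _ _ _ _ _ _ _ _ hT y hy hyl t ht rr hr hr' τ hτ A' _ _ _ _ _ _ _ _ z hz hzQ hzN
    f hf lam η hlam hη
  -- the Betti numbers
  have htout : ∀ i : ℤ, i < 0 ∨ ((r + 1 : ℕ) : ℤ) < i → t i = 0 := by
    intro i hi
    have h1 := kk_out y (S ⧸ (maximalIdeal A).map (algebraMap A S)) i hi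
    rw [ht] at h1
    exact_mod_cast h1
  have hr1 : rr 1 = t 0 := by
    have h1 := iq_kchi_zero (n := r + 1) (by omega) y hy
      (S ⧸ (maximalIdeal A).map (algebraMap A S)) hT
    unfold kchi at h1
    simp only [ht, ENat.toNat_natCast] at h1
    rw [iq_alt (r + 1) t rr hr, hr' (((r + 1 : ℕ) : ℤ) + 1) (by omega), mul_zero, add_zero] at h1
    have h2 := hr 0
    rw [zero_add] at h2
    omega
  have i1 := smulComm_Om p r (A := A) (A' := A')
  have i2 := (towers p r (A := A) (S := S) (A' := A')).1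
  have i3 := (towers p r (A := A) (S := S) (A' := A')).2.1
  have i4 := (towers p r (A := A) (S := S) (A' := A')).2.2
  have i5 := pushout_Sg p r (A := A) (S := S) (A' := A')
  have i6 := flat_Om p r (A' := A')
  have i7 := flat_Sg p r (A := A) (S := S) (A' := A')
  have i8 := noeth_Sg p r (A := A) (S := S) (A' := A')
  have i9 := mX_maximal (ZMod p) r
  obtain ⟨i10, c, hc1, hc⟩ := residue_finite (A := A) (S := S) (A' := A')
  have h0 := iq_ne_top z Q hQ hzQ
  have htop := hA_top p r (A := A) z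
  rw [hf] at htop h0
  have hest : EstAll (ZMod p) r Q (SgR p r A S A') (kdeg ((r + 1) + (r + 1)))
      (kos ((r + 1) + (r + 1)) (LL p r A y z)) c lam t (3 * (r + 1) * τ * η) := by
    intro X Y hXY hK hfin i
    refine est_main (A := A) (S := S) (Sg := SgR p r A S A') y (vz p r z) (mX (ZMod p) r) Q
      (push_Om p r z Q hzQ) c ?_ hc1 lam η ?_ ?_ ?_ t ht τ hτ X Y hXY hK hfin i
    · intro N _ _ _ _ hN
      rw [length_Sg p r (A := A) (A' := A') Q N hN, hc]
    · intro b hb
      rw [htop]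
      exact hη b hb
    · rw [htop]
      exact h0
    · simp only [htop]
      rw [iq_xic (r + 1) (fun b => (f : ℕ∞) * kk z A' b), ← hlam]
      unfold kchi
      rw [Finset.mul_sum]
      refine Finset.sum_congr rfl fun i _ => ?_
      rw [ENat.toNat_mul, ENat.toNat_natCast]
      push_cast
      ring
  have hmain := hC (SgR p r A S A') (LL p r A y z) (length_LL p r y z hyl)
    (X_pow_mem p r y z N₀ hzN) c lam (3 * (r + 1) * τ * η) hc1 t (fun i hi => htout i (Or.inr hi))
    rr hr hr' hr1 hest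
  have hLL := kchi_LL p r (A := A) (A' := A') y z hy hyl c hc
  rw [← hLL]
  refine le_trans (le_of_eq ?_) (hmain.trans (le_of_eq ?_))
  · push_cast
    ring
  · ring

end Vale.Agent.P202.CharP.Gen3
end

section

/-!
P202-AK-13: Theorem B for arbitrary residue fields.
-/

set_option linter.all false

namespace Vale.Agent.P202.CharP.ArbK

open Submodule TensorProduct IsLocalRing Filter Topology

universe u

namespace ThmB

lemma span_smul_top {B : Type*} [CommRing B] (I : Ideal B) : (I • (⊤ : Submodule B B)) = I := by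
  rw [smul_eq_mul, Ideal.mul_top]

/-- the inner limit. -/
lemma le_of_pow_growth (p : ℕ) (hp : 2 ≤ p) (n : ℕ) (a b : ℤ) (D : ℕ)
    (h : ∀ e : ℕ, a * ((p ^ e : ℕ) : ℤ) ^ (n + 1) - D * ((p ^ e : ℕ) : ℤ) ^ n ≤
      b * ((p ^ e : ℕ) : ℤ) ^ (n + 1)) : a ≤ b := by
  by_contra hab
  have h1 : 1 ≤ a - b := by omega
  have h2 := h (D + 1)
  set t : ℤ := ((p ^ (D + 1) : ℕ) : ℤ) with ht
  have ht0 : (D : ℤ) < t := by
    have h3 : D + 1 < p ^ (D + 1) := Nat.lt_pow_self (by omega)
    rw [ht]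
    exact_mod_cast (by omega : D < p ^ (D + 1))
  have ht1 : 0 < t := lt_of_le_of_lt (by positivity) ht0
  have h4 : 0 < t ^ n := by positivity
  have h5 : t ^ (n + 1) ≤ (a - b) * t ^ (n + 1) := le_mul_of_one_le_left (by positivity) h1
  have h6 : (D : ℤ) * t ^ n < t * t ^ n := mul_lt_mul_of_pos_right ht0 h4
  have h7 : t ^ (n + 1) = t * t ^ n := by ring
  nlinarith

lemma mul_ne_top {a b : ℕ∞} (ha : a ≠ ⊤) (hb : b ≠ ⊤) : a * b ≠ ⊤ := by
  obtain ⟨m, rfl⟩ := ENat.ne_top_iff_exists.mp ha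
  obtain ⟨n, rfl⟩ := ENat.ne_top_iff_exists.mp hb
  rw [← Nat.cast_mul]
  exact ENat.natCast_ne_top _

/-- the objects over the flat extension. -/
theorem transfer {S S₁ : Type u} [CommRing S] [IsLocalRing S] [IsNoetherianRing S]
    [CommRing S₁] [IsLocalRing S₁] [IsNoetherianRing S₁] [Algebra S S₁] [Module.Flat S S₁]
    [IsLocalHom (algebraMap S S₁)] {n : ℕ} (y : Fin n → S)
    (hyl : Module.length S (S ⧸ Ideal.span (Set.range y)) ≠ ⊤) (w : ℕ)
    (hw : Module.length S₁ (S₁ ⧸ (maximalIdeal S).map (algebraMap S S₁)) = w) (I : Ideal S)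
    (hI : Module.length S (S ⧸ I) ≠ ⊤) (t : ℤ → ℕ) (ht : ∀ i, kk y (S ⧸ I) i = t i) :
    Module.length S₁ (S₁ ⧸ I.map (algebraMap S S₁)) ≠ ⊤ ∧
    Module.length S₁ (S₁ ⧸ Ideal.span (Set.range fun j => algebraMap S S₁ (y j))) ≠ ⊤ ∧
    (∀ i, kk (fun j => algebraMap S S₁ (y j)) (S₁ ⧸ I.map (algebraMap S S₁)) i =
      ((w * t i : ℕ) : ℕ∞)) ∧
    kchi (fun j => algebraMap S S₁ (y j)) S₁ = (w : ℤ) * kchi y S := by
  have hySt : Module.length S (S ⧸ (Ideal.span (Set.range y) • (⊤ : Submodule S S))) ≠ ⊤ := by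
    rw [span_smul_top]; exact hyl
  have hS : ∀ i, kk y S i ≠ ⊤ := fun i => kk_ne_top y S hySt i
  have h1 : ∀ i, kk (fun j => algebraMap S S₁ (y j)) S₁ i = w * kk y S i := by
    intro i
    rw [← kk_flat (S₁ := S₁) y S w hw i (hS i)]
    exact kk_congr _ (AlgebraTensorModule.rid S S₁ S₁).symm i
  refine ⟨?_, ?_, ?_, ?_⟩
  · rw [(Algebra.TensorProduct.quotIdealMapEquivTensorQuot S₁ I).toLinearEquiv.length_eq,
      IsLocalRing.length_baseChange, hw]
    exact mul_ne_top hI (ENat.natCast_ne_top _)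
  · have h2 := kk_zero (fun j => algebraMap S S₁ (y j)) S₁
    rw [span_smul_top, h1] at h2
    rw [← h2]
    exact mul_ne_top (ENat.natCast_ne_top _) (hS 0)
  · intro i
    have h3 := kk_flat (S₁ := S₁) y (S ⧸ I) w hw i (by rw [ht]; exact ENat.natCast_ne_top _)
    rw [ht] at h3
    rw [kk_congr _ (Algebra.TensorProduct.quotIdealMapEquivTensorQuot S₁ I).toLinearEquiv i, h3]
    push_cast
    rfl
  · unfold kchi
    rw [Finset.mul_sum]
    refine Finset.sum_congr rfl fun i _ => ?_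
    rw [h1, ENat.toNat_mul, ENat.toNat_natCast]
    push_cast
    ring

end ThmB

open ThmB

open Gen3 in
/-- TASK AK-13: Theorem B for arbitrary residue fields. -/
theorem theoremB_all (p : ℕ) [Fact p.Prime] {R S : Type u} [CommRing R] [IsLocalRing R]
    [IsNoetherianRing R] [CharP R p] [CharP (ResidueField R) p]
    [IsAdicComplete (maximalIdeal R) R] [Infinite (ResidueField R)]
    [CommRing S] [IsLocalRing S] [IsNoetherianRing S] [IsAdicComplete (maximalIdeal S) S]
    [Algebra R S] [IsLocalHom (algebraMap R S)] [Module.Flat R S] {r : ℕ}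
    (hdim : ringKrullDim R = (r + 1 : ℕ)) (hdimS : ringKrullDim S = (r + 1 : ℕ))
    (x : Fin (r + 1) → R) (hx : ∀ i, x i ∈ maximalIdeal R) (s : ℕ)
    (hs : ∀ j, maximalIdeal R ^ (j + s) ≤ Ideal.span (Set.range x) ^ j)
    (y : Fin (r + 1) → S) (hy : ∀ i, y i ∈ maximalIdeal S)
    (hyl : Module.length S (S ⧸ Ideal.span (Set.range y)) ≠ ⊤) (t0 lam : ℕ)
    (ht0 : Module.length S (S ⧸ ((maximalIdeal R).map (algebraMap R S) ⊔
      Ideal.span (Set.range y))) = t0)
    (hlam : emin x = lam) : (t0 : ℤ) * lam ≤ kchi y S := by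
  -- the fibre
  have hT : Module.length S (S ⧸ (maximalIdeal R).map (algebraMap R S)) ≠ ⊤ :=
    ell_fibre_ne_top (R := R) (S := S) (by rw [hdim, hdimS])
  have hTy : ∀ i, kk y (S ⧸ (maximalIdeal R).map (algebraMap R S)) i ≠ ⊤ := by
    intro i
    refine kk_ne_top y _ ?_ i
    rw [length_fibre_quot, ht0]
    exact ENat.natCast_ne_top _
  obtain ⟨t, ht⟩ : ∃ t : ℤ → ℕ, ∀ i, kk y (S ⧸ (maximalIdeal R).map (algebraMap R S)) i = t i :=
    ⟨fun i => (kk y (S ⧸ (maximalIdeal R).map (algebraMap R S)) i).toNat, fun i =>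
      (ENat.natCast_toNat (hTy i)).symm⟩
  have ht00 : t 0 = t0 := by
    have h1 := kk_zero y (S ⧸ (maximalIdeal R).map (algebraMap R S))
    rw [length_fibre_quot, ht0, ht] at h1
    exact_mod_cast h1
  have hout : ∀ i, (i < 0 ∨ ((r + 1 : ℕ) : ℤ) < i) → t i = 0 := by
    intro i hi
    have := kk_out y (S ⧸ (maximalIdeal R).map (algebraMap R S)) i hi
    rw [ht] at this
    exact_mod_cast this
  have hbig : ∀ i, ((r + 1 : ℕ) : ℤ) < i → t i = 0 := fun i hi => hout i (Or.inr hi)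
  obtain ⟨τ, hτ⟩ : ∃ τ : ℕ, ∀ i, t i ≤ τ := by
    refine ⟨∑ i ∈ Finset.Icc (0 : ℤ) ((r + 1 : ℕ) : ℤ), t i, fun i => ?_⟩
    by_cases hi : i ∈ Finset.Icc (0 : ℤ) ((r + 1 : ℕ) : ℤ)
    · exact Finset.single_le_sum (f := t) (fun _ _ => Nat.zero_le _) hi
    · rw [Finset.mem_Icc] at hi
      rw [hout i (by omega)]
      exact Nat.zero_le _
  obtain ⟨rr, hr, hr'⟩ := exists_ranks (r + 1) t hbig
  obtain ⟨C, hC⟩ := numerics r t0 rr
  obtain ⟨L, hL⟩ : ∃ L : ℕ, ((maximalIdeal R) ^ L).map (algebraMap R S) ≤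
      Ideal.span (Set.range y) := by
    obtain ⟨L, hL⟩ := exists_pow_le_of_ell_ne_top (I := Ideal.span (Set.range y)) hyl
    refine ⟨L, ?_⟩
    rw [Ideal.map_pow]
    refine (Ideal.pow_right_mono ?_ L).trans hL
    rw [Ideal.map_le_iff_le_comap]
    intro a ha
    exact (IsLocalRing.mem_maximalIdeal _).mpr fun h =>
      (IsLocalRing.mem_maximalIdeal _).mp ha (isUnit_of_map_unit (algebraMap R S) a h)
  have hxl : Module.length R (R ⧸ Ideal.span (Set.range x)) ≠ ⊤ := by
    have h1 := hs 1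
    rw [pow_one] at h1
    exact ell_ne_top_of_pow_le h1
  have hxl' : Module.length R (R ⧸ (Ideal.span (Set.range x) • (⊤ : Submodule R R))) ≠ ⊤ := by
    rw [span_smul_top]
    exact hxl
  have hpf : PF x R := pf_of_length_ne_top hxl'
  -- the Euler characteristic of `x`
  obtain ⟨K, hK⟩ := Int.eq_ofNat_of_zero_le (kchi_nonneg x hx R hxl')
  have hlamK : lam ≤ K := by
    have h1 := emin_le_kchi (Nat.succ_pos r) x hx hxl lam hlam
    rw [hK] at h1
    exact_mod_cast h1
  -- growth of the Koszul homology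
  obtain ⟨D, hD⟩ := kk_growth (M := R) hpf
  have hD' : ∀ t : ℕ, 1 ≤ t → ∀ i : ℤ, 1 ≤ i →
      kk (fun l => x l ^ t) R i ≤ ((D * t ^ r : ℕ) : ℕ∞) := by
    intro t ht i hi
    have h1 := (hD t ht i).2 hi
    obtain ⟨k, hk⟩ := ENat.ne_top_iff_exists.mp ((pf_pow hpf t).kk_ne_top i)
    rw [← hk] at h1 ⊢
    have h2 : t * k ≤ D * t ^ (r + 1) := by exact_mod_cast h1
    have h3 : k ≤ D * t ^ r := by
      refine Nat.le_of_mul_le_mul_left ?_ (Nat.pos_of_ne_zero (by omega : t ≠ 0))
      calc t * k ≤ D * t ^ (r + 1) := h2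
        _ = t * (D * t ^ r) := by ring
    exact_mod_cast h3
  have hmain : (t0 : ℤ) * K ≤ kchi y S := by
    refine le_of_frobenius_growth p (Fact.out : p.Prime).two_le (r + 1) s (Nat.succ_pos r)
      ((r + 1).factorial : ℤ) (by exact_mod_cast Nat.factorial_pos _) t0 K C (kchi y S)
      (by positivity) fun e₁ Q hQ he => ?_
    -- the constants of the geometric inequality
    choose Cm hCm using fun m : Fin (r + 1) =>
      gen3_ineq_unif.{u} p m Q hQ (p ^ e₁ * L)
    rw [Nat.add_sub_cancel]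
    refine le_of_pow_growth p (Fact.out : p.Prime).two_le r _ _ ((∑ m, Cm m) * (τ * D))
      fun e₂ => ?_
    set e := e₁ + e₂ with hedef
    set q₂ := p ^ e₂ with hq₂
    have hq₂pos : 1 ≤ q₂ := Nat.one_le_pow _ _ (Fact.out : p.Prime).pos
    -- the data
    obtain ⟨A, S₁, iA1, iA2, iA3, iA4, iS1, iS2, iS3, alg1, alg2, alg3, alg4, st1, st2, loc1,
      loc2, fl1, fl2, ρ, H, hwt⟩ := exists_datum p (S := S) x hx hxl e
    obtain ⟨w, hw⟩ := ENat.ne_top_iff_exists.mp hwt
    replace hw := hw.symm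
    have hw0 : 0 < w := by
      rw [Nat.pos_iff_ne_zero]
      rintro rfl
      rw [Nat.cast_zero, Module.length_eq_zero_iff] at hw
      have h1 := (map_maximalIdeal_lt_top (algebraMap S S₁)).ne
      exact h1 ((Ideal.Quotient.subsingleton_iff).mp hw)
    set y' : Fin (r + 1) → S₁ := fun j => algebraMap S S₁ (y j) with hy'
    have hI : (maximalIdeal A).map (algebraMap A S₁) =
        ((maximalIdeal R).map (algebraMap R S)).map (algebraMap S S₁) := by
      rw [H.max, Ideal.map_map, Ideal.map_map, ← IsScalarTower.algebraMap_eq,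
        ← IsScalarTower.algebraMap_eq]
    obtain ⟨hT1, hyl1, ht1, hchi1⟩ := transfer (S₁ := S₁) y hyl w hw
      ((maximalIdeal R).map (algebraMap R S)) hT t ht
    have hym1 : ∀ i, y' i ∈ maximalIdeal S₁ := fun i =>
      (IsLocalRing.mem_maximalIdeal _).mpr fun h => (IsLocalRing.mem_maximalIdeal _).mp (hy i)
        (isUnit_of_map_unit (algebraMap S S₁) (y i) h)
    obtain ⟨lhRA, finRA, resRA⟩ := relFrob_basic p H
    have hlocT := isLocalRing_tensor_RA p H (S₁ := S₁)
    set z : Fin (r + 1) → RA ρ := fun l => toRA ρ (x l ^ q₂) with hz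
    have hkz : ∀ i, kk z (RA ρ) i = kk (fun l => x l ^ q₂) R i := fun i => rfl
    have hkcz : kchi z (RA ρ) = (q₂ : ℤ) ^ (r + 1) * K := by
      have h1 : kchi z (RA ρ) = kchi (fun l => x l ^ q₂) R := rfl
      rw [h1, kchi_pow x hx q₂ hq₂pos R hxl', hK]
    have hpush : ∀ a ∈ maximalIdeal A, algebraMap A (RA ρ) a ∈
        Ideal.span (Set.range z) ^ Q := by
      refine push_RA p H x e₁ e₂ hedef Q ?_
      intro a ha
      rw [he]
      exact hs Q (Ideal.pow_mem_pow ha _)
    have hback : ∀ l, (1 : S₁) ⊗ₜ[A] (z l ^ (p ^ e₁ * L)) ∈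
        (Ideal.span (Set.range y')).map (algebraMap S₁ (S₁ ⊗[A] (RA ρ))) := by
      intro l
      have h1 : z l ^ (p ^ e₁ * L) =
          algebraMap A (RA ρ) (algebraMap R A (x l ^ L)) := by
        have h2 : algebraMap A (RA ρ) (algebraMap R A (x l ^ L)) =
            toRA ρ (ρ (algebraMap R A (x l ^ L))) := rfl
        rw [h2, H.rf, hz]
        change toRA ρ (x l ^ q₂) ^ (p ^ e₁ * L) = toRA ρ ((x l ^ L) ^ p ^ e)
        rw [← map_pow, ← pow_mul, ← pow_mul, hq₂, hedef, pow_add]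
        congr 1
        ring_nf
      rw [h1, Algebra.algebraMap_eq_smul_one (R := A) (A := RA ρ), TensorProduct.tmul_smul,
        TensorProduct.smul_tmul']
      have h3 : (algebraMap R A (x l ^ L)) • (1 : S₁) ∈ Ideal.span (Set.range y') := by
        rw [← Algebra.algebraMap_eq_smul_one, ← IsScalarTower.algebraMap_apply R A S₁,
          IsScalarTower.algebraMap_apply R S S₁]
        have h4 : algebraMap R S (x l ^ L) ∈ Ideal.span (Set.range y) :=
          hL (Ideal.mem_map_of_mem _ (Ideal.pow_mem_pow (hx l) L))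
        have h5 := Ideal.mem_map_of_mem (algebraMap S S₁) h4
        rwa [Ideal.map_span, ← Set.range_comp] at h5
      exact Ideal.mem_map_of_mem (algebraMap S₁ (S₁ ⊗[A] (RA ρ))) h3
    have hzm : ∀ l, z l ∈ maximalIdeal (RA ρ) := fun l =>
      Ideal.pow_mem_of_mem (maximalIdeal R) (hx l) _ hq₂pos
    have hin := fun m : Fin (r + 1) => hCm m A S₁ (by rw [hI]; exact hT1) y' hym1 hyl1
      (fun i => w * t i) (by rw [hI]; exact ht1)
      (fun i => (w : ℤ) * rr i) (fun i => by push_cast; rw [hr i]; ring)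
      (fun i hi => by simp only [hr' i hi, mul_zero])
      (w * τ) (fun i => Nat.mul_le_mul_left _ (hτ i))
      (RA ρ) z hzm hpush hback 1
      (by rw [resRA]; rfl) (q₂ ^ (r + 1) * K) (D * q₂ ^ r)
      (by rw [hkcz]; push_cast; ring)
      (fun i hi => by
        rw [hkz, Nat.cast_one, one_mul]
        exact hD' q₂ hq₂pos i hi)
    have hkRA : kchi y' (S₁ ⊗[A] (RA ρ)) = ((p ^ e : ℕ) : ℤ) ^ (r + 1) * (w * kchi y S) := by
      rw [kchi_RA p H hdim x hx hxl y' hym1 hyl1, hchi1]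
    have hin' : ∀ m : Fin (r + 1), ((q₂ ^ (r + 1) * K : ℕ) : ℤ) * ((w : ℤ) *
        ((wc m Q 0 : ℤ) * t0 +
          ∑ j ∈ Finset.Icc 1 (m : ℕ), (wc m Q j : ℤ) * rr (j + 1) -
          ∑ j ∈ Finset.Icc ((m : ℕ) + 1) r, (wc m Q j : ℤ) * rr (j + 1))) -
          (Cm m : ℤ) * ((w * τ : ℕ) * (D * q₂ ^ r : ℕ)) ≤
        (r.factorial : ℤ) * (((p ^ e : ℕ) : ℤ) ^ (r + 1) * (w * kchi y S)) := by
      intro m
      have h1 := hin m
      rw [hkRA] at h1
      refine le_trans (le_of_eq ?_) h1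
      congr 2
      rw [mul_sub, mul_add, Finset.mul_sum, Finset.mul_sum, ht00]
      congr 1
      · congr 1
        · push_cast; ring
        · exact Finset.sum_congr rfl fun j _ => by ring
      · exact Finset.sum_congr rfl fun j _ => by ring
    have hsum : ((q₂ ^ (r + 1) * K : ℕ) : ℤ) * ((w : ℤ) * (((r + 1).factorial : ℤ) *
        (Q : ℤ) ^ (r + 1) * t0 - (C : ℤ) * (Q : ℤ) ^ r)) -
        (∑ m, (Cm m : ℤ)) * ((w * τ : ℕ) * (D * q₂ ^ r : ℕ)) ≤
        ((r + 1).factorial : ℤ) * (((p ^ e : ℕ) : ℤ) ^ (r + 1) * (w * kchi y S)) := by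
      calc ((q₂ ^ (r + 1) * K : ℕ) : ℤ) * ((w : ℤ) * (((r + 1).factorial : ℤ) *
            (Q : ℤ) ^ (r + 1) * t0 - (C : ℤ) * (Q : ℤ) ^ r)) -
            (∑ m, (Cm m : ℤ)) * ((w * τ : ℕ) * (D * q₂ ^ r : ℕ)) ≤
            ((q₂ ^ (r + 1) * K : ℕ) : ℤ) * ((w : ℤ) * ∑ m : Fin (r + 1), ((wc m Q 0 : ℤ) * t0 +
            ∑ j ∈ Finset.Icc 1 (m : ℕ), (wc m Q j : ℤ) * rr (j + 1) -
            ∑ j ∈ Finset.Icc ((m : ℕ) + 1) r, (wc m Q j : ℤ) * rr (j + 1))) -
            (∑ m, (Cm m : ℤ)) * ((w * τ : ℕ) * (D * q₂ ^ r : ℕ)) :=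
              sub_le_sub_right (mul_le_mul_of_nonneg_left
                (mul_le_mul_of_nonneg_left (hC Q hQ) (by positivity)) (by positivity)) _
        _ ≤ ∑ m : Fin (r + 1), (r.factorial : ℤ) *
            (((p ^ e : ℕ) : ℤ) ^ (r + 1) * (w * kchi y S)) := by
            rw [Finset.mul_sum, Finset.mul_sum, Finset.sum_mul, ← Finset.sum_sub_distrib]
            exact Finset.sum_le_sum fun m _ => hin' m
        _ = ((r + 1).factorial : ℤ) * (((p ^ e : ℕ) : ℤ) ^ (r + 1) * (w * kchi y S)) := by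
            rw [Finset.sum_const, Finset.card_univ, Fintype.card_fin, Nat.factorial_succ]
            push_cast
            simp only [nsmul_eq_mul]
            push_cast
            ring
    have hw0' : (0 : ℤ) < w := by exact_mod_cast hw0
    refine le_of_mul_le_mul_left ?_ hw0'
    calc (w : ℤ) * (((K : ℤ) * (((r + 1).factorial : ℤ) * (Q : ℤ) ^ (r + 1) * t0 -
        (C : ℤ) * (Q : ℤ) ^ r)) * (q₂ : ℤ) ^ (r + 1) -
        (((∑ m, Cm m) * (τ * D) : ℕ) : ℤ) * (q₂ : ℤ) ^ r) =
        ((q₂ ^ (r + 1) * K : ℕ) : ℤ) * ((w : ℤ) * (((r + 1).factorial : ℤ) *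
        (Q : ℤ) ^ (r + 1) * t0 - (C : ℤ) * (Q : ℤ) ^ r)) -
        (∑ m, (Cm m : ℤ)) * ((w * τ : ℕ) * (D * q₂ ^ r : ℕ)) := by push_cast; ring
      _ ≤ _ := hsum
      _ = _ := by
          have h9 : p ^ e = p ^ e₁ * q₂ := by rw [hedef, pow_add]
          rw [h9]
          push_cast
          ring
  refine le_trans ?_ hmain
  exact_mod_cast Nat.mul_le_mul_left t0 hlamK

end Vale.Agent.P202.CharP.ArbK
end

section

/-!
P202: Theorem C (Theorem B for complete rings with arbitrary residue field).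
-/

namespace Vale.Agent.P202.CharP.ArbK

universe u

/-- Theorem C. -/
theorem theoremC (p : ℕ) [Fact p.Prime] : TheoremC.{u} p := by
  intro A S _ _ _ _ _ _ _ _ _ _ _ _ _ _ r hdim hdimS x hx s hs y hy hyl t0 lam ht0 hlam
  exact theoremB_all p hdim hdimS x hx s hs y hy hyl t0 lam ht0 hlam

end Vale.Agent.P202.CharP.ArbK
end
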